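import Crest.Agent.N49.Rm.Defs

/-! Row 49, block RMH/B (helper42): closure properties of data, integer forms and relations. -/

set_option autoImplicit false
set_option linter.unusedSectionVars false
noncomputable section
namespace Crest.Agent.N49.Rm.TT
open Finset

variable {L C : Type} [Fintype L] [DecidableEq L] [Fintype C] [DecidableEq C] {T : TT L C}
  {A A' M M' : Finset L} {F G I I' : Fm L C} {ℓ : L} {y : C → ℤ} {q q' : ℕ} {B B' R R' : ℝ}

@[simp] theorem tv_inl (c : C) : T.tv (.inl c) = T.ty c := rfl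
@[simp] theorem tv_inr (ℓ : L) : T.tv (.inr ℓ) = {ℓ} := rfl
@[simp] theorem cf_inl (y : C → ℤ) (c : C) : cf (L := L) y (.inl c) = y c := rfl
@[simp] theorem cf_inr (y : C → ℤ) (ℓ : L) : cf y (.inr ℓ : C ⊕ L) = 1 := rfl

theorem cmb_in {a b : ℝ} {p p' : C ⊕ L → ℝ} {v : C ⊕ L} (h : ℓ ∈ T.tv v) :
    T.cmb ℓ a b p p' v = a * p v + b * p' v := if_pos h
theorem cmb_out {a b : ℝ} {p p' : C ⊕ L → ℝ} {v : C ⊕ L} (h : ℓ ∉ T.tv v) :
    T.cmb ℓ a b p p' v = p v := if_neg h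

theorem intP_cf (y : C → ℤ) : IntP (cf (L := L) y) := fun v => by
  cases v with
  | inl c => exact ⟨y c, rfl⟩
  | inr _ => exact ⟨1, by simp⟩

theorem cf_mem_fib (y : C → ℤ) : cf y ∈ T.Fib ∅ y := ⟨fun _ _ => rfl, fun _ => by simp⟩

theorem fib_congr {y' : C → ℤ} (h : ∀ c, Disjoint (T.ty c) M → y c = y' c) :
    T.Fib M y = T.Fib M y' :=
  Set.ext fun _ => and_congr_left fun _ => forall₂_congr fun c hc => by rw [h c hc]

theorem cmb_mem_fib (hℓ : ℓ ∈ M) {p : C ⊕ L → ℝ} (hp : p ∈ T.Fib M y) {p' : C ⊕ L → ℝ}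
    (hp' : p' ∈ T.Fib M y) (a b : ℝ) : T.cmb ℓ a b p p' ∈ T.Fib M y := by
  refine ⟨fun c hc => (cmb_out fun e => disjoint_left.1 hc e hℓ).trans (hp.1 c hc), fun j => ?_⟩
  by_cases e : ℓ = j
  · subst e; rw [cmb_in (by simp), hp.2, hp'.2, if_pos hℓ]; simp
  · rw [cmb_out (by simpa using e), hp.2]

theorem Cube.mono {p : C ⊕ L → ℝ} (h : T.Cube A' M p) (e : A ⊆ A') : T.Cube A M p :=
  fun c hc => h c (hc.trans e)

/-! ### `Ty`, `Lin`, `Dat` -/

theorem Ty.const (r : ℝ) : T.Ty A fun _ => r := fun _ _ _ => rfl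
theorem Ty.map (h : T.Ty A F) (f : ℝ → ℝ) : T.Ty A fun p => f (F p) :=
  fun p p' e => congrArg f (h p p' e)
theorem Ty.map₂ (h : T.Ty A F) (k : T.Ty A G) (f : ℝ → ℝ → ℝ) : T.Ty A fun p => f (F p) (G p) :=
  fun p p' e => congrArg₂ f (h p p' e) (k p p' e)
theorem Ty.mono (h : T.Ty A F) (e : A ⊆ A') : T.Ty A' F :=
  fun p p' k => h p p' fun v hv => k v (hv.trans e)
theorem Ty.coord {v : C ⊕ L} (h : T.tv v ⊆ A) (n : (T.tv v).Nonempty) : T.Ty A fun p => p v :=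
  fun _ _ k => k v h n
theorem Ty.sum {ι : Type*} (s : Finset ι) {f : ι → Fm L C} (h : ∀ i ∈ s, T.Ty A (f i)) :
    T.Ty A fun p => ∑ i ∈ s, f i p := fun p p' e => sum_congr rfl fun i hi => h i hi p p' e

theorem Lin.zero : T.Lin ℓ fun _ => 0 := fun _ _ _ _ _ => by simp
theorem Lin.add (h : T.Lin ℓ F) (k : T.Lin ℓ G) : T.Lin ℓ fun p => F p + G p :=
  fun a b p p' e => by simp only [h a b p p' e, k a b p p' e]; ring
theorem Lin.smul (h : T.Lin ℓ F) (r : ℝ) : T.Lin ℓ fun p => r * F p :=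
  fun a b p p' e => by simp only [h a b p p' e]; ring
theorem Lin.neg (h : T.Lin ℓ F) : T.Lin ℓ fun p => -F p := by simpa using h.smul (-1)
theorem Lin.sub (h : T.Lin ℓ F) (k : T.Lin ℓ G) : T.Lin ℓ fun p => F p - G p := by
  simpa only [sub_eq_add_neg] using h.add k.neg
theorem Lin.div (h : T.Lin ℓ F) (r : ℝ) : T.Lin ℓ fun p => F p / r := by
  simpa only [div_eq_inv_mul] using h.smul r⁻¹
theorem Lin.sum {ι : Type*} (s : Finset ι) {f : ι → Fm L C} (h : ∀ i ∈ s, T.Lin ℓ (f i)) :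
    T.Lin ℓ fun p => ∑ i ∈ s, f i p := fun a b p p' e => by
  rw [mul_sum, mul_sum, ← sum_add_distrib]; exact sum_congr rfl fun i hi => h i hi a b p p' e
theorem Lin.coord {v : C ⊕ L} (h : ℓ ∈ T.tv v) : T.Lin ℓ fun p => p v := fun _ _ _ _ _ => cmb_in h
/-- a factor that does not see the block of `ℓ` -/
theorem Lin.mul (h : T.Lin ℓ F) (k : T.Ty A G) (hℓ : ℓ ∉ A) : T.Lin ℓ fun p => G p * F p :=
  fun a b p p' e => by
    have e1 : G (T.cmb ℓ a b p p') = G p := k _ _ fun v hv _ => cmb_out fun x => hℓ (hv x)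
    have e2 : G p' = G p := k _ _ fun v hv _ => (e v fun x => hℓ (hv x)).symm
    simp only [h a b p p' e, e1, e2]; ring
theorem Lin.eq_zero (h : T.Lin ℓ F) {p : C ⊕ L → ℝ} (e : ∀ v, ℓ ∈ T.tv v → p v = 0) : F p = 0 := by
  have := h 0 0 p p fun _ _ => rfl
  rw [show T.cmb ℓ 0 0 p p = p from funext fun v => by
    by_cases k : ℓ ∈ T.tv v
    · rw [cmb_in k, e v k]; simp
    · exact cmb_out k] at this
  simpa using this
theorem Lin.split (h : T.Lin ℓ F) {p p₁ p₂ : C ⊕ L → ℝ} (e : ∀ v, ℓ ∈ T.tv v → p v = p₁ v + p₂ v)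
    (e₁ : ∀ v, ℓ ∉ T.tv v → p₁ v = p v) (e₂ : ∀ v, ℓ ∉ T.tv v → p₂ v = p v) :
    F p = F p₁ + F p₂ := by
  have := h 1 1 p₁ p₂ fun v k => (e₁ v k).trans (e₂ v k).symm
  rw [show T.cmb ℓ 1 1 p₁ p₂ = p from funext fun v => by
    by_cases k : ℓ ∈ T.tv v
    · rw [cmb_in k, e v k]; simp
    · exact (cmb_out k).trans (e₁ v k)] at this
  simpa using this
theorem Lin.scale (h : T.Lin ℓ F) {p p₁ : C ⊕ L → ℝ} (a : ℝ) (e : ∀ v, ℓ ∈ T.tv v → p v = a * p₁ v)
    (e₁ : ∀ v, ℓ ∉ T.tv v → p₁ v = p v) : F p = a * F p₁ := by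
  have := h a 0 p₁ p₁ fun _ _ => rfl
  rw [show T.cmb ℓ a 0 p₁ p₁ = p from funext fun v => by
    by_cases k : ℓ ∈ T.tv v
    · rw [cmb_in k, e v k]; simp
    · exact (cmb_out k).trans (e₁ v k)] at this
  simpa using this

theorem Dat.zero : T.Dat A M fun _ => 0 := ⟨Ty.const 0, fun _ _ => Lin.zero⟩
theorem Dat.add (h : T.Dat A M F) (k : T.Dat A M G) : T.Dat A M fun p => F p + G p :=
  ⟨h.1.map₂ k.1 (· + ·), fun ℓ e => (h.2 ℓ e).add (k.2 ℓ e)⟩
theorem Dat.smul (h : T.Dat A M F) (r : ℝ) : T.Dat A M fun p => r * F p :=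
  ⟨h.1.map (r * ·), fun ℓ e => (h.2 ℓ e).smul r⟩
theorem Dat.neg (h : T.Dat A M F) : T.Dat A M fun p => -F p :=
  ⟨h.1.map (-·), fun ℓ e => (h.2 ℓ e).neg⟩
theorem Dat.sub (h : T.Dat A M F) (k : T.Dat A M G) : T.Dat A M fun p => F p - G p :=
  ⟨h.1.map₂ k.1 (· - ·), fun ℓ e => (h.2 ℓ e).sub (k.2 ℓ e)⟩
theorem Dat.div (h : T.Dat A M F) (r : ℝ) : T.Dat A M fun p => F p / r :=
  ⟨h.1.map (· / r), fun ℓ e => (h.2 ℓ e).div r⟩
theorem Dat.sum {ι : Type*} (s : Finset ι) {f : ι → Fm L C} (h : ∀ i ∈ s, T.Dat A M (f i)) :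
    T.Dat A M fun p => ∑ i ∈ s, f i p :=
  ⟨Ty.sum s fun i hi => (h i hi).1, fun ℓ e => Lin.sum s fun i hi => (h i hi).2 ℓ e⟩
theorem Dat.mono (h : T.Dat A M F) (e : A ⊆ A') (e' : M' ⊆ M) : T.Dat A' M' F :=
  ⟨h.1.mono e, fun ℓ k => h.2 ℓ (e' k)⟩
theorem Dat.coord {v : C ⊕ L} (h : T.tv v ⊆ A) (n : (T.tv v).Nonempty) (m : M ⊆ T.tv v) :
    T.Dat A M fun p => p v := ⟨Ty.coord h n, fun _ e => Lin.coord (m e)⟩
/-- products of data on disjoint sets of letters -/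
theorem Dat.mul (h : T.Dat A M F) (k : T.Dat A' M' G) (d : Disjoint M A') (d' : Disjoint M' A) :
    T.Dat (A ∪ A') (M ∪ M') fun p => F p * G p :=
  ⟨(h.1.mono subset_union_left).map₂ (k.1.mono subset_union_right) (· * ·), fun ℓ e => by
    rcases mem_union.1 e with e | e
    · simpa only [mul_comm] using (h.2 ℓ e).mul k.1 (disjoint_left.1 d e)
    · exact (k.2 ℓ e).mul h.1 (disjoint_left.1 d' e)⟩

/-! ### `IntF`, `Sm`, `Rel`, `UQ` -/

theorem IntF.zero : T.IntF A M y fun _ => 0 := ⟨Dat.zero, fun _ _ _ => ⟨0, by simp⟩⟩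
theorem IntF.add (h : T.IntF A M y I) (k : T.IntF A M y I') : T.IntF A M y fun p => I p + I' p :=
  ⟨h.1.add k.1, fun p a b => by
    obtain ⟨n, e⟩ := h.2 p a b
    obtain ⟨m, e'⟩ := k.2 p a b
    exact ⟨n + m, by simp [e, e']⟩⟩
theorem IntF.zsmul (h : T.IntF A M y I) (z : ℤ) : T.IntF A M y fun p => z * I p :=
  ⟨h.1.smul z, fun p a b => by
    obtain ⟨n, e⟩ := h.2 p a b
    exact ⟨z * n, by simp [e]⟩⟩
theorem IntF.neg (h : T.IntF A M y I) : T.IntF A M y fun p => -I p := by simpa using h.zsmul (-1)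
theorem IntF.sub (h : T.IntF A M y I) (k : T.IntF A M y I') :
    T.IntF A M y fun p => I p - I' p := by simpa only [sub_eq_add_neg] using h.add k.neg
theorem IntF.sum {ι : Type*} (s : Finset ι) {f : ι → Fm L C} (h : ∀ i ∈ s, T.IntF A M y (f i)) :
    T.IntF A M y fun p => ∑ i ∈ s, f i p := by
  classical
  induction s using Finset.induction_on with
  | empty => simpa using IntF.zero
  | insert i s hi ih =>
    simpa only [sum_insert hi] using
      (h i (mem_insert_self _ _)).add (ih fun j hj => h j (mem_insert_of_mem hj))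
theorem IntF.mono (h : T.IntF A M y I) (e : A ⊆ A') : T.IntF A' M y I :=
  ⟨h.1.mono e Subset.rfl, h.2⟩

theorem Sm.mono (h : T.Sm A M y B F) (e : B ≤ B') : T.Sm A M y B' F :=
  fun p a b => (h p a b).trans e
theorem Sm.monoA (h : T.Sm A M y B F) (e : A ⊆ A') : T.Sm A' M y B F :=
  fun p a b => h p a (b.mono e)
theorem Sm.congr (h : T.Sm A M y B F) (e : ∀ p ∈ T.Fib M y, G p = F p) : T.Sm A M y B G :=
  fun p a b => (e p a).symm ▸ h p a b
theorem Sm.zero (h : 0 ≤ B) : T.Sm A M y B fun _ => 0 := fun _ _ _ => by simpa using h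
theorem Sm.add (h : T.Sm A M y B F) (k : T.Sm A M y B' G) :
    T.Sm A M y (B + B') fun p => F p + G p :=
  fun p a b => (abs_add_le _ _).trans (add_le_add (h p a b) (k p a b))
theorem Sm.smul (h : T.Sm A M y B F) (r : ℝ) : T.Sm A M y (|r| * B) fun p => r * F p :=
  fun p a b => (abs_mul _ _).trans_le (mul_le_mul_of_nonneg_left (h p a b) (abs_nonneg r))
theorem Sm.neg (h : T.Sm A M y B F) : T.Sm A M y B fun p => -F p :=
  fun p a b => (abs_neg _).trans_le (h p a b)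
theorem Sm.sub (h : T.Sm A M y B F) (k : T.Sm A M y B' G) :
    T.Sm A M y (B + B') fun p => F p - G p := by simpa only [sub_eq_add_neg] using h.add k.neg
theorem Sm.sum {ι : Type*} (s : Finset ι) {f : ι → Fm L C} {b : ι → ℝ}
    (h : ∀ i ∈ s, T.Sm A M y (b i) (f i)) : T.Sm A M y (∑ i ∈ s, b i) fun p => ∑ i ∈ s, f i p :=
  fun p a c => (abs_sum_le_sum_abs _ _).trans (sum_le_sum fun i hi => h i hi p a c)

theorem Rel.mono (h : T.Rel A M y q B F) (e : B ≤ B') : T.Rel A M y q B' F :=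
  let ⟨I, a, b⟩ := h; ⟨I, a, b.mono e⟩
theorem Rel.monoA (h : T.Rel A M y q B F) (e : A ⊆ A') : T.Rel A' M y q B F :=
  let ⟨I, a, b⟩ := h; ⟨I, a.mono e, b.monoA e⟩
theorem Rel.congr (h : T.Rel A M y q B F) (e : ∀ p ∈ T.Fib M y, G p = F p) : T.Rel A M y q B G :=
  let ⟨I, a, b⟩ := h; ⟨I, a, b.congr fun p k => by rw [e p k]⟩
theorem Rel.of_sm (h : T.Sm A M y B F) : T.Rel A M y q B F := ⟨_, IntF.zero, by simpa using h⟩
theorem Rel.zero (h : 0 ≤ B) : T.Rel A M y q B fun _ => 0 := Rel.of_sm (Sm.zero h)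
theorem Rel.of_int (h : T.IntF A M y I) : T.Rel A M y q 0 fun p => I p / q :=
  ⟨I, h, fun _ _ _ => by simp⟩
theorem Rel.of_int' (h : T.IntF A M y I) (hq : 1 ≤ q) : T.Rel A M y q 0 I :=
  ⟨_, h.zsmul q, fun _ _ _ => by
    have : (q : ℝ) ≠ 0 := by positivity
    simp [mul_div_cancel_left₀ _ this]⟩
theorem Rel.add (h : T.Rel A M y q B F) (k : T.Rel A M y q B' G) :
    T.Rel A M y q (B + B') fun p => F p + G p :=
  let ⟨_, a, b⟩ := h; let ⟨_, c, d⟩ := k
  ⟨_, a.add c, (b.add d).congr fun _ _ => by ring⟩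
theorem Rel.zsmul (h : T.Rel A M y q B F) (z : ℤ) :
    T.Rel A M y q (|(z : ℝ)| * B) fun p => z * F p :=
  let ⟨_, a, b⟩ := h; ⟨_, a.zsmul z, (b.smul z).congr fun _ _ => by ring⟩
theorem Rel.neg (h : T.Rel A M y q B F) : T.Rel A M y q B fun p => -F p :=
  let ⟨_, a, b⟩ := h; ⟨_, a.neg, b.neg.congr fun _ _ => by ring⟩
theorem Rel.sub (h : T.Rel A M y q B F) (k : T.Rel A M y q B' G) :
    T.Rel A M y q (B + B') fun p => F p - G p := by simpa only [sub_eq_add_neg] using h.add k.neg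
theorem Rel.sum {ι : Type*} (s : Finset ι) {f : ι → Fm L C} {b : ι → ℝ}
    (h : ∀ i ∈ s, T.Rel A M y q (b i) (f i)) :
    T.Rel A M y q (∑ i ∈ s, b i) fun p => ∑ i ∈ s, f i p := by
  classical
  induction s using Finset.induction_on with
  | empty => simpa using Rel.zero le_rfl
  | insert i s hi ih =>
    simpa only [sum_insert hi] using
      (h i (mem_insert_self _ _)).add (ih fun j hj => h j (mem_insert_of_mem hj))
theorem Rel.dvd (h : T.Rel A M y q B F) (e : q ∣ q') (hq : 1 ≤ q') : T.Rel A M y q' B F := by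
  obtain ⟨I, a, b⟩ := h
  obtain ⟨k, rfl⟩ := e
  have k0 : (k : ℝ) ≠ 0 := by rintro e; simp [Nat.cast_eq_zero.1 e] at hq
  exact ⟨_, a.zsmul k, b.congr fun p _ => by push_cast; rw [mul_comm (q : ℝ), mul_div_mul_left _ _ k0]⟩
/-- division by a natural number -/
theorem Rel.div (h : T.Rel A M y q B F) (m : ℕ) : T.Rel A M y (q * m) (B / m) fun p => F p / m :=
  let ⟨I, a, b⟩ := h
  ⟨I, a, ((b.smul (m : ℝ)⁻¹).mono (by rw [abs_of_nonneg (by positivity), div_eq_inv_mul])).congr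
    fun p _ => by push_cast; ring⟩
/-- clearing the denominator -/
theorem Rel.mul_den (h : T.Rel A M y q B F) (hq : 1 ≤ q) :
    T.Rel A M y 1 (q * B) fun p => q * F p :=
  let ⟨I, a, b⟩ := h
  ⟨I, a, ((b.smul q).mono (by rw [abs_of_nonneg (by positivity)])).congr fun p _ => by
    have : (q : ℝ) ≠ 0 := by positivity
    field_simp; push_cast; ring⟩
theorem Rel.fib {y' : C → ℤ} (h : T.Rel A M y q B F) (e : ∀ c, Disjoint (T.ty c) M → y c = y' c) :
    T.Rel A M y' q B F := by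
  simpa only [Rel, IntF, Sm, ← fib_congr e] using h

theorem UQ.mono (h : T.UQ A M y R) (e : R' ≤ R) : T.UQ A M y R' :=
  fun I a b => h I a (b.mono e)
theorem UQ.monoA (h : T.UQ A' M y R) (e : A ⊆ A') : T.UQ A M y R :=
  fun I a b => h I (a.mono e) (b.monoA e)
/-- uniqueness of the integer part -/
theorem UQ.eq (h : T.UQ A M y R) (a : T.IntF A M y I) (a' : T.IntF A M y I')
    (b : T.Sm A M y B fun p => F p - I p / q) (b' : T.Sm A M y B' fun p => F p - I' p / q)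
    (hq : 1 ≤ q) (e : q * (B + B') ≤ R) : ∀ p ∈ T.Fib M y, I p = I' p := fun p hp => by
  have q0 : (0 : ℝ) < q := by positivity
  refine sub_eq_zero.1 (h _ (a.sub a') ((((b'.sub b).smul q).mono ?_).congr fun p _ => ?_) p hp)
  · rwa [abs_of_pos q0, add_comm]
  · field_simp; ring
/-- a small form that is related to `0` through an integer form has a zero integer part -/
theorem UQ.sm (h : T.UQ A M y R) (a : T.IntF A M y I) (b : T.Sm A M y B fun p => F p - I p / q)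
    (b' : T.Sm A M y B' F) (hq : 1 ≤ q) (e : q * (B + B') ≤ R) : ∀ p ∈ T.Fib M y, I p = 0 :=
  h.eq a IntF.zero b (by simpa using b') hq e

end Crest.Agent.N49.Rm.TT
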