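import Crest.Agent.N49.Rm.St
import Crest.Agent.N49.Rm.Api
/-! Row 49 (helper17): `Good` is monotone. -/
set_option autoImplicit false
noncomputable section
namespace Crest.Agent.N49.Rm
open Finset

section
variable {L C : Type} [Fintype L] [DecidableEq L] [Fintype C] [DecidableEq C]

omit [Fintype L] [DecidableEq L] [DecidableEq C] in
theorem TT.pr_sub (T : TT L C) {H H' : Set (C → ℤ)} (e : H ⊆ H') : T.pr H ≤ T.pr H' := by
  have h0 : ∀ y, 0 ≤ T.wt y := fun _ => (Real.exp_pos _).le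
  by_cases h : Summable T.wt
  · exact div_le_div_of_nonneg_right ((h.indicator H).tsum_le_tsum
      (Set.indicator_le_indicator_of_subset e h0) (h.indicator H')) (tsum_nonneg h0)
  · simp [TT.pr, tsum_eq_zero_of_not_summable h]

theorem half_anti {b b' : ℕ} (e : b' ≤ b) : (1 / 2 : ℝ) ^ b ≤ (1 / 2) ^ b' :=
  pow_le_pow_of_le_one (by norm_num) (by norm_num) e

theorem TT.SM.anti {T : TT L C} {b b' : ℕ} (h : T.SM b) (e : b' ≤ b) : T.SM b' := fun ℓ =>
  have e2 : (2 : ℝ) ^ b' ≤ 2 ^ b := pow_le_pow_right₀ one_le_two e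
  ⟨le_trans (T.pr_sub (Set.ofPred_subset_ofPred.2 fun _ hy k => hy (TT.UQ.mono k e2)))
      ((h ℓ).1.trans (half_anti e)),
    le_trans ((T.del ℓ).pr_sub (Set.ofPred_subset_ofPred.2 fun _ hy k => hy (TT.UQ.mono k e2)))
      ((h ℓ).2.trans (half_anti e))⟩

theorem Good.ok_sm {b g : ℕ} {T : TT L C} (h : Good b g L C T) : T.Ok ∧ T.SM b := by
  cases g with
  | zero => exact h
  | succ g => exact ⟨h.1, h.2.1⟩
end

theorem mono : MONO := by
  intro b b' g g' L C _ _ _ _ T hb hg h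
  induction g' generalizing g L C with
  | zero => exact ⟨h.ok_sm.1, h.ok_sm.2.anti hb⟩
  | succ g' ih =>
    obtain ⟨g, rfl⟩ : ∃ g0, g = g0 + 1 := ⟨g - 1, by omega⟩
    obtain ⟨h1, h2, h3, h4, h5⟩ := h
    have hg' : g' ≤ g := by omega
    exact ⟨h1, h2.anti hb, fun j r pt a hr ha => ih g _ _ _ hg' (h3 j r pt a hr fun x =>
      (ha x).trans hb), fun ℓ => ih g _ _ _ hg' (h4 ℓ), fun j a ha =>
      le_trans (T.pr_sub (Set.ofPred_subset_ofPred.2 fun z hz k => hz (ih g _ _ _ hg' k)))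
        ((h5 j a (ha.trans hb)).trans (half_anti hb))⟩

end Crest.Agent.N49.Rm
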