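import Crest.Agent.N49.Rm.Api
/-! Row 49 (helper21): the operations on typed towers: pull-backs, `Ok`, transport of relations. -/
set_option autoImplicit false
set_option linter.unusedSectionVars false
noncomputable section
namespace Crest.Agent.N49.Rm
open Finset

namespace TT
variable {L C L' C' L'' C'' : Type} [Fintype L] [DecidableEq L] [Fintype C] [DecidableEq C]
  [Fintype L'] [DecidableEq L'] [Fintype C'] [DecidableEq C']
  [Fintype L''] [DecidableEq L''] [Fintype C''] [DecidableEq C'']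
  (T : TT L C) (T' : TT L' C')

/-- `F` does not see the block of `ℓ` -/
def Ind (ℓ : L) (F : Fm L C) : Prop := ∀ p p', (∀ v, ℓ ∉ T.tv v → p v = p' v) → F p = F p'
/-- `ι` maps the block of `ℓ'` linearly to the block of `ℓ` -/
def Pb (ι : (C' ⊕ L' → ℝ) → C ⊕ L → ℝ) (ℓ : L) (ℓ' : L') : Prop :=
  ∀ v, (ℓ ∈ T.tv v → T'.Lin ℓ' fun p => ι p v) ∧ (ℓ ∉ T.tv v → T'.Ind ℓ' fun p => ι p v)
/-- the coordinates of type inside `A` are typed in `A'` -/
def Pt (ι : (C' ⊕ L' → ℝ) → C ⊕ L → ℝ) (A : Finset L) (A' : Finset L') : Prop :=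
  ∀ v, T.tv v ⊆ A → (T.tv v).Nonempty → T'.Ty A' fun p => ι p v
/-- the cube of radius `R` -/
def CubeR (A M : Finset L) (R : ℝ) (p : C ⊕ L → ℝ) : Prop :=
  ∀ c, T.ty c ⊆ A → ¬ Disjoint (T.ty c) M → |T.Φ p c| ≤ R

@[simp] theorem tv_l (c : C) : T.tv (.inl c) = T.ty c := rfl
@[simp] theorem tv_r (ℓ : L) : T.tv (.inr ℓ) = {ℓ} := rfl

variable {T T'} {ι : (C' ⊕ L' → ℝ) → C ⊕ L → ℝ} {A M : Finset L} {A' M' : Finset L'} {F : Fm L C}
  {ℓ : L} {ℓ' : L'}

theorem ty_co {v : C ⊕ L} (h : T.tv v ⊆ A) (n : (T.tv v).Nonempty) : T.Ty A fun p => p v :=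
  fun _ _ e => e v h n
theorem lin_co {v : C ⊕ L} (h : ℓ ∈ T.tv v) : T.Lin ℓ fun p => p v := fun _ _ _ _ _ => if_pos h
theorem ind_co {v : C ⊕ L} (h : ℓ ∉ T.tv v) : T.Ind ℓ fun p => p v := fun _ _ e => e v h
theorem lin_0 : T.Lin ℓ fun _ => 0 := fun _ _ _ _ _ => by simp
theorem ind_c (r : ℝ) : T.Ind ℓ fun _ => r := fun _ _ _ => rfl
theorem ty_c (r : ℝ) : T.Ty A fun _ => r := fun _ _ _ => rfl
theorem Ty.ind (h : T.Ty A F) (k : ℓ ∉ A) : T.Ind ℓ F :=
  fun p p' e => h p p' fun v s _ => e v fun m => k (s m)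
theorem Ind.cmb (h : T.Ind ℓ F) (a b : ℝ) (p p' : C ⊕ L → ℝ) : F (T.cmb ℓ a b p p') = F p :=
  h _ _ fun _ k => if_neg k
theorem Lin.lc {F G : Fm L C} (h : T.Lin ℓ F) (k : T.Lin ℓ G) (s t : ℝ) :
    T.Lin ℓ fun p => s * F p + t * G p := fun a b p p' e => by
  simp only [h a b p p' e, k a b p p' e]; ring
theorem Lin.cm (h : T.Lin ℓ F) (s : ℝ) : T.Lin ℓ fun p => s * F p := fun a b p p' e => by
  simp only [h a b p p' e]; ring
theorem Lin.mul_ind {F G : Fm L C} (h : T.Lin ℓ F) (k : T.Ind ℓ G) : T.Lin ℓ fun p => F p * G p :=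
  fun a b p p' e => by simp only [h a b p p' e, k.cmb, ← k p p' e]; ring
theorem Lin.ind_mul {F G : Fm L C} (h : T.Lin ℓ F) (k : T.Ind ℓ G) : T.Lin ℓ fun p => G p * F p :=
  fun a b p p' e => by simp only [h a b p p' e, k.cmb, ← k p p' e]; ring
theorem Lin.sm {X : Type} (s : Finset X) {F : X → Fm L C} (h : ∀ x ∈ s, T.Lin ℓ (F x)) :
    T.Lin ℓ fun p => ∑ x ∈ s, F x p := fun a b p p' e => by
  simp only [mul_sum, ← sum_add_distrib]
  exact sum_congr rfl fun x k => h x k a b p p' e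

theorem Pb.cmb (h : T.Pb T' ι ℓ ℓ') (a b : ℝ) {p p' : C' ⊕ L' → ℝ}
    (e : ∀ v, ℓ' ∉ T'.tv v → p v = p' v) : ι (T'.cmb ℓ' a b p p') = T.cmb ℓ a b (ι p) (ι p') := by
  funext v
  by_cases k : ℓ ∈ T.tv v
  · exact ((h v).1 k a b p p' e).trans (if_pos k).symm
  · exact (((h v).2 k).cmb a b p p').trans (if_neg k).symm
theorem Lin.pb (k : T.Lin ℓ F) (h : T.Pb T' ι ℓ ℓ') : T'.Lin ℓ' fun p => F (ι p) :=
  fun a b p p' e => by
    simp only [h.cmb a b e]
    exact k a b _ _ fun v m => (h v).2 m p p' e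
theorem Ind.pb (k : T.Ind ℓ F) (h : T.Pb T' ι ℓ ℓ') : T'.Ind ℓ' fun p => F (ι p) :=
  fun p p' e => k _ _ fun v m => (h v).2 m p p' e
theorem Ty.pb (k : T.Ty A F) (h : T.Pt T' ι A A') : T'.Ty A' fun p => F (ι p) :=
  fun p p' e => k _ _ fun v s n => h v s n p p' e
theorem Dat.pb (k : T.Dat A M F) (h : T.Pt T' ι A A') (g : ∀ ℓ' ∈ M', ∃ ℓ ∈ M, T.Pb T' ι ℓ ℓ') :
    T'.Dat A' M' fun p => F (ι p) :=
  ⟨k.1.pb h, fun ℓ' m => let ⟨ℓ, a, b⟩ := g ℓ' m; (k.2 ℓ a).pb b⟩

/-- linearity for finite combinations in a block -/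
theorem Lin.fam (h : T.Lin ℓ F) {X : Type} (s : Finset X) (a0 : ℝ) (a : X → ℝ) (p : C ⊕ L → ℝ)
    (r : X → C ⊕ L → ℝ) (e : ∀ x v, ℓ ∉ T.tv v → p v = r x v) :
    F (fun v => if ℓ ∈ T.tv v then a0 * p v + ∑ x ∈ s, a x * r x v else p v) =
      a0 * F p + ∑ x ∈ s, a x * F (r x) := by
  classical
  induction s using Finset.induction_on with
  | empty =>
    have := h a0 0 p p fun _ _ => rfl
    simp only [zero_mul, add_zero, sum_empty] at this ⊢
    rw [← this]; congr 1; funext v; simp [TT.cmb]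
  | insert x s n ih =>
    have := h 1 (a x) (fun v => if ℓ ∈ T.tv v then a0 * p v + ∑ x ∈ s, a x * r x v else p v) (r x)
      fun v k => (if_neg k).trans (e x v k)
    rw [ih] at this
    simp only [sum_insert n]
    refine Eq.trans ?_ (this.trans (by ring))
    congr 1
    funext v
    by_cases k : ℓ ∈ T.tv v <;> simp only [TT.cmb, k, if_true, if_false]
    ring

/-- homogeneity: the bound on a larger cube -/
theorem Sm.cubeR (hT : T.Ok) {y : C → ℤ} {B R : ℝ} (h : T.Sm A M y B F) (l : ∀ ℓ ∈ M, T.Lin ℓ F)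
    (hR : 1 ≤ R) {p : C ⊕ L → ℝ} (hp : p ∈ T.Fib M y) (hc : T.CubeR A M R p) :
    |F p| ≤ R ^ #M * B := by
  have R0 : 0 < R := one_pos.trans_le hR
  have key : ∀ N ⊆ M, ∀ p ∈ T.Fib M y, (∀ c, T.ty c ⊆ A → ¬ Disjoint (T.ty c) M →
      |T.Φ p c| ≤ if Disjoint (T.ty c) N then 1 else R) → |F p| ≤ R ^ #N * B := by
    intro N
    induction N using Finset.induction_on with
    | empty => exact fun _ p hp hc => by simpa using h p hp fun c a b => by simpa using hc c a b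
    | insert x N n ih =>
      intro s p hp hc
      have xm := s (mem_insert_self x N)
      have e := l x xm R⁻¹ 0 p p fun _ _ => rfl
      have := ih ((subset_insert x N).trans s) (T.cmb x R⁻¹ 0 p p) ⟨fun c d => ?_, fun ℓ => ?_⟩
        fun c a b => ?_
      · rw [e, zero_mul, add_zero, abs_mul, abs_of_pos (inv_pos.2 R0), inv_mul_le_iff₀ R0] at this
        rwa [card_insert_of_notMem n, pow_succ', mul_assoc]
      · exact (if_neg fun k => disjoint_left.1 d k xm).trans (hp.1 c d)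
      · by_cases k : x = ℓ
        · simp [TT.cmb, ← k, hp.2 x, xm]
        · simp [TT.cmb, k, hp.2 ℓ]
      · have ne : (T.ty c).Nonempty := by
          rw [nonempty_iff_ne_empty]; rintro k; simp [k] at b
        have hc := hc c a b
        by_cases k : x ∈ T.ty c
        · rw [if_neg (not_disjoint_iff.2 ⟨x, k, mem_insert_self x N⟩)] at hc
          have := (hT.dat c ne).2 x k R⁻¹ 0 p p fun _ _ => rfl
          simp only [this, zero_mul, add_zero, abs_mul, abs_of_pos (inv_pos.2 R0)]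
          refine le_trans ?_ (by split_ifs; exacts [le_rfl, hR] : (1 : ℝ) ≤ _)
          rwa [inv_mul_le_iff₀ R0, mul_one]
        · have := ((hT.dat c ne).1.ind k).cmb R⁻¹ 0 p p
          simpa [this, disjoint_insert_right, k] using hc
  exact key M le_rfl p hp fun c a b => by rw [if_neg b]; exact hc c a b

/-- transport of a relation -/
theorem Rel.pb (hT : T.Ok) {y : C → ℤ} {y' : C' → ℤ} {q : ℕ} {B R : ℝ} (h : T.Rel A M y q B F)
    (l : ∀ ℓ ∈ M, T.Lin ℓ F) (hR : 1 ≤ R) (t : T.Pt T' ι A A')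
    (g : ∀ ℓ' ∈ M', ∃ ℓ ∈ M, T.Pb T' ι ℓ ℓ') (i : ∀ p, IntP p → IntP (ι p))
    (f : ∀ p ∈ T'.Fib M' y', ι p ∈ T.Fib M y)
    (c : ∀ p ∈ T'.Fib M' y', T'.Cube A' M' p → T.CubeR A M R (ι p)) :
    T'.Rel A' M' y' q (R ^ #M * B) fun p => F (ι p) := by
  obtain ⟨I, hI, hS⟩ := h
  refine ⟨fun p => I (ι p), ⟨hI.1.pb t g, fun p m k => hI.2 _ (f p m) (i p k)⟩, fun p m k => ?_⟩
  refine hS.cubeR hT (fun ℓ a => ?_) hR (f p m) (c p m k)
  simpa [div_eq_inv_mul, sub_eq_add_neg] using (l ℓ a).lc (hI.1.2 ℓ a) 1 (-(q : ℝ)⁻¹)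

/-! ### clones -/
section cl
variable (T) (j : L) {ρ : Type} [Fintype ρ] [DecidableEq ρ] (pt : ρ → Bool) (a : ρ → ℕ)

@[simp] theorem cl_ty_l (c : C) : (T.cl j pt a).ty (.inl c) = (T.ty c).image .inl := rfl
@[simp] theorem cl_ty_r (cx : T.Bl j × ρ) :
    (T.cl j pt a).ty (.inr cx) = insert (.inr cx.2) (((T.ty cx.1.1).erase j).image .inl) := rfl
theorem cl_Φ_l (p) (c : C) : (T.cl j pt a).Φ p (.inl c) = T.Φ (T.p0 j p) c := rfl
theorem cl_Φ_r (p) (cx : T.Bl j × ρ) :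
    (T.cl j pt a).Φ p (.inr cx) = 2 ^ a cx.2 * T.Φ (T.px j pt cx.2 p) cx.1.1 := rfl

theorem pb_p0 (ℓ : L) : T.Pb (T.cl j pt a) (T.p0 j) ℓ (.inl ℓ) := by
  rintro (c | ℓ') <;> exact ⟨fun k => lin_co (by simpa using k), fun k => ind_co (by simpa using k)⟩
theorem pt_p0 {A' : Finset (L ⊕ ρ)} (h : ∀ ℓ ∈ A, .inl ℓ ∈ A') : T.Pt (T.cl j pt a) (T.p0 j) A A' := by
  rintro (c | ℓ) s n
  · exact ty_co (image_subset_iff.2 fun x k => h x (s k)) (n.image _)
  · exact ty_co (by simpa using h ℓ (by simpa using s)) (singleton_nonempty _)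
theorem ind_p0 (x : ρ) (F : Fm L C) : (T.cl j pt a).Ind (.inr x) fun p => F (T.p0 j p) :=
  fun p p' e => congrArg F (funext fun v => by rcases v with c | ℓ <;> exact e _ (by simp))

theorem pb_px (x : ρ) {ℓ : L} (h : ℓ ≠ j) : T.Pb (T.cl j pt a) (T.px j pt x) ℓ (.inl ℓ) := by
  rintro (c | ℓ')
  · by_cases k : j ∈ T.ty c <;> simp only [px, k, dif_pos, dif_neg, not_false_eq_true] <;>
      exact ⟨fun k => lin_co (by simpa [h] using k), fun k => ind_co (by simpa [h] using k)⟩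
  · simp only [px]
    split_ifs with k k'
    · exact ⟨fun m => absurd ((mem_singleton.1 m).trans k) h, fun _ => ind_co (by simp)⟩
    · exact ⟨fun _ => lin_0, fun _ => ind_c _⟩
    · exact ⟨fun k => lin_co (by simpa using k), fun k => ind_co (by simpa using k)⟩
theorem pb_px' (x : ρ) : T.Pb (T.cl j pt a) (T.px j pt x) j (.inr x) := by
  rintro (c | ℓ')
  · by_cases k : j ∈ T.ty c <;> simp only [px, k, dif_pos, dif_neg, not_false_eq_true]
    · exact ⟨fun _ => lin_co (by simp), fun m => absurd k m⟩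
    · exact ⟨fun m => absurd m k, fun _ => ind_co (by simp)⟩
  · simp only [px]
    split_ifs with k k'
    · exact ⟨fun _ => lin_co (by simp), fun m => absurd (by simp [k]) m⟩
    · exact ⟨fun _ => lin_0, fun _ => ind_c _⟩
    · exact ⟨fun m => absurd (mem_singleton.1 m).symm k, fun _ => ind_co (by simp)⟩
theorem pt_px (x : ρ) {A' : Finset (L ⊕ ρ)} (h : ∀ ℓ ∈ A, ℓ ≠ j → .inl ℓ ∈ A')
    (hx : j ∈ A → .inr x ∈ A') : T.Pt (T.cl j pt a) (T.px j pt x) A A' := by
  rintro (c | ℓ) s n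
  · by_cases k : j ∈ T.ty c <;> simp only [px, k, dif_pos, dif_neg, not_false_eq_true]
    · exact ty_co (insert_subset (hx (s k)) (image_subset_iff.2 fun x m =>
        h x (s (mem_of_mem_erase m)) (ne_of_mem_erase m))) (insert_nonempty _ _)
    · exact ty_co (image_subset_iff.2 fun x m => h x (s m) fun e => k (e ▸ m)) (n.image _)
  · have m : ℓ ∈ A := by simpa using s
    simp only [px]
    split_ifs with k k'
    · exact ty_co (by simpa using hx (k ▸ m)) (singleton_nonempty _)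
    · exact ty_c _
    · exact ty_co (by simpa using h ℓ m k) (singleton_nonempty _)
theorem p0_px (x : ρ) (p) (v : C ⊕ L) (h : j ∉ T.tv v) : T.p0 j p v = T.px j pt x p v := by
  rcases v with c | ℓ
  · simp only [px, p0, show j ∉ T.ty c from h, dif_neg, not_false_eq_true]
  · exact (if_neg fun e => h (by simp [e])).symm

variable (α0 : ℤ) (α : ρ → ℤ)
theorem pb_pos {ℓ : L} (h : ℓ ≠ j) : T.Pb (T.cl j pt a) (T.pos j pt α0 α) ℓ (.inl ℓ) := fun v => by
  have h0 := T.pb_p0 j pt a ℓ v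
  have h1 := fun x => T.pb_px j pt a x h v
  simp only [pos]
  split_ifs
  · refine ⟨fun m => ?_, fun m p p' e => ?_⟩
    · simpa using (h0.1 m).lc (Lin.sm univ fun x _ => ((h1 x).1 m).cm (α x)) α0 1
    · exact congrArg₂ (fun s t : ℝ => α0 * s + t) (h0.2 m p p' e)
        (sum_congr rfl fun x _ => congrArg (_ * ·) ((h1 x).2 m p p' e))
  · exact h0
theorem pt_pos {A' : Finset (L ⊕ ρ)} (h : ∀ ℓ ∈ A, .inl ℓ ∈ A') (hx : j ∈ A → ∀ x, .inr x ∈ A') :
    T.Pt (T.cl j pt a) (T.pos j pt α0 α) A A' := fun v s n p p' e => by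
  have h0 := T.pt_p0 j pt a h v s n p p' e
  have h1 := fun x => T.pt_px j pt a x (fun ℓ m _ => h ℓ m) (fun m => hx m x) v s n p p' e
  simp only [pos] at h0 h1 ⊢
  simp only [h0, h1]
theorem inl_upA {ℓ : L} : (.inl ℓ : L ⊕ ρ) ∈ upA A ρ ↔ ℓ ∈ A := by simp [upA]
theorem inr_upA (x : ρ) : (.inr x : L ⊕ ρ) ∈ upA A ρ := by simp [upA]

variable {T j}
theorem Lin.pos (h : T.Lin j F) (p) :
    F (T.pos j pt α0 α p) = α0 * F (T.p0 j p) + ∑ x, α x * F (T.px j pt x p) :=
  h.fam univ _ _ _ _ fun x => T.p0_px j pt x p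
theorem Ind.pos (h : T.Ind j F) (p) : F (T.pos j pt α0 α p) = F (T.p0 j p) :=
  h _ _ fun _ k => if_neg k
theorem Ind.px (h : T.Ind j F) (x : ρ) (p) : F (T.px j pt x p) = F (T.p0 j p) :=
  h _ _ fun v k => (T.p0_px j pt x p v k).symm
variable (T j)

theorem intP_p0 {p : T.CC j ρ ⊕ (L ⊕ ρ) → ℝ} (h : IntP p) : IntP (T.p0 j p) := by
  rintro (c | ℓ) <;> exact h _
theorem intP_px (x : ρ) {p : T.CC j ρ ⊕ (L ⊕ ρ) → ℝ} (h : IntP p) : IntP (T.px j pt x p) := by
  rintro (c | ℓ) <;> simp only [px] <;> split_ifs <;> first | exact h _ | exact ⟨0, by simp⟩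
theorem intP_pos {p : T.CC j ρ ⊕ (L ⊕ ρ) → ℝ} (h : IntP p) : IntP (T.pos j pt α0 α p) := fun v => by
  obtain ⟨n, e⟩ := T.intP_p0 j h v
  choose m em using fun x => T.intP_px j pt x h v
  simp only [pos, e, em]
  split_ifs
  exacts [⟨α0 * n + ∑ x, α x * m x, by simp⟩, ⟨n, rfl⟩]
theorem p0_cf (w : T.CC j ρ → ℤ) : T.p0 j (cf w) = cf fun c => w (.inl c) := by
  funext v; rcases v with c | ℓ <;> rfl
theorem pos_cf (h : α0 + ∑ x with pt x, α x = 1) (w : T.CC j ρ → ℤ) :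
    T.pos j pt α0 α (cf w) = cf (T.posZ j α0 α w) := by
  funext v
  rcases v with c | ℓ
  · by_cases k : j ∈ T.ty c <;> simp [pos, posZ, cf, p0, px, k]
  · by_cases k : j = ℓ
    · have := congrArg (Int.cast : ℤ → ℝ) h
      simpa [pos, cf, p0, px, k, sum_filter] using this
    · simp [pos, cf, p0, k]
theorem fib_pos (hj : j ∉ M) (h : α0 + ∑ x with pt x, α x = 1) (w : T.CC j ρ → ℤ) :
    ∀ p ∈ (T.cl j pt a).Fib (M.image .inl) w, T.pos j pt α0 α p ∈ T.Fib M (T.posZ j α0 α w) := by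
  intro p hp
  refine ⟨fun c d => ?_, fun ℓ => ?_⟩
  · have h0 := hp.1 (.inl c) (by simpa [disjoint_image Sum.inl_injective] using d)
    by_cases k : j ∈ T.ty c
    · have h1 := fun x => hp.1 (.inr (⟨c, k⟩, x)) (by
        simpa [disjoint_image Sum.inl_injective] using d.mono_left (erase_subset _ _))
      simp [pos, posZ, p0, px, k, h0, h1]
    · simp [pos, posZ, p0, k, h0]
  · by_cases k : j = ℓ
    · have := congrArg (Int.cast : ℤ → ℝ) h
      subst k
      simpa [pos, p0, px, hp.2, hj, sum_filter] using this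
    · simp [pos, p0, k, hp.2]
theorem fib_p0 (w : T.CC j ρ → ℤ) :
    ∀ p ∈ (T.cl j pt a).Fib (M.image .inl) w, T.p0 j p ∈ T.Fib M fun c => w (.inl c) := fun p hp =>
  ⟨fun c d => hp.1 (.inl c) (by simpa [disjoint_image Sum.inl_injective] using d),
    fun ℓ => by simp [p0, hp.2]⟩

variable {T}
theorem Ok.Φ_pos (hT : T.Ok) (p) {c : C} (k : j ∈ T.ty c) : T.Φ (T.pos j pt α0 α p) c =
    α0 * T.Φ (T.p0 j p) c + ∑ x, α x * T.Φ (T.px j pt x p) c :=
  ((hT.dat c ⟨j, k⟩).2 j k).pos pt α0 α p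
theorem Ok.ind (hT : T.Ok) {c : C} (k : ℓ ∉ T.ty c) : T.Ind ℓ fun p => T.Φ p c := by
  rcases (T.ty c).eq_empty_or_nonempty with e | e
  · simp only [hT.dead c _ e]; exact ind_co k
  · exact (hT.dat c e).1.ind k
theorem Ok.cube_pos (hT : T.Ok) (hj : j ∉ M) {R : ℝ} (h1 : 1 ≤ R) (hR : |(α0 : ℝ)| + ∑ x, |(α x : ℝ)| ≤ R)
    {p} (h : (T.cl j pt a).Cube (upA A ρ) (M.image .inl) p) : T.CubeR A M R (T.pos j pt α0 α p) := by
  intro c s d
  have h0 : |T.Φ (T.p0 j p) c| ≤ 1 := h (.inl c) (image_subset_iff.2 fun x k => inl_upA.2 (s k))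
    (by simpa [disjoint_image Sum.inl_injective] using d)
  by_cases k : j ∈ T.ty c
  · have hx : ∀ x, |T.Φ (T.px j pt x p) c| ≤ 1 := fun x => by
      have := h (.inr (⟨c, k⟩, x)) (insert_subset (inr_upA x) (image_subset_iff.2 fun x m =>
        inl_upA.2 (s (mem_of_mem_erase m)))) (by
          obtain ⟨ℓ, m, m'⟩ := not_disjoint_iff.1 d
          exact not_disjoint_iff.2 ⟨.inl ℓ, by simpa using ⟨fun e => hj (e ▸ m'), m⟩, by simpa⟩)
      rw [cl_Φ_r, abs_mul, abs_of_pos (by positivity)] at this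
      exact (le_mul_of_one_le_left (abs_nonneg _) (one_le_pow₀ one_le_two)).trans this
    rw [hT.Φ_pos j pt α0 α p k]
    refine ((abs_add_le _ _).trans (add_le_add ?_ ((abs_sum_le_sum_abs _ _).trans
      (sum_le_sum fun x _ => ?_)))).trans hR <;> rw [abs_mul]
    exacts [mul_le_of_le_one_right (abs_nonneg _) h0, mul_le_of_le_one_right (abs_nonneg _) (hx x)]
  · exact ((congrArg abs ((hT.ind k).pos pt α0 α p)).trans_le h0).trans h1

theorem Dat.pos (hj : j ∉ M) (h : T.Dat A M F) :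
    (T.cl j pt a).Dat (upA A ρ) (M.image .inl) fun p => F (T.pos j pt α0 α p) :=
  h.pb (T.pt_pos j pt a α0 α (fun _ => inl_upA.2) fun _ => inr_upA) fun _ m => by
    obtain ⟨ℓ, k, rfl⟩ := mem_image.1 m
    exact ⟨ℓ, k, T.pb_pos j pt a α0 α fun e => hj (e ▸ k)⟩
theorem Dat.p0 (h : T.Dat A M F) :
    (T.cl j pt a).Dat (A.image .inl) (M.image .inl) fun p => F (T.p0 j p) :=
  h.pb (T.pt_p0 j pt a fun _ => mem_image_of_mem _) fun _ m => by
    obtain ⟨ℓ, k, rfl⟩ := mem_image.1 m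
    exact ⟨ℓ, k, T.pb_p0 j pt a ℓ⟩
/-- a relation at a position of a cloned shape -/
theorem Rel.pos (hT : T.Ok) (hj : j ∉ M) (hm : α0 + ∑ x with pt x, α x = 1) {R B : ℝ} {q : ℕ}
    (h1 : 1 ≤ R) (hR : |(α0 : ℝ)| + ∑ x, |(α x : ℝ)| ≤ R) {w : T.CC j ρ → ℤ}
    (h : T.Rel A M (T.posZ j α0 α w) q B F) (l : ∀ ℓ ∈ M, T.Lin ℓ F) :
    (T.cl j pt a).Rel (upA A ρ) (M.image .inl) w q (R ^ #M * B) fun p => F (T.pos j pt α0 α p) :=
  h.pb hT l h1 (T.pt_pos j pt a α0 α (fun _ => inl_upA.2) fun _ => inr_upA) (fun _ m => by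
    obtain ⟨ℓ, k, rfl⟩ := mem_image.1 m
    exact ⟨ℓ, k, T.pb_pos j pt a α0 α fun e => hj (e ▸ k)⟩) (fun _ => T.intP_pos j pt α0 α)
    (T.fib_pos j pt a α0 α hj hm w) fun _ _ => hT.cube_pos j pt a α0 α hj h1 hR

theorem Ok.cl (hT : T.Ok) : (T.cl j pt a).Ok where
  dat := by
    rintro (c | ⟨c, x⟩) n
    · exact (hT.dat c (image_nonempty.1 n)).p0 j pt a
    · have d := (hT.dat c.1 ⟨j, c.2⟩).pb (M' := (T.cl j pt a).ty (.inr (c, x)))
        (T.pt_px j pt a x (A' := (T.cl j pt a).ty (.inr (c, x))) (fun ℓ m k => by simp [m, k])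
          fun _ => by simp) fun ℓ' m => by
          rcases mem_insert.1 m with rfl | m
          · exact ⟨j, c.2, T.pb_px' j pt a x⟩
          · obtain ⟨ℓ, k, rfl⟩ := mem_image.1 m
            exact ⟨ℓ, mem_of_mem_erase k, T.pb_px j pt a x (ne_of_mem_erase k)⟩
      exact ⟨fun p p' e => congrArg (_ * ·) (d.1 p p' e), fun ℓ m => (d.2 ℓ m).cm _⟩
  dead := by
    rintro (c | cx) p e
    · exact hT.dead c _ (image_eq_empty.1 e)
    · exact absurd e (insert_ne_empty _ _)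
  inj S p p' he hc hΦ := by
    funext v
    rcases v with c' | ℓ
    swap
    · exact he ℓ
    by_cases s : (T.cl j pt a).ty c' = S
    swap
    · exact hc _ s
    subst s
    rcases c' with c | ⟨c, x⟩
    · exact congrFun (hT.inj (T.ty c) (T.p0 j p) (T.p0 j p') (fun ℓ => he _)
        (fun c2 k => hc (.inl c2) fun e => k (image_injective Sum.inl_injective e))
        fun c2 k => hΦ (.inl c2) (by simp [k])) (.inl c)
    · have := congrFun (hT.inj (T.ty c.1) (T.px j pt x p) (T.px j pt x p') (fun ℓ => by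
        simp only [px, he]) (fun c2 k => ?_) fun c2 k => mul_left_cancel₀ (by positivity)
          (hΦ (.inr (⟨c2, k ▸ c.2⟩, x)) (by simp [k]))) (.inl c.1)
      · simpa [px, c.2] using this
      by_cases m : j ∈ T.ty c2 <;> simp only [px, m, dif_pos, dif_neg, not_false_eq_true]
      · refine hc (.inr (⟨c2, m⟩, x)) fun e => k ?_
        ext ℓ
        by_cases r : ℓ = j
        · simp [r, m, c.2]
        · simpa [r] using Finset.ext_iff.1 e (.inl ℓ)
      · exact hc (.inl c2) fun e => by simpa using Finset.ext_iff.1 e (.inr x)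
end cl

/-! ### deletion -/
theorem Dat.del (h : T.Dat A M F) (k : ℓ ∉ A) : (T.del ℓ).Dat A M F := by
  have t : ∀ v, T.tv v ⊆ A → (T.del ℓ).tv v = T.tv v := by
    rintro (c | x) s
    exacts [if_neg fun m => k (s m), rfl]
  have u : ∀ x v, x ∉ T.tv v → x ∉ (T.del ℓ).tv v := by
    rintro x (c | y) m
    · simp only [tv_l, TT.del] at m ⊢; split_ifs <;> simp [m]
    · exact m
  refine ⟨fun p p' e => h.1 p p' fun v s n => e v (by rwa [t v s]) (by rwa [t v s]),
    fun x m a b p p' e => ?_⟩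
  rw [← h.2 x m a b p p' fun v m => e v (u x v m)]
  exact h.1 _ _ fun v s _ => by simp only [cmb, t v s]

theorem Ok.del (hT : T.Ok) (ℓ : L) : (T.del ℓ).Ok := by
  have dead : ∀ c p, (T.del ℓ).ty c = ∅ → (T.del ℓ).Φ p c = p (.inl c) := fun c p e => by
    by_cases k : ℓ ∈ T.ty c <;> simp only [TT.del, k, if_true, if_false] at e ⊢
    exact hT.dead c p e
  refine ⟨fun c n => ?_, dead, fun S p p' he hc hΦ => funext ?_⟩
  · by_cases k : ℓ ∈ T.ty c <;> simp only [TT.del, k, if_true, if_false] at n ⊢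
    exacts [absurd n (by simp), (hT.dat c n).del k]
  rintro (c | x)
  swap
  · exact he x
  by_cases s : (T.del ℓ).ty c = S
  swap
  · exact hc _ s
  rcases S.eq_empty_or_nonempty with rfl | n
  · rw [← dead c p s, ← dead c p' s, hΦ c s]
  have k : ℓ ∉ T.ty c := fun k => n.ne_empty (s.symm.trans (if_pos k))
  have s' : T.ty c = S := (if_neg k).symm.trans s
  refine congrFun (hT.inj S p p' he (fun c2 m => hc c2 ?_) fun c2 m => ?_) _
  · simp only [TT.del]; split_ifs; exacts [n.ne_empty.symm, m]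
  · have k2 : ℓ ∉ T.ty c2 := by rwa [m, ← s']
    simpa only [TT.del, k2, if_false] using hΦ c2 ((if_neg k2).trans m)

/-! ### recentring -/
section rc
variable (T) (j : L) (a q : ℕ) (z : C → ℤ)

@[simp] theorem rc_ty_l (c : C) : (T.rc j a z).ty (.inl c) = T.ty c := rfl
@[simp] theorem rc_ty_r (c : T.Bl j) : (T.rc j a z).ty (.inr c) = (T.ty c.1).erase j := rfl
theorem rc_Φ_l (p) (c : C) :
    (T.rc j a z).Φ p (.inl c) = (if j ∈ T.ty c then 2 ^ a else 1) * T.Φ (T.up j p) c := rfl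
theorem rc_Φ_r (p) (c : T.Bl j) : (T.rc j a z).Φ p (.inr c) =
    if T.ty c.1 = {j} then p (.inl (.inr c)) else T.Φ (T.dn j z p) c.1 := rfl

theorem pb_up (ℓ : L) : T.Pb (T.rc j a z) (T.up j) ℓ ℓ := by
  rintro (c | x)
  · exact ⟨fun k => lin_co k, fun k => ind_co k⟩
  · simp only [up]
    split_ifs
    exacts [⟨fun _ => lin_0, fun _ => ind_c _⟩, ⟨fun k => lin_co k, fun k => ind_co k⟩]
theorem pt_up (A : Finset L) : T.Pt (T.rc j a z) (T.up j) A A := by
  rintro (c | x) s n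
  · exact ty_co s n
  · simp only [up]
    split_ifs
    exacts [ty_c _, ty_co s n]
theorem pb_dn {ℓ : L} (h : ℓ ≠ j) : T.Pb (T.rc j a z) (T.dn j z) ℓ ℓ := by
  rintro (c | x) <;> simp only [dn] <;> split_ifs with k k'
  · exact ⟨fun m => absurd (by simpa [k'] using m) h, fun _ => ind_c _⟩
  · exact ⟨fun m => lin_co (by simpa [h] using m), fun m => ind_co (by simpa [h] using m)⟩
  · exact ⟨fun k => lin_co k, fun k => ind_co k⟩
  · exact ⟨fun m => absurd (by simpa [k] using m) h, fun _ => ind_c _⟩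
  · exact ⟨fun k => lin_co k, fun k => ind_co k⟩
theorem pt_dn (A : Finset L) : T.Pt (T.rc j a z) (T.dn j z) A (A.erase j) := by
  rintro (c | x) s n <;> simp only [dn] <;> split_ifs with k k'
  · exact ty_c _
  · refine ty_co (erase_subset_erase j s) (nonempty_iff_ne_empty.2 fun e => k' ?_)
    exact ((erase_eq_empty_iff _ _).1 e).resolve_left n.ne_empty
  · exact ty_co (subset_erase.2 ⟨s, k⟩) n
  · exact ty_c _
  · exact ty_co (subset_erase.2 ⟨s, by simpa using Ne.symm k⟩) n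
theorem ind_dn (F : Fm L C) : (T.rc j a z).Ind j fun p => F (T.dn j z p) := fun p p' e =>
  congrArg F (funext fun v => by
    rcases v with c | x <;> simp only [dn] <;> split_ifs with k k'
    exacts [rfl, e _ (by simp), e _ k, rfl, e _ (by simpa using Ne.symm k)])
theorem dn_up (p) (v : C ⊕ L) (h : j ∉ T.tv v) : T.dn j z p v = T.up j p v := by
  rcases v with c | x
  · exact dif_neg (show j ∉ T.ty c from h)
  · have : x ≠ j := fun e => h (by simp [e])
    simp only [dn, up, this, if_false]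
theorem rci_eq (p) : T.rci j q z p = T.cmb j (p (.inr j)) q (T.dn j z p) (T.up j p) := by
  funext v
  rcases v with c | x
  · by_cases k : j ∈ T.ty c <;> simp [rci, cmb, up, dn, k]
  · by_cases k : x = j
    · simp [rci, cmb, up, dn, k]
    · simp [rci, cmb, dn, k, Ne.symm k]
theorem rci_e (p) (x : L) : T.rci j q z p (.inr x) = p (.inr x) := rfl
theorem pb_rci (ℓ : L) : T.Pb (T.rc j a z) (T.rci j q z) ℓ ℓ := by
  rintro (c | x)
  swap
  · exact ⟨fun k => lin_co k, fun k => ind_co k⟩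
  simp only [rci]
  split_ifs with k
  swap
  · exact ⟨fun k => lin_co k, fun k => ind_co k⟩
  by_cases h : ℓ = j
  · subst h
    refine ⟨fun m => ?_, fun m => absurd k m⟩
    simpa using ((lin_co (T := T.rc ℓ a z) (v := .inr ℓ) (by simp)).mul_ind
      (T.ind_dn ℓ a z fun p => p (.inl c))).lc (lin_co (T := T.rc ℓ a z) (v := .inl (.inl c)) m) 1 q
  · have i : (T.rc j a z).Ind ℓ fun p => p (.inr j) := ind_co (by simpa using h)
    have d := T.pb_dn j a z h (.inl c)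
    refine ⟨fun m => ?_, fun m p p' e => ?_⟩
    · simpa using ((d.1 m).ind_mul i).lc (lin_co (T := T.rc j a z) (v := .inl (.inl c)) m) 1 q
    · have := d.2 m p p' e
      simp only at this ⊢
      rw [this, e (.inr j) (by simpa using h), e (.inl (.inl c)) m]
theorem pt_rci (A : Finset L) : T.Pt (T.rc j a z) (T.rci j q z) A A := by
  rintro (c | x) s n p p' e
  swap
  · exact e _ s n
  have := T.pt_dn j a z A (.inl c) s n p p' fun v s' => e v (s'.trans (erase_subset _ _))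
  simp only [rci] at this ⊢
  rw [this, e (.inl (.inl c)) s n]
  split_ifs with k
  exacts [by rw [e (.inr j) (by simpa using s k) (by simp)], rfl]
theorem intP_rci {p : T.CR j ⊕ L → ℝ} (h : IntP p) : IntP (T.rci j q z p) := by
  choose n e using h
  rintro (c | x)
  swap
  · exact ⟨_, e _⟩
  simp only [rci, dn, e]
  split_ifs <;> exact ⟨_, by norm_cast⟩
/-- the configuration of `T` under a configuration of `T.rc j a z` -/
def rcZ (w : T.CR j → ℤ) : C → ℤ := fun c =>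
  if h : j ∈ T.ty c then (if T.ty c = {j} then z c else w (.inr ⟨c, h⟩)) + q * w (.inl c)
  else w (.inl c)
theorem rci_cf (w : T.CR j → ℤ) : T.rci j q z (cf w) = cf (T.rcZ j q z w) := by
  funext v
  rcases v with c | x
  · by_cases k : j ∈ T.ty c <;> simp [rci, rcZ, dn, cf, k]
  · rfl
theorem fib_rci (w : T.CR j → ℤ) :
    ∀ p ∈ (T.rc j a z).Fib M w, T.rci j q z p ∈ T.Fib M (T.rcZ j q z w) := by
  refine fun p hp => ⟨fun c d => ?_, hp.2⟩
  have h0 := hp.1 (.inl c) d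
  by_cases k : j ∈ T.ty c
  · have h1 := hp.1 (.inr ⟨c, k⟩) (d.mono_left (erase_subset _ _))
    simp [rci, rcZ, dn, k, h0, h1, hp.2, disjoint_left.1 d k]
  · simp [rci, rcZ, k, h0]

variable {T}
theorem Lin.rci (h : T.Lin j F) (p) :
    F (T.rci j q z p) = p (.inr j) * F (T.dn j z p) + q * F (T.up j p) := by
  rw [rci_eq, h _ _ _ _ (T.dn_up j z p)]
theorem Ind.rci (h : T.Ind j F) (p) : F (T.rci j q z p) = F (T.up j p) := by
  rw [rci_eq, h.cmb]; exact h _ _ (T.dn_up j z p)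
theorem Dat.rci (h : T.Dat A M F) : (T.rc j a z).Dat A M fun p => F (T.rci j q z p) :=
  h.pb (T.pt_rci j a q z A) fun ℓ m => ⟨ℓ, m, T.pb_rci j a q z ℓ⟩
theorem Ok.cube_rci (hT : T.Ok) (hq : q ≤ 2 ^ a) {R : ℝ} {w} {p} (hp : p ∈ (T.rc j a z).Fib M w)
    (h : (T.rc j a z).CubeR A M R p) : T.CubeR A M (2 * R) (T.rci j q z p) := by
  intro c s d
  have h0 := h (.inl c) s d
  have R0 := (abs_nonneg _).trans h0
  by_cases k : j ∈ T.ty c
  · rw [rc_Φ_l, if_pos k, abs_mul, abs_of_pos (by positivity)] at h0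
    rw [((hT.dat c ⟨j, k⟩).2 j k).rci j q z p, two_mul]
    refine (abs_add_le _ _).trans (add_le_add ?_ ?_)
    · by_cases m : j ∈ M
      · simpa [hp.2, m] using R0
      · obtain ⟨x, m1, m2⟩ := not_disjoint_iff.1 d
        have xj : x ≠ j := fun e => m (e ▸ m2)
        have := h (.inr ⟨c, k⟩) ((erase_subset _ _).trans s)
          (not_disjoint_iff.2 ⟨x, mem_erase.2 ⟨xj, m1⟩, m2⟩)
        rw [rc_Φ_r, if_neg fun e => xj (by simpa [e] using m1)] at this
        simpa [hp.2, m] using this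
    · rw [abs_mul, Nat.abs_cast]
      exact (mul_le_mul_of_nonneg_right (by exact_mod_cast hq) (abs_nonneg _)).trans h0
  · rw [rc_Φ_l, if_neg k, one_mul] at h0
    exact ((congrArg abs ((hT.ind k).rci j q z p)).trans_le h0).trans (by linarith)
theorem Rel.rci (hT : T.Ok) (hq : q ≤ 2 ^ a) {w : T.CR j → ℤ} {n : ℕ} {B : ℝ}
    (h : T.Rel A M (T.rcZ j q z w) n B F) (l : ∀ ℓ ∈ M, T.Lin ℓ F) :
    (T.rc j a z).Rel A M w n (2 ^ #M * B) fun p => F (T.rci j q z p) :=
  h.pb hT l one_le_two (T.pt_rci j a q z A) (fun ℓ m => ⟨ℓ, m, T.pb_rci j a q z ℓ⟩)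
    (fun _ => T.intP_rci j q z) (T.fib_rci j a q z w) fun _ hp c => by
      simpa using hT.cube_rci j a q z hq (R := 1) hp c

theorem Ok.rc (hT : T.Ok) : (T.rc j a z).Ok where
  dat := by
    rintro (c | c) n
    · have d := (hT.dat c n).pb (T.pt_up j a z _) fun ℓ m => ⟨ℓ, m, T.pb_up j a z ℓ⟩
      exact ⟨fun p p' e => congrArg (_ * ·) (d.1 p p' e), fun ℓ m => (d.2 ℓ m).cm _⟩
    · have k : T.ty c.1 ≠ {j} := fun e => by simp [e] at n
      simp only [rc_Φ_r, k, if_false]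
      exact (hT.dat c.1 ⟨j, c.2⟩).pb (T.pt_dn j a z _) fun ℓ m =>
        ⟨ℓ, mem_of_mem_erase m, T.pb_dn j a z (ne_of_mem_erase m)⟩
  dead := by
    rintro (c | c) p e
    · rw [rc_Φ_l, if_neg (by simp [show T.ty c = ∅ from e]), one_mul, hT.dead c _ e]; rfl
    · exact if_pos (((erase_eq_empty_iff _ _).1 e).resolve_left (ne_empty_of_mem c.2))
  inj S p p' he hc hΦ := by
    have u := hT.inj S (T.up j p) (T.up j p') (fun ℓ => by simp only [up, he])
      (fun c k => hc (.inl c) k) fun c k => mul_left_cancel₀ (by split_ifs <;> positivity)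
        (hΦ (.inl c) k)
    funext v
    rcases v with (c | c) | ℓ
    · exact congrFun u (.inl c)
    swap
    · exact he ℓ
    by_cases s : (T.ty c.1).erase j = S
    swap
    · exact hc _ s
    by_cases k : T.ty c.1 = {j}
    · simpa only [rc_Φ_r, k, if_true] using hΦ (.inr c) s
    have := congrFun (hT.inj (T.ty c.1) (T.dn j z p) (T.dn j z p') (fun ℓ => by simp only [dn, he])
      (fun c2 m => ?_) fun c2 m => ?_) (.inl c.1)
    · simpa only [dn, c.2, k, dif_pos, if_false] using this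
    · simp only [dn]
      split_ifs with r r'
      exacts [rfl, hc (.inr ⟨c2, r⟩) fun e => m (by
        rw [← insert_erase r, ← insert_erase c.2, s]; exact congrArg _ e), congrFun u (.inl c2)]
    · simpa only [rc_Φ_r, m, k, if_false] using hΦ (.inr ⟨c2, m ▸ c.2⟩) (by simp [m, s])
end rc

/-! ### new words -/
section ext
variable {N : Type} [Fintype N] [DecidableEq N] {T₁ : TT L (C ⊕ N)}

theorem pb_fg (h : ∀ c, T₁.ty (.inl c) = T.ty c) (ℓ : L) : T.Pb T₁ fg ℓ ℓ := by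
  rintro (c | x)
  · exact ⟨fun k => lin_co (by rwa [tv_l, h]), fun k => ind_co (by rwa [tv_l, h])⟩
  · exact ⟨fun k => lin_co k, fun k => ind_co k⟩
theorem pt_fg (h : ∀ c, T₁.ty (.inl c) = T.ty c) (A : Finset L) : T.Pt T₁ fg A A := by
  rintro (c | x) s n
  exacts [ty_co (by rwa [tv_l, h]) (by rwa [tv_l, h]), ty_co s n]
theorem Dat.fg (k : T.Dat A M F) (h : ∀ c, T₁.ty (.inl c) = T.ty c) :
    T₁.Dat A M fun p => F (fg p) := k.pb (pt_fg h A) fun ℓ m => ⟨ℓ, m, pb_fg h ℓ⟩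
theorem fg_cf (w : C ⊕ N → ℤ) : fg (cf (L := L) w) = cf fun c => w (.inl c) := by
  funext v; rcases v with c | x <;> rfl

theorem Ok.ext (hT : T.Ok) {tn : N → Finset L} {B : Matrix N N ℝ} {Θ : N → Fm L C}
    (h1 : ∀ n, (tn n).Nonempty) (h2 : ∀ n n', tn n ≠ tn n' → B n n' = 0) (h3 : B.det ≠ 0)
    (h4 : ∀ n, T.Dat (tn n) (tn n) (Θ n)) : (T.ext tn B Θ).Ok where
  dat := by
    rintro (c | n) k
    · exact (hT.dat c k).fg fun _ => rfl
    have d := (h4 n).fg (T₁ := T.ext tn B Θ) fun _ => rfl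
    refine ⟨fun p p' e => congrArg₂ (· - ·) (sum_congr rfl fun n' _ => ?_) (d.1 p p' e),
      fun ℓ m => ?_⟩
    · by_cases s : tn n = tn n'
      · rw [e (.inl (.inr n')) s.ge (h1 n')]
      · simp [h2 n n' s]
    · have := (Lin.sm (T := T.ext tn B Θ) (ℓ := ℓ) univ
        (F := fun n' p => B n n' * p (.inl (.inr n'))) fun n' _ => ?_).lc (d.2 ℓ m) 1 (-1)
      · simpa [TT.ext, sub_eq_add_neg] using this
      by_cases s : tn n = tn n'
      · exact (lin_co (T := T.ext tn B Θ) (v := .inl (.inr n')) (show ℓ ∈ tn n' from s ▸ m)).cm _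
      · simpa [h2 n n' s] using lin_0
  dead := by
    rintro (c | n) p e
    exacts [hT.dead c _ e, absurd e (h1 n).ne_empty]
  inj S p p' he hc hΦ := by
    have u := hT.inj S (fg p) (fg p') he (fun c k => hc (.inl c) k) fun c k => hΦ (.inl c) k
    have w : B.mulVec (fun n => p (.inl (.inr n)) - p' (.inl (.inr n))) = 0 := by
      funext n
      by_cases s : tn n = S
      · have := hΦ (.inr n) s
        simp only [TT.ext, Sum.elim_inr, u, sub_left_inj] at this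
        simp [Matrix.mulVec, dotProduct, mul_sub, this]
      · refine sum_eq_zero fun n' _ => ?_
        by_cases s' : tn n = tn n'
        · simp [hc (.inr n') fun e => s (s'.trans e)]
        · simp [h2 n n' s']
    funext v
    rcases v with (c | n) | ℓ
    exacts [congrFun u (.inl c), sub_eq_zero.1 (congrFun (Matrix.eq_zero_of_mulVec_eq_zero h3 w) n),
      he ℓ]
end ext
end TT

/-! ### refinements -/
section
open TT
variable {L C C' : Type} [Fintype L] [DecidableEq L] [Fintype C] [DecidableEq C]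
  [Fintype C'] [DecidableEq C'] {T : TT L C} {T' : TT L C'} {s k : ℕ}
  {ι : (C' ⊕ L → ℝ) → C ⊕ L → ℝ} {A M : Finset L} {F : Fm L C}

theorem Ref.ok (h : Ref s T k C' T' ι) (hT : T.Ok) : T'.Ok := by
  induction h with
  | refl => exact hT
  | rc _ j a q z _ _ _ ih => exact ih.rc j a z
theorem Ref.lin (h : Ref s T k C' T' ι) {ℓ : L} (g : T.Lin ℓ F) : T'.Lin ℓ fun p => F (ι p) := by
  induction h with
  | refl => exact g
  | rc _ j a q z _ _ _ ih => exact ih.pb (pb_rci _ j a q z ℓ)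
theorem Ref.ind (h : Ref s T k C' T' ι) {ℓ : L} (g : T.Ind ℓ F) : T'.Ind ℓ fun p => F (ι p) := by
  induction h with
  | refl => exact g
  | rc _ j a q z _ _ _ ih => exact ih.pb (pb_rci _ j a q z ℓ)
theorem Ref.ty (h : Ref s T k C' T' ι) (g : T.Ty A F) : T'.Ty A fun p => F (ι p) := by
  induction h with
  | refl => exact g
  | rc _ j a q z _ _ _ ih => exact ih.pb (pt_rci _ j a q z A)
theorem Ref.dat (h : Ref s T k C' T' ι) (g : T.Dat A M F) : T'.Dat A M fun p => F (ι p) :=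
  ⟨h.ty g.1, fun ℓ m => h.lin (g.2 ℓ m)⟩
theorem Ref.pb (h : Ref s T k C' T' ι) (ℓ : L) : T.Pb T' ι ℓ ℓ :=
  fun _ => ⟨fun m => h.lin (lin_co m), fun m => h.ind (ind_co m)⟩
theorem Ref.pt (h : Ref s T k C' T' ι) (A : Finset L) : T.Pt T' ι A A :=
  fun _ s n => h.ty (ty_co s n)
theorem Ref.intP (h : Ref s T k C' T' ι) {p} (g : IntP p) : IntP (ι p) := by
  induction h with
  | refl => exact g
  | rc _ j a q z _ _ _ ih => exact ih (intP_rci _ j q z g)
theorem Ref.e (h : Ref s T k C' T' ι) (p : C' ⊕ L → ℝ) (ℓ : L) : ι p (.inr ℓ) = p (.inr ℓ) := by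
  induction h with
  | refl => rfl
  | rc _ j a q z _ _ _ ih => exact ih _
theorem cf_inj {y y' : C → ℤ} (h : cf (L := L) y = cf y') : y = y' :=
  funext fun c => Int.cast_injective (α := ℝ) (congrFun h (.inl c))
theorem Ref.exists_cf (h : Ref s T k C' T' ι) (y' : C' → ℤ) : ∃ y, ι (cf y') = cf y := by
  induction h with
  | refl => exact ⟨y', rfl⟩
  | rc _ j a q z _ _ _ ih => simpa only [Function.comp, rci_cf] using ih _
theorem Ref.fib (h : Ref s T k C' T' ι) {y' : C' → ℤ} {y : C → ℤ} (e : ι (cf y') = cf y) :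
    ∀ p ∈ T'.Fib M y', ι p ∈ T.Fib M y := by
  induction h with
  | refl => exact cf_inj e ▸ fun _ h => h
  | rc _ j a q z _ _ _ ih =>
    exact fun p hp => ih (by simpa only [Function.comp, rci_cf] using e) _ (fib_rci _ j a q z y' p hp)
theorem Ref.cube (h : Ref s T k C' T' ι) (hT : T.Ok) {y' : C' → ℤ} {R : ℝ} {p} (hp : p ∈ T'.Fib M y')
    (c : T'.CubeR A M R p) : T.CubeR A M (2 ^ k * R) (ι p) := by
  induction h generalizing R with
  | refl => simpa using c
  | rc h j a q z _ hq _ ih =>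
    rw [pow_succ, mul_assoc]
    exact ih (fib_rci _ j a q z y' p hp) ((h.ok hT).cube_rci j a q z hq hp c)
/-- relations pull back along refinements -/
theorem Ref.rel (h : Ref s T k C' T' ι) (hT : T.Ok) {y' : C' → ℤ} {y : C → ℤ}
    (e : ι (cf y') = cf y) {q : ℕ} {B : ℝ} (g : T.Rel A M y q B F) (l : ∀ ℓ ∈ M, T.Lin ℓ F) :
    T'.Rel A M y' q ((2 ^ k) ^ #M * B) fun p => F (ι p) :=
  g.pb hT l (one_le_pow₀ one_le_two) (h.pt A) (fun ℓ m => ⟨ℓ, m, h.pb ℓ⟩) (fun _ => h.intP)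
    (h.fib e) fun _ hp c => by simpa using h.cube hT (R := 1) hp c
theorem Ref.mono {s' : ℕ} (h : Ref s T k C' T' ι) (g : s ≤ s') : Ref s' T k C' T' ι := by
  induction h with
  | refl => exact .refl
  | rc _ j a q z h1 h2 h3 ih => exact ih.rc j a q z h1 h2 (h3.trans g)
theorem Ref.trans {C'' : Type} [Fintype C''] [DecidableEq C''] {T'' : TT L C''} {k' : ℕ} {ι'}
    (h : Ref s T k C' T' ι) (g : Ref s T' k' C'' T'' ι') : Ref s T (k + k') C'' T'' (ι ∘ ι') := by
  induction g with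
  | refl => exact h
  | rc _ j a q z h1 h2 h3 ih => exact ih.rc j a q z h1 h2 h3

/-- forms in old and new words, as data on the old tower -/
theorem Wd.Ok.dat {N : Type} [Fintype N] [DecidableEq N] {W : Wd L C N} {Z : Finset L}
    (h : W.Ok T Z) (d : Disjoint Z M) {Γ : Fm L (C ⊕ N)} (g : (W.xt T).Dat A M Γ) :
    T.Dat A M fun p => Γ (W.lf p) := by
  refine g.pb ?_ fun ℓ m => ⟨ℓ, m, ?_⟩
  · rintro ((c | n) | x) s n'
    exacts [ty_co s n', fun p p' e => (h n).2.2.2.1 p p' fun v s' => e v (s'.trans s), ty_co s n']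
  · have o : ∀ n, ℓ ∉ W.tn n := fun n k => disjoint_left.1 d ((h n).2.1 k) m
    rintro ((c | n) | x)
    exacts [⟨fun k => lin_co k, fun k => ind_co k⟩,
      ⟨fun k => absurd k (o n), fun _ => (h n).2.2.2.1.ind (o n)⟩,
      ⟨fun k => lin_co k, fun k => ind_co k⟩]
end
end Crest.Agent.N49.Rm
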