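import Crest.Agent.N49.Rm.St
import Crest.Agent.N49.Rm.Mono
import Crest.Agent.N49.Rm.Op
/-! Row 49, block RMH (helper57): hooks (an extra property of the chosen centres), the output
package `NX` with a constant number of recentrings, and the statements that produce it. -/
set_option autoImplicit false
set_option linter.unusedSectionVars false
noncomputable section
namespace Crest.Agent.N49.Rm
open Finset TT

/-- a property of the refinements `(T', ι)` of depth `k` of a tower with coordinates `C` -/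
def Hk (L C : Type) : Type 1 := (C' : Type) → [Fintype C'] → [DecidableEq C'] → TT L C' →
  ((C' ⊕ L → ℝ) → (C ⊕ L → ℝ)) → ℕ → Prop

def Hk.push {L C C1 : Type} (X : Hk L C) (ι : (C1 ⊕ L → ℝ) → (C ⊕ L → ℝ)) (k : ℕ) : Hk L C1 :=
  fun C' _ _ T' ι' k' => X C' T' (ι ∘ ι') (k + k')

/-- `Good`, and the hook holds here and after recentring at most centres -/
def GX {L : Type} [Fintype L] [DecidableEq L] (b : ℕ) : (g : ℕ) → (C : Type) → [Fintype C] →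
    [DecidableEq C] → TT L C → Hk L C → Prop
  | 0, C, _, _, T, X => Good b 0 L C T ∧ X C T id 0
  | g + 1, C, _, _, T, X => Good b (g + 1) L C T ∧ X C T id 0 ∧
      ∀ (j : L) (a q : ℕ), a ≤ b → 1 ≤ q → q ≤ 1 →
        T.pr {z | ¬ GX b g (T.CR j) (T.rc j a z) (X.push (T.rci j q z) 1)} ≤ (1 / 2) ^ b

section
variable {L C : Type} [Fintype L] [DecidableEq L] [Fintype C] [DecidableEq C]
abbrev GG (b : ℕ) (T : TT L C) (X : Hk L C) : Prop := GX b b C T X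

/-- properties of an output -/
abbrev Out (L C : Type) : Type 1 := (C' : Type) → [Fintype C'] → [DecidableEq C'] → TT L C' →
  ((C' ⊕ L → ℝ) → (C ⊕ L → ℝ)) → Set (C' → ℤ) → ℕ → Prop

/-- output package: at most `k0` recentrings -/
def NX (k0 s K' n : ℕ) (T : TT L C) (H : Set (C → ℤ)) (X : Hk L C) (P : Out L C) : Prop :=
  ∃ (C' : Type) (_ : Fintype C') (_ : DecidableEq C') (T' : TT L C') (ι : _) (H' : Set (C' → ℤ))
    (n' k : ℕ), n + k * (Fintype.card L + 1) ≤ n' ∧ n' ≤ s ∧ k ≤ k0 ∧ Ref s T k C' T' ι ∧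
      GG (n' ^ K') T' (X.push ι k) ∧ Sz n' T' H' ∧ Ov ι H' H ∧ P C' T' ι H' n'

/-- mass of the respected rectangles whose corner `0` is in `H` -/
def TT.RM0 (T : TT L C) {D : Type} (A M : Finset L) (j : L) (H : Set (C → ℤ)) (q : ℕ) (B : ℝ)
    (F : Fin 4 → D → Fm L C) (a1 a2 : ℕ) : ℝ :=
  (T.rect j a1 a2).pr {w | T.cor j 0 w ∈ H ∧ ∀ d, T.RR A M j a1 a2 w q B fun l => F l d}

/-- hereditary rectangle hypothesis of the top call -/
def HerX {D : Type} (c k0 s n : ℕ) (T : TT L C) (X : Hk L C) (Z M : Finset L) (H : Set (C → ℤ))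
    (F : D → Fm L C) : Prop :=
  ∀ (C' : Type) [Fintype C'] [DecidableEq C'] (T' : TT L C') ι (k : ℕ), Ref s T k C' T' ι → k ≤ k0 →
  ∀ (H1 : Set (C' → ℤ)) (n1 a1 a2 : ℕ), ∀ j ∈ Z, Ov ι H1 H → n ≤ n1 → k ≤ n1 → Sz n1 T' H1 →
    n1 ^ c ≤ a1 → a1 ≤ a2 → GG ((n1 + a2) ^ c) T' (X.push ι k) →
    (1 / 2 : ℝ) ^ (n1 ^ c) ≤ T'.RM0 (Z ∪ M) M j H1 1 (2 ^ (n1 ^ c)) (fun _ d p => F d (ι p)) a1 a2

theorem Hk.push_id (X : Hk L C) : X.push id 0 = X := by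
  funext C' _ _ T' ι k; simp [Hk.push]

theorem Hk.push_push {C1 C2 : Type} (X : Hk L C) (ι : (C1 ⊕ L → ℝ) → (C ⊕ L → ℝ))
    (ι' : (C2 ⊕ L → ℝ) → (C1 ⊕ L → ℝ)) (k k' : ℕ) :
    (X.push ι k).push ι' k' = X.push (ι ∘ ι') (k + k') := by
  funext C' _ _ T' ι k; simp [Hk.push, add_assoc, Function.comp_assoc]

theorem GX.good {b g : ℕ} {T : TT L C} {X : Hk L C} (h : GX b g C T X) : Good b g L C T := by
  cases g <;> exact h.1

theorem GX.hook {b g : ℕ} {T : TT L C} {X : Hk L C} (h : GX b g C T X) : X C T id 0 := by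
  cases g
  · exact h.2
  · exact h.2.1

theorem GX.ok {b g : ℕ} {T : TT L C} {X : Hk L C} (h : GX b g C T X) : T.Ok := h.good.ok_sm.1
end

theorem GX.mono {L : Type} [Fintype L] [DecidableEq L] {b b' : ℕ} (e : b' ≤ b) :
    ∀ (g' g : ℕ) (C : Type) [Fintype C] [DecidableEq C] (T : TT L C) (X : Hk L C), g' ≤ g →
      GX b g C T X → GX b' g' C T X := by
  intro g'
  induction g' with
  | zero => exact fun g C _ _ T X _ h => ⟨Rm.mono _ _ _ _ _ _ T e (Nat.zero_le _) h.good, h.hook⟩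
  | succ g' ih =>
    intro g C _ _ T X hg h
    obtain ⟨g, rfl⟩ : ∃ g0, g = g0 + 1 := ⟨g - 1, by omega⟩
    refine ⟨Rm.mono _ _ _ _ _ _ T e hg h.good, h.hook, fun j a q ha h1 h2 => ?_⟩
    refine le_trans (T.pr_sub fun z hz k => hz (ih g _ _ _ (by omega) k)) ?_
    exact (h.2.2 j a q (ha.trans e) h1 h2).trans (half_anti e)

theorem GG.mono {L C : Type} [Fintype L] [DecidableEq L] [Fintype C] [DecidableEq C] {b b' : ℕ}
    {T : TT L C} {X : Hk L C} (h : GG b T X) (e : b' ≤ b) : GG b' T X := GX.mono e _ _ _ _ _ e h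

theorem GG.g {L C : Type} [Fintype L] [DecidableEq L] [Fintype C] [DecidableEq C] {b b' : ℕ}
    {T : TT L C} {X : Hk L C} (h : GG b T X) (e : b' ≤ b) : G b' T := (h.mono e).good

/-- fix the centre by averaging, outside an arbitrary small set -/
def CTRX : Prop := ∀ (L C : Type) [Fintype L] [DecidableEq L] [Fintype C] [DecidableEq C]
  (T : TT L C) (n b : ℕ) (j : L) (a : ℕ) (H : Set (T.CC j (Fin 1) → ℤ)) (Bad : Set (C → ℤ)),
  Fintype.card C ≤ 2 ^ n → Fintype.card L ≤ n → a ≤ b → 4 * n + 40 ≤ b →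
  Good b (n + 13) L C T → T.pr Bad ≤ (1 / 2) ^ b →
  (1 / 2 : ℝ) ^ n ≤ (T.cl j (fun _ : Fin 1 => false) fun _ => a).pr H →
  ∃ z, z ∉ Bad ∧ (1 / 2 : ℝ) ^ (n + 1) ≤ (T.rc j a z).pr {y | T.rcw j z y ∈ H}
/-- centre and moved point both in `H` -/
def PAIRX : Prop := ∀ (L C : Type) [Fintype L] [DecidableEq L] [Fintype C] [DecidableEq C]
  (T : TT L C) (n b : ℕ) (j : L) (a q : ℕ) (H Bad : Set (C → ℤ)), Sz n T H → Fintype.card L ≤ n →
  1 ≤ q → q ≤ 2 ^ n → 8 * n + 40 ≤ a → a ≤ b → 8 * n + 60 ≤ b →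
  Good b (2 * n + 15) L C T → T.pr Bad ≤ (1 / 2) ^ b →
  ∃ z, z ∉ Bad ∧ (1 / 2 : ℝ) ^ (2 * n + 3) ≤ (T.rc j a z).pr
    {y | (∃ x ∈ H, T.rci j q z (cf y) = cf x) ∧ ∃ x ∈ H, T.dn j z (cf y) = cf x}

/-- ONE(j): 1% of respected rectangles ⇒ representation of the first function -/
def ONEX (l0 : ℕ) : Prop := ∃ K0 k0 : ℕ, 1 ≤ K0 ∧ ∀ K' : ℕ, ∃ K : ℕ, ∀ (L C : Type) [Fintype L]
  [DecidableEq L] [Fintype C] [DecidableEq C] (T : TT L C) (X : Hk L C) (D : Type) [Fintype D]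
  (n : ℕ) (H : Set (C → ℤ)) (A M : Finset L) (j : L) (q : ℕ) (F : Fin 4 → D → Fm L C),
  Fintype.card L ≤ l0 → Sz n T H → GG (n ^ K) T X → Fintype.card D ≤ n → M.Nonempty → M ⊆ A →
  j ∈ A → j ∉ M → (∀ l d, T.Dat A M (F l d)) → 1 ≤ q → q ≤ 2 ^ n →
  (1 / 2 : ℝ) ^ n ≤ T.RM0 A M j H q (2 ^ n) F (n ^ K0) (2 * n ^ K0) →
  NX k0 (n ^ K) K' n T H X fun C' _ _ T' ι H' n' => ∃ (E : Type) (_ : Fintype E) (q' : ℕ)
    (γ : E → Fm L C') (Y : D → Fm L C') (Λ : D → E → Fm L C'), Fintype.card E ≤ n' ∧ 1 ≤ q' ∧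
      q' ≤ 2 ^ n' ∧ T'.Rep A M j H' q' (2 ^ n') (fun d p => F 0 d (ι p)) γ Y Λ
/-- relative multi-homomorphism theorem, `d` free letters -/
def RMHX (l0 d : ℕ) : Prop := ∃ k0 : ℕ, ∀ K' : ℕ, ∃ K : ℕ, ∀ (L C : Type) [Fintype L]
  [DecidableEq L] [Fintype C] [DecidableEq C] (T : TT L C) (X : Hk L C) (D : Type) [Fintype D]
  (n : ℕ) (H : Set (C → ℤ)) (Z M : Finset L) (q : ℕ) (F : D → Fm L C), Fintype.card L ≤ l0 →
  Z.card = d → Disjoint Z M → M.Nonempty → Sz n T H → GG (n ^ K) T X → Fintype.card D ≤ n →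
  (∀ e, T.Dat (Z ∪ M) M (F e)) → 1 ≤ q → q ≤ 2 ^ n →
  (∀ j ∈ Z, T.Frei (Z ∪ M) M j H q (2 ^ n) F) →
  NX k0 (n ^ K) K' n T H X fun _ _ _ T' ι H' n' => Mh T' Z M H' n' fun e p => F e (ι p)
/-- what Step_d consumes -/
def TOPX (l0 c : ℕ) : Prop := ∃ k0 : ℕ, ∀ K' : ℕ, ∃ K : ℕ, ∀ (L C : Type) [Fintype L]
  [DecidableEq L] [Fintype C] [DecidableEq C] (T : TT L C) (X : Hk L C) (D : Type) [Fintype D]
  (n : ℕ) (H : Set (C → ℤ)) (Z M : Finset L) (F : D → Fm L C), Fintype.card L ≤ l0 →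
  Disjoint Z M → M.Nonempty → Sz n T H → GG (n ^ K) T X → Fintype.card D ≤ n →
  (∀ e, T.Dat (Z ∪ M) M (F e)) → HerX c k0 (n ^ K) n T X Z M H F →
  NX k0 (n ^ K) K' n T H X fun _ _ _ T' ι H' n' => Mh T' Z M H' n' fun e p => F e (ι p)
end Crest.Agent.N49.Rm
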