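import Crest.Agent.N49.Rm.Defs
/-! Row 49, block RMH (helper18): solving the triangular system, the projections `Pj`. -/
set_option autoImplicit false
set_option linter.unusedSectionVars false
noncomputable section
namespace Crest.Agent.N49.Rm.TT
open Finset

variable {L C : Type} [Fintype L] [DecidableEq L] [Fintype C] [DecidableEq C] {T : TT L C}

/-- `p` with the block of type `S` taken from `x` -/
def ub (T : TT L C) (S : Finset L) (p : C ⊕ L → ℝ) (x : C → ℝ) : C ⊕ L → ℝ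
  | .inl c => if T.ty c = S then x c else p (.inl c)
  | .inr ℓ => p (.inr ℓ)

theorem Ok.phi_congr (h : T.Ok) {c : C} (hc : (T.ty c).Nonempty) {p p' : C ⊕ L → ℝ}
    (e : ∀ v, T.tv v ⊆ T.ty c → (T.tv v).Nonempty → p v = p' v) : T.Φ p c = T.Φ p' c :=
  (h.dat c hc).1 p p' e

theorem Ok.phi_cmb (h : T.Ok) {c : C} {ℓ : L} (hc : ℓ ∈ T.ty c) (a b : ℝ) {p p' : C ⊕ L → ℝ}
    (e : ∀ v, ℓ ∉ T.tv v → p v = p' v) :
    T.Φ (T.cmb ℓ a b p p') c = a * T.Φ p c + b * T.Φ p' c :=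
  (h.dat c ⟨ℓ, hc⟩).2 ℓ hc a b p p' e

theorem Ok.phi_cmb' (h : T.Ok) {c : C} {ℓ : L} (hc : ℓ ∉ T.ty c) (a b : ℝ) (p p' : C ⊕ L → ℝ) :
    T.Φ (T.cmb ℓ a b p p') c = T.Φ p c := by
  rcases (T.ty c).eq_empty_or_nonempty with e | e
  · rw [h.dead c _ e, h.dead c _ e]; exact if_neg hc
  · exact h.phi_congr e fun v hv _ => if_neg fun k => hc (hv k)

/-- uniqueness inside `A` -/
theorem Ok.uniq (h : T.Ok) {u : Finset L → Prop} (hu : ¬ u ∅) (A : Finset L) {p p' : C ⊕ L → ℝ}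
    (h1 : ∀ v, T.tv v ⊆ A → (T.tv v).Nonempty → (∀ c, v = .inl c → ¬ u (T.ty c)) → p v = p' v)
    (h2 : ∀ c, u (T.ty c) → T.ty c ⊆ A → T.Φ p c = T.Φ p' c) :
    ∀ v, T.tv v ⊆ A → (T.tv v).Nonempty → p v = p' v := by
  have key : ∀ k, ∀ c, (T.ty c).card = k → u (T.ty c) → T.ty c ⊆ A → p (.inl c) = p' (.inl c) := by
    intro k
    induction k using Nat.strong_induction_on with
    | _ k ih =>
      intro c hk hc hA
      have e := h.inj (T.ty c) p (T.ub (T.ty c) p fun c => p' (.inl c)) (fun _ => rfl)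
        (fun c' k => (if_neg k).symm) fun c' k => by
          rw [h2 c' (k ▸ hc) (k ▸ hA)]
          refine h.phi_congr (k ▸ nonempty_iff_ne_empty.2 fun z => hu (z ▸ hc)) fun v hv hn => ?_
          rw [k] at hv
          cases v with
          | inr ℓ => exact (h1 _ (hv.trans hA) hn (by simp)).symm
          | inl c'' =>
            by_cases z : T.ty c'' = T.ty c
            · exact (if_pos z).symm
            · refine Eq.trans ?_ (if_neg z).symm
              by_cases w : u (T.ty c'')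
              · exact (ih _ (hk ▸ card_lt_card (lt_of_le_of_ne hv z)) c'' rfl w (hv.trans hA)).symm
              · exact (h1 _ (hv.trans hA) hn fun c k => by cases k; exact w).symm
      exact (congrFun e (.inl c)).trans (if_pos rfl)
  intro v hv hn
  cases v with
  | inr ℓ => exact h1 _ hv hn (by simp)
  | inl c =>
    by_cases w : u (T.ty c)
    · exact key _ c rfl w hv
    · exact h1 _ hv hn fun c k => by cases k; exact w

theorem Ok.blk_sol (h : T.Ok) {S : Finset L} (hS : S.Nonempty) (p : C ⊕ L → ℝ) (t : C → ℝ) :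
    ∃ x, ∀ c, T.ty c = S → T.Φ (T.ub S p x) c = t c := by
  obtain ⟨ℓ, hl⟩ := hS
  let ex : ({c // T.ty c = S} → ℝ) → C → ℝ := fun x c => if k : T.ty c = S then x ⟨c, k⟩ else 0
  let z : ({c // T.ty c = S} → ℝ) → C ⊕ L → ℝ := fun x => T.ub S (T.cmb ℓ 0 0 p p) (ex x)
  have zo : ∀ x v, ℓ ∉ T.tv v → z x v = p v := fun x v k => by
    cases v with
    | inr m => exact if_neg k
    | inl c => exact (if_neg fun e : T.ty c = S => k (show ℓ ∈ T.ty c from e ▸ hl)).trans (if_neg k)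
  have zc : ∀ (a b : ℝ) x x', z (a • x + b • x') = T.cmb ℓ a b (z x) (z x') := fun a b x x' => by
    funext v
    by_cases k : ℓ ∈ T.tv v
    · cases v with
      | inr m => simp [z, ub, cmb, k]
      | inl c => by_cases e : T.ty c = S <;> simp [z, ub, cmb, k, ex, e]
    · rw [zo _ _ k, cmb, if_neg k, zo _ _ k]
  have zl : ∀ (a b : ℝ) x x' (c : {c // T.ty c = S}),
      T.Φ (z (a • x + b • x')) c = a * T.Φ (z x) c + b * T.Φ (z x') c := fun a b x x' c => by
    rw [zc, h.phi_cmb (c.2.symm ▸ hl) a b fun v k => (zo _ _ k).trans (zo _ _ k).symm]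
  let g : ({c // T.ty c = S} → ℝ) →ₗ[ℝ] {c // T.ty c = S} → ℝ :=
    { toFun := fun x c => T.Φ (z x) c
      map_add' := fun x x' => funext fun c => by simpa using zl 1 1 x x' c
      map_smul' := fun a x => funext fun c => by simpa using zl a 0 x x c }
  have uo : ∀ x v, ℓ ∉ T.tv v → T.ub S p x v = p v := fun x v k => by
    cases v with
    | inr m => rfl
    | inl c => exact if_neg fun e : T.ty c = S => k (show ℓ ∈ T.ty c from e ▸ hl)
  have gu : ∀ x (c : {c // T.ty c = S}),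
      T.Φ (T.ub S p (ex x)) c = g x c + T.Φ (T.ub S p 0) c := fun x c => by
    have e : T.ub S p (ex x) = T.cmb ℓ 1 1 (z x) (T.ub S p 0) := by
      funext v
      by_cases k : ℓ ∈ T.tv v
      · cases v with
        | inr m => simp [z, ub, cmb, k]
        | inl c => by_cases e : T.ty c = S <;> simp [z, ub, cmb, k, e]
      · rw [uo _ _ k, cmb, if_neg k, zo _ _ k]
    rw [e, h.phi_cmb (c.2.symm ▸ hl) 1 1 fun v k => (zo _ _ k).trans (uo _ _ k).symm, one_mul,
      one_mul]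
    rfl
  have gi : Function.Injective g := (injective_iff_map_eq_zero g).2 fun x hx => by
    have e := h.inj S (T.ub S p (ex x)) (T.ub S p 0) (fun _ => rfl)
      (fun c k => (if_neg k).trans (if_neg k).symm) fun c k => by
        rw [gu x ⟨c, k⟩, hx]; simp
    funext c
    simpa [ub, ex, c.2] using congrFun e (.inl c)
  obtain ⟨x, hx⟩ := LinearMap.injective_iff_surjective.1 gi fun c => t c - T.Φ (T.ub S p 0) c
  exact ⟨ex x, fun c k => by rw [gu x ⟨c, k⟩, hx]; simp⟩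

theorem Ok.exists_sol (h : T.Ok) {u : Finset L → Prop} (hu : ¬ u ∅) (t : C → ℝ) (p : C ⊕ L → ℝ) :
    ∃ p', (∀ v, (∀ c, v = .inl c → ¬ u (T.ty c)) → p' v = p v) ∧
      ∀ c, u (T.ty c) → T.Φ p' c = t c := by
  suffices k : ∀ D : Finset (Finset L), ∃ p', (∀ v, (∀ c, v = .inl c → ¬ u (T.ty c)) → p' v = p v) ∧
      ∀ c, u (T.ty c) → T.ty c ∈ D → T.Φ p' c = t c by
    obtain ⟨p', a, b⟩ := k univ
    exact ⟨p', a, fun c k => b c k (mem_univ _)⟩
  intro D
  refine Finset.induction_on_max_value (fun S : Finset L => S.card) D ⟨p, fun _ _ => rfl, by simp⟩ ?_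
  · intro S D hS hD ih
    obtain ⟨p', a, b⟩ := ih
    by_cases w : u S
    · obtain ⟨x, hx⟩ := h.blk_sol (nonempty_iff_ne_empty.2 fun z => hu (z ▸ w)) p' t
      refine ⟨T.ub S p' x, fun v hv => ?_, fun c k m => ?_⟩
      · rw [← a v hv]
        cases v with
        | inr m => rfl
        | inl c => exact if_neg fun e : T.ty c = S => hv c rfl (e ▸ w)
      · rcases mem_insert.1 m with m | m
        · exact hx c m
        · rw [← b c k m]
          refine h.phi_congr (nonempty_iff_ne_empty.2 fun z => hu (z ▸ k)) fun v hv _ => ?_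
          cases v with
          | inr m => rfl
          | inl c' =>
            refine if_neg fun e : T.ty c' = S => hS ?_
            have : S = T.ty c := eq_of_subset_of_card_le (e ▸ hv) (hD _ m)
            exact this ▸ m
    · exact ⟨p', a, fun c k m => b c k ((mem_insert.1 m).resolve_left fun e => w (e ▸ k))⟩

open Classical in
/-- the point equal to `p` off the types `u` whose errors vanish on the types `u` -/
def sol (T : TT L C) (u : Finset L → Prop) (p : C ⊕ L → ℝ) : C ⊕ L → ℝ :=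
  if k : ∃ p', (∀ v, (∀ c, v = .inl c → ¬ u (T.ty c)) → p' v = p v) ∧
    ∀ c, u (T.ty c) → T.Φ p' c = 0 then k.choose else p

variable {u : Finset L → Prop} {A M : Finset L} {F G : Fm L C} {y : C → ℤ} {B : ℝ}

theorem sol_off (p : C ⊕ L → ℝ) {v : C ⊕ L} (k : ∀ c, v = .inl c → ¬ u (T.ty c)) :
    T.sol u p v = p v := by
  unfold sol
  split_ifs with e
  · exact e.choose_spec.1 v k
  · rfl

theorem sol_inl (p : C ⊕ L → ℝ) {c : C} (k : ¬ u (T.ty c)) : T.sol u p (.inl c) = p (.inl c) :=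
  sol_off p fun _ e => by cases e; exact k

theorem sol_inr (p : C ⊕ L → ℝ) (ℓ : L) : T.sol u p (.inr ℓ) = p (.inr ℓ) := sol_off p (by simp)

theorem Ok.sol_phi (h : T.Ok) (hu : ¬ u ∅) (p : C ⊕ L → ℝ) {c : C} (k : u (T.ty c)) :
    T.Φ (T.sol u p) c = 0 := by
  have e := h.exists_sol hu (fun _ => 0) p
  unfold sol
  rw [dif_pos e]
  exact e.choose_spec.2 c k

theorem Ok.sol_phi' (h : T.Ok) (p : C ⊕ L → ℝ) {c : C} (k : ∀ S ⊆ T.ty c, ¬ u S) :
    T.Φ (T.sol u p) c = T.Φ p c := by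
  rcases (T.ty c).eq_empty_or_nonempty with e | e
  · rw [h.dead c _ e, h.dead c _ e, sol_inl p (k _ Subset.rfl)]
  · exact h.phi_congr e fun v hv _ => sol_off p fun c' z => by cases z; exact k _ hv

/-- `sol` only sees the coordinates off `u` -/
theorem Ok.sol_congr (h : T.Ok) (hu : ¬ u ∅) (A : Finset L) {p p' : C ⊕ L → ℝ}
    (e : ∀ v, T.tv v ⊆ A → (T.tv v).Nonempty → (∀ c, v = .inl c → ¬ u (T.ty c)) → p v = p' v) :
    ∀ v, T.tv v ⊆ A → (T.tv v).Nonempty → T.sol u p v = T.sol u p' v :=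
  h.uniq hu A (fun v a b c => by rw [sol_off p c, sol_off p' c, e v a b c]) fun c k _ => by
    rw [h.sol_phi hu p k, h.sol_phi hu p' k]

theorem Ok.sol_eq (h : T.Ok) (hu : ¬ u ∅) {p p' : C ⊕ L → ℝ}
    (e : ∀ v, (∀ c, v = .inl c → ¬ u (T.ty c)) → p' v = p v) (k : ∀ c, u (T.ty c) → T.Φ p' c = 0) :
    T.sol u p = p' := by
  funext v
  rcases (T.tv v).eq_empty_or_nonempty with z | z
  · have : ∀ c, v = .inl c → ¬ u (T.ty c) := fun c w => by
      cases w; exact fun m => hu ((show T.ty c = ∅ from z) ▸ m)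
    rw [sol_off p this, e v this]
  · exact h.uniq hu univ (fun v _ _ c => by rw [sol_off p c, e v c])
      (fun c m _ => by rw [h.sol_phi hu p m, k c m]) v (subset_univ _) z

theorem Ok.sol_agree (h : T.Ok) (hu : ¬ u ∅) {ℓ : L} {p p' : C ⊕ L → ℝ}
    (e : ∀ v, ℓ ∉ T.tv v → p v = p' v) : ∀ v, ℓ ∉ T.tv v → T.sol u p v = T.sol u p' v := by
  intro v k
  rcases (T.tv v).eq_empty_or_nonempty with z | z
  · have : ∀ c, v = .inl c → ¬ u (T.ty c) := fun c w => by
      cases w; exact fun m => hu ((show T.ty c = ∅ from z) ▸ m)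
    rw [sol_off p this, sol_off p' this, e v k]
  · exact h.sol_congr hu (univ.erase ℓ) (fun v a _ _ => e v fun m => by simpa using a m) v
      (fun m hm => by simpa using fun e : m = ℓ => k (e ▸ hm)) z

theorem Ok.sol_cmb (h : T.Ok) (hu : ¬ u ∅) (ℓ : L) (a b : ℝ) {p p' : C ⊕ L → ℝ}
    (e : ∀ v, ℓ ∉ T.tv v → p v = p' v) :
    T.sol u (T.cmb ℓ a b p p') = T.cmb ℓ a b (T.sol u p) (T.sol u p') := by
  refine h.sol_eq hu (fun v k => by simp only [cmb, sol_off _ k]) fun c k => ?_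
  by_cases m : ℓ ∈ T.ty c
  · rw [h.phi_cmb m a b (h.sol_agree hu e), h.sol_phi hu p k, h.sol_phi hu p' k]; simp
  · rw [h.phi_cmb' m, h.sol_phi hu p k]

theorem sol_fib (hM : ∀ S, u S → ¬ Disjoint S M) {p : C ⊕ L → ℝ} (k : p ∈ T.Fib M y) :
    T.sol u p ∈ T.Fib M y :=
  ⟨fun c d => (sol_inl p fun m => hM _ m d).trans (k.1 c d), fun ℓ => (sol_inr p ℓ).trans (k.2 ℓ)⟩

/-- kill the errors of the types `u` -/
def Pj (T : TT L C) (u : Finset L → Prop) (F : Fm L C) : Fm L C := fun p => F (T.sol u p)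

/-- the mixed types: contain `i` and meet `M` -/
def Mx (i : L) (M S : Finset L) : Prop := i ∈ S ∧ ¬ Disjoint S M

theorem not_mx_empty (i : L) (M : Finset L) : ¬ Mx i M ∅ := fun h => by simpa using h.1

/-- `F` does not see the types `u` -/
def Fr (T : TT L C) (u : Finset L → Prop) (F : Fm L C) : Prop :=
  ∀ p p', (∀ v, (∀ c, v = .inl c → ¬ u (T.ty c)) → p v = p' v) → F p = F p'

theorem Ok.pj_ty (h : T.Ok) (hu : ¬ u ∅) (hF : T.Ty A F) : T.Ty A (T.Pj u F) :=
  fun _ _ e => hF _ _ (h.sol_congr hu A fun v a b _ => e v a b)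

theorem Ok.pj_lin (h : T.Ok) (hu : ¬ u ∅) {ℓ : L} (hF : T.Lin ℓ F) : T.Lin ℓ (T.Pj u F) :=
  fun a b _ _ e => by
    simp only [Pj]
    rw [h.sol_cmb hu ℓ a b e, hF a b _ _ (h.sol_agree hu e)]

theorem Ok.pj_dat (h : T.Ok) (hu : ¬ u ∅) (hF : T.Dat A M F) : T.Dat A M (T.Pj u F) :=
  ⟨h.pj_ty hu hF.1, fun ℓ k => h.pj_lin hu (hF.2 ℓ k)⟩

theorem Ok.pj_fr (h : T.Ok) (hu : ¬ u ∅) (F : Fm L C) : T.Fr u (T.Pj u F) := fun p p' e => by
  simp only [Pj]
  rw [h.sol_eq hu (p := p) (p' := T.sol u p') (fun v k => by rw [sol_off _ k, e v k])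
    fun c k => h.sol_phi hu p' k]

theorem Fr.pj (hF : T.Fr u F) : T.Pj u F = F := funext fun p => hF _ _ fun _ k => sol_off p k

/-- for up-closed `u` inside the types that meet `M` the projection has norm at most one, and only
the cube conditions off `u` are needed -/
theorem Ok.pj_sm (h : T.Ok) (hu : ¬ u ∅) (hM : ∀ S, u S → ¬ Disjoint S M)
    (hU : ∀ S S', u S → S ⊆ S' → u S') (hF : T.Sm A M y B F) {p : C ⊕ L → ℝ} (k : p ∈ T.Fib M y)
    (hc : ∀ c, T.ty c ⊆ A → ¬ Disjoint (T.ty c) M → ¬ u (T.ty c) → |T.Φ p c| ≤ 1) :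
    |T.Pj u F p| ≤ B := by
  refine hF _ (sol_fib hM k) fun c a b => ?_
  by_cases m : u (T.ty c)
  · rw [h.sol_phi hu p m]; simp
  · rw [h.sol_phi' p fun S s z => m (hU _ _ z s)]; exact hc c a b m

theorem Ok.pj_mx (h : T.Ok) (i : L) (hF : T.Sm A M y B F) : T.Sm A M y B (T.Pj (Mx i M) F) :=
  fun _ k hc => h.pj_sm (not_mx_empty i M) (fun _ z => z.2)
    (fun _ _ z s => ⟨s z.1, fun d => z.2 (d.mono_left s)⟩) hF k fun c a b _ => hc c a b

/-- scaling of the marked blocks -/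
theorem Ok.sm_scale (h : T.Ok) (hF : ∀ ℓ ∈ M, T.Lin ℓ F) (hs : T.Sm A M y B F) {K : ℝ} (hK : 1 ≤ K)
    {p : C ⊕ L → ℝ} (k : p ∈ T.Fib M y)
    (hc : ∀ c, T.ty c ⊆ A → ¬ Disjoint (T.ty c) M → |T.Φ p c| ≤ K) : |F p| ≤ K ^ M.card * B := by
  have K0 : 0 < K := by linarith
  suffices z : ∀ N ⊆ M, ∃ p' ∈ T.Fib M y, F p = K ^ N.card * F p' ∧
      ∀ c, |T.Φ p' c| ≤ |T.Φ p c| ∧ (¬ Disjoint (T.ty c) N → K * |T.Φ p' c| ≤ |T.Φ p c|) by
    obtain ⟨p', a, b, c⟩ := z M Subset.rfl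
    rw [b, abs_mul, abs_of_pos (pow_pos K0 _)]
    refine mul_le_mul_of_nonneg_left (hs p' a fun d e f => ?_) (pow_pos K0 _).le
    exact le_of_mul_le_mul_left (by linarith [(c d).2 f, hc d e f]) K0
  intro N
  induction N using Finset.induction_on with
  | empty => exact fun _ => ⟨p, k, by simp, by simp⟩
  | insert ℓ N hl ih =>
    intro hN
    obtain ⟨p', a, b, c⟩ := ih ((subset_insert _ _).trans hN)
    have lM := hN (mem_insert_self _ _)
    refine ⟨T.cmb ℓ K⁻¹ 0 p' p', ⟨fun d e => ?_, fun m => ?_⟩, ?_, fun d => ?_⟩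
    · exact (if_neg fun z : ℓ ∈ T.ty d => disjoint_left.1 e z lM).trans (a.1 d e)
    · by_cases z : ℓ = m
      · subst z; simp [cmb, tv, a.2 ℓ, lM]
      · simp [cmb, tv, z, a.2 m]
    · rw [hF ℓ lM _ _ _ _ fun _ _ => rfl, card_insert_of_notMem hl, b]; field_simp; ring
    · by_cases z : ℓ ∈ T.ty d
      · rw [h.phi_cmb z _ _ fun _ _ => rfl, zero_mul, add_zero, abs_mul, abs_of_pos (inv_pos.2 K0),
          ← mul_assoc, mul_inv_cancel₀ K0.ne', one_mul]
        exact ⟨(mul_le_of_le_one_left (abs_nonneg _) (inv_le_one_of_one_le₀ hK)).trans (c d).1,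
          fun _ => (c d).1⟩
      · rw [h.phi_cmb' z]
        exact ⟨(c d).1, fun e => (c d).2 fun f => e (disjoint_insert_right.2 ⟨z, f⟩)⟩

end Crest.Agent.N49.Rm.TT
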