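import Crest.Agent.N49.Rm.Api
import Crest.Agent.N49.Rm.Sol
/-! Row 49, block RMH (helper57): morphisms of typed towers, pull-back of data and relations. -/
set_option autoImplicit false
set_option linter.unusedSectionVars false
noncomputable section
namespace Crest.Agent.N49.Rm
open Finset TT
variable {L C C' C'' : Type} [Fintype L] [DecidableEq L] [Fintype C] [DecidableEq C]
  [Fintype C'] [DecidableEq C'] [Fintype C''] [DecidableEq C'']

/-- typed linear maps of points -/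
structure Lm (T' : TT L C') (T : TT L C) (ι : (C' ⊕ L → ℝ) → (C ⊕ L → ℝ)) : Prop where
  e : ∀ p ℓ, ι p (.inr ℓ) = p (.inr ℓ)
  dat : ∀ c, (T.ty c).Nonempty → T'.Dat (T.ty c) (T.ty c) fun p => ι p (.inl c)
  dead : ∀ c, T.ty c = ∅ → ∀ p p', (∀ c', T'.ty c' = ∅ → p (.inl c') = p' (.inl c')) →
    ι p (.inl c) = ι p' (.inl c)

/-- morphisms: integral, errors are multiplied by at most `κ` -/
structure Mor (T' : TT L C') (T : TT L C) (ι : (C' ⊕ L → ℝ) → (C ⊕ L → ℝ)) (κ : ℝ) : Prop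
    extends Lm T' T ι where
  int : ∀ p, IntP p → IntP (ι p)
  cube : ∀ (M : Finset L) p c (r : ℝ), 0 ≤ r → (∀ ℓ, p (.inr ℓ) = if ℓ ∈ M then 0 else 1) →
    ¬ Disjoint (T.ty c) M →
    (∀ c', T'.ty c' ⊆ T.ty c → ¬ Disjoint (T'.ty c') M → |T'.Φ p c'| ≤ r) → |T.Φ (ι p) c| ≤ κ * r

variable {T : TT L C} {T' : TT L C'} {T'' : TT L C''} {ι : (C' ⊕ L → ℝ) → (C ⊕ L → ℝ)}
  {ι' : (C'' ⊕ L → ℝ) → (C' ⊕ L → ℝ)} {A M : Finset L} {F : Fm L C} {κ κ' : ℝ}

namespace Lm
theorem agree (h : Lm T' T ι) {A : Finset L} {p p' : C' ⊕ L → ℝ}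
    (e : ∀ v, T'.tv v ⊆ A → (T'.tv v).Nonempty → p v = p' v) :
    ∀ v, T.tv v ⊆ A → (T.tv v).Nonempty → ι p v = ι p' v := by
  rintro (c | ℓ) h1 h2
  · exact (h.dat c h2).1 p p' fun v a b => e v (a.trans h1) b
  · rw [h.e, h.e]; exact e (.inr ℓ) h1 h2

theorem off (h : Lm T' T ι) {ℓ : L} {p p' : C' ⊕ L → ℝ} (e : ∀ v, ℓ ∉ T'.tv v → p v = p' v) :
    ∀ v, ℓ ∉ T.tv v → ι p v = ι p' v := by
  rintro (c | m) h1
  · rcases (T.ty c).eq_empty_or_nonempty with h0 | h0
    · exact h.dead c h0 p p' fun c' hc => e (.inl c') (by simp [hc])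
    · exact (h.dat c h0).1 p p' fun v a _ => e v fun k => h1 (a k)
  · rw [h.e, h.e]; exact e (.inr m) h1

theorem cmb (h : Lm T' T ι) (ℓ : L) (a b : ℝ) {p p' : C' ⊕ L → ℝ}
    (e : ∀ v, ℓ ∉ T'.tv v → p v = p' v) :
    ι (T'.cmb ℓ a b p p') = T.cmb ℓ a b (ι p) (ι p') := by
  funext v
  by_cases hv : ℓ ∈ T.tv v
  · rw [cmb_in hv]
    rcases v with c | m
    · exact (h.dat c ⟨ℓ, hv⟩).2 ℓ hv a b p p' e
    · rw [h.e, h.e, h.e]; exact cmb_in (T := T') (v := .inr m) hv
  · rw [cmb_out hv]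
    exact h.off (ℓ := ℓ) (fun v hv => cmb_out hv) v hv

theorem ty (h : Lm T' T ι) (k : T.Ty A F) : T'.Ty A fun p => F (ι p) :=
  fun _ _ e => k _ _ (h.agree e)

theorem lin (h : Lm T' T ι) {ℓ : L} (k : T.Lin ℓ F) : T'.Lin ℓ fun p => F (ι p) :=
  fun a b p p' e => by
    show F (ι _) = _
    rw [h.cmb ℓ a b e]; exact k a b _ _ (h.off e)

theorem pull (h : Lm T' T ι) (k : T.Dat A M F) : T'.Dat A M fun p => F (ι p) :=
  ⟨h.ty k.1, fun ℓ hℓ => h.lin (k.2 ℓ hℓ)⟩

theorem fib (h : Lm T' T ι) {y : C → ℤ} {y' : C' → ℤ} (e : ι (cf y') = cf y) {p : C' ⊕ L → ℝ}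
    (hp : p ∈ T'.Fib M y') : ι p ∈ T.Fib M y := by
  refine ⟨fun c hc => ?_, fun ℓ => by rw [h.e]; exact hp.2 ℓ⟩
  have : ι p (.inl c) = ι (cf y') (.inl c) := by
    rcases (T.ty c).eq_empty_or_nonempty with h0 | h0
    · exact h.dead c h0 _ _ fun c' hc' => hp.1 c' (by simp [hc'])
    · refine (h.dat c h0).1 _ _ ?_
      rintro (c' | ℓ) a _
      · exact hp.1 c' (hc.mono_left a)
      · have : ℓ ∉ M := fun k => disjoint_left.1 hc (a (by simp)) k
        rw [hp.2 ℓ, if_neg this]; rfl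
  rw [this, e]; rfl

theorem id' (T : TT L C) : Lm T T id :=
  ⟨fun _ _ => rfl, fun c hc => Dat.coord (v := .inl c) subset_rfl hc subset_rfl,
    fun c hc _ _ e => e c hc⟩

theorem comp (h : Lm T' T ι) (k : Lm T'' T' ι') : Lm T'' T (ι ∘ ι') :=
  ⟨fun p ℓ => by simp [h.e, k.e], fun c hc => k.pull (h.dat c hc),
    fun c hc p p' e => h.dead c hc _ _ fun c' hc' => k.dead c' hc' p p' e⟩
end Lm

/-- pull-back of a relation along an arbitrary map with the four obvious properties -/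
theorem rel_pull {L' : Type} [Fintype L'] [DecidableEq L'] {T' : TT L' C'} {A' M' : Finset L'}
    {ι : (C' ⊕ L' → ℝ) → (C ⊕ L → ℝ)} {y : C → ℤ} {y' : C' → ℤ} {q : ℕ} {B : ℝ} (hT : T.Ok)
    (hκ : 1 ≤ κ) (hd : ∀ I, T.Dat A M I → T'.Dat A' M' fun p => I (ι p))
    (hf : ∀ p ∈ T'.Fib M' y', ι p ∈ T.Fib M y) (hi : ∀ p ∈ T'.Fib M' y', IntP p → IntP (ι p))
    (hc : ∀ p ∈ T'.Fib M' y', T'.Cube A' M' p → ∀ c, T.ty c ⊆ A → ¬ Disjoint (T.ty c) M →
      |T.Φ (ι p) c| ≤ κ) (hF : ∀ ℓ ∈ M, T.Lin ℓ F) (h : T.Rel A M y q B F) :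
    T'.Rel A' M' y' q (κ ^ M.card * B) fun p => F (ι p) := by
  obtain ⟨I, ⟨h1, h2⟩, h3⟩ := h
  refine ⟨fun p => I (ι p), ⟨hd I h1, fun p hp k => h2 _ (hf p hp) (hi p hp k)⟩, fun p hp k => ?_⟩
  exact hT.sm_scale (fun ℓ hℓ => (hF ℓ hℓ).sub ((h1.2 ℓ hℓ).div _)) h3 hκ (hf p hp) (hc p hp k)

namespace Mor
theorem id' (T : TT L C) : Mor T T id 1 :=
  { Lm.id' T with
    int := fun _ h => h
    cube := fun _ _ c _ _ _ h k => by simpa using k c subset_rfl h }

theorem comp (h : Mor T' T ι κ) (k : Mor T'' T' ι' κ') (hκ : 0 ≤ κ') :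
    Mor T'' T (ι ∘ ι') (κ * κ') :=
  { h.toLm.comp k.toLm with
    int := fun p e => h.int _ (k.int p e)
    cube := fun M p c r hr he hc e => by
      rw [mul_assoc]
      refine h.cube M _ c _ (by positivity) (fun ℓ => by rw [k.e]; exact he ℓ) hc fun c' a b => ?_
      exact k.cube M p c' r hr he b fun c'' a' b' => e c'' (a'.trans a) b' }

theorem rel (h : Mor T' T ι κ) (hT : T.Ok) (hκ : 1 ≤ κ) {y : C → ℤ} {y' : C' → ℤ}
    (e : ι (cf y') = cf y) {q : ℕ} {B : ℝ} (hF : ∀ ℓ ∈ M, T.Lin ℓ F) (k : T.Rel A M y q B F) :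
    T'.Rel A M y' q (κ ^ M.card * B) fun p => F (ι p) :=
  rel_pull hT hκ (fun _ => h.pull) (fun _ => h.fib e) (fun p _ => h.int p)
    (fun p hp hc c a b => by
      simpa using h.cube M p c 1 zero_le_one hp.2 b fun c' a' b' => hc c' (a'.trans a) b') hF k

theorem exists_cf (h : Mor T' T ι κ) (y' : C' → ℤ) : ∃ y, ι (cf y') = cf y := by
  choose n hn using h.int _ (intP_cf y')
  refine ⟨fun c => n (.inl c), funext ?_⟩
  rintro (c | ℓ)
  · exact hn _
  · rw [h.e]; rfl
end Mor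

/-- `rci` is a morphism -/
theorem mor_rc (hT : T.Ok) (j : L) {a q : ℕ} (z : C → ℤ) (hq : q ≤ 2 ^ a) :
    Mor (T.rc j a z) T (T.rci j q z) 2 := by
  have tyl : ∀ c, (T.rc j a z).tv (.inl (.inl c)) = T.ty c := fun _ => rfl
  have hdn : ∀ c, j ∈ T.ty c → (T.rc j a z).Dat ((T.ty c).erase j) ((T.ty c).erase j)
      fun p => T.dn j z p (.inl c) := by
    intro c hc
    by_cases h1 : T.ty c = {j}
    · simp only [dn, dif_pos hc, if_pos h1]
      exact ⟨Ty.const _, by simp [h1]⟩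
    · simp only [dn, dif_pos hc, if_neg h1]
      refine Dat.coord (T := T.rc j a z) (v := Sum.inl (Sum.inr ⟨c, hc⟩)) subset_rfl ?_ subset_rfl
      show ((T.ty c).erase j).Nonempty
      rw [nonempty_iff_ne_empty]
      intro h2
      rcases (erase_eq_empty_iff _ _).1 h2 with h3 | h3
      · simp [h3] at hc
      · exact h1 h3
  refine ⟨⟨fun _ _ => rfl, fun c hc => ?_, fun c hc p p' e => ?_⟩, fun p hp v => ?_, ?_⟩
  · by_cases h : j ∈ T.ty c
    · simp only [rci, if_pos h]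
      have h1 := (Dat.coord (T := T.rc j a z) (v := .inr j) (A := {j}) (M := {j}) subset_rfl
        (by simp) subset_rfl).mul (hdn c h) (by simp) (by simp)
      rw [← insert_eq, insert_erase h] at h1
      exact h1.add ((Dat.coord (T := T.rc j a z) (v := Sum.inl (Sum.inl c)) subset_rfl hc subset_rfl).smul _)
    · simp only [rci, if_neg h]
      exact Dat.coord (T := T.rc j a z) (v := Sum.inl (Sum.inl c)) subset_rfl hc subset_rfl
  · have h : j ∉ T.ty c := by simp [hc]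
    simp only [rci, if_neg h]
    exact e (.inl c) hc
  · rcases v with c | ℓ
    · by_cases h : j ∈ T.ty c
      · obtain ⟨n1, h1⟩ := hp (.inr j)
        obtain ⟨n2, h2⟩ := hp (.inl (.inl c))
        obtain ⟨n3, h3⟩ := hp (.inl (.inr ⟨c, h⟩))
        simp only [rci, if_pos h, dn, dif_pos h, h1, h2, h3]
        split_ifs
        · exact ⟨n1 * z c + q * n2, by push_cast; ring⟩
        · exact ⟨n1 * n3 + q * n2, by push_cast; ring⟩
      · simp only [rci, if_neg h]; exact hp _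
    · exact hp _
  · intro M p c r hr he hc k
    have hne : (T.ty c).Nonempty := by
      rw [nonempty_iff_ne_empty]; intro h0; simp [h0] at hc
    by_cases h : j ∈ T.ty c
    · have e1 : T.rci j q z p = T.cmb j (p (.inr j)) q (T.dn j z p) (T.up j p) := by
        funext v
        rcases v with c' | ℓ
        · by_cases h' : j ∈ T.ty c'
          · rw [cmb_in (by simpa using h')]; simp only [rci, if_pos h', up]
          · rw [cmb_out (by simpa using h')]; simp only [rci, if_neg h', dn, dif_neg h']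
        · by_cases h' : ℓ = j
          · subst h'; rw [cmb_in (by simp)]; simp [rci, dn, up]
          · rw [cmb_out (by simpa using Ne.symm h')]; simp [rci, dn, h']
      have e2 : ∀ v, j ∉ T.tv v → T.dn j z p v = T.up j p v := by
        rintro (c' | ℓ) h'
        · simp only [dn, up, dif_neg (by simpa using h' : j ∉ T.ty c')]
        · have : ℓ ≠ j := by intro h0; simp [h0] at h'
          simp [dn, up, this]
      rw [e1, hT.phi_cmb h _ _ e2]
      have k1 := k (.inl c) subset_rfl hc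
      simp only [rc, Sum.elim_inl, if_pos h, abs_mul] at k1
      have k2 : |(q : ℝ) * T.Φ (T.up j p) c| ≤ r := by
        rw [abs_mul]
        refine le_trans (mul_le_mul_of_nonneg_right ?_ (abs_nonneg _)) k1
        rw [abs_of_nonneg (by positivity), abs_of_nonneg (by positivity)]
        exact_mod_cast hq
      have k3 : |p (.inr j) * T.Φ (T.dn j z p) c| ≤ r := by
        rw [he j]
        by_cases hj : j ∈ M
        · simpa [hj] using hr
        · have h1 : T.ty c ≠ {j} := by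
            intro h1; apply hc; simp [h1, hj]
          have := k (.inr ⟨c, h⟩) (erase_subset _ _) (by
            intro h2; apply hc
            rw [← insert_erase h, disjoint_insert_left]; exact ⟨hj, h2⟩)
          simpa [rc, h1, hj] using this
      calc _ ≤ _ := abs_add_le _ _
        _ ≤ 2 * r := by linarith
    · have k1 := k (.inl c) subset_rfl hc
      simp only [rc, Sum.elim_inl, if_neg h, one_mul] at k1
      have : T.Φ (T.rci j q z p) c = T.Φ (T.up j p) c := by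
        refine hT.phi_congr hne ?_
        rintro (c' | ℓ) a _
        · have : j ∉ T.ty c' := fun k => h (a k)
          simp [rci, up, this]
        · have : ℓ ≠ j := by intro h0; exact h (a (by simp [h0]))
          simp [rci, up, this]
      rw [this]; linarith
end Crest.Agent.N49.Rm
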