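import Crest.Agent.N49.Rm.Api
import Crest.Agent.N49.Rw.Tw

/-! Row 49, block RMH/B (helper42): the law of a typed tower. -/

set_option autoImplicit false
set_option linter.unusedSectionVars false
noncomputable section
namespace Crest.Agent.N49.Rm.TT
open Finset Matrix MeasureTheory

variable {L C : Type} [Fintype L] [DecidableEq L] [Fintype C] [DecidableEq C] (T : TT L C)

/-- the linear part -/
def Am : Matrix C C ℝ := Matrix.of fun c c' => T.Φ (Pi.single (.inl c') 1) c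
/-- kill the coordinates of type `S` -/
def zt (S : Finset L) (p : C ⊕ L → ℝ) : C ⊕ L → ℝ :=
  Sum.elim (fun c => if T.ty c = S then 0 else p (.inl c)) fun ℓ => p (.inr ℓ)
/-- the offsets -/
def off (p : C ⊕ L → ℝ) (c : C) : ℝ := T.Φ (T.zt (T.ty c) p) c
/-- the partition function -/
def Z : ℝ := ∑' y, T.wt y
/-- expectation -/
def Ex (g : (C → ℤ) → ℝ) : ℝ := (∑' y, T.wt y * g y) / T.Z
/-- the law -/
def μ : Measure (C → ℤ) := Measure.sum fun y => ENNReal.ofReal (T.wt y / T.Z) • Measure.dirac y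

variable {T} {F : Fm L C} {ℓ : L}

theorem Lin.map_sum (h : T.Lin ℓ F) {ι : Type*} (s : Finset ι) (a : ι → ℝ) (f : ι → C ⊕ L → ℝ)
    (hf : ∀ i ∈ s, ∀ v, ℓ ∉ T.tv v → f i v = 0) : F (∑ i ∈ s, a i • f i) = ∑ i ∈ s, a i * F (f i) := by
  classical
  induction s using Finset.induction_on with
  | empty => exact h.eq_zero fun _ _ => rfl
  | insert i s hi ih =>
    have z : ∀ v, ℓ ∉ T.tv v → (∑ i ∈ s, a i • f i) v = 0 := fun v k => by
      rw [Finset.sum_apply]
      exact sum_eq_zero fun j hj => by simp [hf j (mem_insert_of_mem hj) v k]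
    have z' := hf i (mem_insert_self _ _)
    rw [sum_insert hi, sum_insert hi, ← ih fun j hj => hf j (mem_insert_of_mem hj),
      ← h.scale (p := a i • f i) (a i) (fun _ _ => rfl) fun v k => by simp [z' v k]]
    exact h.split (fun _ _ => rfl) (fun v k => by simp [z v k]) fun v k => by simp [z' v k]

theorem Dat.top {S : Finset L} (h : T.Dat S S F) (n : S.Nonempty) (p : C ⊕ L → ℝ) :
    F p = ∑ c with T.ty c = S, p (.inl c) * F (Pi.single (.inl c) 1) + F (T.zt S p) := by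
  obtain ⟨ℓ₀, h₀⟩ := n
  let kp : Finset L → (C ⊕ L → ℝ) → C ⊕ L → ℝ := fun J p v =>
    if (∃ ℓ ∈ J, ℓ ∈ T.tv v) then p v - T.zt S p v else p v
  have zz : ∀ p v ℓ, ℓ ∈ S → ℓ ∉ T.tv v → T.zt S p v = p v := fun p v ℓ a b => by
    cases v with
    | inl c => exact if_neg fun e : T.ty c = S => b (e.symm ▸ a : ℓ ∈ T.ty c)
    | inr _ => rfl
  have z2 : ∀ p v, T.zt S p v = p v ∨ ∀ p', T.zt S p' v = 0 := fun p v => by
    cases v with
    | inl c =>
      by_cases e : T.ty c = S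
      exacts [Or.inr fun _ => if_pos e, Or.inl (if_neg e)]
    | inr _ => exact Or.inl rfl
  have z3 : ∀ p p' v, p v = p' v → T.zt S p v = T.zt S p' v := fun p p' v e => by
    cases v with
    | inl c => exact if_congr Iff.rfl rfl e
    | inr _ => exact e
  have k1 : ∀ J ⊆ S, F p = F (kp (insert ℓ₀ J) p) + F (T.zt S p) := fun J => by
    induction J using Finset.induction_on with
    | empty =>
      exact fun _ => (h.2 ℓ₀ h₀).split (fun v k => by simp [kp, k]) (fun v k => by simp [kp, k])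
        fun v k => zz p v _ h₀ k
    | insert ℓ J _ ih =>
      intro hJ
      have a := hJ (mem_insert_self _ _)
      rw [ih ((subset_insert _ _).trans hJ), (h.2 ℓ a).split (p := kp (insert ℓ₀ J) p)
        (p₁ := kp (insert ℓ₀ (insert ℓ J)) p) (p₂ := T.zt S (kp (insert ℓ₀ J) p)) (fun v k => ?_)
        (fun v k => by simp [kp, k]) fun v k => zz _ v _ a k,
        (h.2 ℓ₀ h₀).eq_zero (p := T.zt S (kp (insert ℓ₀ J) p)) fun v k => ?_, add_zero]
      · cases v with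
        | inl c => by_cases e : T.ty c = S <;> simp_all [kp, zt]
        | inr _ => simp_all [kp, zt]
      · cases v with
        | inl c => by_cases e : T.ty c = S <;> simp_all [kp, zt]
        | inr _ => simp_all [kp, zt]
  rw [k1 S Subset.rfl, ← (h.2 ℓ₀ h₀).map_sum _ _ _ fun c hc v k => Pi.single_eq_of_ne
    (fun e => k (by rw [e, tv_inl, (mem_filter.1 hc).2]; exact h₀)) _]
  refine congrArg (· + _) (h.1 _ _ fun v a ⟨ℓ, b⟩ => ?_)
  rw [Finset.sum_apply]
  simp only [kp]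
  rw [if_pos ⟨ℓ, mem_insert_of_mem (a b), b⟩]
  cases v with
  | inl c => by_cases e : T.ty c = S <;> simp [zt, e, Pi.single_apply]
  | inr _ => simp [zt]

theorem Ok.Am_blk (h : T.Ok) {c c' : C} (e : T.ty c ≠ T.ty c') : T.Am c c' = 0 := by
  have n : c ≠ c' := fun k => e (k ▸ rfl)
  rcases (T.ty c).eq_empty_or_nonempty with k | k
  · exact (h.dead c _ k).trans (Pi.single_eq_of_ne (by simpa using n) _)
  by_cases s : T.ty c ⊆ T.ty c'
  · obtain ⟨ℓ, b⟩ := k
    refine ((h.dat c ⟨ℓ, b⟩).1 _ 0 fun v a _ => Pi.single_eq_of_ne ?_ _).trans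
      (((h.dat c ⟨ℓ, b⟩).2 ℓ b).eq_zero fun _ _ => rfl)
    rintro rfl
    exact e (s.antisymm a)
  · obtain ⟨ℓ, a, b⟩ := not_subset.1 s
    exact ((h.dat c k).2 ℓ a).eq_zero fun v k => Pi.single_eq_of_ne (by rintro rfl; exact b k) _

/-- `Φ` is triangular affine -/
theorem Ok.phi_eq (h : T.Ok) (p : C ⊕ L → ℝ) :
    T.Φ p = (T.Am *ᵥ fun c => p (.inl c)) + T.off p := by
  funext c
  rcases (T.ty c).eq_empty_or_nonempty with k | k
  · simp only [Pi.add_apply, off, mulVec, dotProduct, Am, of_apply, h.dead c _ k, zt, Sum.elim_inl]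
    simp [Pi.single_apply]
  · rw [(h.dat c k).top k p, sum_filter]
    refine congrArg (· + _) (sum_congr rfl fun c' _ => ?_)
    split_ifs with e
    · exact mul_comm _ _
    · exact (mul_eq_zero_of_left (h.Am_blk (Ne.symm e)) _).symm

theorem Ok.off_congr (h : T.Ok) {p p' : C ⊕ L → ℝ} {c : C} (e : ∀ ℓ, p (.inr ℓ) = p' (.inr ℓ))
    (e' : ∀ c', T.ty c' ⊂ T.ty c → p (.inl c') = p' (.inl c')) : T.off p c = T.off p' c := by
  rcases (T.ty c).eq_empty_or_nonempty with k | k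
  · simp [off, h.dead c _ k, zt]
  · refine (h.dat c k).1 _ _ fun v a _ => ?_
    cases v with
    | inl c' => exact if_ctx_congr Iff.rfl (fun _ => rfl) fun n => e' c' (ssubset_of_ne_of_subset n a)
    | inr ℓ => exact e ℓ

theorem Ok.mulVec_blk (h : T.Ok) (S : Finset L) (x : C → ℝ) (c : C) :
    (T.Am *ᵥ fun c => if T.ty c = S then x c else 0) c = if T.ty c = S then (T.Am *ᵥ x) c else 0 := by
  simp only [mulVec, dotProduct]
  split_ifs with e
  · refine sum_congr rfl fun c' _ => ?_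
    split_ifs with e'
    · rfl
    · rw [h.Am_blk (e ▸ Ne.symm e'), zero_mul, zero_mul]
  · refine sum_eq_zero fun c' _ => ?_
    split_ifs with e'
    · rw [h.Am_blk (e' ▸ e), zero_mul]
    · exact mul_zero _

theorem Ok.eq_zero_blk (h : T.Ok) {x : C → ℝ} {c : C}
    (e : ∀ c', T.ty c' = T.ty c → (T.Am *ᵥ x) c' = 0) : x c = 0 := by
  have := h.inj (T.ty c) (Sum.elim (fun c' => if T.ty c' = T.ty c then x c' else 0) 0) 0
    (fun _ => rfl) (fun _ k => if_neg k) fun c' k => by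
      rw [h.phi_eq, h.phi_eq 0, Pi.add_apply, Pi.add_apply]
      simp only [Sum.elim_inl, h.mulVec_blk, if_pos k, e c' k]
      refine congrArg₂ _ (by simp [mulVec, dotProduct]) (h.off_congr (fun _ => rfl) fun c'' s => ?_)
      exact if_neg (k ▸ s.ne)
  simpa using congrFun this (.inl c)

theorem Ok.Am_inj (h : T.Ok) : Function.Injective T.Am.mulVec := fun x y e => funext fun c =>
  sub_eq_zero.1 (h.eq_zero_blk (x := x - y) fun c' _ => by rw [mulVec_sub, e, sub_self]; rfl)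

theorem Ok.Am_unit (h : T.Ok) : IsUnit T.Am.det :=
  (isUnit_iff_isUnit_det _).1 (mulVec_injective_iff_isUnit.1 h.Am_inj)

theorem Ok.pd (h : T.Ok) : (T.Amᵀ * T.Am).PosDef := by
  simpa using Po.posDef_conj PosDef.one h.Am_inj

theorem wt_pos (y : C → ℤ) : 0 < T.wt y := Real.exp_pos _

theorem wt_gs (y : C → ℤ) : T.wt y = Po.gs 1 (T.Φ (cf y)) := by
  simp [wt, Po.gs, Po.qf, dotProduct, sq]

theorem Ok.wt_eq (h : T.Ok) :
    T.wt = Rw.wt (T.Amᵀ * T.Am) fun y => -(T.Am⁻¹ *ᵥ T.off (cf y)) := funext fun y => by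
  have := Po.qf_conj 1 T.Am (Po.zc y - -(T.Am⁻¹ *ᵥ T.off (cf y)))
  rw [Matrix.mul_one, sub_neg_eq_add, mulVec_add, mulVec_mulVec, mul_nonsing_inv _ h.Am_unit,
    one_mulVec] at this
  rw [wt_gs, Rw.wt, Po.gs, Po.gs, sub_neg_eq_add, this, h.phi_eq]
  rfl

theorem Ok.tri (h : T.Ok) :
    Rw.Tri (fun c => #(T.ty c)) fun y => -(T.Am⁻¹ *ᵥ T.off (cf y)) := fun y y' c e =>
  sub_eq_zero.1 (h.eq_zero_blk (x := -(T.Am⁻¹ *ᵥ T.off (cf y)) - -(T.Am⁻¹ *ᵥ T.off (cf y')))
    fun c' k => by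
      simp only [mulVec_sub, mulVec_neg, mulVec_mulVec, mul_nonsing_inv _ h.Am_unit, one_mulVec,
        Pi.sub_apply, Pi.neg_apply]
      rw [h.off_congr (p := cf y) (p' := cf y') (fun _ => rfl) fun c'' s =>
        congrArg Int.cast (e c'' (card_lt_card (k ▸ s))), sub_self])

theorem Ok.blk0 (h : T.Ok) : Rw.Blk (fun c => #(T.ty c)) (T.Amᵀ * T.Am) := fun i j e =>
  sum_eq_zero fun k _ => by
    by_cases a : T.ty k = T.ty i
    · exact mul_eq_zero_of_right _ (h.Am_blk fun b => e (congrArg card (a.symm.trans b)))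
    · exact mul_eq_zero_of_left (h.Am_blk a) _

theorem Ok.summable (h : T.Ok) : Summable T.wt := h.wt_eq ▸ Rw.summable_wt' h.tri h.blk0 h.pd

theorem Ok.Z_pos (h : T.Ok) : 0 < T.Z := h.summable.tsum_pos (fun y => (wt_pos y).le) 0 (wt_pos 0)

theorem Ok.summable_mul (h : T.Ok) {g : (C → ℤ) → ℝ} {B : ℝ} (hg : ∀ y, |g y| ≤ B) :
    Summable fun y => T.wt y * g y :=
  (h.summable.mul_right B).of_norm_bounded fun y => by
    rw [norm_mul, Real.norm_of_nonneg (wt_pos y).le]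
    exact mul_le_mul_of_nonneg_left (hg y) (wt_pos y).le

theorem pr_eq (H : Set (C → ℤ)) : T.pr H = T.Ex (H.indicator 1) :=
  congrArg (· / T.Z) (tsum_congr fun y => by by_cases e : y ∈ H <;> simp [e])

theorem Ok.μ_real (h : T.Ok) (H : Set (C → ℤ)) : T.μ.real H = T.pr H := by
  have n : ∀ y, 0 ≤ H.indicator (fun y => T.wt y / T.Z) y := fun y =>
    Set.indicator_nonneg (fun y _ => (div_pos (wt_pos y) h.Z_pos).le) y
  have : T.μ H = ENNReal.ofReal (∑' y, H.indicator (fun y => T.wt y / T.Z) y) := by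
    rw [μ, Measure.sum_apply _ MeasurableSet.of_discrete, ENNReal.ofReal_tsum_of_nonneg n
      ((h.summable.div_const _).indicator H)]
    exact tsum_congr fun y => by by_cases e : y ∈ H <;> simp [e]
  rw [measureReal_def, this, ENNReal.toReal_ofReal (tsum_nonneg n), pr, ← tsum_div_const]
  exact tsum_congr fun y => by by_cases e : y ∈ H <;> simp [e, Z]

theorem Ok.pr_univ (h : T.Ok) : T.pr Set.univ = 1 := by
  rw [pr, Set.indicator_univ]; exact div_self h.Z_pos.ne'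

theorem Ok.prob (h : T.Ok) : IsProbabilityMeasure T.μ :=
  ⟨(ENNReal.toReal_eq_one_iff _).1 ((h.μ_real _).trans h.pr_univ)⟩

theorem Ok.μ_single (h : T.Ok) (y : C → ℤ) : T.μ.real {y} = T.wt y / T.Z := by
  rw [h.μ_real, pr, tsum_eq_single y fun _ e => Set.indicator_of_notMem (s := {y}) e _]
  simp [Z]

theorem Ok.integrable (h : T.Ok) {g : (C → ℤ) → ℝ} {B : ℝ} (hg : ∀ y, |g y| ≤ B) :
    Integrable g T.μ :=
  have := h.prob
  .of_bound (measurable_of_countable g).aestronglyMeasurable B (.of_forall hg)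

theorem Ok.integral_eq (h : T.Ok) {g : (C → ℤ) → ℝ} (hg : Integrable g T.μ) :
    ∫ y, g y ∂T.μ = T.Ex g := by
  rw [integral_countable hg, Ex, ← tsum_div_const]
  exact tsum_congr fun y => by rw [h.μ_single, smul_eq_mul]; ring

section pr
variable {H H' : Set (C → ℤ)} {g g' : (C → ℤ) → ℝ} {B B' : ℝ}

theorem pr_nonneg (H : Set (C → ℤ)) : 0 ≤ T.pr H :=
  div_nonneg (tsum_nonneg (Set.indicator_nonneg fun y _ => (wt_pos y).le))
    (tsum_nonneg fun y => (wt_pos y).le)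
theorem pr_empty : T.pr ∅ = 0 := by simp [pr]
theorem Ok.pr_mono (h : T.Ok) (e : H ⊆ H') : T.pr H ≤ T.pr H' := by
  have := h.prob
  rw [← h.μ_real, ← h.μ_real]; exact measureReal_mono e
theorem Ok.pr_le_one (h : T.Ok) (H : Set (C → ℤ)) : T.pr H ≤ 1 :=
  (h.pr_mono (Set.subset_univ _)).trans_eq h.pr_univ
theorem Ok.pr_union (h : T.Ok) (H H' : Set (C → ℤ)) : T.pr (H ∪ H') ≤ T.pr H + T.pr H' := by
  simpa only [← h.μ_real] using measureReal_union_le H H'
theorem Ok.pr_compl (h : T.Ok) (H : Set (C → ℤ)) : T.pr Hᶜ = 1 - T.pr H := by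
  have := h.prob
  simpa only [← h.μ_real] using probReal_compl_eq_one_sub MeasurableSet.of_discrete
theorem Ok.pr_diff (h : T.Ok) (H H' : Set (C → ℤ)) : T.pr H - T.pr H' ≤ T.pr (H \ H') :=
  sub_le_iff_le_add.2 ((h.pr_mono (Set.subset_sdiff_union H H')).trans (h.pr_union _ _))
theorem Ok.pr_inter (h : T.Ok) (H H' : Set (C → ℤ)) : T.pr H - T.pr H'ᶜ ≤ T.pr (H ∩ H') := by
  simpa using h.pr_diff H H'ᶜ
theorem Ok.pr_biUnion (h : T.Ok) {ι : Type*} (s : Finset ι) (f : ι → Set (C → ℤ)) :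
    T.pr (⋃ i ∈ s, f i) ≤ ∑ i ∈ s, T.pr (f i) := by
  simpa only [← h.μ_real] using measureReal_biUnion_finset_le s f
theorem nonempty_of_pr (e : 0 < T.pr H) : H.Nonempty :=
  Set.nonempty_iff_ne_empty.2 fun k => by rw [k, pr_empty] at e; exact e.false
/-- pigeonhole -/
theorem Ok.pr_pigeon (h : T.Ok) {ι : Type*} (s : Finset ι) (hs : s.Nonempty) (H : Set (C → ℤ))
    (f : (C → ℤ) → ι) (hf : ∀ y ∈ H, f y ∈ s) : ∃ i ∈ s, T.pr H ≤ #s * T.pr {y ∈ H | f y = i} := by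
  obtain ⟨i, hi, m⟩ := exists_max_image s (fun i => T.pr {y ∈ H | f y = i}) hs
  refine ⟨i, hi, (h.pr_mono fun y hy => ?_).trans ((h.pr_biUnion s fun i => {y ∈ H | f y = i}).trans
    ((sum_le_card_nsmul _ _ _ m).trans_eq (nsmul_eq_mul _ _)))⟩
  exact Set.mem_biUnion (hf y hy) ⟨hy, rfl⟩

theorem Ok.Ex_const (h : T.Ok) (r : ℝ) : (T.Ex fun _ => r) = r := by
  rw [Ex, tsum_mul_right]; exact mul_div_cancel_left₀ _ h.Z_pos.ne'
theorem Ex_smul (r : ℝ) (g : (C → ℤ) → ℝ) : (T.Ex fun y => r * g y) = r * T.Ex g := by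
  simp only [Ex, mul_left_comm _ r, tsum_mul_left, mul_div_assoc]
theorem Ok.Ex_add (h : T.Ok) (a : ∀ y, |g y| ≤ B) (b : ∀ y, |g' y| ≤ B') :
    (T.Ex fun y => g y + g' y) = T.Ex g + T.Ex g' := by
  simp only [Ex, mul_add, (h.summable_mul a).tsum_add (h.summable_mul b), add_div]
theorem Ok.Ex_mono (h : T.Ok) (a : ∀ y, |g y| ≤ B) (b : ∀ y, |g' y| ≤ B') (e : ∀ y, g y ≤ g' y) :
    T.Ex g ≤ T.Ex g' :=
  div_le_div_of_nonneg_right ((h.summable_mul a).tsum_le_tsum
    (fun y => mul_le_mul_of_nonneg_left (e y) (wt_pos y).le) (h.summable_mul b)) h.Z_pos.le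
theorem Ex_nonneg (a : ∀ y, 0 ≤ g y) : 0 ≤ T.Ex g :=
  div_nonneg (tsum_nonneg fun y => mul_nonneg (wt_pos y).le (a y))
    (tsum_nonneg fun y => (wt_pos y).le)
theorem Ok.Ex_le (h : T.Ok) (a : ∀ y, |g y| ≤ B) {r : ℝ} (e : ∀ y, g y ≤ r) : T.Ex g ≤ r :=
  (h.Ex_mono a (fun _ => le_rfl) e).trans_eq (h.Ex_const r)
theorem Ok.exists_ge (h : T.Ok) (a : ∀ y, |g y| ≤ B) {r : ℝ} (e : r < T.Ex g) : ∃ y, r < g y :=
  by_contra fun n => e.not_ge (h.Ex_le a fun y => not_lt.1 fun k => n ⟨y, k⟩)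
theorem abs_ind (H : Set (C → ℤ)) (y : C → ℤ) : |H.indicator (1 : (C → ℤ) → ℝ) y| ≤ 1 := by
  by_cases e : y ∈ H <;> simp [e]
/-- Markov -/
theorem Ok.markov (h : T.Ok) (a : ∀ y, 0 ≤ g y ∧ g y ≤ B) {t : ℝ} (ht : 0 ≤ t) :
    t * T.pr {y | t ≤ g y} ≤ T.Ex g := by
  rw [pr_eq, ← Ex_smul]
  refine h.Ex_mono (B := t) (fun y => ?_) (fun y => abs_le.2 ⟨by linarith [a y], (a y).2⟩) fun y => ?_
  · rw [abs_mul, abs_of_nonneg ht]; exact mul_le_of_le_one_right ht (abs_ind _ y)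
  · by_cases e : t ≤ g y <;> simp [e, (a y).1]
/-- reverse Markov: `E g ≤ t + P (g > t)` for `g ≤ 1` -/
theorem Ok.markov' (h : T.Ok) (a : ∀ y, 0 ≤ g y ∧ g y ≤ 1) {t : ℝ} (ht : 0 ≤ t) :
    T.Ex g ≤ t + T.pr {y | t < g y} := by
  rw [pr_eq, ← h.Ex_const t, ← h.Ex_add (fun _ => le_rfl) (abs_ind _), h.Ex_const]
  refine h.Ex_mono (B' := |t| + 1) (fun y => abs_le.2 ⟨by linarith [a y], (a y).2⟩)
    (fun y => (abs_add_le _ _).trans (add_le_add le_rfl (abs_ind _ y))) fun y => ?_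
  by_cases e : t < g y
  · simp only [Set.indicator_of_mem (show y ∈ {y | t < g y} from e), Pi.one_apply]; linarith [a y]
  · simp only [Set.indicator_of_notMem (show y ∉ {y | t < g y} from e)]; linarith [not_lt.1 e]

end pr

end Crest.Agent.N49.Rm.TT
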