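import Crest.Agent.N49.Rm.Defs
/-! Row 49, block RMH/B: frozen statements. Owner helper35. -/
set_option autoImplicit false
noncomputable section
namespace Crest.Agent.N49.Rm
open Finset

section
variable {L C : Type} [Fintype L] [DecidableEq L] [Fintype C] [DecidableEq C]
namespace TT
variable (T : TT L C)
def cv : Fin 4 → Fin 4 → ℤ := ![![1, 0, 1, 0], ![1, 0, 0, 1], ![0, 1, 1, 0], ![0, 1, 0, 1]]
/-- the rectangle `w` is respected (relation on the rectangle shape itself) -/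
def RR (A M : Finset L) (j : L) (a1 a2 : ℕ) (w : T.CC j (Fin 4) → ℤ) (q : ℕ) (B : ℝ)
    (F : Fin 4 → Fm L C) : Prop :=
  (T.rect j a1 a2).Rel (upA A (Fin 4)) (M.image Sum.inl) w q B fun p =>
    F 0 (T.pos j (fun _ => false) 1 (cv 0) p) - F 1 (T.pos j (fun _ => false) 1 (cv 1) p) -
      F 2 (T.pos j (fun _ => false) 1 (cv 2) p) + F 3 (T.pos j (fun _ => false) 1 (cv 3) p)
/-- mass of the respected rectangles with all corners in `H` (USE THIS, not `RM`) -/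
def RMs {D : Type} (A M : Finset L) (j : L) (H : Set (C → ℤ)) (q : ℕ) (B : ℝ)
    (F : Fin 4 → D → Fm L C) (a1 a2 : ℕ) : ℝ :=
  (T.rect j a1 a2).pr {w | (∀ i, T.cor j i w ∈ H) ∧ ∀ d, T.RR A M j a1 a2 w q B fun l => F l d}
/-- configuration of the one-clone shape (centre, direction) seen from `rc j a z` -/
def rcw (j : L) (z : C → ℤ) (y : T.CR j → ℤ) : T.CC j (Fin 1) → ℤ :=
  Sum.elim (fun c => if h : j ∈ T.ty c then (if T.ty c = {j} then z c else y (.inr ⟨c, h⟩))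
    else y (.inl c)) fun cx => y (.inl cx.1.1)
end TT
/-- hereditary rectangle hypothesis of the top call -/
def Her {D : Type} (c s n : ℕ) (T : TT L C) (Z M : Finset L) (H : Set (C → ℤ)) (F : D → Fm L C) :
    Prop := ∀ (C' : Type) [Fintype C'] [DecidableEq C'] (T' : TT L C') ι (k : ℕ), Ref s T k C' T' ι →
  ∀ (H1 : Set (C' → ℤ)) (n1 a1 a2 : ℕ), ∀ j ∈ Z, Ov ι H1 H → n ≤ n1 → k ≤ n1 → Sz n1 T' H1 →
    n1 ^ c ≤ a1 → a1 ≤ a2 → G ((n1 + a2) ^ c) T' →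
    (1 / 2 : ℝ) ^ (n1 ^ c) ≤ T'.RMs (Z ∪ M) M j H1 1 (2 ^ (n1 ^ c)) (fun _ d p => F d (ι p)) a1 a2
end

/-! ### laws -/
def MONO : Prop := ∀ (b b' g g' : ℕ) (L C : Type) [Fintype L] [DecidableEq L] [Fintype C]
  [DecidableEq C] (T : TT L C), b' ≤ b → g' ≤ g → Good b g L C T → Good b' g' L C T
/-- deleting a letter is a marginal -/
def MG : Prop := ∀ (L C : Type) [Fintype L] [DecidableEq L] [Fintype C] [DecidableEq C]
  (T : TT L C) (n b : ℕ) (ℓ : L) (H : Set (C → ℤ)), Fintype.card C ≤ 2 ^ n → 2 * n + 10 ≤ b →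
  T.Ok → T.SM b → (∀ y y', (∀ c, ℓ ∉ T.ty c → y c = y' c) → y ∈ H → y' ∈ H) →
  |T.pr H - (T.del ℓ).pr H| ≤ 8 * (1 / 2) ^ b
/-- central configurations -/
def CEN : Prop := ∀ (L C : Type) [Fintype L] [DecidableEq L] [Fintype C] [DecidableEq C]
  (T : TT L C) (n b m : ℕ), Fintype.card C ≤ 2 ^ n → Fintype.card L ≤ 2 ^ n → 2 * n + m + 10 ≤ b →
  T.Ok → T.SM b → T.pr {y | ¬ T.Cen (n + m + 4) y} ≤ (1 / 2) ^ m
/-- a point moved by narrow direction clones, or one point clone of full width, has the law of `T` -/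
def CLM : Prop := ∀ (L C : Type) [Fintype L] [DecidableEq L] [Fintype C] [DecidableEq C]
  (T : TT L C) (n b m : ℕ) (j : L) (r : ℕ) (pt : Fin r → Bool) (a : Fin r → ℕ) (H : Set (C → ℤ)),
  Fintype.card C ≤ 2 ^ n → Fintype.card L ≤ 2 ^ n → r ≤ 8 → (∀ x, a x ≤ b) → 2 * n + m + 30 ≤ b →
  Good b 9 L C T →
  (∀ α : Fin r → ℤ, (∀ x, α x ≠ 0 → pt x = false ∧ |α x| * 2 ^ (2 * n + m + 10) ≤ 2 ^ a x) →
    |(T.cl j pt a).pr {w | T.posZ j 1 α w ∈ H} - T.pr H| ≤ (1 / 2) ^ m) ∧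
  ∀ x, pt x = true → a x = 0 →
    |(T.cl j pt a).pr {w | T.posZ j 0 (Pi.single x 1) w ∈ H} - T.pr H| ≤ (1 / 2) ^ m
/-- box Cauchy–Schwarz on the rectangle shape -/
def BOX : Prop := ∀ (L C : Type) [Fintype L] [DecidableEq L] [Fintype C] [DecidableEq C]
  (T : TT L C) (n b : ℕ) (j : L) (a1 a2 : ℕ) (H : Set (C → ℤ)), Sz n T H →
  Fintype.card L ≤ 2 ^ n → 8 * n + 40 ≤ a1 → a1 ≤ a2 → a2 ≤ b → Good b 12 L C T →
  (1 / 2 : ℝ) ^ (4 * n + 2) ≤ (T.rect j a1 a2).pr {w | ∀ i, T.cor j i w ∈ H}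
/-- fix the centre by averaging -/
def CTR : Prop := ∀ (L C : Type) [Fintype L] [DecidableEq L] [Fintype C] [DecidableEq C]
  (T : TT L C) (n b g : ℕ) (j : L) (a : ℕ) (H : Set (T.CC j (Fin 1) → ℤ)),
  Fintype.card C ≤ 2 ^ n → Fintype.card L ≤ n → a ≤ b → 4 * n + 40 ≤ b → n + 12 ≤ g →
  Good b (g + 1) L C T → (1 / 2 : ℝ) ^ n ≤ (T.cl j (fun _ : Fin 1 => false) fun _ => a).pr H →
  ∃ z, Good b g L _ (T.rc j a z) ∧ (1 / 2 : ℝ) ^ (n + 1) ≤ (T.rc j a z).pr {y | T.rcw j z y ∈ H}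
/-- centre and moved point both in `H` -/
def PAIR : Prop := ∀ (L C : Type) [Fintype L] [DecidableEq L] [Fintype C] [DecidableEq C]
  (T : TT L C) (n b g : ℕ) (j : L) (a q : ℕ) (H : Set (C → ℤ)), Sz n T H → Fintype.card L ≤ n →
  1 ≤ q → q ≤ 2 ^ n → 8 * n + 40 ≤ a → a ≤ b → 8 * n + 60 ≤ b → 2 * n + 14 ≤ g →
  Good b (g + 1) L C T →
  ∃ z, Good b g L _ (T.rc j a z) ∧ (1 / 2 : ℝ) ^ (2 * n + 3) ≤ (T.rc j a z).pr
    {y | (∃ x ∈ H, T.rci j q z (TT.cf y) = TT.cf x) ∧ ∃ x ∈ H, T.dn j z (TT.cf y) = TT.cf x}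

/-! ### pull-back along refinements -/
def MOR : Prop := ∀ (L C : Type) [Fintype L] [DecidableEq L] [Fintype C] [DecidableEq C]
  (T : TT L C) (s k : ℕ) (C' : Type) [Fintype C'] [DecidableEq C'] (T' : TT L C') ι,
  T.Ok → Ref s T k C' T' ι → T'.Ok ∧ Fintype.card C' ≤ 2 ^ k * Fintype.card C ∧
  (∀ A M F, M ⊆ A → T.Dat A M F → T'.Dat A M fun p => F (ι p)) ∧
  (∀ y', ∃ y, ι (TT.cf y') = TT.cf y) ∧
  (∀ A M y y' q B F, M ⊆ A → ι (TT.cf y') = TT.cf y → T.Dat A M F → T.Rel A M y q B F →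
    T'.Rel A M y' q ((2 ^ Fintype.card L) ^ k * B) fun p => F (ι p)) ∧
  ∀ (D : Type) A M j H H' q B (F : D → Fm L C), M ⊆ A → j ∈ A → j ∉ M → Ov ι H' H →
    (∀ d, T.Dat A M (F d)) → T.Frei A M j H q B F →
    T'.Frei A M j H' q ((2 ^ Fintype.card L) ^ k * B) fun d p => F d (ι p)
/-- pull-back to the centre -/
def MOD : Prop := ∀ (L C : Type) [Fintype L] [DecidableEq L] [Fintype C] [DecidableEq C]
  (T : TT L C) (i : L) (a : ℕ) (z : C → ℤ), T.Ok →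
  (∀ A M F, M ⊆ A → i ∉ M → T.Dat A M F → (T.rc i a z).Dat (A.erase i) M fun p => F (T.dn i z p)) ∧
  (∀ A M y y' q B F, M ⊆ A → i ∉ M → T.dn i z (TT.cf y') = TT.cf y → T.Dat A M F →
    T.Rel A M y q B F → (T.rc i a z).Rel (A.erase i) M y' q B fun p => F (T.dn i z p)) ∧
  ∀ (D : Type) A M j H H' q B (F : D → Fm L C), M ⊆ A → j ∈ A → j ∉ M → i ∉ M → j ≠ i →
    Ov (T.dn i z) H' H → (∀ d, T.Dat A M (F d)) → T.Frei A M j H q B F →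
    (T.rc i a z).Frei (A.erase i) M j H' q B fun d p => F d (T.dn i z p)
/-- a Freiman datum respects every rectangle with corners in `H` -/
def FRR : Prop := ∀ (L C : Type) [Fintype L] [DecidableEq L] [Fintype C] [DecidableEq C]
  (T : TT L C) (D : Type) A M j H q B (F : D → Fm L C) (a1 a2 : ℕ) w, T.Ok → M ⊆ A → j ∈ A → j ∉ M →
  (∀ d, T.Dat A M (F d)) → T.Frei A M j H q B F → (∀ i, T.cor j i w ∈ H) →
  ∀ d, T.RR A M j a1 a2 w q (3 ^ Fintype.card L * B) fun _ => F d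
/-- a representation along `j` is Freiman along `j` -/
def FR : Prop := ∀ (L C : Type) [Fintype L] [DecidableEq L] [Fintype C] [DecidableEq C]
  (T : TT L C) (D E : Type) [Fintype E] A M j H q B (F : D → Fm L C) (γ : E → Fm L C) X Λ, T.Ok →
  M ⊆ A → j ∈ A → j ∉ M → (∀ d, T.Dat A M (F d)) → T.Rep A M j H q B F γ X Λ →
  T.Frei A M j H q (4 * 3 ^ Fintype.card L * B) F

/-! ### the engine -/
def UQS (l0 : ℕ) : Prop := ∃ K : ℕ, ∀ (L C : Type) [Fintype L] [DecidableEq L] [Fintype C]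
  [DecidableEq C] (T : TT L C) (n b : ℕ) (M : Finset L), Fintype.card L ≤ l0 → 2 ≤ n →
  Fintype.card C ≤ 2 ^ n → G ((n + b) ^ K) T → M.Nonempty →
  T.pr {y | ¬ T.UQ univ M y (2 ^ b)} ≤ (1 / 2) ^ b
/-- move the letter `i` to the marked side (no brackets) -/
def FREE (l0 : ℕ) : Prop := ∃ K : ℕ, ∀ (L C : Type) [Fintype L] [DecidableEq L] [Fintype C]
  [DecidableEq C] (T : TT L C) (D : Type) [Fintype D] (n : ℕ) (H : Set (C → ℤ)) (A M : Finset L)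
  (i : L) (q : ℕ) (F : D → Fm L C), Fintype.card L ≤ l0 → Sz n T H → G (n ^ K) T →
  Fintype.card D ≤ n → M.Nonempty → M ⊆ A → i ∈ A → i ∉ M → (∀ d, T.Dat A (insert i M) (F d)) →
  1 ≤ q → q ≤ 2 ^ n → (∀ y ∈ H, ∀ d, T.Rel A M y q (2 ^ n) (F d)) →
  ∃ H' ⊆ H, ∃ q', 1 ≤ q' ∧ q' ≤ 2 ^ n ^ K ∧ (1 / 2 : ℝ) ^ n ^ K ≤ T.pr H' ∧
    ∀ y ∈ H', ∀ d, T.Rel A (insert i M) y q' (2 ^ n ^ K) (F d)
/-- typed descent (two completions + UQ) -/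
def DESC (l0 : ℕ) : Prop := ∃ K : ℕ, ∀ (L C : Type) [Fintype L] [DecidableEq L] [Fintype C]
  [DecidableEq C] (T : TT L C) (D : Type) [Fintype D] (n : ℕ) (H : Set (C → ℤ))
  (A0 A M : Finset L) (q : ℕ) (F : D → Fm L C), Fintype.card L ≤ l0 → Sz n T H → G (n ^ K) T →
  Fintype.card D ≤ n → M.Nonempty → M ⊆ A0 → A0 ⊆ A → (∀ d, T.Dat A0 M (F d)) →
  1 ≤ q → q ≤ 2 ^ n → (∀ y ∈ H, ∀ d, T.Rel A M y q (2 ^ n) (F d)) →
  ∃ H' ⊆ H, (1 / 2 : ℝ) ^ n ^ K ≤ T.pr H' ∧ ∀ y ∈ H', ∀ d, T.Rel A0 M y q (2 ^ n ^ K) (F d)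
/-- B(d): a typed form that is trivial on many `M`-fibres is trivial -/
def BB (l0 : ℕ) : Prop := ∃ K : ℕ, ∀ (L C : Type) [Fintype L] [DecidableEq L] [Fintype C]
  [DecidableEq C] (T : TT L C) (D : Type) [Fintype D] (n : ℕ) (H : Set (C → ℤ)) (A M : Finset L)
  (q : ℕ) (F : D → Fm L C), Fintype.card L ≤ l0 → Sz n T H → G (n ^ K) T →
  Fintype.card D ≤ n → M.Nonempty → M ⊆ A → (∀ d, T.Dat A A (F d)) →
  1 ≤ q → q ≤ 2 ^ n → (∀ y ∈ H, ∀ d, T.Rel A M y q (2 ^ n) (F d)) →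
  ∃ q', 1 ≤ q' ∧ q' ≤ 2 ^ n ^ K ∧ ∀ y d, T.Rel A A y q' (2 ^ n ^ K) (F d)
/-- ONE(j): 1% of respected rectangles ⇒ representation of the first function -/
def ONE (l0 : ℕ) : Prop := ∃ K0 : ℕ, 1 ≤ K0 ∧ ∀ K' : ℕ, ∃ K : ℕ, ∀ (L C : Type) [Fintype L]
  [DecidableEq L] [Fintype C] [DecidableEq C] (T : TT L C) (D : Type) [Fintype D] (n : ℕ)
  (H : Set (C → ℤ)) (A M : Finset L) (j : L) (q : ℕ) (F : Fin 4 → D → Fm L C),
  Fintype.card L ≤ l0 → Sz n T H → G (n ^ K) T → Fintype.card D ≤ n → M.Nonempty → M ⊆ A →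
  j ∈ A → j ∉ M → (∀ l d, T.Dat A M (F l d)) → 1 ≤ q → q ≤ 2 ^ n →
  (1 / 2 : ℝ) ^ n ≤ T.RMs A M j H q (2 ^ n) F (n ^ K0) (2 * n ^ K0) →
  Nx (n ^ K) K' n T H fun C' _ _ T' ι H' n' => ∃ (E : Type) (_ : Fintype E) (q' : ℕ)
    (γ : E → Fm L C') (X : D → Fm L C') (Λ : D → E → Fm L C'), Fintype.card E ≤ n' ∧ 1 ≤ q' ∧
      q' ≤ 2 ^ n' ∧ T'.Rep A M j H' q' (2 ^ n') (fun d p => F 0 d (ι p)) γ X Λ
/-- relative multi-homomorphism theorem, `d` free letters -/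
def RMH (l0 d : ℕ) : Prop := ∀ K' : ℕ, ∃ K : ℕ, ∀ (L C : Type) [Fintype L] [DecidableEq L]
  [Fintype C] [DecidableEq C] (T : TT L C) (D : Type) [Fintype D] (n : ℕ) (H : Set (C → ℤ))
  (Z M : Finset L) (q : ℕ) (F : D → Fm L C), Fintype.card L ≤ l0 → Z.card = d → Disjoint Z M →
  M.Nonempty → Sz n T H → G (n ^ K) T → Fintype.card D ≤ n → (∀ e, T.Dat (Z ∪ M) M (F e)) →
  1 ≤ q → q ≤ 2 ^ n → (∀ j ∈ Z, T.Frei (Z ∪ M) M j H q (2 ^ n) F) →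
  Nx (n ^ K) K' n T H fun _ _ _ T' ι H' n' => Mh T' Z M H' n' fun e p => F e (ι p)
/-- what Step_d consumes -/
def TOP (l0 c : ℕ) : Prop := ∀ K' : ℕ, ∃ K : ℕ, ∀ (L C : Type) [Fintype L] [DecidableEq L]
  [Fintype C] [DecidableEq C] (T : TT L C) (D : Type) [Fintype D] (n : ℕ) (H : Set (C → ℤ))
  (Z M : Finset L) (F : D → Fm L C), Fintype.card L ≤ l0 → Disjoint Z M → M.Nonempty →
  Sz n T H → G (n ^ K) T → Fintype.card D ≤ n → (∀ e, T.Dat (Z ∪ M) M (F e)) →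
  Her c (n ^ K) n T Z M H F →
  Nx (n ^ K) K' n T H fun _ _ _ T' ι H' n' => Mh T' Z M H' n' fun e p => F e (ι p)
end Crest.Agent.N49.Rm
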