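import Crest.Agent.N49.Rm.Mor
import Crest.Agent.N49.Rm.Op
import Crest.Agent.N49.Rm.St
/-! Row 49, block RMH (helper57): transport of Freiman data along morphisms. -/
set_option autoImplicit false
set_option linter.unusedSectionVars false
noncomputable section
namespace Crest.Agent.N49.Rm
open Finset TT
variable {L C C' : Type} [Fintype L] [DecidableEq L] [Fintype C] [DecidableEq C]
  [Fintype C'] [DecidableEq C'] {T : TT L C} {T' : TT L C'} {ι : (C' ⊕ L → ℝ) → (C ⊕ L → ℝ)}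
  {A M : Finset L} {F : Fm L C} {κ : ℝ} {j : L}

/-- a relation only sees the live words inside `A` that miss `M` -/
theorem rel_tr (hT : T.Ok) {y y' : C → ℤ} {q : ℕ} {B : ℝ} (hF : T.Ty A F)
    (e : ∀ c, T.ty c ⊆ A → (T.ty c).Nonempty → Disjoint (T.ty c) M → y c = y' c)
    (h : T.Rel A M y q B F) : T.Rel A M y' q B F := by
  classical
  obtain ⟨I, ⟨h1, h2⟩, h3⟩ := h
  let r : (C ⊕ L → ℝ) → C ⊕ L → ℝ := fun p =>
    Sum.elim (fun c => if Disjoint (T.ty c) M then (y c : ℝ) else p (.inl c)) fun ℓ => p (.inr ℓ)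
  have r1 : ∀ p ∈ T.Fib M y', r p ∈ T.Fib M y := fun p hp =>
    ⟨fun c hc => by simp [r, hc], fun ℓ => hp.2 ℓ⟩
  have r2 : ∀ p ∈ T.Fib M y', ∀ v, T.tv v ⊆ A → (T.tv v).Nonempty → p v = r p v := by
    rintro p hp (c | ℓ) a b
    · by_cases hc : Disjoint (T.ty c) M
      · simp only [r, Sum.elim_inl, if_pos hc]; rw [hp.1 c hc, e c a b hc]
      · simp [r, hc]
    · rfl
  refine ⟨I, ⟨h1, fun p hp k => ?_⟩, fun p hp k => ?_⟩
  · rw [h1.1 _ _ (r2 p hp)]
    refine h2 _ (r1 p hp) ?_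
    rintro (c | ℓ)
    · by_cases hc : Disjoint (T.ty c) M
      · exact ⟨y c, by simp [r, hc]⟩
      · simpa [r, hc] using k (.inl c)
    · exact k (.inr ℓ)
  · show |F p - I p / q| ≤ B
    rw [h1.1 _ _ (r2 p hp), hF _ _ (r2 p hp)]
    refine h3 _ (r1 p hp) fun c a b => ?_
    have hn : (T.ty c).Nonempty := by
      rw [nonempty_iff_ne_empty]; intro h0; simp [h0] at b
    rw [← hT.phi_congr hn fun v a' b' => r2 p hp v (a'.trans a) b']
    exact k c a b

/-- four points in additive position along `j` (seen inside `A`) -/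
def Q4 (T : TT L C) (A : Finset L) (j : L) (p1 p2 p3 p4 : C ⊕ L → ℝ) : Prop :=
  ∀ v, T.tv v ⊆ A → (T.tv v).Nonempty →
    if j ∈ T.tv v then p1 v + p4 v = p2 v + p3 v else p1 v = p2 v ∧ p1 v = p3 v ∧ p1 v = p4 v

theorem Q4.mono {A' : Finset L} {p1 p2 p3 p4 : C ⊕ L → ℝ} (h : Q4 T A j p1 p2 p3 p4) (e : A' ⊆ A) :
    Q4 T A' j p1 p2 p3 p4 := fun v a b => h v (a.trans e) b

theorem Q4.alt {p1 p2 p3 p4 : C ⊕ L → ℝ} (h : Q4 T A j p1 p2 p3 p4) (h1 : T.Ty A F)
    (h2 : T.Lin j F) : F p1 + F p4 = F p2 + F p3 := by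
  classical
  let r : (C ⊕ L → ℝ) → C ⊕ L → ℝ := fun p v =>
    if j ∈ T.tv v then (if T.tv v ⊆ A then p v else 0) else p1 v
  have e : ∀ p, (∀ v, T.tv v ⊆ A → (T.tv v).Nonempty → j ∉ T.tv v → p1 v = p v) → F p = F (r p) :=
    fun p hp => h1 _ _ fun v a b => by
      by_cases k : j ∈ T.tv v
      · simp [r, k, a]
      · simp [r, k, hp v a b k]
  have o : ∀ p p' v, j ∉ T.tv v → r p v = r p' v := fun p p' v k => by simp [r, k]
  rw [e p1 fun _ _ _ _ => rfl, e p2 fun v a b k => by have := h v a b; simp [k] at this; tauto,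
    e p3 fun v a b k => by have := h v a b; simp [k] at this; tauto,
    e p4 fun v a b k => by have := h v a b; simp [k] at this; tauto]
  have k1 := h2 1 1 _ _ (o p1 p4)
  have k2 := h2 1 1 _ _ (o p2 p3)
  have : T.cmb j 1 1 (r p1) (r p4) = T.cmb j 1 1 (r p2) (r p3) := by
    funext v
    by_cases k : j ∈ T.tv v
    · rw [cmb_in k, cmb_in k]
      by_cases a : T.tv v ⊆ A
      · have := h v a ⟨j, k⟩
        simp only [k, if_true] at this
        simp [r, k, a, this]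
      · simp [r, k, a]
    · rw [cmb_out k, cmb_out k]; exact o _ _ v k
  rw [this, k2] at k1
  linarith

theorem Q4.eq {p1 p2 p3 p4 : C ⊕ L → ℝ} (h : Q4 T A j p1 p2 p3 p4) (h1 : T.Ty A F) (hj : j ∉ A) :
    F p1 = F p2 ∧ F p1 = F p3 ∧ F p1 = F p4 := by
  have k : ∀ v, T.tv v ⊆ A → (T.tv v).Nonempty → p1 v = p2 v ∧ p1 v = p3 v ∧ p1 v = p4 v :=
    fun v a b => by
      have := h v a b
      rwa [if_neg fun k => hj (a k)] at this
  exact ⟨h1 _ _ fun v a b => (k v a b).1, h1 _ _ fun v a b => (k v a b).2.1,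
    h1 _ _ fun v a b => (k v a b).2.2⟩

theorem Q4.of_quad {y1 y2 y3 y4 : C → ℤ} (h : T.Quad A M j y1 y2 y3 y4) {S : Finset L} (a : S ⊆ A)
    (d : Disjoint S M) : Q4 T S j (cf y1) (cf y2) (cf y3) (cf y4) := by
  rintro (c | ℓ) a' b
  · have := h c (a'.trans a) b (d.mono_left a')
    simp only [tv_inl, cf_inl]
    split_ifs at this ⊢
    · exact_mod_cast this
    · exact_mod_cast this
  · simp

theorem Lm.q4 (h : Lm T' T ι) {p1 p2 p3 p4 : C' ⊕ L → ℝ} (k : Q4 T' A j p1 p2 p3 p4) :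
    Q4 T A j (ι p1) (ι p2) (ι p3) (ι p4) := by
  rintro (c | ℓ) a b
  · split_ifs with hj
    · exact (k.mono a).alt (h.dat c b).1 ((h.dat c b).2 j hj)
    · exact (k.mono a).eq (h.dat c b).1 hj
  · simp only [h.e]; exact k (.inr ℓ) a b

theorem Lm.quad (h : Lm T' T ι) {y1 y2 y3 y4 : C → ℤ} {x1 x2 x3 x4 : C' → ℤ}
    (e1 : ι (cf x1) = cf y1) (e2 : ι (cf x2) = cf y2) (e3 : ι (cf x3) = cf y3)
    (e4 : ι (cf x4) = cf y4) (k : T'.Quad A M j x1 x2 x3 x4) : T.Quad A M j y1 y2 y3 y4 := by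
  intro c a b d
  have := h.q4 (Q4.of_quad k a d) (.inl c) subset_rfl b
  rw [e1, e2, e3, e4] at this
  simp only [tv_inl, cf_inl] at this
  split_ifs at this ⊢
  · exact_mod_cast this
  · exact_mod_cast this

theorem Lm.pb (h : Lm T' T ι) (ℓ : L) : T.Pb T' ι ℓ ℓ := by
  rintro (c | m)
  · exact ⟨fun k => (h.dat c ⟨ℓ, k⟩).2 ℓ k, fun k p p' e => h.off e _ k⟩
  · refine ⟨fun k => ?_, fun k p p' e => h.off e _ k⟩
    simp only [h.e]; exact lin_co (T := T') (v := .inr m) k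

theorem Lm.pt (h : Lm T' T ι) (A : Finset L) : T.Pt T' ι A A :=
  fun v a b _ _ e => h.agree e v a b

section cl
variable {ρ : Type} [Fintype ρ] [DecidableEq ρ]
/-- the induced map of the cloned shapes -/
def clm (T' : TT L C') (T : TT L C) (ι : (C' ⊕ L → ℝ) → (C ⊕ L → ℝ)) (j : L) (pt : ρ → Bool)
    (p : T'.CC j ρ ⊕ (L ⊕ ρ) → ℝ) : T.CC j ρ ⊕ (L ⊕ ρ) → ℝ
  | .inl (.inl c) => ι (T'.p0 j p) (.inl c)
  | .inl (.inr cx) => ι (T'.px j pt cx.2 p) (.inl cx.1.1)
  | .inr ℓ => p (.inr ℓ)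
variable {pt : ρ → Bool} {a : ρ → ℕ}

theorem Lm.p0_clm (h : Lm T' T ι) (p) : T.p0 j (clm T' T ι j pt p) = ι (T'.p0 j p) := by
  funext v
  rcases v with c | ℓ
  · rfl
  · rw [h.e]; rfl

theorem Lm.px_clm (h : Lm T' T ι) (x : ρ) (p) :
    T.px j pt x (clm T' T ι j pt p) = ι (T'.px j pt x p) := by
  funext v
  rcases v with c | ℓ
  · by_cases k : j ∈ T.ty c
    · simp only [px, dif_pos k]; rfl
    · simp only [px, dif_neg k]
      exact h.off (ℓ := j) (fun v hv => T'.p0_px j pt x p v hv) (.inl c) k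
  · rw [h.e]; rfl

theorem Lm.pos_clm (h : Lm T' T ι) (α0 : ℤ) (α : ρ → ℤ) (p) :
    T.pos j pt α0 α (clm T' T ι j pt p) = ι (T'.pos j pt α0 α p) := by
  funext v
  by_cases k : j ∈ T.tv v
  · rw [((h.pb j v).1 k).pos pt α0 α p]
    simp only [pos, if_pos k, h.p0_clm, h.px_clm]
  · rw [((h.pb j v).2 k).pos pt α0 α p]
    simp only [pos, if_neg k, h.p0_clm]

theorem Lm.dat_clm (h : Lm T' T ι) (hj : j ∉ M) {I : Fm (L ⊕ ρ) (T.CC j ρ)}
    (k : (T.cl j pt a).Dat (upA A ρ) (M.image .inl) I) :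
    (T'.cl j pt a).Dat (upA A ρ) (M.image .inl) fun p => I (clm T' T ι j pt p) := by
  refine k.pb ?_ ?_
  · rintro ((c | ⟨c, x⟩) | ℓ) s n
    · have n' : (T.ty c).Nonempty := by simpa using n
      refine (h.dat c n').1.pb (T'.pt_p0 j pt a fun ℓ hℓ => s ?_)
      simpa using hℓ
    · refine (h.dat c.1 ⟨j, c.2⟩).1.pb (T'.pt_px j pt a x (fun ℓ hℓ e => s ?_) fun _ => s (by simp))
      simp [hℓ, e]
    · exact ty_co (T := T'.cl j pt a) (v := .inr ℓ) s n
  · intro ℓ' hℓ'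
    refine ⟨ℓ', hℓ', ?_⟩
    obtain ⟨ℓ, hℓ, rfl⟩ := mem_image.1 hℓ'
    have ne : ℓ ≠ j := fun e => hj (e ▸ hℓ)
    rintro ((c | ⟨c, x⟩) | m)
    · exact ⟨fun k => ((h.pb ℓ (.inl c)).1 (by simpa using k)).pb (T'.pb_p0 j pt a ℓ),
        fun k => ((h.pb ℓ (.inl c)).2 (by simpa using k)).pb (T'.pb_p0 j pt a ℓ)⟩
    · exact ⟨fun k => ((h.pb ℓ (.inl c.1)).1 (by simpa [ne] using k)).pb (T'.pb_px j pt a x ne),
        fun k => ((h.pb ℓ (.inl c.1)).2 (by simpa [ne] using k)).pb (T'.pb_px j pt a x ne)⟩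
    · exact ⟨fun k => lin_co (T := T'.cl j pt a) (v := .inr m) k,
        fun k => ind_co (T := T'.cl j pt a) (v := .inr m) k⟩

/-- the configuration seen by the clone `x` -/
def pz (T : TT L C) (j : L) (x : ρ) (w : T.CC j ρ → ℤ) : C → ℤ :=
  fun c => if h : j ∈ T.ty c then w (.inr (⟨c, h⟩, x)) else w (.inl c)

theorem fib_px (hj : j ∉ M) {x : ρ} (hx : pt x = true) {w : T.CC j ρ → ℤ} {p}
    (hp : p ∈ (T.cl j pt a).Fib (M.image .inl) w) : T.px j pt x p ∈ T.Fib M (pz T j x w) := by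
  refine ⟨fun c hc => ?_, fun ℓ => ?_⟩
  · by_cases k : j ∈ T.ty c
    · simp only [px, pz, dif_pos k]
      refine hp.1 _ ?_
      rw [cl_ty_r, disjoint_insert_left]
      exact ⟨by simp, (disjoint_image Sum.inl_injective).2 (hc.mono_left (erase_subset _ _))⟩
    · simp only [px, pz, dif_neg k]
      exact hp.1 _ (by rw [cl_ty_l]; exact (disjoint_image Sum.inl_injective).2 hc)
  · by_cases k : ℓ = j
    · subst k; simp [px, hx, hj, hp.2]
    · simp [px, k, hp.2]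

/-- relations on a shape of point clones of full width pull back along a morphism -/
theorem Mor.rel_cl (h : Mor T' T ι κ) (hT : T.Ok) (hT' : T'.Ok) (hκ : 1 ≤ κ) (hj : j ∉ M)
    {w : T.CC j ρ → ℤ} {w' : T'.CC j ρ → ℤ} {q : ℕ} {B : ℝ} {I : Fm (L ⊕ ρ) (T.CC j ρ)}
    (e0 : ∀ c, T.ty c ⊆ A → (T.ty c).Nonempty → Disjoint (T.ty c) M →
      ι (cf fun c => w' (.inl c)) (.inl c) = w (.inl c))
    (ex : ∀ x (c : T.Bl j), T.ty c.1 ⊆ insert j A → Disjoint (T.ty c.1) M →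
      ι (cf (pz T' j x w')) (.inl c.1) = w (.inr (c, x)))
    (hI : (T.cl j (fun _ : ρ => true) fun _ => 0).Dat (upA A ρ) (M.image .inl) I)
    (k : (T.cl j (fun _ : ρ => true) fun _ => 0).Rel (upA A ρ) (M.image .inl) w q B I) :
    (T'.cl j (fun _ : ρ => true) fun _ => 0).Rel (upA A ρ) (M.image .inl) w' q (κ ^ M.card * B)
      fun p => I (clm T' T ι j (fun _ => true) p) := by
  obtain ⟨y0, h0⟩ := h.exists_cf fun c => w' (.inl c)
  choose yx hx using fun x => h.exists_cf (pz T' j x w')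
  have k' := rel_tr (hT.cl j _ _) (y' := T.gl j y0 yx) hI.1 (by
    rintro (c | ⟨c, x⟩) s n d
    · have := e0 c (fun ℓ hℓ => (inl_upA (ρ := ρ)).1 (s (by simpa using hℓ))) (by simpa using n)
        ((disjoint_image Sum.inl_injective).1 d)
      rw [h0, cf_inl] at this
      show _ = y0 c
      exact_mod_cast this.symm
    · have := ex x c (fun ℓ hℓ => by
        by_cases e : ℓ = j
        · simp [e]
        · exact mem_insert_of_mem ((inl_upA (ρ := ρ)).1 (s (by simp [hℓ, e])))) (by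
        rw [cl_ty_r, disjoint_insert_left, disjoint_image Sum.inl_injective] at d
        rw [← insert_erase c.2, disjoint_insert_left]; exact ⟨hj, d.2⟩)
      rw [hx, cf_inl] at this
      show _ = yx x c.1
      exact_mod_cast this.symm) k
  have := rel_pull (T' := T'.cl j (fun _ : ρ => true) fun _ => 0) (A' := upA A ρ)
    (M' := M.image .inl) (y' := w') (ι := clm T' T ι j fun _ => true) (hT.cl j _ _) hκ
    (fun I hI => h.toLm.dat_clm hj hI) ?_ ?_ ?_ hI.2 k'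
  · rwa [card_image_of_injective _ Sum.inl_injective] at this
  · intro p hp
    refine ⟨?_, fun ℓ => hp.2 ℓ⟩
    rintro (c | ⟨c, x⟩) d
    · exact (h.fib h0 (T'.fib_p0 j _ _ w' p hp)).1 c ((disjoint_image Sum.inl_injective).1 d)
    · refine (h.fib (hx x) (fib_px hj rfl hp)).1 c.1 ?_
      rw [cl_ty_r, disjoint_insert_left, disjoint_image Sum.inl_injective] at d
      rw [← insert_erase c.2, disjoint_insert_left]; exact ⟨hj, d.2⟩
  · rintro p _ hp ((c | ⟨c, x⟩) | ℓ)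
    · exact h.int _ (T'.intP_p0 j hp) _
    · exact h.int _ (T'.intP_px j _ x hp) _
    · exact hp _
  · rintro p hp hc (c | ⟨c, x⟩) s d
    · rw [cl_Φ_l, h.p0_clm]
      have d' : ¬ Disjoint (T.ty c) M := fun e => d ((disjoint_image Sum.inl_injective).2 e)
      have := h.cube M _ c 1 zero_le_one (T'.fib_p0 j _ _ w' p hp).2 d' fun c' s' d'' =>
        hc (.inl c') ((image_subset_image s').trans s)
          fun e => d'' ((disjoint_image Sum.inl_injective).1 e)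
      simpa using this
    · rw [cl_Φ_r, h.px_clm]
      have d' : ¬ Disjoint (T.ty c.1) M := fun e => d (by
        rw [cl_ty_r, disjoint_insert_left, disjoint_image Sum.inl_injective]
        exact ⟨by simp, e.mono_left (erase_subset _ _)⟩)
      have := h.cube M (T'.px j (fun _ => true) x p) c.1 1 zero_le_one (fib_px hj rfl hp).2 d'
        fun c' s' d'' => by
          by_cases e : j ∈ T'.ty c'
          · have := hc (.inr (⟨c', e⟩, x)) (by
              refine Subset.trans ?_ s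
              rw [cl_ty_r, cl_ty_r]
              exact insert_subset_insert _ (image_subset_image (erase_subset_erase _ s'))) (by
              intro e'
              rw [cl_ty_r, disjoint_insert_left, disjoint_image Sum.inl_injective] at e'
              apply d''
              rw [← insert_erase e, disjoint_insert_left]; exact ⟨hj, e'.2⟩)
            simpa [cl_Φ_r] using this
          · have := hc (.inl c') (by
              refine Subset.trans ?_ s
              rw [cl_ty_l, cl_ty_r]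
              refine (image_subset_image ?_).trans (subset_insert _ _)
              exact fun ℓ hℓ => mem_erase.2 ⟨fun e' => e (e' ▸ hℓ), s' hℓ⟩)
              fun e' => d'' ((disjoint_image Sum.inl_injective).1 e')
            rw [cl_Φ_l] at this
            rwa [(hT'.ind e).px _ x p]
      simpa using this
end cl

theorem Mor.resp (h : Mor T' T ι κ) (hT : T.Ok) (hT' : T'.Ok) (hκ : 1 ≤ κ) (hA : j ∈ A) (hj : j ∉ M)
    {y1 y2 y3 : C → ℤ} {x1 x2 x3 x4 : C' → ℤ} (e1 : ι (cf x1) = cf y1) (e2 : ι (cf x2) = cf y2)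
    (e3 : ι (cf x3) = cf y3) (hq : T'.Quad A M j x1 x2 x3 x4) {q : ℕ} {B : ℝ} {G : Fin 4 → Fm L C}
    (hG : ∀ l, T.Dat A M (G l)) (k : T.Resp A M j y1 y2 y3 q B G) :
    T'.Resp A M j x1 x2 x3 q (κ ^ M.card * B) fun l p => G l (ι p) := by
  have := h.rel_cl hT hT' hκ hj (w' := T'.gl j x1 ![x2, x3]) ?_ ?_ ?_ k
  · simpa only [Resp, h.pos_clm] using this
  · intro c _ _ _
    exact congrFun e1 (.inl c)
  · intro x c s d
    rw [insert_eq_of_mem hA] at s
    have k1 : ∀ x' : C' → ℤ, (∀ c', T'.ty c' ⊆ A → (T'.ty c').Nonempty → Disjoint (T'.ty c') M →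
        j ∉ T'.ty c' → x1 c' = x' c') → ![x2, x3] x = x' →
        ι (cf (pz T' j x (T'.gl j x1 ![x2, x3]))) (.inl c.1) = ι (cf x') (.inl c.1) := by
      intro x' hx e
      refine (h.dat c.1 ⟨j, c.2⟩).1 _ _ ?_
      rintro (c' | ℓ) a b
      · by_cases k : j ∈ T'.ty c'
        · simp only [cf_inl, pz, dif_pos k, gl, Sum.elim_inr, e]
        · simp [pz, k, gl, hx c' (a.trans s) b (d.mono_left a) k]
      · rfl
    fin_cases x
    · rw [k1 x2 (fun c' a b d k => by have := hq c' a b d; rw [if_neg k] at this; exact this.1) rfl, e2]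
      rfl
    · rw [k1 x3 (fun c' a b d k => by have := hq c' a b d; rw [if_neg k] at this; exact this.2.1) rfl,
        e3]
      rfl
  · exact (((Dat.pos _ _ _ _ _ hj (hG 0)).sub (Dat.pos _ _ _ _ _ hj (hG 1))).sub
      (Dat.pos _ _ _ _ _ hj (hG 2))).add (Dat.pos _ _ _ _ _ hj (hG 3))

theorem Mor.frei (h : Mor T' T ι κ) (hT : T.Ok) (hT' : T'.Ok) (hκ : 1 ≤ κ) (hA : j ∈ A) (hj : j ∉ M)
    {D : Type} {H : Set (C → ℤ)} {H' : Set (C' → ℤ)} (o : Ov ι H' H) {q : ℕ} {B : ℝ}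
    {G : D → Fm L C} (hG : ∀ d, T.Dat A M (G d)) (k : T.Frei A M j H q B G) :
    T'.Frei A M j H' q (κ ^ M.card * B) fun d p => G d (ι p) := by
  intro x1 h1 x2 h2 x3 h3 x4 h4 hq d
  obtain ⟨y1, k1, e1⟩ := o x1 h1
  obtain ⟨y2, k2, e2⟩ := o x2 h2
  obtain ⟨y3, k3, e3⟩ := o x3 h3
  obtain ⟨y4, k4, e4⟩ := o x4 h4
  exact h.resp hT hT' hκ hA hj e1 e2 e3 hq (G := fun _ => G d) (fun _ => hG d)
    (k y1 k1 y2 k2 y3 k3 y4 k4 (h.toLm.quad e1 e2 e3 e4 hq) d)

theorem Ref.mor {s k : ℕ} (h : Ref s T k C' T' ι) (hT : T.Ok) : Mor T' T ι (2 ^ k) := by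
  induction h with
  | refl => simpa using Mor.id' T
  | rc h j a q z hq hqa ha ih =>
    rw [pow_succ]; exact ih.comp (mor_rc (h.ok hT) j z hqa) (by norm_num)

theorem Ref.card {s k : ℕ} (h : Ref s T k C' T' ι) : Fintype.card C' ≤ 2 ^ k * Fintype.card C := by
  induction h with
  | refl => simp
  | @rc k C' _ _ T' ι h j a q z hq hqa ha ih =>
    have : Fintype.card (T'.Bl j) ≤ Fintype.card C' := Fintype.card_subtype_le _
    rw [Fintype.card_sum, pow_succ]; nlinarith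

theorem TT.Rel.nonneg (hT : T.Ok) {y : C → ℤ} {q : ℕ} {B : ℝ} (h : T.Rel A M y q B F) : 0 ≤ B := by
  obtain ⟨I, _, h3⟩ := h
  let p : C ⊕ L → ℝ := Sum.elim (fun c => (y c : ℝ)) fun ℓ => if ℓ ∈ M then 0 else 1
  have hu : ¬ (fun S : Finset L => ¬ Disjoint S M) ∅ := by simp
  have hp : p ∈ T.Fib M y := ⟨fun _ _ => rfl, fun _ => rfl⟩
  refine (abs_nonneg _).trans (h3 _ (sol_fib (u := fun S => ¬ Disjoint S M) (fun _ h => h) hp)
    fun c _ b => ?_)
  rw [hT.sol_phi hu p b]; simp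

theorem TT.Frei.mono {D : Type} {H H' : Set (C → ℤ)} {q q' : ℕ} {B B' : ℝ} {G : D → Fm L C}
    (h : T.Frei A M j H q B G) (e : H' ⊆ H) (d : q ∣ q') (hq : 1 ≤ q') (b : B ≤ B') :
    T.Frei A M j H' q' B' G := fun y1 h1 y2 h2 y3 h3 y4 h4 k l =>
  ((h y1 (e h1) y2 (e h2) y3 (e h3) y4 (e h4) k l).dvd d hq).mono b

theorem pw_le (k : ℕ) (M : Finset L) : ((2 : ℝ) ^ k) ^ M.card ≤ (2 ^ Fintype.card L) ^ k := by
  rw [← pow_mul, ← pow_mul, mul_comm]
  exact pow_le_pow_right₀ one_le_two (Nat.mul_le_mul_right _ (card_le_univ M))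

theorem mor : MOR := by
  intro L C _ _ _ _ T s k C' _ _ T' ι hT h
  have m := h.mor hT
  have one : (1 : ℝ) ≤ 2 ^ k := one_le_pow₀ one_le_two
  refine ⟨h.ok hT, h.card, fun A M F _ k => m.pull k, m.exists_cf,
    fun A M y y' q B F _ e hF r => (m.rel hT one e hF.2 r).mono
      (mul_le_mul_of_nonneg_right (pw_le k M) (r.nonneg hT)), ?_⟩
  intro D A M j H H' q B F _ hA hj o hF r x1 h1 x2 h2 x3 h3 x4 h4 hq d
  have := m.frei hT (h.ok hT) one hA hj o hF r x1 h1 x2 h2 x3 h3 x4 h4 hq d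
  refine this.mono (mul_le_mul_of_nonneg_right (pw_le k M) ?_)
  have p := TT.Rel.nonneg ((h.ok hT).cl j _ _) this
  exact nonneg_of_mul_nonneg_right (by rwa [mul_comm] at p) (by positivity) |> fun t => t
end Crest.Agent.N49.Rm
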