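import Crest.Agent.N49.Rm.Defs
import Crest.Agent.N49.Po.Mix
/-! Row 49, block RMH/B (helper68): the block of a letter is a lattice Gaussian. -/
set_option autoImplicit false
set_option linter.unusedSectionVars false
noncomputable section
namespace Crest.Agent.N49.Rm
open Finset Matrix Po

variable {L C : Type} [Fintype L] [DecidableEq L] [Fintype C] [DecidableEq C]
namespace TT
variable (T : TT L C)

/-- put `n`, `e` on the block of `j` -/
def jr (j : L) (p : C ⊕ L → ℝ) (n : T.Bl j → ℝ) (e : ℝ) : C ⊕ L → ℝ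
  | .inl c => if h : j ∈ T.ty c then n ⟨c, h⟩ else p (.inl c)
  | .inr ℓ => if ℓ = j then e else p (.inr ℓ)
/-- integer version -/
def jn (j : L) (y : C → ℤ) (n : T.Bl j → ℤ) : C → ℤ :=
  fun c => if h : j ∈ T.ty c then n ⟨c, h⟩ else y c
/-- the block coordinates -/
def bl (j : L) {R : Type} (y : C → R) : T.Bl j → R := fun c => y c.1
/-- the linear part of the block map -/
def Nm (j : L) (p : C ⊕ L → ℝ) : Matrix (T.Bl j) (T.Bl j) ℝ :=
  Matrix.of fun c c' => T.Φ (T.jr j p (Pi.single c' 1) 0) c.1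
/-- the offset of the block map -/
def of (j : L) (p : C ⊕ L → ℝ) : T.Bl j → ℝ := fun c => T.Φ (T.jr j p 0 1) c.1
/-- the form of the block -/
def Mm (j : L) (y : C → ℤ) : Matrix (T.Bl j) (T.Bl j) ℝ := (T.Nm j (cf y))ᵀ * T.Nm j (cf y)
/-- the centre of the block -/
def ce (j : L) (y : C → ℤ) : T.Bl j → ℝ := -((T.Nm j (cf y))⁻¹ *ᵥ T.of j (cf y))
/-- the weight of the rest -/
def wr (j : L) (y : C → ℤ) : ℝ :=
  Real.exp (-Real.pi * ∑ c with j ∉ T.ty c, T.Φ (cf y) c ^ 2)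

variable {T}

theorem jr_out {j : L} (p : C ⊕ L → ℝ) (n : T.Bl j → ℝ) (e : ℝ) {v : C ⊕ L} (h : j ∉ T.tv v) :
    T.jr j p n e v = p v := by
  cases v with
  | inl c => exact dif_neg h
  | inr ℓ => exact if_neg fun a => h (by simp [tv, a])

theorem jr_inl {j : L} (p : C ⊕ L → ℝ) (n : T.Bl j → ℝ) (e : ℝ) (c : T.Bl j) :
    T.jr j p n e (.inl c.1) = n c := dif_pos c.2

theorem jr_inr {j : L} (p : C ⊕ L → ℝ) (n : T.Bl j → ℝ) (e : ℝ) : T.jr j p n e (.inr j) = e :=
  if_pos rfl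

theorem jr_in {j : L} (p p' : C ⊕ L → ℝ) (n : T.Bl j → ℝ) (e : ℝ) {v : C ⊕ L} (a : j ∈ T.tv v) :
    T.jr j p n e v = T.jr j p' n e v := by
  cases v with
  | inl c => exact (jr_inl p n e ⟨c, a⟩).trans (jr_inl p' n e ⟨c, a⟩).symm
  | inr ℓ =>
    have : ℓ = j := by simpa [tv, eq_comm] using a
    rw [this, jr_inr, jr_inr]

theorem jr_congr {j : L} {p p' : C ⊕ L → ℝ} (h : ∀ v, j ∉ T.tv v → p v = p' v) (n : T.Bl j → ℝ)
    (e : ℝ) : T.jr j p n e = T.jr j p' n e := by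
  funext v
  by_cases a : j ∈ T.tv v
  · exact jr_in _ _ _ _ a
  · rw [jr_out _ _ _ a, jr_out _ _ _ a, h v a]

theorem jr_self (j : L) (p : C ⊕ L → ℝ) : T.jr j p (fun c => p (.inl c.1)) (p (.inr j)) = p := by
  funext v
  cases v with
  | inl c => simp only [jr]; split_ifs <;> rfl
  | inr ℓ => simp only [jr]; split_ifs with h <;> simp [h]

theorem jr_jr {j : L} (p : C ⊕ L → ℝ) (n n' : T.Bl j → ℝ) (e e' : ℝ) :
    T.jr j (T.jr j p n e) n' e' = T.jr j p n' e' := jr_congr (fun _ a => jr_out _ _ _ a) _ _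

theorem cmb_jr {j : L} (p : C ⊕ L → ℝ) (n n' : T.Bl j → ℝ) (e e' a b : ℝ) :
    T.cmb j a b (T.jr j p n e) (T.jr j p n' e') = T.jr j p (a • n + b • n') (a * e + b * e') := by
  funext v
  cases v with
  | inl c => by_cases h : j ∈ T.ty c <;> simp [cmb, jr, tv, h]
  | inr ℓ =>
    by_cases h : ℓ = j
    · simp [cmb, jr, tv, h]
    · have : j ≠ ℓ := fun a => h a.symm
      simp [cmb, jr, tv, h, this]

theorem cf_jn {j : L} (y : C → ℤ) (n : T.Bl j → ℤ) :
    (cf (T.jn j y n) : C ⊕ L → ℝ) = T.jr j (cf y) (zc n) 1 := by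
  funext v
  cases v with
  | inl c => by_cases h : j ∈ T.ty c <;> simp [cf, jn, jr, zc, h]
  | inr ℓ => simp [cf, jr]

theorem jn_self (j : L) (y : C → ℤ) : T.jn j y (T.bl j y) = y := by
  funext c; simp only [jn, bl]; split_ifs <;> rfl

theorem bl_jn {j : L} (y : C → ℤ) (n : T.Bl j → ℤ) : T.bl j (T.jn j y n) = n := by
  funext c; exact dif_pos c.2

theorem jn_out {j : L} (y : C → ℤ) (n : T.Bl j → ℤ) {c : C} (h : j ∉ T.ty c) :
    T.jn j y n c = y c := dif_neg h

theorem jn_jn {j : L} (y : C → ℤ) (n n' : T.Bl j → ℤ) : T.jn j (T.jn j y n) n' = T.jn j y n' := by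
  funext c; simp only [jn]; split_ifs <;> rfl

theorem Lin.jr_add {j : L} {F : Fm L C} (h : T.Lin j F) (p : C ⊕ L → ℝ) (n n' : T.Bl j → ℝ)
    (e e' a b : ℝ) : F (T.jr j p (a • n + b • n') (a * e + b * e')) =
      a * F (T.jr j p n e) + b * F (T.jr j p n' e') := by
  rw [← cmb_jr]
  exact h _ _ _ _ fun v a => by rw [jr_out _ _ _ a, jr_out _ _ _ a]

/-- a form linear in the block of `j` as a linear map -/
def Lin.lm {j : L} {F : Fm L C} (h : T.Lin j F) (p : C ⊕ L → ℝ) : (T.Bl j → ℝ) →ₗ[ℝ] ℝ where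
  toFun n := F (T.jr j p n 0)
  map_add' n n' := by simpa using h.jr_add p n n' 0 0 1 1
  map_smul' a n := by simpa using h.jr_add p n n 0 0 a 0

theorem Lin.expand {j : L} {F : Fm L C} (h : T.Lin j F) (p : C ⊕ L → ℝ) (n : T.Bl j → ℝ) (e : ℝ) :
    F (T.jr j p n e) =
      ∑ c, F (T.jr j p (Pi.single c 1) 0) * n c + e * F (T.jr j p 0 1) := by
  have h1 := h.jr_add p n 0 0 1 1 e
  have h2 : F (T.jr j p n 0) = ∑ c, F (T.jr j p (Pi.single c 1) 0) * n c := by
    have := (h.lm p).pi_apply_eq_sum_univ n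
    refine this.trans (sum_congr rfl fun c _ => ?_)
    rw [smul_eq_mul, mul_comm]
    congr 1
    change F (T.jr j p _ 0) = _
    congr 2
    funext c'
    simp [Pi.single_apply, eq_comm]
  simp only [one_smul, smul_zero, add_zero, mul_zero, mul_one, zero_add, one_mul] at h1
  rw [h1, h2]

theorem Ok.lin (h : T.Ok) {j : L} {c : C} (hc : j ∈ T.ty c) : T.Lin j fun p => T.Φ p c :=
  (h.dat c ⟨j, hc⟩).2 j hc

theorem Ok.phi_in (h : T.Ok) {j : L} (p : C ⊕ L → ℝ) (n : T.Bl j → ℝ) (e : ℝ) (c : T.Bl j) :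
    T.Φ (T.jr j p n e) c.1 = (T.Nm j p *ᵥ n) c + e * T.of j p c :=
  (h.lin c.2).expand p n e

theorem Ok.phi_cg (h : T.Ok) {c : C} {p p' : C ⊕ L → ℝ}
    (a : ∀ v, T.tv v ⊆ T.ty c → p v = p' v) : T.Φ p c = T.Φ p' c := by
  rcases (T.ty c).eq_empty_or_nonempty with e | e
  · rw [h.dead c p e, h.dead c p' e]; exact a _ (Subset.refl _)
  · exact (h.dat c e).1 _ _ fun v b _ => a v b

theorem Ok.phi_out (h : T.Ok) {j : L} (p : C ⊕ L → ℝ) (n : T.Bl j → ℝ) (e : ℝ) {c : C}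
    (hc : j ∉ T.ty c) : T.Φ (T.jr j p n e) c = T.Φ p c :=
  h.phi_cg fun _ b => jr_out _ _ _ fun a => hc (b a)

theorem Nm_congr {j : L} {p p' : C ⊕ L → ℝ} (h : ∀ v, j ∉ T.tv v → p v = p' v) :
    T.Nm j p = T.Nm j p' := by
  ext c c'; simp only [Nm, Matrix.of_apply, jr_congr h]

theorem of_congr {j : L} {p p' : C ⊕ L → ℝ} (h : ∀ v, j ∉ T.tv v → p v = p' v) :
    T.of j p = T.of j p' := by
  ext c; simp only [TT.of, jr_congr h]

theorem Ok.Nm_tri (h : T.Ok) {j : L} (p : C ⊕ L → ℝ) {c c' : T.Bl j} (a : ¬ T.ty c'.1 ⊆ T.ty c.1) :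
    T.Nm j p c c' = 0 := by
  have e : T.Φ (T.jr j p (Pi.single c' 1) 0) c.1 = T.Φ (T.jr j p 0 0) c.1 := by
    refine h.phi_cg fun v b => ?_
    cases v with
    | inl d =>
      by_cases k : j ∈ T.ty d
      · have : (⟨d, k⟩ : T.Bl j) ≠ c' := fun x => a (x ▸ b)
        simp [jr, k, this]
      · simp [jr, k]
    | inr ℓ => rfl
  have := h.phi_in p 0 0 c
  simp only [mulVec_zero, Pi.zero_apply, zero_mul, add_zero] at this
  exact e.trans this

/-- the increment of `Φ c` along a coordinate -/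
theorem Ok.Nm_eq (h : T.Ok) {j : L} (p : C ⊕ L → ℝ) (c c' : T.Bl j) :
    T.Nm j p c c' = T.Φ (Function.update p (.inl c'.1) (p (.inl c'.1) + 1)) c.1 - T.Φ p c.1 := by
  have e : Function.update p (.inl c'.1) (p (.inl c'.1) + 1) =
      T.jr j p ((fun d => p (.inl d.1)) + Pi.single c' 1) (p (.inr j)) := by
    funext v
    cases v with
    | inl d =>
      by_cases k : j ∈ T.ty d
      · by_cases x : d = c'.1
        · subst x; simp [jr, k]
        · have : (⟨d, k⟩ : T.Bl j) ≠ c' := fun y => x (congrArg Subtype.val y)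
          simp [jr, k, x, this]
      · have : d ≠ c'.1 := fun y => k (y ▸ c'.2)
        simp [jr, k, this]
    | inr ℓ => by_cases k : ℓ = j <;> simp [jr, k]
  have e2 := h.phi_in p (fun d => p (.inl d.1)) (p (.inr j)) c
  rw [jr_self] at e2
  rw [e, h.phi_in, e2, mulVec_add]
  simp

theorem Ok.Nm_diag (h : T.Ok) {j : L} (p p' : C ⊕ L → ℝ) {c c' : T.Bl j}
    (a : T.ty c'.1 = T.ty c.1) : T.Nm j p c c' = T.Nm j p' c c' := by
  -- change the blocks of the letters of the type one after the other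
  have key : ∀ s : Finset L, s ⊆ T.ty c.1 → ∀ p p' : C ⊕ L → ℝ,
      (∀ v, Disjoint (T.tv v) s → p v = p' v) → T.Nm j p c c' = T.Nm j p' c c' := by
    intro s
    induction s using Finset.induction_on with
    | empty => intro _ p p' b; rw [show p = p' from funext fun v => b v (disjoint_empty_right _)]
    | insert ℓ s _ ih =>
      intro hs p p' b
      have l : ℓ ∈ T.ty c.1 := hs (mem_insert_self _ _)
      have l' : ℓ ∈ T.ty c'.1 := a ▸ l
      let r : C ⊕ L → ℝ := fun v => if ℓ ∈ T.tv v then p' v else p v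
      have e1 : T.Nm j p c c' = T.Nm j r c c' := by
        rw [h.Nm_eq, h.Nm_eq, ← h.Nm_eq (j := ℓ) p ⟨c.1, l⟩ ⟨c'.1, l'⟩,
          ← h.Nm_eq (j := ℓ) r ⟨c.1, l⟩ ⟨c'.1, l'⟩, Nm_congr (p' := r) fun v x => (if_neg x).symm]
      rw [e1]
      refine ih ((subset_insert _ _).trans hs) _ _ fun v x => ?_
      by_cases y : ℓ ∈ T.tv v
      · exact if_pos y
      · exact (if_neg y).trans (b v (by simp [disjoint_insert_right, y, x]))
  let r : C ⊕ L → ℝ := fun v => if Disjoint (T.tv v) (T.ty c.1) then p v else p' v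
  rw [key _ (Subset.refl _) p r fun v x => (if_pos x).symm]
  refine (h.dat c.1 ⟨j, c.2⟩).1 _ _ fun v b ne => ?_
  by_cases k : j ∈ T.tv v
  · exact jr_in _ _ _ _ k
  · rw [jr_out _ _ _ k, jr_out _ _ _ k]
    obtain ⟨ℓ, l⟩ := ne
    exact if_neg fun x => disjoint_left.1 x l (b l)

theorem Ok.Nm_bt (h : T.Ok) (j : L) (p : C ⊕ L → ℝ) :
    (T.Nm j p)ᵀ.BlockTriangular fun c => #(T.ty c.1) := fun _ _ a =>
  h.Nm_tri p fun b => absurd (card_le_card b) (not_le.2 a)

theorem Ok.Nm_blk (h : T.Ok) {j : L} (p p' : C ⊕ L → ℝ) {c c' : T.Bl j}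
    (a : #(T.ty c'.1) = #(T.ty c.1)) : T.Nm j p c c' = T.Nm j p' c c' := by
  by_cases b : T.ty c'.1 ⊆ T.ty c.1
  · exact h.Nm_diag p p' (eq_of_subset_of_card_le b a.ge)
  · rw [h.Nm_tri p b, h.Nm_tri p' b]

/-- the determinant does not depend on the rest -/
theorem Ok.det_eq (h : T.Ok) (j : L) (p p' : C ⊕ L → ℝ) : (T.Nm j p).det = (T.Nm j p').det := by
  rw [← det_transpose, (h.Nm_bt j p).det, ← det_transpose (T.Nm j p'), (h.Nm_bt j p').det]
  refine prod_congr rfl fun a _ => congrArg _ ?_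
  ext c c'
  exact h.Nm_blk p p' (c.2.trans c'.2.symm)

theorem Ok.Nm_inj (h : T.Ok) (j : L) (p : C ⊕ L → ℝ) {n : T.Bl j → ℝ} (a : T.Nm j p *ᵥ n = 0) :
    n = 0 := by
  have key : ∀ k, ∀ c : T.Bl j, #(T.ty c.1) = k → n c = 0 := by
    intro k
    induction k using Nat.strong_induction_on with
    | _ k ih =>
      intro c hc
      let n' : T.Bl j → ℝ := fun d => if T.ty d.1 = T.ty c.1 then n d else 0
      have e := h.inj (T.ty c.1) (T.jr j p n' 0) (T.jr j p 0 0) (fun ℓ => rfl)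
        (fun d x => by by_cases k : j ∈ T.ty d <;> simp [jr, k, n', x]) fun d x => by
          have k : j ∈ T.ty d := x ▸ c.2
          rw [h.phi_in p n' 0 ⟨d, k⟩, h.phi_in p 0 0 ⟨d, k⟩, mulVec_zero, ← a]
          congr 1
          refine sum_congr rfl fun d' _ => ?_
          by_cases y : T.ty d'.1 = T.ty c.1
          · simp [n', y]
          · by_cases z : T.ty d'.1 ⊆ T.ty d
            · have : n d' = 0 := ih _ (hc ▸ card_lt_card (x ▸ ⟨z, fun w => y (x ▸ z.antisymm w)⟩))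
                d' rfl
              simp [n', y, this]
            · simp [h.Nm_tri p (c := ⟨d, k⟩) z]
      have := congrFun e (.inl c.1)
      rw [jr_inl, jr_inl] at this
      simpa [n'] using this
  exact funext fun c => key _ c rfl

theorem Ok.Nm_injective (h : T.Ok) (j : L) (p : C ⊕ L → ℝ) :
    Function.Injective (T.Nm j p).mulVec := fun n n' a =>
  sub_eq_zero.1 (h.Nm_inj j p (by rw [mulVec_sub, a, sub_self]))

theorem Ok.det_ne (h : T.Ok) (j : L) (p : C ⊕ L → ℝ) : (T.Nm j p).det ≠ 0 := fun a => by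
  obtain ⟨v, v0, hv⟩ := exists_mulVec_eq_zero_iff.2 a
  exact v0 (h.Nm_inj j p hv)

theorem Ok.Mm_pd (h : T.Ok) (j : L) (y : C → ℤ) : (T.Mm j y).PosDef := by
  have := posDef_conj (M := 1) PosDef.one (h.Nm_injective j (cf y))
  rwa [Matrix.mul_one] at this

theorem Ok.dt_eq (h : T.Ok) (j : L) (y y' : C → ℤ) : dt (T.Mm j y) = dt (T.Mm j y') := by
  simp only [dt, Mm, det_mul, det_transpose, h.det_eq j (cf y) (cf y')]

theorem cf_congr {j : L} {y y' : C → ℤ} (h : ∀ c, j ∉ T.ty c → y c = y' c) (v : C ⊕ L)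
    (a : j ∉ T.tv v) : (cf y : C ⊕ L → ℝ) v = cf y' v := by
  cases v with
  | inl c => simp [cf, h c a]
  | inr ℓ => rfl

theorem Mm_congr {j : L} {y y' : C → ℤ} (h : ∀ c, j ∉ T.ty c → y c = y' c) :
    T.Mm j y = T.Mm j y' := by rw [Mm, Mm, Nm_congr (cf_congr h)]

theorem ce_congr {j : L} {y y' : C → ℤ} (h : ∀ c, j ∉ T.ty c → y c = y' c) :
    T.ce j y = T.ce j y' := by rw [ce, ce, Nm_congr (cf_congr h), of_congr (cf_congr h)]

theorem Ok.wr_congr (o : T.Ok) {j : L} {y y' : C → ℤ} (h : ∀ c, j ∉ T.ty c → y c = y' c) :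
    T.wr j y = T.wr j y' := by
  unfold wr
  congr 2
  refine sum_congr rfl fun c a => ?_
  rw [o.phi_cg fun v b => cf_congr h v fun x => (mem_filter.1 a).2 (b x)]

theorem Mm_jn {j : L} (y : C → ℤ) (n : T.Bl j → ℤ) : T.Mm j (T.jn j y n) = T.Mm j y :=
  Mm_congr fun _ a => jn_out _ _ a
theorem ce_jn {j : L} (y : C → ℤ) (n : T.Bl j → ℤ) : T.ce j (T.jn j y n) = T.ce j y :=
  ce_congr fun _ a => jn_out _ _ a
theorem Ok.wr_jn (o : T.Ok) {j : L} (y : C → ℤ) (n : T.Bl j → ℤ) :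
    T.wr j (T.jn j y n) = T.wr j y := o.wr_congr fun _ a => jn_out _ _ a

theorem wr_pos (j : L) (y : C → ℤ) : 0 < T.wr j y := Real.exp_pos _

/-- the squares of the errors of the block -/
theorem Ok.sum_sq (h : T.Ok) (j : L) (y : C → ℤ) (n : T.Bl j → ℝ) (e : ℝ) :
    ∑ c : T.Bl j, T.Φ (T.jr j (cf y) n e) c.1 ^ 2 = qf (T.Mm j y) (n - e • T.ce j y) := by
  rw [Mm, qf_mul]
  refine sum_congr rfl fun c _ => ?_
  rw [h.phi_in, ce, smul_neg, sub_neg_eq_add, mulVec_add, mulVec_smul, mulVec_mulVec,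
    mul_nonsing_inv _ (h.det_ne j _).isUnit, one_mulVec]
  rfl

theorem sum_split (j : L) (f : C → ℝ) :
    ∑ c, f c = ∑ c with j ∉ T.ty c, f c + ∑ c : T.Bl j, f c.1 := by
  rw [← sum_filter_add_sum_filter_not univ (fun c => j ∈ T.ty c), add_comm]
  congr 1
  exact sum_subtype _ (by simp) f

/-- **the block of `j` given the rest is a lattice Gaussian** -/
theorem Ok.wt_jn (h : T.Ok) (j : L) (y : C → ℤ) (n : T.Bl j → ℤ) :
    T.wt (T.jn j y n) = T.wr j y * gs (T.Mm j y) (zc n - T.ce j y) := by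
  have := h.sum_sq j y (zc n) 1
  rw [one_smul] at this
  rw [wt, sum_split j, cf_jn, this, wr, gs, ← Real.exp_add]
  congr 1
  rw [sum_congr rfl fun c a => by rw [h.phi_out _ _ _ (mem_filter.1 a).2]]
  ring

theorem Ok.wt_bl (h : T.Ok) (j : L) (y : C → ℤ) :
    T.wt y = T.wr j y * gs (T.Mm j y) (zc (T.bl j y) - T.ce j y) := by
  rw [← h.wt_jn, jn_self]

theorem jr_mem_fib (j : L) (y : C → ℤ) (n : T.Bl j → ℝ) : T.jr j (cf y) n 0 ∈ T.Fib {j} y :=
  ⟨fun c a => jr_out (v := .inl c) _ _ _ (show j ∉ T.ty c by simpa using a), fun ℓ => by simp [jr, cf]⟩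

theorem eq_jr_of_fib {j : L} {y : C → ℤ} {p : C ⊕ L → ℝ} (a : p ∈ T.Fib {j} y) :
    p = T.jr j (cf y) (fun c => p (.inl c.1)) 0 := by
  funext v
  cases v with
  | inl c =>
    by_cases k : j ∈ T.ty c
    · exact (jr_inl (cf y) (fun c => p (.inl c.1)) 0 ⟨c, k⟩).symm
    · rw [jr_out (v := .inl c) _ _ _ k]; exact a.1 c (by simpa using k)
  | inr ℓ => rw [a.2]; simp [jr, cf]

/-- uniqueness at range `R` bounds the dual minimum of the block from below -/
theorem Ok.dual_min (h : T.Ok) {j : L} {y : C → ℤ} {R : ℝ} (hR : 0 ≤ R) (u : T.UQ univ {j} y R)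
    {m : T.Bl j → ℤ} (m0 : m ≠ 0) :
    R ^ 2 < Fintype.card (T.Bl j) * qf (T.Mm j y)⁻¹ (zc m) := by
  by_contra a
  push Not at a
  have := u (fun p => ∑ c : T.Bl j, (m c : ℝ) * p (.inl c.1))
    ⟨⟨fun p p' b => sum_congr rfl fun c _ => by rw [b (.inl c.1) (subset_univ _) ⟨j, c.2⟩],
      fun ℓ l s t p p' _ => by
        rw [mem_singleton.1 l, mul_sum, mul_sum, ← sum_add_distrib]
        refine sum_congr rfl fun c _ => ?_
        rw [cmb, if_pos (show j ∈ T.tv (.inl c.1) from c.2)]; ring⟩,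
      fun p _ i => by
        choose f hf using i
        exact ⟨∑ c : T.Bl j, m c * f (.inl c.1), by simp [hf]⟩⟩
    (fun p b k => by
      have e := h.sum_sq j y (fun c => p (.inl c.1)) 0
      rw [← eq_jr_of_fib b, zero_smul, sub_zero] at e
      have e2 : qf (T.Mm j y) (fun c => p (.inl c.1)) ≤ Fintype.card (T.Bl j) := by
        rw [← e]
        refine (sum_le_card_nsmul _ _ 1 fun c _ => ?_).trans (by simp)
        exact (sq_le_one_iff_abs_le_one _).2 (k c.1 (subset_univ _) (by simpa using c.2))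
      have e3 := dual_sq_le (h.Mm_pd j y) (fun c => p (.inl c.1)) (zc m)
      refine abs_le_of_sq_le_sq' ?_ hR |> abs_le.2
      refine e3.trans (le_trans ?_ a)
      rw [mul_comm]
      exact mul_le_mul_of_nonneg_right e2 (qf_nonneg (h.Mm_pd j y).inv _))
  obtain ⟨c, hc⟩ := Function.ne_iff.1 m0
  have := this _ (jr_mem_fib j y (Pi.single c 1))
  simp only [jr_inl, Pi.single_apply, mul_ite, mul_one, mul_zero, sum_ite_eq', mem_univ,
    if_true] at this
  exact hc (by exact_mod_cast this)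

/-- configurations = (rest, block); the rest is represented by a configuration with block `0` -/
def fbE (T : TT L C) (j : L) : ({c // j ∉ T.ty c} → ℤ) × (T.Bl j → ℤ) ≃ (C → ℤ) where
  toFun x c := if h : j ∈ T.ty c then x.2 ⟨c, h⟩ else x.1 ⟨c, h⟩
  invFun y := (fun c => y c.1, fun c => y c.1)
  left_inv x := by ext c <;> simp [c.2]
  right_inv y := by funext c; simp

/-- the representative of the rest -/
def rp (T : TT L C) (j : L) (r : {c // j ∉ T.ty c} → ℤ) : C → ℤ := T.fbE j (r, 0)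

theorem fbE_eq (j : L) (r : {c // j ∉ T.ty c} → ℤ) (n : T.Bl j → ℤ) :
    T.fbE j (r, n) = T.jn j (T.rp j r) n := by
  funext c; by_cases k : j ∈ T.ty c <;> simp [fbE, jn, rp, k]

/-- Fubini along the block of `j` -/
theorem tsum_fb (j : L) {f : (C → ℤ) → ℝ} (hf : Summable f) :
    ∑' y, f y = ∑' r, ∑' n, f (T.jn j (T.rp j r) n) := by
  have := ((T.fbE j).summable_iff.2 hf).tsum_prod
  simp only [Function.comp_def, fbE_eq] at this
  rw [← (T.fbE j).tsum_eq, ← this]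

theorem summable_fb (j : L) {f : (C → ℤ) → ℝ} (hf : Summable f) :
    Summable fun r => ∑' n, f (T.jn j (T.rp j r) n) := by
  simpa only [Function.comp_def, fbE_eq] using ((T.fbE j).summable_iff.2 hf).prod

end TT
end Crest.Agent.N49.Rm
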