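import Crest.Agent.N49.Rm.Pr
import Crest.Agent.N49.Rm.Fb
import Crest.Agent.N49.Rm.St
import Crest.Agent.N49.Po.Pi
import Crest.Agent.N49.La.Cost
/-! Row 49, block RMH/B (helper83): disintegration along a block, laws of clones, smooth blocks. -/
set_option autoImplicit false
set_option linter.unusedSectionVars false
set_option maxHeartbeats 400000
noncomputable section
namespace Crest.Agent.N49.Rm
open Finset Matrix Po MeasureTheory

variable {L C : Type} [Fintype L] [DecidableEq L] [Fintype C] [DecidableEq C]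
  {ρ : Type} [Fintype ρ] [DecidableEq ρ]
namespace TT
variable (T : TT L C)

/-- configurations of the clone shape: a configuration of `T` and the blocks of the clones -/
def clE (j : L) (ρ : Type) : (C → ℤ) × (ρ → T.Bl j → ℤ) ≃ (T.CC j ρ → ℤ) where
  toFun x := Sum.elim x.1 fun cx => x.2 cx.2 cx.1
  invFun w := (fun c => w (.inl c), fun x c => w (.inr (c, x)))
  left_inv _ := rfl
  right_inv w := by funext c; cases c <;> rfl
/-- the form of the clone `x` -/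
def cM (j : L) (a : ρ → ℕ) (y : C → ℤ) (x : ρ) : Matrix (T.Bl j) (T.Bl j) ℝ :=
  ((4 : ℝ) ^ a x) • T.Mm j y
/-- the centre of the clone `x` -/
def cc (j : L) (pt : ρ → Bool) (y : C → ℤ) (x : ρ) : T.Bl j → ℝ := if pt x then T.ce j y else 0
/-- the law of the block of `j` given the rest -/
def bm (j : L) (y : C → ℤ) : Measure (T.Bl j → ℤ) := gm (T.Mm j y) (T.ce j y)
/-- the law of the clones given the rest -/
def cm (j : L) (pt : ρ → Bool) (a : ρ → ℕ) (y : C → ℤ) : Measure (ρ → T.Bl j → ℤ) :=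
  gp (T.cM j a y) (T.cc j pt y)
/-- the partition function of the clones given the rest -/
def cZ (j : L) (pt : ρ → Bool) (a : ρ → ℕ) (y : C → ℤ) : ℝ := ∏ x, th (T.cM j a y x) (T.cc j pt y x)

variable {T} {j : L} {pt : ρ → Bool} {a : ρ → ℕ}

theorem clE_inl (y : C → ℤ) (n : ρ → T.Bl j → ℤ) (c : C) : T.clE j ρ (y, n) (.inl c) = y c := rfl
theorem clE_inr (y : C → ℤ) (n : ρ → T.Bl j → ℤ) (c : T.Bl j) (x : ρ) :
    T.clE j ρ (y, n) (.inr (c, x)) = n x c := rfl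
theorem clE_gl (y : C → ℤ) (z : ρ → C → ℤ) : T.gl j y z = T.clE j ρ (y, fun x => T.bl j (z x)) := rfl

theorem p0_clE (y : C → ℤ) (n : ρ → T.Bl j → ℤ) : T.p0 j (cf (T.clE j ρ (y, n))) = cf y := by
  funext v; cases v <;> rfl

theorem px_clE (y : C → ℤ) (n : ρ → T.Bl j → ℤ) (x : ρ) :
    T.px j pt x (cf (T.clE j ρ (y, n))) = T.jr j (cf y) (zc (n x)) (if pt x then 1 else 0) := by
  funext v
  cases v with
  | inl c => simp only [px, jr]; split_ifs <;> rfl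
  | inr ℓ => rfl

theorem posZ_clE (α0 : ℤ) (α : ρ → ℤ) (y : C → ℤ) (n : ρ → T.Bl j → ℤ) :
    T.posZ j α0 α (T.clE j ρ (y, n)) = T.jn j y (α0 • T.bl j y + ∑ x, α x • n x) := by
  funext c
  simp only [posZ, jn]
  split_ifs
  · simp [clE_inl, clE_inr, bl, Finset.sum_apply]
  · rfl

theorem Ok.cM_pd (h : T.Ok) (j : L) (a : ρ → ℕ) (y : C → ℤ) (x : ρ) : (T.cM j a y x).PosDef :=
  (h.Mm_pd j y).smul (by positivity)

theorem Ok.bm_prob (h : T.Ok) (j : L) (y : C → ℤ) : IsProbabilityMeasure (T.bm j y) :=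
  gm_prob (h.Mm_pd j y) _

theorem Ok.cm_prob (h : T.Ok) (j : L) (pt : ρ → Bool) (a : ρ → ℕ) (y : C → ℤ) :
    IsProbabilityMeasure (T.cm j pt a y) := gp_prob (h.cM_pd j a y) _

theorem Ok.cZ_pos (h : T.Ok) (j : L) (pt : ρ → Bool) (a : ρ → ℕ) (y : C → ℤ) : 0 < T.cZ j pt a y :=
  prod_pos fun x _ => th_pos (h.cM_pd j a y x) _

theorem bm_jn (y : C → ℤ) (n : T.Bl j → ℤ) : T.bm j (T.jn j y n) = T.bm j y := by
  rw [bm, Mm_jn, ce_jn, bm]
theorem cM_jn (y : C → ℤ) (n : T.Bl j → ℤ) : T.cM j a (T.jn j y n) = T.cM j a y := by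
  funext x; rw [cM, Mm_jn, cM]
theorem cc_jn (y : C → ℤ) (n : T.Bl j → ℤ) : T.cc j pt (T.jn j y n) = T.cc j pt y := by
  funext x; rw [cc, ce_jn, cc]
theorem cm_jn (y : C → ℤ) (n : T.Bl j → ℤ) : T.cm j pt a (T.jn j y n) = T.cm j pt a y := by
  rw [cm, cM_jn, cc_jn, cm]
theorem cZ_jn (y : C → ℤ) (n : T.Bl j → ℤ) : T.cZ j pt a (T.jn j y n) = T.cZ j pt a y := by
  rw [cZ, cM_jn, cc_jn, cZ]

/-- **disintegration along the block of `j`** -/
theorem Ok.dis (h : T.Ok) (j : L) {g : (C → ℤ) → ℝ} {B : ℝ} (hg : ∀ y, |g y| ≤ B) :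
    ∑' y, T.wt y * g y = ∑' r, T.wr j (T.rp j r) * th (T.Mm j (T.rp j r)) (T.ce j (T.rp j r)) *
      ∫ n, g (T.jn j (T.rp j r) n) ∂T.bm j (T.rp j r) := by
  rw [tsum_fb j (h.summable_mul hg)]
  refine tsum_congr fun r => ?_
  rw [bm, integral_gm_real (h.Mm_pd j _) _ fun n => hg _, mul_assoc,
    mul_div_cancel₀ _ (th_pos (h.Mm_pd j _) _).ne', ← tsum_mul_left]
  exact tsum_congr fun n => by rw [h.wt_jn, mul_assoc]

/-- resampling the block of `j` -/
theorem Ok.Ex_res (h : T.Ok) (j : L) {g : (C → ℤ) → ℝ} {B : ℝ} (hg : ∀ y, |g y| ≤ B) :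
    T.Ex g = T.Ex fun y => ∫ n, g (T.jn j y n) ∂T.bm j y := by
  rw [Ex, Ex, h.dis j hg, h.dis j (B := B) (g := fun y => ∫ n, g (T.jn j y n) ∂T.bm j y)
    fun y => abs_integral_gm_le (h.Mm_pd j y) _ fun n => hg _]
  congr 1
  refine tsum_congr fun r => ?_
  have := h.bm_prob j (T.rp j r)
  simp only [jn_jn, bm_jn, integral_const, probReal_univ, one_smul]

theorem Ok.pr_res (h : T.Ok) (j : L) (H : Set (C → ℤ)) :
    T.pr H = T.Ex fun y => (T.bm j y).real {n | T.jn j y n ∈ H} := by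
  rw [pr_eq, h.Ex_res j (abs_ind H)]
  congr 1
  funext y
  rw [← integral_indicator_one MeasurableSet.of_discrete]
  rfl

/-- **the clones are independent given the rest** -/
theorem Ok.cl_wt (h : T.Ok) (j : L) (pt : ρ → Bool) (a : ρ → ℕ) (y : C → ℤ)
    (n : ρ → T.Bl j → ℤ) : (T.cl j pt a).wt (T.clE j ρ (y, n)) =
      T.wt y * ∏ x, gs (T.cM j a y x) (zc (n x) - T.cc j pt y x) := by
  have e : ∀ x, ∑ c : T.Bl j, (2 ^ a x * T.Φ (T.px j pt x (cf (T.clE j ρ (y, n)))) c.1) ^ 2 =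
      qf (T.cM j a y x) (zc (n x) - T.cc j pt y x) := fun x => by
    simp only [mul_pow, ← mul_sum]
    rw [px_clE, h.sum_sq, cM, qf_smul, ← pow_mul, mul_comm (a x), pow_mul, cc]
    split_ifs <;> norm_num
  simp only [wt, gs, ← Real.exp_sum, ← Real.exp_add, Fintype.sum_sum_type, cl, Sum.elim_inl,
    Sum.elim_inr, p0_clE]
  rw [Fintype.sum_prod_type_right]
  simp only [e, sum_neg_distrib, ← mul_sum]
  congr 1
  ring

theorem Ok.cl_tsum (h : T.Ok) (hc : (T.cl j pt a).Ok) {g : (T.CC j ρ → ℤ) → ℝ} {B : ℝ}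
    (hg : ∀ w, |g w| ≤ B) : ∑' w, (T.cl j pt a).wt w * g w =
      ∑' y, T.wt y * (T.cZ j pt a y * ∫ n, g (T.clE j ρ (y, n)) ∂T.cm j pt a y) := by
  rw [← (T.clE j ρ).tsum_eq]
  refine (((T.clE j ρ).summable_iff.2 (hc.summable_mul hg)).tsum_prod).trans
    (tsum_congr fun y => ?_)
  rw [cm, integral_gp (h.cM_pd j a y) _ fun n => hg _, ← cZ,
    mul_div_cancel₀ _ (h.cZ_pos j pt a y).ne', ← tsum_mul_left]
  exact tsum_congr fun n => by rw [Function.comp_apply, h.cl_wt, mul_assoc]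

theorem Ok.cl_summable (h : T.Ok) (hc : (T.cl j pt a).Ok) :
    Summable fun y => T.wt y * T.cZ j pt a y := by
  refine ((T.clE j ρ).summable_iff.2 hc.summable).prod.congr fun y => ?_
  rw [cZ, ← tsum_gs_pi (h.cM_pd j a y), ← tsum_mul_left]
  exact tsum_congr fun n => h.cl_wt j pt a y n

theorem Ok.cl_Z (h : T.Ok) (hc : (T.cl j pt a).Ok) :
    (T.cl j pt a).Z = ∑' y, T.wt y * T.cZ j pt a y := by
  have := h.cl_tsum hc (g := fun _ => 1) (B := 1) fun _ => by simp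
  simp only [mul_one] at this
  refine this.trans (tsum_congr fun y => ?_)
  have := h.cm_prob j pt a y
  simp

theorem Ok.cl_Ex (h : T.Ok) (hc : (T.cl j pt a).Ok) {g : (T.CC j ρ → ℤ) → ℝ} {B : ℝ}
    (hg : ∀ w, |g w| ≤ B) : (T.cl j pt a).Ex g =
      (∑' y, T.wt y * (T.cZ j pt a y * ∫ n, g (T.clE j ρ (y, n)) ∂T.cm j pt a y)) /
        ∑' y, T.wt y * T.cZ j pt a y := by
  rw [Ex, h.cl_tsum hc hg, h.cl_Z hc]

theorem Ok.cl_pr (h : T.Ok) (hc : (T.cl j pt a).Ok) (H : Set (T.CC j ρ → ℤ)) : (T.cl j pt a).pr H =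
    (∑' y, T.wt y * (T.cZ j pt a y * (T.cm j pt a y).real {n | T.clE j ρ (y, n) ∈ H})) /
      ∑' y, T.wt y * T.cZ j pt a y := by
  rw [pr_eq, h.cl_Ex hc (abs_ind H)]
  congr 1
  refine tsum_congr fun y => ?_
  rw [← integral_indicator_one MeasurableSet.of_discrete]
  rfl

/-- the dual minimum of a form on the block that is at most `4^a` times the block form -/
theorem Ok.dual_ge (h : T.Ok) {y : C → ℤ} {n b s : ℕ} (u : T.UQ univ {j} y (2 ^ b))
    (hn : Fintype.card C ≤ 2 ^ n) {N : Matrix (T.Bl j) (T.Bl j) ℝ} (hN : N.PosDef)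
    (hs : ∀ x, qf N x ≤ 4 ^ s * qf (T.Mm j y) x) {k : ℕ} (hk : n + 2 * s + k ≤ 2 * b)
    {m : T.Bl j → ℤ} (m0 : m ≠ 0) : 2 ^ k ≤ qf N⁻¹ (zc m) := by
  have p := h.Mm_pd j y
  have h1 := h.dual_min (by positivity) u m0
  have h2 := La.qf_inv_le hN (p.smul (show (0 : ℝ) < 4 ^ s by positivity))
    (fun x => by rw [qf_smul]; exact hs x) (zc m)
  rw [Po.inv_smul' p (by positivity), qf_smul, inv_mul_le_iff₀ (by positivity)] at h2
  have h3 : (Fintype.card (T.Bl j) : ℝ) ≤ 2 ^ n := by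
    exact_mod_cast (Fintype.card_subtype_le _).trans hn
  have h4 : (2 : ℝ) ^ n * 4 ^ s * 2 ^ k ≤ (2 ^ b) ^ 2 := by
    rw [show (4 : ℝ) = 2 ^ 2 by norm_num, ← pow_mul, ← pow_mul, ← pow_add, ← pow_add]
    exact pow_le_pow_right₀ one_le_two (by omega)
  have h5 := mul_le_mul h3 h2 (qf_nonneg p.inv _) (by positivity)
  have h6 : (0 : ℝ) < 2 ^ n * 4 ^ s := by positivity
  refine le_of_mul_le_mul_left ?_ h6
  linarith [mul_assoc ((2 : ℝ) ^ n) (4 ^ s) (qf N⁻¹ (zc m))]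

theorem bz_le_half {d : Type} [Fintype d] {n m : ℕ} (hd : Fintype.card d ≤ 2 ^ n) :
    bz d (2 ^ (n + m + 1)) ≤ (1 / 2) ^ m := by
  have h1 : Fintype.card d + m ≤ 2 ^ (n + m + 1) := by
    have := m.lt_two_pow_self
    have h2 : 2 ^ n ≤ 2 ^ (n + m) := Nat.pow_le_pow_right two_pos (by omega)
    have h3 : 2 ^ m ≤ 2 ^ (n + m) := Nat.pow_le_pow_right two_pos (by omega)
    rw [pow_succ]; omega
  refine (bz_le (L := m) (by exact_mod_cast h1) (by positivity)).trans ?_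
  rw [← mul_one (m : ℝ), ← mul_neg, Real.exp_nat_mul]
  refine pow_le_pow_left₀ (Real.exp_pos _).le ?_ _
  rw [Real.exp_neg, one_div]
  exact inv_anti₀ two_pos (by linarith [Real.add_one_le_exp 1])

/-- **smooth blocks** -/
theorem Ok.th_sm (h : T.Ok) {y : C → ℤ} {n b s m : ℕ} (u : T.UQ univ {j} y (2 ^ b))
    (hn : Fintype.card C ≤ 2 ^ n) {N : Matrix (T.Bl j) (T.Bl j) ℝ} (hN : N.PosDef)
    (hs : ∀ x, qf N x ≤ 4 ^ s * qf (T.Mm j y) x) (hk : 2 * n + 2 * s + m + 2 ≤ 2 * b)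
    (θ : T.Bl j → ℝ) : |th N θ - dt N| ≤ (1 / 2) ^ m * dt N := by
  have b1 := bz_le_half (d := T.Bl j) (m := m + 1) ((Fintype.card_subtype_le _).trans hn)
  have b2 : (1 / 2 : ℝ) ^ m ≤ 1 := pow_le_one₀ (by norm_num) (by norm_num)
  rw [pow_succ (1 / 2 : ℝ)] at b1
  refine (smooth_short hN (fun k k0 => h.dual_ge u hn hN hs (k := n + (m + 1) + 1) (by omega) k0)
    (by linarith) θ).trans (mul_le_mul_of_nonneg_right (by linarith) (dt_pos hN).le)

theorem Ok.th_Mm (h : T.Ok) {y : C → ℤ} {n b m : ℕ} (u : T.UQ univ {j} y (2 ^ b))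
    (hn : Fintype.card C ≤ 2 ^ n) (hk : 2 * n + m + 2 ≤ 2 * b) (θ : T.Bl j → ℝ) :
    |th (T.Mm j y) θ - dt (T.Mm j y)| ≤ (1 / 2) ^ m * dt (T.Mm j y) :=
  h.th_sm (s := 0) u hn (h.Mm_pd j y) (fun x => by simp) (by omega) θ

theorem Ok.th_cM (h : T.Ok) {y : C → ℤ} {n b m : ℕ} (u : T.UQ univ {j} y (2 ^ b))
    (hn : Fintype.card C ≤ 2 ^ n) (x : ρ) (hk : 2 * n + 2 * a x + m + 2 ≤ 2 * b) (θ : T.Bl j → ℝ) :
    |th (T.cM j a y x) θ - dt (T.cM j a y x)| ≤ (1 / 2) ^ m * dt (T.cM j a y x) :=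
  h.th_sm u hn (h.cM_pd j a y x) (fun v => by rw [cM, qf_smul]) hk θ

theorem Ok.dt_cM (h : T.Ok) (j : L) (a : ρ → ℕ) (y y' : C → ℤ) (x : ρ) :
    dt (T.cM j a y x) = dt (T.cM j a y' x) := by
  rw [cM, cM, dt_smul (by positivity), dt_smul (by positivity), h.dt_eq j y y']

theorem p0_rcw (z : C → ℤ) (y : T.CR j → ℤ) :
    T.p0 j (cf (T.rcw j z y)) = T.dn j z (cf y) := by
  funext v
  cases v with
  | inl c => simp only [p0, cf, rcw, dn, Sum.elim_inl]; split_ifs <;> rfl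
  | inr ℓ => simp [p0, cf, dn]

theorem px_rcw (z : C → ℤ) (y : T.CR j → ℤ) (x : Fin 1) :
    T.px j (fun _ => false) x (cf (T.rcw j z y)) = T.up j (cf y) := by
  funext v
  cases v with
  | inl c =>
    simp only [px, cf, rcw, up, Sum.elim_inl, Sum.elim_inr]
    split_ifs <;> rfl
  | inr ℓ => simp [px, cf, up]

/-- the weight of the recentred tower against the weight of the one-clone shape -/
theorem Ok.rc_wt (h : T.Ok) (j : L) (s : ℕ) (z : C → ℤ) (y : T.CR j → ℤ) :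
    (T.rc j s z).wt y * Real.exp (-Real.pi * ∑ c with T.ty c = {j}, T.Φ (cf z) c ^ 2) =
      (T.cl j (fun _ : Fin 1 => false) fun _ => s).wt (T.rcw j z y) *
        Real.exp (-Real.pi * ∑ c : T.Bl j with T.ty c.1 = {j}, (y (.inr c) : ℝ) ^ 2) := by
  simp only [wt, ← Real.exp_add, Fintype.sum_sum_type, cl, rc, Sum.elim_inl, Sum.elim_inr, p0_rcw,
    px_rcw, ← mul_add]
  congr 2
  have e1 : ∀ c, j ∉ T.ty c → T.Φ (T.up j (cf y)) c = T.Φ (T.dn j z (cf y)) c := fun c k =>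
    h.phi_cg fun v b => by
      cases v with
      | inl d =>
        have : j ∉ T.ty d := fun x => k (b x)
        simp [up, dn, this]
      | inr ℓ => simp [up, dn, show ℓ ≠ j from fun x => k (b (by simp [tv, x]))]
  have e2 : ∀ c, T.ty c = {j} → T.Φ (cf z) c = T.Φ (T.dn j z (cf y)) c := fun c k => by
    refine (h.dat c (k ▸ singleton_nonempty j)).1 _ _ fun v b ne => ?_
    have : T.tv v = {j} := (subset_singleton_iff.1 (k ▸ b)).resolve_left ne.ne_empty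
    cases v with
    | inl d =>
      have k' : T.ty d = {j} := this
      simp [dn, cf, k']
    | inr ℓ => simp [dn, cf]
  have e3 : ∑ c with T.ty c = {j}, T.Φ (cf z) c ^ 2 =
      ∑ c : T.Bl j with T.ty c.1 = {j}, T.Φ (T.dn j z (cf y)) c.1 ^ 2 := by
    have e0 : ∑ c with j ∉ T.ty c, (if T.ty c = {j} then T.Φ (cf z) c ^ 2 else 0) = 0 :=
      sum_eq_zero fun c k => if_neg fun x : T.ty c = {j} =>
        (mem_filter.1 k).2 (x ▸ mem_singleton_self j)
    rw [sum_filter, sum_filter, sum_split (T := T) j, e0, zero_add]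
    exact sum_congr rfl fun c _ => by split_ifs with k; exacts [by rw [e2 _ k], rfl]
  have e4 : ∑ c with j ∉ T.ty c, ((if j ∈ T.ty c then 2 ^ s else 1) * T.Φ (T.up j (cf y)) c) ^ 2 =
      ∑ c with j ∉ T.ty c, T.Φ (T.dn j z (cf y)) c ^ 2 := sum_congr rfl fun c k => by
    rw [if_neg (mem_filter.1 k).2, one_mul, e1 c (mem_filter.1 k).2]
  rw [e3, sum_split (T := T) j, sum_split (T := T) j fun c => T.Φ (T.dn j z (cf y)) c ^ 2,
    Fintype.sum_prod_type, e4, sum_filter fun c : T.Bl j => T.ty c.1 = {j},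
    sum_filter fun c : T.Bl j => T.ty c.1 = {j}]
  simp only [add_assoc, ← sum_add_distrib, univ_unique, sum_singleton]
  congr 1
  refine sum_congr rfl fun c _ => ?_
  rw [if_pos c.2]
  split_ifs
  · simp only [cf, Sum.elim_inl]; ring
  · ring

end TT
end Crest.Agent.N49.Rm
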