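import Crest.Agent.N49.Rm.Op
import Crest.Agent.N49.Rm.Sol

/-! Row 49, block RMH/B (helper26): the operations `del`, `cl`, `rc` and the pull-backs. -/

set_option autoImplicit false
set_option linter.unusedSectionVars false
noncomputable section
namespace Crest.Agent.N49.Rm.TT
open Finset

variable {L C : Type} [Fintype L] [DecidableEq L] [Fintype C] [DecidableEq C] {T : TT L C}
  {A M : Finset L} {F I : Fm L C} {ℓ j : L} {y : C → ℤ} {q : ℕ} {B : ℝ}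


/-- linearity of a typed form, tested on the live words inside `A` only -/
theorem Lin.rel (h : T.Lin ℓ F) (k : T.Ty A F) {a b : ℝ} {p p' r : C ⊕ L → ℝ}
    (e : ∀ v, T.tv v ⊆ A → (T.tv v).Nonempty → ℓ ∉ T.tv v → p v = p' v ∧ r v = p v)
    (e' : ∀ v, T.tv v ⊆ A → ℓ ∈ T.tv v → r v = a * p v + b * p' v) : F r = a * F p + b * F p' := by
  have h1 := h a b p (T.cmb ℓ 0 1 p p') fun v hv => (cmb_out hv).symm
  have h2 : F (T.cmb ℓ 0 1 p p') = F p' := k _ _ fun v hv n => by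
    by_cases m : ℓ ∈ T.tv v
    · rw [cmb_in m]; ring
    · rw [cmb_out m, (e v hv n m).1]
  rw [← h2, ← h1]
  refine k _ _ fun v hv n => ?_
  by_cases m : ℓ ∈ T.tv v
  · rw [cmb_in m, cmb_in m, e' v hv m]; ring
  · rw [cmb_out m, (e v hv n m).2]

/-- membership in a fibre, in terms of `cf` -/
theorem mem_fib {p : C ⊕ L → ℝ} : p ∈ T.Fib M y ↔
    (∀ v, Disjoint (T.tv v) M → p v = cf y v) ∧ ∀ ℓ ∈ M, p (.inr ℓ) = 0 := by
  refine ⟨fun h => ⟨fun v hv => ?_, fun ℓ hℓ => by rw [h.2, if_pos hℓ]⟩,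
    fun h => ⟨fun c hc => h.1 (.inl c) hc, fun ℓ => ?_⟩⟩
  · cases v with
    | inl c => exact h.1 c hv
    | inr ℓ => rw [h.2, if_neg (by simpa using hv)]; rfl
  · split_ifs with k
    · exact h.2 ℓ k
    · exact h.1 (.inr ℓ) (by simpa using k)

/-- generic pull-back of a relation -/
theorem Rel.pull {L' C' : Type} [Fintype L'] [DecidableEq L'] [Fintype C'] [DecidableEq C']
    {T' : TT L' C'} {A' M' : Finset L'} {y' : C' → ℤ} {ι : (C' ⊕ L' → ℝ) → C ⊕ L → ℝ} {K : ℝ}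
    (o : T.Ok) (hF : T.Dat A M F) (h : T.Rel A M y q B F) (hK : 1 ≤ K)
    (hD : ∀ I, T.Dat A M I → T'.Dat A' M' fun p => I (ι p))
    (hf : ∀ p ∈ T'.Fib M' y', ι p ∈ T.Fib M y) (hi : ∀ p, IntP p → IntP (ι p))
    (hc : ∀ p ∈ T'.Fib M' y', T'.Cube A' M' p → ∀ c, T.ty c ⊆ A → ¬ Disjoint (T.ty c) M →
      |T.Φ (ι p) c| ≤ K) : T'.Rel A' M' y' q (K ^ M.card * B) fun p => F (ι p) :=
  let ⟨I, a, b⟩ := h
  ⟨fun p => I (ι p), ⟨hD I a.1, fun p k m => a.2 _ (hf p k) (hi p m)⟩, fun p k m =>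
    o.sm_scale (hF.sub (a.1.div q)).2 b hK (hf p k) (hc p k m)⟩

/-! ### delete -/

theorem del_tv {v : C ⊕ L} (h : ℓ ∉ T.tv v) : (T.del ℓ).tv v = T.tv v := by
  cases v with
  | inl c => exact if_neg h
  | inr _ => rfl
theorem del_tv' {v : C ⊕ L} (h : ((T.del ℓ).tv v).Nonempty) : (T.del ℓ).tv v = T.tv v := by
  cases v with
  | inl c =>
    by_cases k : ℓ ∈ T.ty c
    · simp [del, k] at h
    · exact if_neg k
  | inr _ => rfl
theorem del_ty_of {c : C} (h : ℓ ∉ T.ty c) : (T.del ℓ).ty c = T.ty c := if_neg h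
theorem del_ty_mem {c : C} (h : ℓ ∈ T.ty c) : (T.del ℓ).ty c = ∅ := if_pos h
theorem del_ty_sub (c : C) : (T.del ℓ).ty c ⊆ T.ty c := by
  by_cases k : ℓ ∈ T.ty c
  · simp [del_ty_mem k]
  · simp [del_ty_of k]
theorem del_phi_of {c : C} (h : ℓ ∉ T.ty c) (p : C ⊕ L → ℝ) : (T.del ℓ).Φ p c = T.Φ p c := if_neg h
theorem del_phi_mem {c : C} (h : ℓ ∈ T.ty c) (p : C ⊕ L → ℝ) : (T.del ℓ).Φ p c = p (.inl c) :=
  if_pos h


theorem Dat.of_del (h : (T.del ℓ).Dat A M F) : T.Dat A M F := by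
  refine ⟨fun p p' k => h.1 p p' fun v a b => k v (del_tv' b ▸ a) (del_tv' b ▸ b),
    fun m hm a b p p' k => (h.2 m hm).rel h.1 (fun v _ n z => ?_) fun v _ z =>
      cmb_in (del_tv' ⟨m, z⟩ ▸ z)⟩
  exact ⟨k v (del_tv' n ▸ z), cmb_out (del_tv' n ▸ z)⟩


/-! ### coordinate maps -/

section cm
variable {L' C' : Type} [Fintype L'] [DecidableEq L'] [Fintype C'] [DecidableEq C'] {T' : TT L' C'}
  {ι : (C' ⊕ L' → ℝ) → C ⊕ L → ℝ} {f : L → L'}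

/-- `ι` reads each coordinate from a coordinate of the renamed type (or puts an `e` to zero) -/
structure CM (T' : TT L' C') (T : TT L C) (f : L → L') (ι : (C' ⊕ L' → ℝ) → C ⊕ L → ℝ) : Prop where
  inj : Function.Injective f
  inl : ∀ c, ∃ c', T'.ty c' = (T.ty c).image f ∧ ∀ p, ι p (.inl c) = p (.inl c')
  inr : ∀ ℓ, (∀ p, ι p (.inr ℓ) = p (.inr (f ℓ))) ∨ ∀ p, ι p (.inr ℓ) = 0

theorem CM.ex (h : CM T' T f ι) (v : C ⊕ L) :
    ∃ (v' : C' ⊕ L') (κ : ℤ), T'.tv v' = (T.tv v).image f ∧ ∀ p, ι p v = κ * p v' := by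
  cases v with
  | inl c => obtain ⟨c', a, b⟩ := h.inl c; exact ⟨.inl c', 1, a, by simpa using b⟩
  | inr m =>
    rcases h.inr m with a | a
    · exact ⟨.inr (f m), 1, by simp, by simpa using a⟩
    · exact ⟨.inr (f m), 0, by simp, by simpa using a⟩

theorem CM.ty (h : CM T' T f ι) (k : T.Ty A F) : T'.Ty (A.image f) fun p => F (ι p) :=
  fun p p' e => k _ _ fun v a b => by
    obtain ⟨v', κ, x, z⟩ := h.ex v
    rw [z, z, e v' (x ▸ image_subset_image a) (x ▸ b.image f)]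

theorem CM.cmb (h : CM T' T f ι) (a b : ℝ) (p p' : C' ⊕ L' → ℝ) :
    ι (T'.cmb (f ℓ) a b p p') = T.cmb ℓ a b (ι p) (ι p') := funext fun v => by
  obtain ⟨v', κ, x, z⟩ := h.ex v
  have : f ℓ ∈ T'.tv v' ↔ ℓ ∈ T.tv v := by rw [x, h.inj.mem_finset_image]
  by_cases m : ℓ ∈ T.tv v
  · rw [cmb_in m, z, z, z, cmb_in (this.2 m)]; ring
  · rw [cmb_out m, z, z, cmb_out (mt this.1 m)]

theorem CM.off (h : CM T' T f ι) {p p' : C' ⊕ L' → ℝ} (e : ∀ v, f ℓ ∉ T'.tv v → p v = p' v) :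
    ∀ v, ℓ ∉ T.tv v → ι p v = ι p' v := fun v m => by
  obtain ⟨v', κ, x, z⟩ := h.ex v
  rw [z, z, e v' (by rwa [x, h.inj.mem_finset_image])]

theorem CM.lin (h : CM T' T f ι) (k : T.Lin ℓ F) : T'.Lin (f ℓ) fun p => F (ι p) :=
  fun a b p p' e => by simp only [h.cmb]; exact k a b _ _ (h.off e)

theorem CM.dat (h : CM T' T f ι) (k : T.Dat A M F) :
    T'.Dat (A.image f) (M.image f) fun p => F (ι p) :=
  ⟨h.ty k.1, fun _ e => by obtain ⟨m, a, rfl⟩ := mem_image.1 e; exact h.lin (k.2 m a)⟩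

theorem CM.intP (h : CM T' T f ι) {p : C' ⊕ L' → ℝ} (k : IntP p) : IntP (ι p) := fun v => by
  obtain ⟨v', κ, -, z⟩ := h.ex v
  obtain ⟨n, e⟩ := k v'
  exact ⟨κ * n, by rw [z, e]; simp⟩

theorem CM.uniq (h : CM T' T f ι) (o : T.Ok) (S : Finset L) {p p' : C' ⊕ L' → ℝ}
    (e1 : ∀ m, p (.inr m) = p' (.inr m))
    (e2 : ∀ c, T'.ty c ≠ S.image f → p (.inl c) = p' (.inl c))
    (e3 : ∀ c, T.ty c = S → T.Φ (ι p) c = T.Φ (ι p') c) : ι p = ι p' := by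
  refine o.inj S _ _ (fun m => ?_) (fun c k => ?_) e3
  · rcases h.inr m with a | a
    · rw [a, a, e1]
    · rw [a, a]
  · obtain ⟨c', a, b⟩ := h.inl c
    rw [b, b, e2 c' (a ▸ fun z => k (image_injective h.inj z))]

end cm

/-! ### clones -/

section cl
variable {ρ : Type} [Fintype ρ] [DecidableEq ρ] {pt : ρ → Bool} {a : ρ → ℕ}

/-- the renaming `j ↦ x` -/
def fx (j : L) (x : ρ) (ℓ : L) : L ⊕ ρ := if ℓ = j then .inr x else .inl ℓ

theorem fx_self (j : L) (x : ρ) : fx j x j = .inr x := if_pos rfl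
theorem fx_ne (h : ℓ ≠ j) (x : ρ) : fx j x ℓ = .inl ℓ := if_neg h
theorem fx_inj (j : L) (x : ρ) : Function.Injective (fx j x) := fun a b h => by
  unfold fx at h
  split_ifs at h <;> simp_all
theorem image_fx_of {S : Finset L} (h : j ∉ S) (x : ρ) : S.image (fx j x) = S.image .inl :=
  image_congr fun _ m => fx_ne (ne_of_mem_of_not_mem m h) x
theorem image_fx_mem {S : Finset L} (h : j ∈ S) (x : ρ) :
    S.image (fx j x) = insert (.inr x) ((S.erase j).image .inl) := by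
  conv_lhs => rw [← insert_erase h, image_insert, fx_self, image_fx_of (notMem_erase j S)]
theorem image_inl_sub (A : Finset L) : A.image .inl ⊆ upA A ρ := subset_union_left
theorem image_fx_sub (j : L) (x : ρ) (A : Finset L) : A.image (fx j x) ⊆ upA A ρ := fun v h => by
  obtain ⟨m, a, rfl⟩ := mem_image.1 h
  by_cases e : m = j
  · simp [upA, e, fx_self]
  · simp [upA, fx_ne e, a]
@[simp] theorem inl_mem_upA : (.inl ℓ : L ⊕ ρ) ∈ upA A ρ ↔ ℓ ∈ A := by simp [upA]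
@[simp] theorem inr_mem_upA (x : ρ) : (.inr x : L ⊕ ρ) ∈ upA A ρ := by simp [upA]
theorem upA_univ : upA (univ : Finset L) ρ = univ := by ext v; cases v <;> simp

theorem cl_ty_inl (c : C) : (T.cl j pt a).ty (.inl c) = (T.ty c).image .inl := rfl
theorem cl_ty_inr (c : T.Bl j) (x : ρ) :
    (T.cl j pt a).ty (.inr (c, x)) = (T.ty c.1).image (fx j x) := (image_fx_mem c.2 x).symm
theorem cl_phi_inl (p : T.CC j ρ ⊕ (L ⊕ ρ) → ℝ) (c : C) :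
    (T.cl j pt a).Φ p (.inl c) = T.Φ (T.p0 j p) c := rfl
theorem cl_phi_inr (p : T.CC j ρ ⊕ (L ⊕ ρ) → ℝ) (c : T.Bl j) (x : ρ) :
    (T.cl j pt a).Φ p (.inr (c, x)) = 2 ^ a x * T.Φ (T.px j pt x p) c.1 := rfl

theorem cm_p0 (T : TT L C) (j : L) (pt : ρ → Bool) (a : ρ → ℕ) :
    CM (T.cl j pt a) T .inl (T.p0 j) :=
  ⟨Sum.inl_injective, fun c => ⟨.inl c, rfl, fun _ => rfl⟩, fun _ => .inl fun _ => rfl⟩

theorem cm_px (T : TT L C) (j : L) (pt : ρ → Bool) (a : ρ → ℕ) (x : ρ) :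
    CM (T.cl j pt a) T (fx j x) (T.px j pt x) := by
  refine ⟨fx_inj j x, fun c => ?_, fun m => ?_⟩
  · by_cases h : j ∈ T.ty c
    · exact ⟨.inr (⟨c, h⟩, x), cl_ty_inr _ x, fun _ => dif_pos h⟩
    · exact ⟨.inl c, (image_fx_of h x).symm, fun _ => dif_neg h⟩
  · by_cases h : m = j
    · cases e : pt x
      · exact .inr fun _ => by simp [px, h, e]
      · exact .inl fun _ => by simp [px, h, e, fx_self]
    · exact .inl fun _ => by simp [px, h, fx_ne h]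

theorem px_out (x : ρ) (p : T.CC j ρ ⊕ (L ⊕ ρ) → ℝ) {v : C ⊕ L} (h : j ∉ T.tv v) :
    T.px j pt x p v = T.p0 j p v := by
  cases v with
  | inl c => exact dif_neg h
  | inr m => exact if_neg fun e => h (by simp [e])
theorem pos_out (α0 : ℤ) (α : ρ → ℤ) (p : T.CC j ρ ⊕ (L ⊕ ρ) → ℝ) {v : C ⊕ L} (h : j ∉ T.tv v) :
    T.pos j pt α0 α p v = T.p0 j p v := if_neg h
theorem pos_in (α0 : ℤ) (α : ρ → ℤ) (p : T.CC j ρ ⊕ (L ⊕ ρ) → ℝ) {v : C ⊕ L} (h : j ∈ T.tv v) :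
    T.pos j pt α0 α p v = α0 * T.p0 j p v + ∑ x, α x * T.px j pt x p v := if_pos h
theorem pos_p0 (p : T.CC j ρ ⊕ (L ⊕ ρ) → ℝ) : T.pos j pt 1 0 p = T.p0 j p := by
  funext v; simp [pos]
theorem pos_px (x : ρ) (p : T.CC j ρ ⊕ (L ⊕ ρ) → ℝ) :
    T.pos j pt 0 (Pi.single x 1) p = T.px j pt x p := by
  funext v
  by_cases h : j ∈ T.tv v
  · simp [pos_in _ _ _ h, Pi.single_apply]
  · rw [pos_out _ _ _ h, px_out _ _ h]

theorem Dat.px (h : T.Dat A M F) (j : L) (pt : ρ → Bool) (a : ρ → ℕ) (x : ρ) :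
    (T.cl j pt a).Dat (A.image (fx j x)) (M.image (fx j x)) fun p => F (T.px j pt x p) :=
  (cm_px T j pt a x).dat h



theorem Ty.pos (h : T.Ty A F) (hj : j ∉ A) (α0 : ℤ) (α : ρ → ℤ) (p : T.CC j ρ ⊕ (L ⊕ ρ) → ℝ) :
    F (T.pos j pt α0 α p) = F (T.p0 j p) := h _ _ fun _ k _ => pos_out _ _ _ fun m => hj (k m)
theorem Ty.px (h : T.Ty A F) (hj : j ∉ A) (x : ρ) (p : T.CC j ρ ⊕ (L ⊕ ρ) → ℝ) :
    F (T.px j pt x p) = F (T.p0 j p) := h _ _ fun _ k _ => px_out _ _ fun m => hj (k m)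

theorem Ok.phi_pos_out (h : T.Ok) (α0 : ℤ) (α : ρ → ℤ) (p : T.CC j ρ ⊕ (L ⊕ ρ) → ℝ) {c : C}
    (k : j ∉ T.ty c) : T.Φ (T.pos j pt α0 α p) c = (T.cl j pt a).Φ p (.inl c) := by
  rcases (T.ty c).eq_empty_or_nonempty with e | e
  · rw [cl_phi_inl, h.dead c _ e, h.dead c _ e]; exact pos_out _ _ _ k
  · exact (h.dat c e).1.pos k _ _ _
theorem Ok.phi_pos_in (h : T.Ok) (α0 : ℤ) (α : ρ → ℤ) (p : T.CC j ρ ⊕ (L ⊕ ρ) → ℝ) {c : C}
    (k : j ∈ T.ty c) : T.Φ (T.pos j pt α0 α p) c = α0 * (T.cl j pt a).Φ p (.inl c) +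
      ∑ x, α x / 2 ^ a x * (T.cl j pt a).Φ p (.inr (⟨c, k⟩, x)) := by
  rw [((h.dat c ⟨j, k⟩).2 j k).pos, cl_phi_inl]
  refine congrArg _ (sum_congr rfl fun x _ => ?_)
  rw [cl_phi_inr]; field_simp


theorem IntP.p0 {p : T.CC j ρ ⊕ (L ⊕ ρ) → ℝ} (h : IntP p) : IntP (T.p0 j p) :=
  (cm_p0 T j (fun _ => true) fun _ => 0).intP h
theorem IntP.px {p : T.CC j ρ ⊕ (L ⊕ ρ) → ℝ} (h : IntP p) (x : ρ) : IntP (T.px j pt x p) :=
  (cm_px T j pt (fun _ => 0) x).intP h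
theorem IntP.pos {p : T.CC j ρ ⊕ (L ⊕ ρ) → ℝ} (h : IntP p) (α0 : ℤ) (α : ρ → ℤ) :
    IntP (T.pos j pt α0 α p) := fun v => by
  obtain ⟨n, e⟩ := h.p0 v
  choose m e' using fun x => h.px (pt := pt) x v
  by_cases k : j ∈ T.tv v
  · exact ⟨α0 * n + ∑ x, α x * m x, by simp [pos_in _ _ _ k, e, e']⟩
  · exact ⟨n, by rw [pos_out _ _ _ k, e]⟩

theorem px_cf {x : ρ} (h : pt x = true) (w : T.CC j ρ → ℤ) :
    T.px j pt x (cf w) = cf (T.posZ j 0 (Pi.single x 1) w) := by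
  rw [← pos_px, pos_cf]
  simp [Pi.single_apply, h]
theorem posZ_out (α0 : ℤ) (α : ρ → ℤ) (w : T.CC j ρ → ℤ) {c : C} (k : j ∉ T.ty c) :
    T.posZ j α0 α w c = w (.inl c) := dif_neg k
theorem posZ_in (α0 : ℤ) (α : ρ → ℤ) (w : T.CC j ρ → ℤ) {c : C} (k : j ∈ T.ty c) :
    T.posZ j α0 α w c = α0 * w (.inl c) + ∑ x, α x * w (.inr (⟨c, k⟩, x)) := dif_pos k
theorem posZ_gl (α0 : ℤ) (α : ρ → ℤ) (y0 : C → ℤ) (y : ρ → C → ℤ) (c : C) :
    T.posZ j α0 α (T.gl j y0 y) c = if j ∈ T.ty c then α0 * y0 c + ∑ x, α x * y x c else y0 c := by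
  by_cases k : j ∈ T.ty c <;> simp [posZ, gl, k]
theorem p0_gl (y0 : C → ℤ) (y : ρ → C → ℤ) : T.p0 j (cf (T.gl j y0 y)) = cf y0 :=
  T.p0_cf j _

end cl

end Crest.Agent.N49.Rm.TT
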