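import Crest.Agent.N49.Rm.Dl
import Crest.Agent.N49.Rm.Law
import Crest.Agent.N49.Rm.Op
/-! Row 49, block RMH (helper18): `MG` and `CEN`. -/
set_option autoImplicit false
set_option linter.unusedSectionVars false
noncomputable section
namespace Crest.Agent.N49.Rm
open Finset TT Matrix Po

namespace Mg2
variable {L C : Type} [Fintype L] [DecidableEq L] [Fintype C] [DecidableEq C] {T : TT L C} {ℓ : L}

theorem del_wt (h : T.Ok) (y : C → ℤ) (n : T.Bl ℓ → ℤ) :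
    (T.del ℓ).wt (T.jn ℓ y n) = T.wr ℓ y * gs (1 : Matrix (T.Bl ℓ) (T.Bl ℓ) ℝ) (zc n - 0) := by
  rw [wt, sum_split (T := T) ℓ, wr, gs, ← Real.exp_add, cf_jn]
  congr 1
  rw [sum_congr rfl (g := fun c => T.Φ (cf y) c ^ 2) fun c a => by
      simp only [TT.del, (mem_filter.1 a).2, if_false, h.phi_out _ _ _ (mem_filter.1 a).2],
    sum_congr rfl (g := fun c => zc n c ^ 2) (s₂ := univ) fun c _ => by
      simp only [TT.del, c.2, if_true, jr_inl]]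
  simp [qf, dotProduct, sq]
  ring

theorem fib_bl {S : Set (C → ℤ)} (hS : ∀ y y', (∀ c, ℓ ∉ T.ty c → y c = y' c) → y ∈ S → y' ∈ S)
    (f : (C → ℤ) → ℝ) (y : C → ℤ) :
    ∑' n, S.indicator f (T.jn ℓ y n) = S.indicator (fun y => ∑' n, f (T.jn ℓ y n)) y := by
  by_cases k : y ∈ S
  · rw [Set.indicator_of_mem k]
    exact tsum_congr fun n => Set.indicator_of_mem (hS _ _ (fun c a => (jn_out y n a).symm) k) _
  · rw [Set.indicator_of_notMem k]
    exact (tsum_congr fun n => Set.indicator_of_notMem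
      (fun m => k (hS _ _ (fun c a => jn_out y n a) m)) _).trans tsum_zero

theorem key (h : T.Ok) {ε : ℝ} : ∃ x : ℝ, 0 < x ∧ ∀ S : Set (C → ℤ),
    (∀ y y', (∀ c, ℓ ∉ T.ty c → y c = y' c) → y ∈ S → y' ∈ S) →
    (∀ y ∈ S, |th (T.Mm ℓ y) (T.ce ℓ y) - dt (T.Mm ℓ y)| ≤ ε * dt (T.Mm ℓ y)) →
    (1 - ε) * x * (T.del ℓ).pr S ≤ T.pr S ∧ T.pr S ≤ (1 + ε) * x * (T.del ℓ).pr S := by
  have h' : (T.del ℓ).Ok := h.del ℓ
  have N0 := th_pos (PosDef.one (n := T.Bl ℓ) (R := ℝ)) 0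
  set N := th (1 : Matrix (T.Bl ℓ) (T.Bl ℓ) ℝ) 0 with hN
  have D0 := dt_pos (h.Mm_pd ℓ 0)
  have z0 := h.Z_pos
  have z1 := h'.Z_pos
  refine ⟨dt (T.Mm ℓ 0) / N * ((T.del ℓ).Z / T.Z), by positivity, fun S hS k => ?_⟩
  have s0 := h.summable.indicator S
  have s1 := h'.summable.indicator S
  have e : ∀ c : ℝ, c * (dt (T.Mm ℓ 0) / N * ((T.del ℓ).Z / T.Z)) * (T.del ℓ).pr S =
      (∑' r, c * (dt (T.Mm ℓ 0) / N) *
        ∑' n, S.indicator (T.del ℓ).wt (T.jn ℓ (T.rp ℓ r) n)) / T.Z := fun c => by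
    rw [tsum_mul_left, ← tsum_fb (T := T) ℓ s1, pr, ← Z]; field_simp
  have t : ∀ y, (1 - ε) * (dt (T.Mm ℓ 0) / N) * ∑' n, S.indicator (T.del ℓ).wt (T.jn ℓ y n) ≤
      ∑' n, S.indicator T.wt (T.jn ℓ y n) ∧ ∑' n, S.indicator T.wt (T.jn ℓ y n) ≤
      (1 + ε) * (dt (T.Mm ℓ 0) / N) * ∑' n, S.indicator (T.del ℓ).wt (T.jn ℓ y n) := fun y => by
    rw [fib_bl hS, fib_bl hS]
    by_cases m : y ∈ S
    · have a := abs_le.1 (k y m)
      have w := wr_pos (T := T) ℓ y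
      simp only [Set.indicator_of_mem m, h.fib_wt, del_wt h, tsum_mul_left]
      rw [h.dt_eq ℓ 0 y, show ∑' n : T.Bl ℓ → ℤ, gs 1 (zc n - 0) = N from rfl]
      have q : ∀ c : ℝ, c * (dt (T.Mm ℓ y) / N) * (T.wr ℓ y * N) = T.wr ℓ y * (c * dt (T.Mm ℓ y)) :=
        fun c => by field_simp
      rw [q, q]
      exact ⟨mul_le_mul_of_nonneg_left (by linarith [a.1]) w.le,
        mul_le_mul_of_nonneg_left (by linarith [a.2]) w.le⟩
    · simp [m]
  rw [e, e, pr, ← Z, tsum_fb (T := T) ℓ s0]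
  have f0 := summable_fb (T := T) ℓ s0
  have f1 := fun c : ℝ => (summable_fb (T := T) ℓ s1).mul_left c
  exact ⟨div_le_div_of_nonneg_right ((f1 _).tsum_le_tsum (fun r => (t _).1) f0) z0.le,
    div_le_div_of_nonneg_right (f0.tsum_le_tsum (fun r => (t _).2) (f1 _)) z0.le⟩

theorem bl_uq (R : ℝ) (y y' : C → ℤ) (e : ∀ c, ℓ ∉ T.ty c → y c = y' c) :
    T.UQ univ {ℓ} y R ↔ T.UQ univ {ℓ} y' R := by
  simp only [UQ, IntF, Sm, fib_congr (T := T) (M := {ℓ}) fun c d => e c (by simpa using d)]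

theorem sh_le {d : Type} [Fintype d] [DecidableEq d] (x : d → ℝ) (c : d) {t : ℝ}
    (k : t ^ 2 ≤ t * x c) : Real.exp (-(Real.pi * ∑ i, x i ^ 2)) ≤
      Real.exp (-(Real.pi * t ^ 2)) * Real.exp (-(Real.pi * ∑ i, (x - Pi.single c t : d → ℝ) i ^ 2)) := by
  rw [← Real.exp_add]
  refine Real.exp_le_exp.2 ?_
  have : ∑ i, (x - Pi.single c t : d → ℝ) i ^ 2 = ∑ i, x i ^ 2 - 2 * (t * x c) + t ^ 2 := by
    rw [sum_congr rfl (g := fun i => x i ^ 2 + if i = c then -2 * (t * x c) + t ^ 2 else 0)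
      fun i _ => by by_cases e : i = c <;> simp [e]; ring]
    simp [sum_add_distrib]; ring
  rw [this]
  nlinarith [Real.pi_pos]

theorem sgn {r x : ℝ} (r0 : 0 ≤ r) (k : r < |x|) : r ^ 2 ≤ r * x ∨ (-r) ^ 2 ≤ -r * x := by
  rcases lt_abs.1 k with k | k
  · left; nlinarith
  · right; nlinarith

theorem tail_fib (h : T.Ok) (c : T.Bl ℓ) (w : C → ℤ) {r : ℝ} (r0 : 0 ≤ r)
    (k : ∀ θ, |th (T.Mm ℓ w) θ - dt (T.Mm ℓ w)| ≤ (1 / 2) ^ 1 * dt (T.Mm ℓ w)) :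
    (gm (T.Mm ℓ w) (T.ce ℓ w)).real {n | r < |T.Φ (cf (T.jn ℓ w n)) c.1|} ≤
      6 * Real.exp (-(Real.pi * r ^ 2)) := by
  have pd := h.Mm_pd ℓ w
  have t0 := th_pos pd (T.ce ℓ w)
  have u := (h.det_ne ℓ (cf w)).isUnit
  set N := T.Nm ℓ (cf w) with hN
  have e1 : ∀ n, T.Φ (cf (T.jn ℓ w n)) c.1 = (N *ᵥ (zc n - T.ce ℓ w)) c := fun n => by
    rw [cf_jn, h.phi_in, ce, sub_neg_eq_add, mulVec_add, mulVec_mulVec, mul_nonsing_inv _ u,
      one_mulVec, one_mul]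
    rfl
  have e2 : ∀ (t : ℝ) n, t ^ 2 ≤ t * (N *ᵥ (zc n - T.ce ℓ w)) c →
      gs (T.Mm ℓ w) (zc n - T.ce ℓ w) ≤ Real.exp (-(Real.pi * t ^ 2)) *
        gs (T.Mm ℓ w) (zc n - (T.ce ℓ w + N⁻¹ *ᵥ Pi.single c t)) := fun t n k => by
    rw [gs, gs, Mm, qf_mul, qf_mul, ← sub_sub, mulVec_sub _ (zc n - _), mulVec_mulVec,
      mul_nonsing_inv _ u, one_mulVec]
    exact sh_le _ c k
  have s := fun θ => (summable_gs pd θ).hasSum
  have := hasSum_le (fun n => ?_) (summable_ind pd (T.ce ℓ w) {n | r < |T.Φ (cf (T.jn ℓ w n)) c.1|}).hasSum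
    ((((s (T.ce ℓ w + N⁻¹ *ᵥ Pi.single c r)).add (s (T.ce ℓ w + N⁻¹ *ᵥ Pi.single c (-r)))).mul_left
      (Real.exp (-(Real.pi * r ^ 2)))).div_const (th (T.Mm ℓ w) (T.ce ℓ w)))
  · rw [gm_real pd]
    refine this.trans ((div_le_iff₀ t0).2 ?_)
    have a1 := (abs_le.1 (k (T.ce ℓ w + N⁻¹ *ᵥ Pi.single c r))).2
    have a2 := (abs_le.1 (k (T.ce ℓ w + N⁻¹ *ᵥ Pi.single c (-r)))).2
    have a3 := (abs_le.1 (k (T.ce ℓ w))).1
    rw [mul_comm 6, mul_assoc]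
    refine mul_le_mul_of_nonneg_left ?_ (Real.exp_pos _).le
    unfold th at a1 a2
    linarith
  · have p1 := gs_pos (T.Mm ℓ w) (zc n - (T.ce ℓ w + N⁻¹ *ᵥ Pi.single c r))
    have p2 := gs_pos (T.Mm ℓ w) (zc n - (T.ce ℓ w + N⁻¹ *ᵥ Pi.single c (-r)))
    have p3 := Real.exp_pos (-(Real.pi * r ^ 2))
    by_cases m : r < |T.Φ (cf (T.jn ℓ w n)) c.1|
    · rw [Set.indicator_of_mem (show n ∈ {n | r < |T.Φ (cf (T.jn ℓ w n)) c.1|} from m)]
      refine div_le_div_of_nonneg_right ?_ t0.le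
      rcases sgn r0 (e1 n ▸ m) with m | m
      · exact (e2 _ n m).trans (by nlinarith)
      · exact (e2 _ n m).trans (by rw [neg_sq]; nlinarith)
    · rw [Set.indicator_of_notMem (show n ∉ {n | r < |T.Φ (cf (T.jn ℓ w n)) c.1|} from m)]
      positivity

theorem hs_sub {G : Type} [AddGroup G] {f : G → ℝ} {a : ℝ} (z : HasSum f a) (t : G) :
    HasSum (fun y => f (y - t)) a := (Equiv.subRight t).hasSum_iff.2 z

theorem tail_dead (h : T.Ok) {c : C} (hc : T.ty c = ∅) (r : ℕ) :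
    T.pr {y | (r : ℝ) < |T.Φ (cf y) c|} ≤ 2 * Real.exp (-(Real.pi * (r : ℝ) ^ 2)) := by
  have e : ∀ (t : ℤ) y, T.Φ (cf (y - Pi.single c t)) = T.Φ (cf y) - Pi.single c (t : ℝ) := by
    intro t y
    funext c'
    by_cases k : c' = c
    · simp [k, h.dead c _ hc]
    rw [Pi.sub_apply, Pi.single_eq_of_ne k, sub_zero]
    rcases (T.ty c').eq_empty_or_nonempty with a | a
    · simp [h.dead c' _ a, k]
    · refine (h.dat c' a).1 _ _ ?_
      rintro (d | x) _ n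
      · have : d ≠ c := fun z => by simp [z, hc] at n
        simp [this]
      · rfl
  have s : ∀ t : ℤ, HasSum (fun y : C → ℤ => T.wt (y - Pi.single c t)) (∑' y, T.wt y) := fun t =>
    hs_sub h.summable.hasSum _
  have e2 : ∀ (t : ℤ) y, (t : ℝ) ^ 2 ≤ t * T.Φ (cf y) c →
      T.wt y ≤ Real.exp (-(Real.pi * (t : ℝ) ^ 2)) * T.wt (y - Pi.single c t) := fun t y k => by
    simpa only [wt, e, neg_mul] using sh_le (T.Φ (cf y)) c k
  have := hasSum_le (fun y => ?_) (h.summable.indicator {y | (r : ℝ) < |T.Φ (cf y) c|}).hasSum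
    (((s r).add (s (-r))).mul_left (Real.exp (-(Real.pi * (r : ℝ) ^ 2))))
  · exact (div_le_iff₀ h.Z_pos).2 (this.trans_eq (by rw [Z]; ring))
  · have p1 := wt_pos (T := T) (y - Pi.single c (r : ℤ))
    have p2 := wt_pos (T := T) (y - Pi.single c (-r : ℤ))
    have p3 := Real.exp_pos (-(Real.pi * (r : ℝ) ^ 2))
    by_cases m : (r : ℝ) < |T.Φ (cf y) c|
    · rw [Set.indicator_of_mem (show y ∈ {y | (r : ℝ) < |T.Φ (cf y) c|} from m)]
      rcases sgn r.cast_nonneg m with m | m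
      · exact (e2 r y (by simpa using m)).trans (by push_cast; nlinarith)
      · exact (e2 (-r) y (by simpa using m)).trans (by push_cast; rw [neg_sq]; nlinarith)
    · rw [Set.indicator_of_notMem (show y ∉ {y | (r : ℝ) < |T.Φ (cf y) c|} from m)]
      positivity

theorem exp_le (r : ℕ) : Real.exp (-(Real.pi * (r : ℝ) ^ 2)) ≤ (1 / 2) ^ r := by
  have h1 : (r : ℝ) ≤ Real.pi * (r : ℝ) ^ 2 := by
    have : (r : ℝ) ≤ (r : ℝ) ^ 2 := by exact_mod_cast Nat.le_self_pow two_ne_zero r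
    nlinarith [Real.pi_gt_three, sq_nonneg (r : ℝ)]
  refine (Real.exp_le_exp.2 (neg_le_neg h1)).trans ?_
  rw [← mul_neg_one, Real.exp_nat_mul]
  exact pow_le_pow_left₀ (Real.exp_pos _).le (Real.exp_neg_one_lt_d9.le.trans (by norm_num)) r
end Mg2
open Mg2

theorem mg2 : MG := by
  intro L C _ _ _ _ T n b ℓ H cC hb h hs hH
  have h' : (T.del ℓ).Ok := h.del ℓ
  obtain ⟨x, x0, k⟩ := key (ℓ := ℓ) (ε := (1 / 2) ^ b) h
  obtain ⟨s1, s2⟩ := hs ℓ
  set B := {y | ¬ T.UQ univ {ℓ} y (2 ^ b)} with hB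
  have k' := fun (S : Set (C → ℤ)) (hS : ∀ y y', (∀ c, ℓ ∉ T.ty c → y c = y' c) → y ∈ S → y' ∈ S) =>
    k (S \ B) (fun y y' e m => ⟨hS _ _ e m.1, fun a => m.2 fun u => a ((bl_uq _ _ _ e).1 u)⟩)
      fun y m => h.th_Mm (not_not.1 m.2) cC (by omega) _
  have k1 := k' H hH
  have k2 := k' Set.univ fun _ _ _ _ => trivial
  have a1 := h.pr_diff H B
  have a2 := h'.pr_diff H B
  have a3 := h.pr_diff Set.univ B
  have a4 := h'.pr_diff Set.univ B
  have a5 := h.pr_mono (Set.sdiff_subset : H \ B ⊆ H)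
  have a6 := h'.pr_mono (Set.sdiff_subset : H \ B ⊆ H)
  have a7 := h.pr_le_one (Set.univ \ B)
  have a8 := h'.pr_le_one (Set.univ \ B)
  have a9 := h'.pr_le_one (H \ B)
  have a0 := pr_nonneg (T := T.del ℓ) (H \ B)
  rw [h.pr_univ] at a3
  rw [h'.pr_univ] at a4
  have e0 : (0 : ℝ) < (1 / 2) ^ b := by positivity
  have e1 : (1 / 2 : ℝ) ^ b ≤ (1 / 2) ^ 10 := half_anti (by omega)
  generalize (1 / 2 : ℝ) ^ b = ε at *
  norm_num at e1
  have x1 : (1 - ε) * x * (1 - ε) ≤ 1 :=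
    (mul_le_mul_of_nonneg_left (by linarith) (by nlinarith)).trans (k2.1.trans a7)
  have x2 : 1 - ε ≤ (1 + ε) * x :=
    (by linarith : 1 - ε ≤ _).trans (k2.2.trans (mul_le_of_le_one_right (by positivity) a8))
  have x3 : x ≤ 1 + 3 * ε := by nlinarith [mul_pos e0 e0, mul_pos e0 x0]
  have x4 : 1 - 3 * ε ≤ x := by nlinarith
  have y1 : (1 + ε) * x ≤ 1 + 5 * ε := by nlinarith
  have y2 : 1 - 5 * ε ≤ (1 - ε) * x := by nlinarith
  have z1 := mul_le_mul_of_nonneg_right y1 a0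
  have z2 := mul_le_mul_of_nonneg_right y2 a0
  have z3 := mul_le_of_le_one_right e0.le a9
  rw [abs_le]
  constructor <;> nlinarith [k1.1, k1.2]

theorem cen2 : CEN := by
  intro L C _ _ _ _ T n b m cC cL hb h hs
  set B := ⋃ ℓ ∈ (univ : Finset L), {y | ¬ T.UQ univ {ℓ} y (2 ^ b)} with hB
  have b1 : T.pr B ≤ 2 ^ n * (1 / 2) ^ b := (h.pr_biUnion _ _).trans
    ((sum_le_card_nsmul _ _ _ fun ℓ _ => (hs ℓ).1).trans (by
      rw [nsmul_eq_mul, card_univ]; gcongr; exact_mod_cast cL))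
  have ex := exp_le (n + m + 4)
  have ep := Real.exp_pos (-(Real.pi * ((n + m + 4 : ℕ) : ℝ) ^ 2))
  have b2 : ∀ c, T.pr ({y | ((n + m + 4 : ℕ) : ℝ) < |T.Φ (cf y) c|} \ B) ≤
      6 * (1 / 2) ^ (n + m + 4) := fun c => by
    rcases (T.ty c).eq_empty_or_nonempty with e | ⟨ℓ, e⟩
    · exact (h.pr_mono Set.sdiff_subset).trans ((tail_dead h e _).trans (by linarith))
    refine h.pr_le_fib ℓ fun w => ?_
    have := gm_prob (h.Mm_pd ℓ w) (T.ce ℓ w)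
    by_cases u : T.UQ univ {ℓ} w (2 ^ b)
    · refine (MeasureTheory.measureReal_mono fun n k => k.1).trans
        ((tail_fib h ⟨c, e⟩ w (Nat.cast_nonneg _) (h.th_Mm u cC (by omega))).trans (by linarith))
    · rw [show {n | T.jn ℓ w n ∈ _ \ B} = ∅ from Set.eq_empty_of_forall_notMem fun n k => k.2
        (Set.mem_biUnion (mem_coe.2 (mem_univ ℓ)) fun a =>
          u ((bl_uq _ _ _ fun c a => jn_out w n a).1 a))]
      simp
  have b3 := (h.pr_biUnion univ fun c => {y | ((n + m + 4 : ℕ) : ℝ) < |T.Φ (cf y) c|} \ B).trans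
    ((sum_le_card_nsmul _ _ _ fun c _ => b2 c).trans
      (show _ ≤ (2 : ℝ) ^ n * (6 * (1 / 2) ^ (n + m + 4)) by
        rw [nsmul_eq_mul, card_univ]; gcongr; exact_mod_cast cC))
  refine (h.pr_mono fun y k => ?_).trans ((h.pr_union _ B).trans ((add_le_add b3 b1).trans ?_))
  · by_cases u : y ∈ B
    · exact Or.inr u
    · simp only [Set.mem_ofPred_eq, Cen, not_forall, not_le] at k
      obtain ⟨c, k⟩ := k
      exact Or.inl (Set.mem_biUnion (mem_coe.2 (mem_univ c)) ⟨by simpa using k, u⟩)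
  · have e1 : (1 / 2 : ℝ) ^ b ≤ (1 / 2) ^ (n + m + 4) := half_anti (by omega)
    have e2 : (2 : ℝ) ^ n * (1 / 2) ^ (n + m + 4) = (1 / 2) ^ m / 16 := by
      rw [add_assoc, pow_add, ← mul_assoc, ← mul_pow, pow_add]; norm_num; ring
    have e3 : (0 : ℝ) < (1 / 2) ^ m := by positivity
    have e4 := mul_le_mul_of_nonneg_left e1 (by positivity : (0 : ℝ) ≤ 2 ^ n)
    rw [mul_left_comm, e2]
    linarith
end Crest.Agent.N49.Rm
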