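import Crest.Agent.N49.Rm.Op
import Crest.Agent.N49.Rm.St
/-! Row 49, block RMH (helper14): maps into the joint shape; the leaves `MOD` and `FRR`. -/
set_option autoImplicit false
set_option linter.unusedSectionVars false
noncomputable section
namespace Crest.Agent.N49.Rm
open Finset

namespace TT
variable {L C L' C' : Type} [Fintype L] [DecidableEq L] [Fintype C] [DecidableEq C]
  [Fintype L'] [DecidableEq L'] [Fintype C'] [DecidableEq C'] {T : TT L C} {T' : TT L' C'}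
  {ρ : Type} [Fintype ρ] [DecidableEq ρ] {A M : Finset L} {A' M' : Finset L'} {j : L}

/-- the point of the joint shape with prescribed clones -/
def jt (T : TT L C) (j : L) (r0 : C ⊕ L → ℝ) (r : ρ → C ⊕ L → ℝ) : T.CC j ρ ⊕ (L ⊕ ρ) → ℝ
  | .inl (.inl c) => r0 (.inl c)
  | .inl (.inr cx) => r cx.2 (.inl cx.1.1)
  | .inr (.inl ℓ) => r0 (.inr ℓ)
  | .inr (.inr x) => r x (.inr j)

theorem p0_jt (r0 : C ⊕ L → ℝ) (r : ρ → C ⊕ L → ℝ) : T.p0 j (T.jt j r0 r) = r0 := by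
  funext v; rcases v with c | ℓ <;> rfl

theorem px_jt {r0 : C ⊕ L → ℝ} {r : ρ → C ⊕ L → ℝ} (e : ∀ x v, j ∉ T.tv v → r0 v = r x v) (x : ρ) :
    T.px j (fun _ => true) x (T.jt j r0 r) = r x := by
  funext v
  rcases v with c | ℓ
  · by_cases k : j ∈ T.ty c
    · simp only [px, k, dif_pos]; rfl
    · simp only [px, k, dif_neg, not_false_eq_true]; exact e x (.inl c) k
  · by_cases k : ℓ = j
    · subst k; simp only [px, if_true]; rfl
    · simp only [px, k, if_false]; exact e x (.inr ℓ) (by simpa using Ne.symm k)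

theorem pos_jt {r0 : C ⊕ L → ℝ} {r : ρ → C ⊕ L → ℝ} (e : ∀ x v, j ∉ T.tv v → r0 v = r x v)
    (α0 : ℤ) (α : ρ → ℤ) : T.pos j (fun _ => true) α0 α (T.jt j r0 r) =
      fun v => if j ∈ T.tv v then α0 * r0 v + ∑ x, α x * r x v else r0 v := by
  funext v; simp only [pos, p0_jt, px_jt e]

theorem sub_of_upA {c : C} (h : (T.ty c).image .inl ⊆ upA A ρ) : T.ty c ⊆ A :=
  fun _ m => inl_upA.1 (h (mem_image_of_mem _ m))

theorem sub_of_upA' (hj : j ∈ A) {c : C} {x : ρ}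
    (h : insert (.inr x) (((T.ty c).erase j).image .inl) ⊆ upA A ρ) : T.ty c ⊆ A := fun ℓ m => by
  by_cases k : ℓ = j
  · exact k ▸ hj
  · exact inl_upA.1 (h (mem_insert_of_mem (mem_image_of_mem _ (mem_erase.2 ⟨k, m⟩))))

/-- transport of a relation on the joint shape of points -/
theorem Rel.jt (hT : T.Ok) (hA : j ∈ A) (hM : j ∉ M) {ι0 : (C' ⊕ L' → ℝ) → C ⊕ L → ℝ}
    {ι : ρ → (C' ⊕ L' → ℝ) → C ⊕ L → ℝ} {y0 : C → ℤ} {y : ρ → C → ℤ} {y' : C' → ℤ} {q : ℕ}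
    {B R : ℝ} {G : Fm (L ⊕ ρ) (T.CC j ρ)}
    (h : (T.cl j (fun _ => true) fun _ => 0).Rel (upA A ρ) (M.image .inl) (T.gl j y0 y) q B G)
    (l : ∀ ℓ ∈ M.image .inl, (T.cl j (fun _ => true) fun _ : ρ => 0).Lin ℓ G) (hR : 1 ≤ R)
    (e : ∀ p x v, j ∉ T.tv v → ι0 p v = ι x p v) (t0 : T.Pt T' ι0 A A') (t : ∀ x, T.Pt T' (ι x) A A')
    (g : ∀ ℓ' ∈ M', ∃ ℓ ∈ M, T.Pb T' ι0 ℓ ℓ' ∧ ∀ x, T.Pb T' (ι x) ℓ ℓ')
    (i : ∀ p, IntP p → IntP (ι0 p) ∧ ∀ x, IntP (ι x p))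
    (f : ∀ p ∈ T'.Fib M' y', ι0 p ∈ T.Fib M y0 ∧ ∀ x, ι x p (.inr j) = 1 ∧
      ∀ c, j ∈ T.ty c → Disjoint (T.ty c) M → ι x p (.inl c) = y x c)
    (c : ∀ p ∈ T'.Fib M' y', T'.Cube A' M' p → T.CubeR A M R (ι0 p) ∧ ∀ x, T.CubeR A M R (ι x p)) :
    T'.Rel A' M' y' q (R ^ #M * B) fun p => G (T.jt j (ι0 p) fun x => ι x p) := by
  have := h.pb (T' := T') (ι := fun p => T.jt j (ι0 p) fun x => ι x p) (A' := A') (M' := M')
    (y' := y') (hT.cl j _ _) l hR ?_ ?_ ?_ ?_ ?_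
  · rwa [card_image_of_injective _ Sum.inl_injective] at this
  · rintro ((d | ⟨d, x⟩) | (ℓ | x)) s n
    · exact t0 (.inl d) (sub_of_upA s) (image_nonempty.1 n)
    · exact t x (.inl d.1) (sub_of_upA' hA s) ⟨j, d.2⟩
    · exact t0 (.inr ℓ) (by simpa [inl_upA] using s) (by simp)
    · exact t x (.inr j) (by simpa using hA) (by simp)
  · intro ℓ' m
    obtain ⟨ℓ, a, b0, b⟩ := g ℓ' m
    have ne : ℓ ≠ j := fun k => hM (k ▸ a)
    refine ⟨.inl ℓ, mem_image_of_mem _ a, ?_⟩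
    rintro ((d | ⟨d, x⟩) | (m | x))
    · exact ⟨fun k => (b0 (.inl d)).1 (by simpa using k), fun k => (b0 (.inl d)).2 (by simpa using k)⟩
    · exact ⟨fun k => (b x (.inl d.1)).1 (by simpa [ne] using k),
        fun k => (b x (.inl d.1)).2 (by simpa [ne] using k)⟩
    · exact ⟨fun k => (b0 (.inr m)).1 (by simpa using k), fun k => (b0 (.inr m)).2 (by simpa using k)⟩
    · exact ⟨fun k => absurd k (by simp), fun _ => (b x (.inr j)).2 (by simpa using ne)⟩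
  · rintro p k ((d | ⟨d, x⟩) | (ℓ | x))
    exacts [(i p k).1 _, (i p k).2 x _, (i p k).1 _, (i p k).2 x _]
  · intro p k
    obtain ⟨a, b⟩ := f p k
    refine ⟨?_, ?_⟩
    · rintro (d | ⟨d, x⟩) s
      · exact a.1 d (by simpa [disjoint_image Sum.inl_injective] using s)
      · refine (b x).2 d.1 d.2 (disjoint_left.2 fun ℓ m m' => ?_)
        exact disjoint_left.1 s (mem_insert_of_mem (mem_image_of_mem _
          (mem_erase.2 ⟨fun k => hM (k ▸ m'), m⟩))) (mem_image_of_mem _ m')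
    · rintro (ℓ | x)
      · exact (a.2 ℓ).trans (by simp)
      · exact (b x).1.trans (by simp)
  · intro p k k'
    obtain ⟨a, b⟩ := c p k k'
    rintro (d | ⟨d, x⟩) s n
    · rw [cl_Φ_l, p0_jt]
      exact a d (sub_of_upA s) (by simpa [disjoint_image Sum.inl_injective] using n)
    · rw [cl_Φ_r, px_jt (e p), pow_zero, one_mul]
      refine b x d.1 (sub_of_upA' hA s) fun z => n (disjoint_left.2 fun ℓ m m' => ?_)
      obtain ⟨ℓ, m'', rfl⟩ := mem_image.1 m'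
      have : ¬ ℓ = j ∧ ℓ ∈ T.ty d.1 := by simpa using m
      exact disjoint_left.1 z this.2 m''

theorem Rel.bd_nonneg (hT : T.Ok) {y : C → ℤ} {q : ℕ} {B : ℝ} {F : Fm L C}
    (h : T.Rel A M y q B F) : 0 ≤ B := by
  obtain ⟨I, _, h⟩ := h
  refine (abs_nonneg _).trans (h (fun v => if Disjoint (T.tv v) M then cf y v else 0)
    ⟨fun c d => if_pos d, fun ℓ => by by_cases k : ℓ ∈ M <;> simp [k]⟩ fun c _ d => ?_)
  obtain ⟨ℓ, m, m'⟩ := not_disjoint_iff.1 d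
  rw [((hT.dat c ⟨ℓ, m⟩).2 ℓ m).eq_zero fun v k => if_neg (not_disjoint_iff.2 ⟨ℓ, k, m'⟩)]
  simp

theorem resp_lin (hM : j ∉ M) {F : Fin 4 → Fm L C} (h : ∀ l, T.Dat A M (F l)) :
    ∀ ℓ ∈ M.image .inl, (T.cl j (fun _ => true) fun _ : Fin 2 => 0).Lin ℓ fun p =>
      F 0 (T.pos j (fun _ => true) 1 ![0, 0] p) - F 1 (T.pos j (fun _ => true) 0 ![1, 0] p) -
        F 2 (T.pos j (fun _ => true) 0 ![0, 1] p) + F 3 (T.pos j (fun _ => true) (-1) ![1, 1] p) :=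
  (((((h 0).pos j _ _ _ _ hM).sub ((h 1).pos j _ _ _ _ hM)).sub ((h 2).pos j _ _ _ _ hM)).add
    ((h 3).pos j _ _ _ _ hM)).2

/-! ### the centre -/
variable {i : L} {a : ℕ} {z : C → ℤ}

theorem intP_dn {p : T.CR i ⊕ L → ℝ} (h : IntP p) : IntP (T.dn i z p) := by
  rintro (c | ℓ) <;> simp only [dn] <;> split_ifs <;>
    first | exact h _ | exact ⟨_, rfl⟩ | exact ⟨1, by simp⟩

theorem fib_dn (hi : i ∉ M) {y : C → ℤ} {y' : T.CR i → ℤ} (e : T.dn i z (cf y') = cf y) :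
    ∀ p ∈ (T.rc i a z).Fib M y', T.dn i z p ∈ T.Fib M y := by
  refine fun p hp => ⟨fun c d => ?_, fun ℓ => ?_⟩
  · refine Eq.trans ?_ (congrFun e (.inl c))
    simp only [dn]
    split_ifs with k k'
    exacts [rfl, hp.1 (.inr ⟨c, k⟩) (d.mono_left (erase_subset _ _)), hp.1 (.inl c) d]
  · by_cases k : ℓ = i
    · simp [dn, k, hi]
    · simp only [dn, k, if_false]; exact hp.2 ℓ

theorem Ok.cube_dn (hT : T.Ok) (hi : i ∉ M) {R : ℝ} {p : T.CR i ⊕ L → ℝ}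
    (h : (T.rc i a z).CubeR (A.erase i) M R p) : T.CubeR A M R (T.dn i z p) := by
  intro c s d
  by_cases k : i ∈ T.ty c
  · obtain ⟨x, m1, m2⟩ := not_disjoint_iff.1 d
    have xj : x ≠ i := fun e => hi (e ▸ m2)
    have := h (.inr ⟨c, k⟩) (erase_subset_erase i s)
      (not_disjoint_iff.2 ⟨x, mem_erase.2 ⟨xj, m1⟩, m2⟩)
    rwa [rc_Φ_r, if_neg fun e => xj (by simpa [e] using m1)] at this
  · have := h (.inl c) (subset_erase.2 ⟨s, k⟩) d
    rw [rc_Φ_l, if_neg k, one_mul] at this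
    exact (congrArg abs (hT.ind k _ _ (T.dn_up i z p))).trans_le this

theorem cube_p0 {pt : ρ → Bool} {b : ρ → ℕ} {p}
    (h : (T.cl j pt b).Cube (upA A ρ) (M.image .inl) p) : T.CubeR A M 1 (T.p0 j p) := fun c s d =>
  h (.inl c) (image_subset_iff.2 fun _ k => inl_upA.2 (s k))
    (by simpa [disjoint_image Sum.inl_injective] using d)

theorem Ok.cube_px (hT : T.Ok) (hj : j ∉ M) {pt : ρ → Bool} {b : ρ → ℕ} {p}
    (h : (T.cl j pt b).Cube (upA A ρ) (M.image .inl) p) (x : ρ) :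
    T.CubeR A M 1 (T.px j pt x p) := by
  intro c s d
  by_cases k : j ∈ T.ty c
  · have := h (.inr (⟨c, k⟩, x)) (insert_subset (inr_upA x) (image_subset_iff.2 fun x m =>
      inl_upA.2 (s (mem_of_mem_erase m)))) (by
        obtain ⟨ℓ, m, m'⟩ := not_disjoint_iff.1 d
        exact not_disjoint_iff.2 ⟨.inl ℓ, by simpa using ⟨fun e => hj (e ▸ m'), m⟩, by simpa⟩)
    rw [cl_Φ_r, abs_mul, abs_of_pos (by positivity)] at this
    exact (le_mul_of_one_le_left (abs_nonneg _) (one_le_pow₀ one_le_two)).trans this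
  · rw [(hT.ind k).px pt x p]; exact cube_p0 h c s d

theorem Pt.cp {L'' C'' : Type} [Fintype L''] [DecidableEq L''] [Fintype C''] [DecidableEq C'']
    {T'' : TT L'' C''} {A'' : Finset L''} {ι : (C' ⊕ L' → ℝ) → C ⊕ L → ℝ}
    {ι' : (C'' ⊕ L'' → ℝ) → C' ⊕ L' → ℝ} (h : T.Pt T' ι A A') (k : T'.Pt T'' ι' A' A'') :
    T.Pt T'' (fun p => ι (ι' p)) A A'' := fun v s n => (h v s n).pb k

theorem Pb.cp {L'' C'' : Type} [Fintype L''] [DecidableEq L''] [Fintype C''] [DecidableEq C'']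
    {T'' : TT L'' C''} {ℓ : L} {ℓ' : L'} {ℓ'' : L''} {ι : (C' ⊕ L' → ℝ) → C ⊕ L → ℝ}
    {ι' : (C'' ⊕ L'' → ℝ) → C' ⊕ L' → ℝ} (h : T.Pb T' ι ℓ ℓ') (k : T'.Pb T'' ι' ℓ' ℓ'') :
    T.Pb T'' (fun p => ι (ι' p)) ℓ ℓ'' :=
  fun v => ⟨fun m => ((h v).1 m).pb k, fun m => ((h v).2 m).pb k⟩

/-- a map that respects the block of `j` commutes with the positions -/
theorem Pb.pos_jt {T' : TT L C'} {ι : (C' ⊕ L → ℝ) → C ⊕ L → ℝ} (h : T.Pb T' ι j j) (pt : ρ → Bool)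
    (α0 : ℤ) (α : ρ → ℤ) (p) :
    T.pos j (fun _ => true) α0 α (T.jt j (ι (T'.p0 j p)) fun x => ι (T'.px j pt x p)) =
      ι (T'.pos j pt α0 α p) := by
  rw [TT.pos_jt fun x v k => (((h v).2 k).px pt x p).symm]
  funext v
  split_ifs with k
  · exact (((h v).1 k).pos pt α0 α p).symm
  · exact (((h v).2 k).pos pt α0 α p).symm

theorem Resp.dn (hT : T.Ok) (hA : j ∈ A) (hM : j ∉ M) (hi : i ∉ M) (hji : j ≠ i)
    {y1 y2 y3 : C → ℤ} {w1 w2 w3 : T.CR i → ℤ} (e1 : T.dn i z (cf w1) = cf y1)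
    (e2 : T.dn i z (cf w2) = cf y2) (e3 : T.dn i z (cf w3) = cf y3) {q : ℕ} {B : ℝ}
    {F : Fin 4 → Fm L C} (hF : ∀ l, T.Dat A M (F l)) (h : T.Resp A M j y1 y2 y3 q B F) :
    (T.rc i a z).Resp (A.erase i) M j w1 w2 w3 q B fun l p => F l (T.dn i z p) := by
  have pb := T.pb_dn i a z hji
  have := Rel.jt (T' := (T.rc i a z).cl j (fun _ : Fin 2 => true) fun _ => 0)
    (A' := upA (A.erase i) (Fin 2)) (M' := M.image .inl) (y' := (T.rc i a z).gl j w1 ![w2, w3])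
    (ι0 := fun p => T.dn i z ((T.rc i a z).p0 j p))
    (ι := fun x p => T.dn i z ((T.rc i a z).px j (fun _ => true) x p)) hT hA hM h (resp_lin hM hF)
    le_rfl (fun p x v k => (((pb v).2 k).px _ x p).symm)
    ((T.pt_dn i a z A).cp ((T.rc i a z).pt_p0 j _ _ fun _ => inl_upA.2))
    (fun x => (T.pt_dn i a z A).cp ((T.rc i a z).pt_px j _ _ x (fun _ m _ => inl_upA.2 m)
      fun _ => inr_upA x)) ?_
    (fun p k => ⟨intP_dn (intP_p0 _ j k), fun x => intP_dn (intP_px _ j _ x k)⟩) ?_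
    fun p _ k => ⟨hT.cube_dn hi (cube_p0 k), fun x => hT.cube_dn hi ((hT.rc i a z).cube_px hM k x)⟩
  · simp only [one_pow, one_mul, pb.pos_jt] at this
    exact this
  · intro ℓ' m
    obtain ⟨ℓ, k, rfl⟩ := mem_image.1 m
    have b := T.pb_dn i a z (ℓ := ℓ) fun e => hi (e ▸ k)
    exact ⟨ℓ, k, b.cp (pb_p0 _ j _ _ ℓ), fun x => b.cp (pb_px _ j _ _ x fun e => hM (e ▸ k))⟩
  · intro p k
    refine ⟨fib_dn hi e1 _ (fib_p0 _ j _ _ _ p k), fun x => ⟨?_, fun c m d => ?_⟩⟩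
    · simp [TT.dn, px, hji, k.2]
    · have e : T.dn i z (cf ((![w2, w3] : Fin 2 → _) x)) = cf ((![y2, y3] : Fin 2 → _) x) := by
        fin_cases x
        exacts [e2, e3]
      refine Eq.trans ?_ (congrFun e (.inl c))
      have u : ∀ c' : T.CR i, ∀ m' : j ∈ (T.rc i a z).ty c', Disjoint ((T.rc i a z).ty c') M →
          (T.rc i a z).px j (fun _ => true) x p (.inl c') = ((![w2, w3] : Fin 2 → _) x c' : ℤ) :=
        fun c' m' d' => by
          simp only [px, m', dif_pos]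
          exact k.1 (.inr (⟨c', m'⟩, x)) (by
            simpa [disjoint_image Sum.inl_injective] using d'.mono_left (erase_subset _ _))
      simp only [TT.dn]
      split_ifs with r r'
      exacts [rfl, u (.inr ⟨c, r⟩) (mem_erase.2 ⟨hji, m⟩) (d.mono_left (erase_subset _ _)),
        u (.inl c) m d]

theorem Quad.dn (hji : j ≠ i) {y1 y2 y3 y4 : C → ℤ} {w1 w2 w3 w4 : T.CR i → ℤ}
    (e1 : T.dn i z (cf w1) = cf y1) (e2 : T.dn i z (cf w2) = cf y2) (e3 : T.dn i z (cf w3) = cf y3)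
    (e4 : T.dn i z (cf w4) = cf y4) (h : (T.rc i a z).Quad (A.erase i) M j w1 w2 w3 w4) :
    T.Quad A M j y1 y2 y3 y4 := by
  intro c s n d
  have u : ∀ {y : C → ℤ} {w : T.CR i → ℤ}, T.dn i z (cf w) = cf y → y c =
      if k : i ∈ T.ty c then (if T.ty c = {i} then z c else w (.inr ⟨c, k⟩)) else w (.inl c) := by
    intro y w e
    have := congrFun e (.inl c)
    simp only [TT.dn, cf_inl] at this
    split_ifs at this ⊢ <;> exact_mod_cast this.symm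
  rw [u e1, u e2, u e3, u e4]
  by_cases k : i ∈ T.ty c
  · by_cases k' : T.ty c = {i}
    · simp [k', hji]
    · simpa [k, k', hji] using h (.inr ⟨c, k⟩) (erase_subset_erase i s)
        (nonempty_iff_ne_empty.2 fun e => k'
          (((erase_eq_empty_iff _ _).1 e).resolve_left n.ne_empty)) (d.mono_left (erase_subset _ _))
  · simp only [k, dif_neg, not_false_eq_true]
    exact h (.inl c) (subset_erase.2 ⟨s, k⟩) n d

theorem quad_cor (w : T.CC j (Fin 4) → ℤ) :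
    T.Quad A M j (T.cor j 0 w) (T.cor j 1 w) (T.cor j 2 w) (T.cor j 3 w) := by
  intro c _ _ _
  by_cases k : j ∈ T.ty c <;> simp [cor, posZ, k, Fin.sum_univ_four]
  ring

/-- a respected quadruple of corners gives a respected rectangle -/
theorem Resp.rr (hT : T.Ok) (hA : j ∈ A) (hM : j ∉ M) {a1 a2 : ℕ} {w : T.CC j (Fin 4) → ℤ} {q : ℕ}
    {B : ℝ} {F : Fin 4 → Fm L C} (hF : ∀ l, T.Dat A M (F l))
    (h : T.Resp A M j (T.cor j 0 w) (T.cor j 1 w) (T.cor j 2 w) q B F) :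
    T.RR A M j a1 a2 w q (3 ^ #M * B) F := by
  have ag : ∀ (p : T.CC j (Fin 4) ⊕ (L ⊕ Fin 4) → ℝ) (x : Fin 2) v, j ∉ T.tv v →
      T.pos j (fun _ => false) 1 (cv 0) p v =
        T.pos j (fun _ => false) 1 (cv (![1, 2] x)) p v := fun p x v k => by simp only [pos, k, if_false]
  have hR : ∀ l, |((1 : ℤ) : ℝ)| + ∑ x, |(cv l x : ℝ)| ≤ 3 := fun l => by
    fin_cases l <;> simp [cv, Fin.sum_univ_four] <;> norm_num
  have := Rel.jt (T' := T.rect j a1 a2) (A' := upA A (Fin 4)) (M' := M.image .inl) (y' := w)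
    (ι0 := T.pos j (fun _ => false) 1 (cv 0))
    (ι := fun x => T.pos j (fun _ => false) 1 (cv (![1, 2] x))) (R := 3) hT hA hM h
    (resp_lin hM hF) (by norm_num) ag
    (T.pt_pos j _ _ _ _ (fun _ => inl_upA.2) fun _ => inr_upA)
    (fun x => T.pt_pos j _ _ _ _ (fun _ => inl_upA.2) fun _ => inr_upA) ?_
    (fun p k => ⟨T.intP_pos j _ _ _ k, fun x => T.intP_pos j _ _ _ k⟩) ?_
    fun p _ k => ⟨hT.cube_pos j _ _ _ _ hM (by norm_num) (hR _) k,
      fun x => hT.cube_pos j _ _ _ _ hM (by norm_num) (hR _) k⟩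
  · refine this.congr fun p _ => ?_
    simp only [pos_jt (ag p)]
    congr 2
    · congr 2
      · funext v; by_cases k : j ∈ T.tv v <;> simp [k]
      · funext v; by_cases k : j ∈ T.tv v <;> simp [k, ag p 0]
    · congr 1; funext v; by_cases k : j ∈ T.tv v <;> simp [k, ag p 1]
    · funext v
      by_cases k : j ∈ T.tv v <;> simp [k, pos, cv, Fin.sum_univ_four]
      ring
  · intro ℓ' m
    obtain ⟨ℓ, k, rfl⟩ := mem_image.1 m
    exact ⟨ℓ, k, T.pb_pos j _ _ _ _ fun e => hM (e ▸ k),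
      fun x => T.pb_pos j _ _ _ _ fun e => hM (e ▸ k)⟩
  · intro p k
    have f := fun l => T.fib_pos j (fun _ => false) ![a1, a1, a2, a2] 1 (cv l) hM (by simp) w p k
    refine ⟨f 0, fun x => ⟨((f _).2 j).trans (if_neg hM), fun c _ d => ((f _).1 c d).trans ?_⟩⟩
    fin_cases x <;> rfl
end TT

open TT

theorem mod : MOD := by
  intro L C _ _ _ _ T i a z hT
  have g : ∀ M : Finset L, i ∉ M → ∀ ℓ' ∈ M, ∃ ℓ ∈ M, T.Pb (T.rc i a z) (T.dn i z) ℓ ℓ' :=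
    fun M hi ℓ m => ⟨ℓ, m, T.pb_dn i a z fun e => hi (e ▸ m)⟩
  refine ⟨fun A M F _ hi h => h.pb (T.pt_dn i a z A) (g M hi),
    fun A M y y' q B F _ hi e hF h => ?_, ?_⟩
  · simpa using h.pb hT hF.2 le_rfl (T.pt_dn i a z A) (g M hi) (fun _ => intP_dn) (fib_dn hi e)
      fun _ _ k => hT.cube_dn hi k
  · intro D A M j H H' q B F _ hA hM hi hji ov hF h w1 m1 w2 m2 w3 m3 w4 m4 k d
    obtain ⟨y1, n1, e1⟩ := ov w1 m1
    obtain ⟨y2, n2, e2⟩ := ov w2 m2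
    obtain ⟨y3, n3, e3⟩ := ov w3 m3
    obtain ⟨y4, n4, e4⟩ := ov w4 m4
    exact Resp.dn hT hA hM hi hji e1 e2 e3 (fun _ => hF d)
      (h y1 n1 y2 n2 y3 n3 y4 n4 (k.dn hji e1 e2 e3 e4) d)

theorem frr : FRR := by
  intro L C _ _ _ _ T D A M j H q B F a1 a2 w hT _ hA hM hF h k d
  have r := h _ (k 0) _ (k 1) _ (k 2) _ (k 3) (quad_cor w) d
  have B0 : 0 ≤ B := Rel.bd_nonneg (hT.cl j _ _) r
  exact (r.rr hT hA hM fun _ => hF d).mono (mul_le_mul_of_nonneg_right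
    (pow_le_pow_right₀ (by norm_num) (card_le_univ M)) B0)

end Crest.Agent.N49.Rm
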