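import Crest.Agent.N49.Rm.Gp
import Crest.Agent.N49.Rm.Mod
/-! Row 49, block RMH (helper57): kit of the glue (pull-backs, engines fed by rectangles). -/
set_option autoImplicit false
set_option linter.unusedSectionVars false
noncomputable section
namespace Crest.Agent.N49.Rm
open Finset TT Matrix Crest.Agent.N49.Iv.Il

theorem p2 {a b c : ℕ} (h : a ≤ 2 ^ b) (e : b ≤ c) : a ≤ 2 ^ c :=
  h.trans (Nat.pow_le_pow_right two_pos e)

theorem p2m {a a' b b' c : ℕ} (h : a ≤ 2 ^ b) (h' : a' ≤ 2 ^ b') (e : b + b' ≤ c) :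
    a * a' ≤ 2 ^ c := p2 (b := b + b') (by rw [pow_add]; exact Nat.mul_le_mul h h') e

section
variable {L C : Type} [Fintype L] [DecidableEq L] [Fintype C] [DecidableEq C] {T : TT L C}
  {H H' : Set (C → ℤ)} {A M Z : Finset L} {i j : L} {n n' q q' k0 s k : ℕ} {D E : Type}

/-- a relation on all of `H` -/
def VH (T : TT L C) (A M : Finset L) (H : Set (C → ℤ)) (q n : ℕ) (F : D → Fm L C) : Prop :=
  ∀ y ∈ H, T.VR A M y q n F

theorem VH.up {F : D → Fm L C} (h : VH T A M H q n F) (e : H' ⊆ H) (d : q ∣ q') (hq : 1 ≤ q')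
    (a : n ≤ n') : VH T A M H' q' n' F := fun y hy x =>
  ((h y (e hy) x).dvd d hq).mono (two_pow_mono a)

theorem TT.Cst.up {F : D → Fm L C} (h : T.Cst A M j H q n F) (e : H' ⊆ H) (d : q ∣ q')
    (hq : 1 ≤ q') (a : n ≤ n') : T.Cst A M j H' q' n' F :=
  let ⟨g, h1, h2⟩ := h; ⟨g, h1, VH.up h2 e d hq a⟩

theorem TT.Rep.up [Fintype E] {F X : D → Fm L C} {γ : E → Fm L C} {Λ : D → E → Fm L C}
    (h : T.Rep A M i H q (2 ^ n) F γ X Λ) (e : H' ⊆ H) (d : q ∣ q') (hq : 1 ≤ q') (a : n ≤ n') :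
    T.Rep A M i H' q' (2 ^ n') F γ X Λ :=
  ⟨h.1, h.2.1, h.2.2.1, fun y hy => ⟨(h.2.2.2 y (e hy)).1, fun x =>
    (((h.2.2.2 y (e hy)).2 x).dvd d hq).mono (two_pow_mono a)⟩⟩

theorem Kr.up {a : Type} [Fintype a] [Fintype E] [DecidableEq E] {B : Matrix a E ℤ}
    {W : Matrix E E ℤ} (h : Kr n B W) (e : n ≤ n') : Kr n' B W :=
  let ⟨h1, h2, m, Q, h3, h4, h5, h6⟩ := h
  ⟨h1.mono e, h2.mono e, m, Q, h3, p2 h4 e, h5.mono e, h6⟩

theorem Tb.up {G : D → Fm L C} (h : Tb T Z M H n G) (e : H' ⊆ H) (a : n ≤ n') : Tb T Z M H' n' G :=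
  let ⟨N, i1, i2, W, Γ, h1, h2, h3, h4⟩ := h
  ⟨N, i1, i2, W, Γ, h1.trans a, h2, fun y hy => h3 y (e hy), h4⟩

theorem Tb.shift {Z' M' : Finset L} {G : D → Fm L C} (h : Tb T Z M H n G) (e : Z ⊆ Z')
    (u : Z ∪ M = Z' ∪ M') : Tb T Z' M' H n G :=
  let ⟨N, i1, i2, W, Γ, h1, h2, h3, h4, h5⟩ := h
  ⟨N, i1, i2, W, Γ, h1, fun x => ⟨(h2 x).1, (h2 x).2.1.trans e, (h2 x).2.2⟩, h3, u ▸ h4, h5⟩

theorem Tb.dat {G : D → Fm L C} (h : Tb T Z M H n G) (d : Disjoint Z M) (x : D) :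
    T.Dat (Z ∪ M) M (G x) := by
  obtain ⟨N, _, _, W, Γ, -, h2, -, h4, h5⟩ := h
  rw [show G x = fun p => Γ x (W.lf p) from funext (h5 x)]
  exact h2.dat d ((h4 x).mono subset_rfl subset_union_right)

/-- the datum is a bracket form up to a relation -/
def Mb (T : TT L C) (Z M : Finset L) (H : Set (C → ℤ)) (n : ℕ) (F : D → Fm L C) : Prop :=
  ∃ (G : D → Fm L C) (q : ℕ), 1 ≤ q ∧ q ≤ 2 ^ n ∧ Tb T Z M H n G ∧
    VH T (Z ∪ M) M H q n fun d p => F d p - G d p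

theorem Mb.mh {F : D → Fm L C} (h : Mb T Z M H n F) : Mh T Z M H n F := by
  obtain ⟨G, q, h1, h2, ⟨N, i1, i2, W, Γ, a1, a2, a3, a4, a5⟩, h3⟩ := h
  exact ⟨N, i1, i2, W, q, Γ, a1, a2, a3, h1, h2, a4, fun y hy d =>
    (h3 y hy d).congr fun p _ => by simp only [a5]⟩

theorem FrS.sub (hF : TBF) {F G : D → Fm L C} (h : FrS T (Z ∪ M) M j H n F) (hj : j ∈ Z)
    (d : Disjoint Z M) (g : Tb T Z M H n' G) : FrS T (Z ∪ M) M j H n fun x p => F x p - G x p := by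
  obtain ⟨q, h1, h2, h3⟩ := h
  refine ⟨q, h1, h2, fun y1 a1 y2 a2 y3 a3 y4 a4 k x => ?_⟩
  have u := (h3 y1 a1 y2 a2 y3 a3 y4 a4 k x).sub
    (((hF L C T D Z M H n' G d g).2 j hj y1 a1 y2 a2 y3 a3 y4 a4 k x).dvd (one_dvd q) h1)
  exact (u.congr fun p _ => by simp only; ring).mono (by simp)

variable {C' : Type} [Fintype C'] [DecidableEq C'] {T' : TT L C'}
  {ι : (C' ⊕ L → ℝ) → (C ⊕ L → ℝ)} {H1 : Set (C' → ℤ)}

theorem Mv.vh (m : Mv k0 s n T H T' ι H1 n' k) (hT : T.Ok) {F : D → Fm L C}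
    (l : ∀ x, T.Dat A M (F x)) (h : VH T A M H q n F) : VH T' A M H1 q n' fun x p => F x (ι p) :=
  fun y hy x => let ⟨y0, h0, e⟩ := m.ov y hy; m.rel hT e (l x).2 (h y0 h0 x)

theorem Mv.cst (m : Mv k0 s n T H T' ι H1 n' k) (hT : T.Ok) {F : D → Fm L C}
    (l : ∀ x, T.Dat A M (F x)) (h : T.Cst A M j H q n F) :
    T'.Cst A M j H1 q n' fun x p => F x (ι p) :=
  let ⟨g, h1, h2⟩ := h
  ⟨fun x p => g x (ι p), fun x => m.ref.dat (h1 x),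
    m.vh hT (fun x => (l x).sub ((h1 x).mono (erase_subset _ _) subset_rfl)) h2⟩

theorem Mv.rep [Fintype E] (m : Mv k0 s n T H T' ι H1 n' k) (hT : T.Ok) {F X : D → Fm L C}
    {γ : E → Fm L C} {Λ : D → E → Fm L C} (l : ∀ x, T.Dat A M (F x))
    (h : T.Rep A M i H q (2 ^ n) F γ X Λ) :
    T'.Rep A M i H1 q (2 ^ n') (fun x p => F x (ι p)) (fun e p => γ e (ι p)) (fun x p => X x (ι p))
      fun x e p => Λ x e (ι p) := by
  refine ⟨fun e => m.ref.dat (h.1 e), fun e => m.ref.dat (h.2.1 e),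
    fun x e => m.ref.dat (h.2.2.1 x e), fun y hy => ?_⟩
  obtain ⟨y0, h0, e⟩ := m.ov y hy
  simp only [e]
  exact ⟨(h.2.2.2 y0 h0).1, fun x => m.rel hT e (fun ℓ a => (((l x).2 ℓ a).sub
    ((h.2.1 x).2 ℓ (mem_insert_of_mem a))).sub (Lin.sum _ fun z _ => ((h.2.2.1 x z).2 ℓ a).smul _))
    ((h.2.2.2 y0 h0).2 x)⟩

theorem Mv.tb (hP : TBP) (m : Mv k0 s n T H T' ι H1 n' k) (hT : T.Ok) {G : D → Fm L C}
    (h : Tb T Z M H n G) : Tb T' Z M H1 n' fun x p => G x (ι p) :=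
  (hP L C C' T T' ι s k D Z M H H1 n G hT m.ref m.ov h).up subset_rfl m.n_le

theorem Mv.mb (hP : TBP) (m : Mv k0 s n T H T' ι H1 n' k) (hT : T.Ok) {F : D → Fm L C}
    (d : Disjoint Z M) (l : ∀ x, T.Dat (Z ∪ M) M (F x)) (h : Mb T Z M H n F) :
    Mb T' Z M H1 n' fun x p => F x (ι p) :=
  let ⟨G, q, h1, h2, h3, h4⟩ := h
  ⟨fun x p => G x (ι p), q, h1, p2 h2 m.n_le, m.tb hP hT h3,
    m.vh hT (fun x => (l x).sub (h3.dat d x)) h4⟩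

/-- all configurations over `H` -/
theorem Mv.sat (m : Mv k0 s n T H T' ι H1 n' k) :
    Mv k0 s n T H T' ι {y | ∃ x ∈ H, ι (cf y) = cf x} n' k :=
  ⟨m.le, m.le', m.kle, m.ref, m.sz.sub le_rfl (m.sz.2.2.trans (T'.pr_sub m.ov)), fun _ h => h⟩

/-- respected rectangles of all widths -/
def Prd (c n : ℕ) (T : TT L C) (X : Hk L C) (A M : Finset L) (j : L) (H : Set (C → ℤ))
    (F : D → Fm L C) : Prop := ∀ a1 a2, n ^ c ≤ a1 → a1 ≤ a2 → GG ((n + a2) ^ c) T X →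
  ∃ q, 1 ≤ q ∧ q ≤ 2 ^ n ^ c ∧ (1 / 2 : ℝ) ^ n ^ c ≤ T.RM0 A M j H q (2 ^ n ^ c) (fun _ => F) a1 a2
end

/-- the common shape of `ONEX` and `UPX` -/
def Eng (l0 : ℕ) (R : Pf fun L => Finset L × Finset L × L) : Prop :=
  ∃ K0 k0 : ℕ, 1 ≤ K0 ∧ ∀ K' : ℕ, ∃ K : ℕ, ∀ (L C : Type) [Fintype L]
  [DecidableEq L] [Fintype C] [DecidableEq C] (T : TT L C) (X : Hk L C) (D : Type) [Fintype D]
  (n : ℕ) (H : Set (C → ℤ)) (A M : Finset L) (j : L) (q : ℕ) (F : Fin 4 → D → Fm L C),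
  Fintype.card L ≤ l0 → Sz n T H → GG (n ^ K) T X → Fintype.card D ≤ n → M.Nonempty → M ⊆ A →
  j ∈ A → j ∉ M → (∀ l d, T.Dat A M (F l d)) → 1 ≤ q → q ≤ 2 ^ n →
  (1 / 2 : ℝ) ^ n ≤ T.RM0 A M j H q (2 ^ n) F (n ^ K0) (2 * n ^ K0) →
  NX k0 (n ^ K) K' n T H X fun C' _ _ T' ι H' n' => R L D (A, M, j) C' T' H' n' fun d p => F 0 d (ι p)

theorem Eng.prd {l0 : ℕ} {R : Pf fun L => Finset L × Finset L × L} (h : Eng l0 R) (c : ℕ)
    (hc : 1 ≤ c) : ∃ k0 : ℕ, ∀ K' : ℕ, ∃ K : ℕ, ∀ (L C : Type) [Fintype L]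
    [DecidableEq L] [Fintype C] [DecidableEq C] (T : TT L C) (X : Hk L C) (D : Type) [Fintype D]
    (n : ℕ) (H : Set (C → ℤ)) (A M : Finset L) (j : L) (F : D → Fm L C),
    Fintype.card L ≤ l0 → Sz n T H → GG (n ^ K) T X → Fintype.card D ≤ n → M.Nonempty → M ⊆ A →
    j ∈ A → j ∉ M → (∀ d, T.Dat A M (F d)) → Prd c n T X A M j H F →
    NX k0 (n ^ K) K' n T H X fun C' _ _ T' ι H' n' =>
      R L D (A, M, j) C' T' H' n' fun d p => F d (ι p) := by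
  obtain ⟨K0, k0, h0, h⟩ := h
  refine ⟨k0, fun K' => ?_⟩
  obtain ⟨K, h⟩ := h K'
  refine ⟨c * K + (c * K0 + 2) * c, fun L C _ _ _ _ T X D _ n H A M j F l z g d m1 m2 j1 j2 f p => ?_⟩
  have e1 := le_pow_self' z.1 hc
  have e2 : n ^ c ≤ (n ^ c) ^ K0 := le_pow_self' (z.1.trans e1) h0
  have e3 : (n ^ c) ^ K ≤ n ^ (c * K + (c * K0 + 2) * c) := by
    rw [← pow_mul]; exact pow_mono' z.1 (by omega)
  obtain ⟨q, q1, q2, r⟩ := p _ (2 * (n ^ c) ^ K0) e2 (by omega) (g.mono (by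
    refine le_trans ?_ (pow_mono' z.1 (by omega : (c * K0 + 2) * c ≤ _))
    rw [pow_mul n (c * K0 + 2), pow_add, pow_mul]
    refine Nat.pow_le_pow_left ?_ _
    have := z.1
    nlinarith [Nat.mul_le_mul this this]))
  exact ((h L C T X D _ H A M j q (fun _ => F) l (z.mono' e1) (g.mono e3) (d.trans e1) m1 m2 j1 j2
    (fun _ => f) q1 q2 r).from e1 subset_rfl).imp le_rfl e3 fun _ _ _ _ _ _ _ _ _ _ r => r

/-- apply an arrow to an auxiliary family -/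
theorem Ar.use {l0 : ℕ} {Ξ Ξ' : Type → Type} {P Q : Pf Ξ} {P1 Q1 : Pf Ξ'} (h : Ar l0 P1 Q1)
    (f : ∀ (L C : Type) [Fintype L] [DecidableEq L] [Fintype C] [DecidableEq C] (T : TT L C)
      (D : Type) [Fintype D] (n : ℕ) (H : Set (C → ℤ)) (x : Ξ L) (F : D → Fm L C), T.Ok →
      P L D x C T H n F → ∃ (D1 : Type) (_ : Fintype D1) (x1 : Ξ' L) (F1 : D1 → Fm L C),
        Fintype.card D1 ≤ n ∧ P1 L D1 x1 C T H n F1 ∧ ∀ (C' : Type) [Fintype C'] [DecidableEq C']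
        (T' : TT L C') ι H' n' k0 s k, Mv k0 s n T H T' ι H' n' k →
        (Q1 L D1 x1 C' T' H' n' fun d p => F1 d (ι p)) → Q L D x C' T' H' n' fun d p => F d (ι p)) :
    Ar l0 P Q := by
  obtain ⟨k1, h⟩ := h
  refine ⟨k1, fun K' => (h K').imp fun K h L C _ _ _ _ T X D _ n H x F l z gg d p => ?_⟩
  obtain ⟨D1, _, x1, F1, d1, p', r⟩ := f L C T D n H x F gg.ok p
  exact (h L C T X D1 n H x1 F1 l z gg d1 p').imp le_rfl le_rfl
    fun _ _ _ _ _ _ _ _ m _ q => r _ _ _ _ _ _ _ _ m q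
end Crest.Agent.N49.Rm
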