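import Crest.Agent.N49.Rm.Gp
import Crest.Agent.N49.Rm.Kit
/-! Row 49, block RMH (helper70): bracket forms pull back along refinements. -/
set_option autoImplicit false
set_option linter.unusedSectionVars false
noncomputable section
namespace Crest.Agent.N49.Rm
open Finset TT
section
variable {L C C' N : Type} [Fintype L] [DecidableEq L] [Fintype C] [DecidableEq C]
  [Fintype C'] [DecidableEq C'] [Fintype N] [DecidableEq N] {T : TT L C} {T' : TT L C'}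
  {ι : (C' ⊕ L → ℝ) → (C ⊕ L → ℝ)}

/-- the induced map of extended points -/
def ixt (ι : (C' ⊕ L → ℝ) → (C ⊕ L → ℝ)) (p : (C' ⊕ N) ⊕ L → ℝ) : (C ⊕ N) ⊕ L → ℝ
  | .inl (.inl c) => ι (fg p) (.inl c)
  | .inl (.inr n) => p (.inl (.inr n))
  | .inr ℓ => p (.inr ℓ)

/-- pull-back of new words -/
def Wd.pl (W : Wd L C N) (ι : (C' ⊕ L → ℝ) → (C ⊕ L → ℝ)) : Wd L C' N :=
  ⟨W.tn, W.rk, fun n p => W.Θ n (ixt ι p), fun n p => W.ω n (ι p)⟩

theorem Lm.ixt (h : Lm T' T ι) (W : Wd L C N) : Lm ((W.pl ι).xt T') (W.xt T) (ixt ι) where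
  e _ _ := rfl
  dat := by
    rintro (c | n) hc
    · exact (h.dat c hc).fg fun _ => rfl
    · exact Dat.coord (T := (W.pl ι).xt T') (v := .inl (.inr n)) subset_rfl hc subset_rfl
  dead := by
    rintro (c | n) hc p p' e
    · exact h.dead c hc _ _ fun c' hc' => e (.inl c') hc'
    · exact e (.inr n) hc

theorem Lm.ixt_lf (h : Lm T' T ι) (W : Wd L C N) (p : C' ⊕ L → ℝ) :
    Rm.ixt ι ((W.pl ι).lf p) = W.lf (ι p) := by
  have e : fg ((W.pl ι).lf p) = p := by funext v; rcases v with c | ℓ <;> rfl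
  funext v
  rcases v with (c | n) | ℓ
  · simp only [Rm.ixt, e, Wd.lf]
  · rfl
  · exact (h.e p ℓ).symm

theorem Lm.wd_ok (h : Lm T' T ι) {W : Wd L C N} {Z : Finset L} (k : W.Ok T Z) :
    (W.pl ι).Ok T' Z := fun n => by
  obtain ⟨a, b, c, d, e⟩ := k n
  refine ⟨a, b, (h.ixt W).pull c, h.ty d, fun p p' e1 e2 e3 => e _ _ (fun c => ?_) e2 e3⟩
  have : fg p = fg p' := by
    funext v; rcases v with c | ℓ
    · exact e1 c
    · exact e2 ℓ
  simp only [Rm.ixt, this]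

theorem Lm.wd_cell (h : Lm T' T ι) {W : Wd L C N} {H : Set (C → ℤ)} {H' : Set (C' → ℤ)}
    (o : Ov ι H' H) (k : W.Cell H) : (W.pl ι).Cell H' := fun y' hy n => by
  obtain ⟨y, hy, e⟩ := o y' hy
  have := k y hy n
  rwa [← e, ← h.ixt_lf] at this

theorem Lm.tb (h : Lm T' T ι) {D : Type} {Z M : Finset L} {H : Set (C → ℤ)} {H' : Set (C' → ℤ)}
    {n : ℕ} {G : D → Fm L C} (o : Ov ι H' H) (k : Tb T Z M H n G) :
    Tb T' Z M H' n fun d p => G d (ι p) := by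
  obtain ⟨N, i1, i2, W, Γ, a, b, c, d, e⟩ := k
  exact ⟨N, i1, i2, W.pl ι, fun d p => Γ d (Rm.ixt ι p), a, h.wd_ok b, h.wd_cell o c,
    fun x => (h.ixt W).pull (d x), fun x p => by simp only [e, h.ixt_lf]⟩
end

theorem tbp : TBP := fun _ _ _ _ _ _ _ _ _ _ _ _ _ _ _ _ _ _ _ _ _ hT h o k =>
  (h.mor hT).toLm.tb o k
end Crest.Agent.N49.Rm
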