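import Crest.Agent.N49.Po.Mix
import Crest.Agent.N49.Gw.Hol

/-! Row 49, block RMH/B (helper42): fibre estimates for CLM. -/

set_option autoImplicit false
set_option linter.unusedSectionVars false
noncomputable section
namespace Crest.Agent.N49.Rm.Cl
open Finset Matrix Po

section
variable {X : Type} {u G F h a : X → ℝ} {η δ ε : ℝ}

/-- reweighting by an almost constant factor -/
theorem marg (u0 : ∀ x, 0 < u x) (su : Summable u) (G0 : ∀ x, 0 < G x) (GF : ∀ x, G x ≤ F x)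
    (F1 : ∀ x, 1 ≤ F x) (sF : Summable fun x => u x * F x) (h0 : ∀ x, 0 ≤ h x) (h1 : ∀ x, h x ≤ 1)
    (B : Set X) (hG : ∀ x ∉ B, |G x - 1| ≤ η) (hF : ∀ x ∉ B, F x ≤ 2) (η0 : 0 ≤ η) (δ0 : 0 ≤ δ)
    (δ1 : δ ≤ 1 / 2) (hB : ∑' x, B.indicator (fun x => u x * F x) x ≤ δ * ∑' x, u x * F x)
    (ha : ∀ x, |a x - u x * G x * h x| ≤ ε * (u x * G x)) (x0 : X) :
    |(∑' x, a x) / (∑' x, u x * G x) - (∑' x, u x * h x) / ∑' x, u x| ≤ ε + 2 * (η + 4 * δ) := by
  have sG : Summable fun x => u x * G x := .of_nonneg_of_le (fun x => (mul_pos (u0 x) (G0 x)).le)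
    (fun x => mul_le_mul_of_nonneg_left (GF x) (u0 x).le) sF
  have sB := sF.indicator B
  have U0 : 0 < ∑' x, u x := su.tsum_pos (fun x => (u0 x).le) x0 (u0 x0)
  have A0 : 0 < ∑' x, u x * G x :=
    sG.tsum_pos (fun x => (mul_pos (u0 x) (G0 x)).le) x0 (mul_pos (u0 x0) (G0 x0))
  have e1 : ∑' x, u x * F x ≤ ∑' x, B.indicator (fun x => u x * F x) x + 2 * ∑' x, u x := by
    refine hasSum_le (fun x => ?_) sF.hasSum (sB.hasSum.add (su.hasSum.mul_left 2))
    by_cases k : x ∈ B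
    · rw [Set.indicator_of_mem k]; linarith [u0 x]
    · rw [Set.indicator_of_notMem k]; nlinarith [u0 x, hF x k]
  have b0 : 0 ≤ ∑' x, B.indicator (fun x => u x * F x) x := tsum_nonneg fun x =>
    Set.indicator_nonneg (fun x _ => mul_nonneg (u0 x).le (zero_le_one.trans (F1 x))) x
  have e2 : ∑' x, B.indicator (fun x => u x * F x) x ≤ 4 * δ * ∑' x, u x := by
    nlinarith [mul_le_mul_of_nonneg_left e1 δ0]
  have key : ∀ h : X → ℝ, (∀ x, 0 ≤ h x) → (∀ x, h x ≤ 1) → Summable (fun x => u x * G x * h x) ∧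
      |∑' x, u x * G x * h x - ∑' x, u x * h x| ≤ (η + 4 * δ) * ∑' x, u x := fun h h0 h1 => by
    have s1 : Summable fun x => u x * G x * h x := .of_nonneg_of_le
      (fun x => mul_nonneg (mul_pos (u0 x) (G0 x)).le (h0 x))
      (fun x => mul_le_of_le_one_right (mul_pos (u0 x) (G0 x)).le (h1 x)) sG
    have s2 : Summable fun x => u x * h x := .of_nonneg_of_le (fun x => mul_nonneg (u0 x).le (h0 x))
      (fun x => mul_le_of_le_one_right (u0 x).le (h1 x)) su
    refine ⟨s1, ?_⟩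
    rw [← s1.tsum_sub s2, ← Real.norm_eq_abs]
    refine (tsum_of_norm_bounded ((su.hasSum.mul_left η).add sB.hasSum) fun x => ?_).trans
      (by linarith)
    rw [Real.norm_eq_abs, show u x * G x * h x - u x * h x = u x * (h x * (G x - 1)) by ring,
      abs_mul, abs_mul, abs_of_pos (u0 x), abs_of_nonneg (h0 x)]
    have k1 := mul_le_of_le_one_left (abs_nonneg (G x - 1)) (h1 x)
    by_cases k : x ∈ B
    · rw [Set.indicator_of_mem k]
      have : |G x - 1| ≤ F x := abs_le.2 ⟨by linarith [G0 x, F1 x], by linarith [GF x]⟩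
      nlinarith [u0 x, mul_nonneg η0 (u0 x).le]
    · rw [Set.indicator_of_notMem k]; nlinarith [u0 x, hG x k]
  obtain ⟨s1, k1⟩ := key h h0 h1
  have k2 := (key 1 (fun _ => zero_le_one) fun _ => le_rfl).2
  simp only [Pi.one_apply, mul_one] at k2
  have sa : Summable fun x => a x - u x * G x * h x := (sG.mul_left ε).of_norm_bounded ha
  have k3 : |∑' x, a x - ∑' x, u x * G x * h x| ≤ ε * ∑' x, u x * G x := by
    rw [← (sa.add s1).congr (fun x => sub_add_cancel _ _) |>.tsum_sub s1, ← Real.norm_eq_abs]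
    exact tsum_of_norm_bounded (sG.hasSum.mul_left ε) ha
  have k4 : 0 ≤ ∑' x, u x * G x * h x :=
    tsum_nonneg fun x => mul_nonneg (mul_pos (u0 x) (G0 x)).le (h0 x)
  have k5 : ∑' x, u x * G x * h x ≤ ∑' x, u x * G x := s1.tsum_le_tsum
    (fun x => mul_le_of_le_one_right (mul_pos (u0 x) (G0 x)).le (h1 x)) sG
  generalize ∑' x, a x = p, ∑' x, u x * G x * h x = q, ∑' x, u x * G x = A, ∑' x, u x * h x = s,
    ∑' x, u x = U, η + 4 * δ = κ at *
  have e : p / A - s / U = (p - q) / A + (q / A * ((U - A) / U) + (q - s) / U) := by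
    field_simp; ring
  have m1 : |(p - q) / A| ≤ ε := by rwa [abs_div, abs_of_pos A0, div_le_iff₀ A0]
  have m2 : |(q - s) / U| ≤ κ := by rwa [abs_div, abs_of_pos U0, div_le_iff₀ U0]
  have m3 : |q / A * ((U - A) / U)| ≤ κ := by
    rw [abs_mul, abs_of_nonneg (div_nonneg k4 A0.le), abs_div, abs_of_pos U0, abs_sub_comm]
    exact (mul_le_of_le_one_left (by positivity) ((div_le_one A0).2 k5)).trans
      ((div_le_iff₀ U0).2 k2)
  rw [e]
  exact (abs_add_le _ _).trans (add_le_add m1 ((abs_add_le _ _).trans (by linarith)))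
end

variable {d ρ : Type} [Fintype d] [DecidableEq d] [Fintype ρ] [DecidableEq ρ] {M : Matrix d d ℝ}

theorem pi_one {D : Type} {k : ρ → D → ℝ} (sk : ∀ x, Summable (k x)) (x : ρ) {φ : D → ℝ}
    (sφ : Summable fun u => k x u * φ u) : HasSum (fun n : ρ → D => (∏ x, k x (n x)) * φ (n x))
      ((∑' u, k x u * φ u) * ∏ x' ∈ univ.erase x, ∑' u, k x' u) := by
  have := Gw.hasSum_pi_prod (V := fun _ => D) (Function.update k x fun u => k x u * φ u) fun x' => by
    by_cases e : x' = x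
    · rw [e, Function.update_self]; exact sφ
    · rw [Function.update_of_ne e]; exact sk x'
  rw [← mul_prod_erase _ _ (mem_univ x), Function.update_self,
    prod_congr rfl fun x' e => by rw [Function.update_of_ne (ne_of_mem_erase e)]] at this
  refine (congrArg (HasSum · _) (funext fun n => ?_)).mp this
  rw [← mul_prod_erase _ _ (mem_univ x), ← mul_prod_erase _ (fun x => k x (n x)) (mem_univ x),
    Function.update_self, mul_right_comm,
    prod_congr rfl fun x' e => by rw [Function.update_of_ne (ne_of_mem_erase e)]]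

/-- first moment of the norm -/
theorem mom (hM : M.PosDef) : Summable (fun u : d → ℤ => gs M (zc u - 0) * √(qf M (zc u))) ∧
    ∑' u : d → ℤ, gs M (zc u - 0) * √(qf M (zc u)) ≤ (Fintype.card d + 2) * th M 0 := by
  have hM' := hM.smul (show (0 : ℝ) < 2⁻¹ by norm_num)
  have h2 := th_scale hM (show (0 : ℝ) < 2⁻¹ by norm_num) (by norm_num) 0
  rw [Real.sqrt_inv, inv_inv] at h2
  have h3 := bz_le (d := d) (R := Fintype.card d) (L := 0) (by simp) le_rfl
  rw [neg_zero, Real.exp_zero, bz] at h3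
  have k : ∀ u : d → ℤ, gs M (zc u - 0) * √(qf M (zc u)) ≤ (Fintype.card d + 1) * gs M (zc u - 0) +
      Real.exp (-(Real.pi * Fintype.card d / 2)) * gs ((2⁻¹ : ℝ) • M) (zc u - 0) := fun u => by
    have q0 := qf_nonneg hM (zc u)
    have e1 : √(qf M (zc u)) ≤ 1 + qf M (zc u) :=
      Real.sqrt_le_iff.2 ⟨by positivity, by nlinarith⟩
    have e2 : qf M (zc u) - Fintype.card d ≤
        Real.exp (Real.pi * (qf M (zc u) - Fintype.card d) / 2) := by
      rcases le_total (qf M (zc u) - Fintype.card d) 0 with a | a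
      · exact a.trans (Real.exp_pos _).le
      · nlinarith [Real.add_one_le_exp (Real.pi * (qf M (zc u) - Fintype.card d) / 2),
          Real.pi_gt_three]
    have e3 : Real.exp (-(Real.pi * Fintype.card d / 2)) * gs ((2⁻¹ : ℝ) • M) (zc u - 0) =
        gs M (zc u - 0) * Real.exp (Real.pi * (qf M (zc u) - Fintype.card d) / 2) := by
      rw [gs, gs, qf_smul, ← Real.exp_add, ← Real.exp_add, sub_zero]; congr 1; ring
    rw [e3, mul_comm _ (gs M _), ← mul_add]
    exact mul_le_mul_of_nonneg_left (by linarith) (gs_pos _ _).le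
  have s := ((summable_gs hM 0).hasSum.mul_left (Fintype.card d + 1 : ℝ)).add
    ((summable_gs hM' 0).hasSum.mul_left (Real.exp (-(Real.pi * Fintype.card d / 2))))
  have s' := Summable.of_nonneg_of_le (fun u => mul_nonneg (gs_pos _ _).le (Real.sqrt_nonneg _)) k
    s.summable
  refine ⟨s', (hasSum_le k s'.hasSum s).trans ?_⟩
  change _ * th M 0 + _ * th _ 0 ≤ _
  nlinarith [mul_le_mul_of_nonneg_left h2 (Real.exp_pos (-(Real.pi * Fintype.card d / 2))).le,
    mul_le_mul_of_nonneg_right h3 (th_nonneg M 0)]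

variable (M) in
/-- the weight of one clone -/
def kk (θ : d → ℝ) (pt : ρ → Bool) (a : ρ → ℕ) (x : ρ) (u : d → ℤ) : ℝ :=
  gs (((4 : ℝ) ^ a x) • M) (zc u - if pt x then θ else 0)
variable (M) in
/-- the mass of the clones -/
def gg (θ : d → ℝ) (pt : ρ → Bool) (a : ρ → ℕ) : ℝ :=
  ∏ x, th (((4 : ℝ) ^ a x) • M) (if pt x then θ else 0)

variable {θ : d → ℝ} {pt : ρ → Bool} {a : ρ → ℕ} {χ : (d → ℤ) → ℝ}

theorem sk (hM : M.PosDef) (x : ρ) : Summable (kk M θ pt a x) :=
  summable_gs (hM.smul (by positivity)) _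
theorem hk (hM : M.PosDef) : HasSum (fun n : ρ → d → ℤ => ∏ x, kk M θ pt a x (n x)) (gg M θ pt a) :=
  Gw.hasSum_pi_prod (V := fun _ => d → ℤ) _ (sk hM)
theorem k0 (n : ρ → d → ℤ) : 0 ≤ ∏ x, kk M θ pt a x (n x) := prod_nonneg fun _ _ => (gs_pos _ _).le
theorem gg_pos (hM : M.PosDef) : 0 < gg M θ pt a :=
  prod_pos fun _ _ => th_pos (hM.smul (by positivity)) _
theorem gg_le (hM : M.PosDef) : gg M θ pt a ≤ gg M θ (fun _ => false) a :=
  prod_le_prod (fun _ _ => th_nonneg _ _) fun _ _ => by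
    simpa using th_le (hM.smul (by positivity)) _
theorem le_gg (hM : M.PosDef) : ∏ x, dt (((4 : ℝ) ^ a x) • M) ≤ gg M θ (fun _ => false) a :=
  prod_le_prod (fun _ _ => (dt_pos (hM.smul (by positivity))).le) fun _ _ => by
    simpa using dt_le_th (hM.smul (by positivity))

theorem gg_sm (hM : M.PosDef) {R : ℝ} (hρ : Fintype.card ρ ≤ 8) (hb : bz d R ≤ 1 / 32)
    (h : ∀ x, ∀ m : d → ℤ, m ≠ 0 → R ≤ qf (((4 : ℝ) ^ a x) • M)⁻¹ (zc m)) :
    |gg M θ pt a / ∏ x, dt (((4 : ℝ) ^ a x) • M) - 1| ≤ 32 * bz d R := by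
  have p : ∀ x, (((4 : ℝ) ^ a x) • M).PosDef := fun x => hM.smul (by positivity)
  have e1 := univ.norm_prod_one_add_sub_one_le fun x =>
    th (((4 : ℝ) ^ a x) • M) (if pt x then θ else 0) / dt (((4 : ℝ) ^ a x) • M) - 1
  simp only [add_sub_cancel, prod_div_distrib, Real.norm_eq_abs] at e1
  have e2 : ∑ x, |th (((4 : ℝ) ^ a x) • M) (if pt x then θ else 0) /
      dt (((4 : ℝ) ^ a x) • M) - 1| ≤ 16 * bz d R := by
    refine (sum_le_card_nsmul _ _ (2 * bz d R) fun x _ => ?_).trans ?_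
    · rw [div_sub_one (dt_pos (p x)).ne', abs_div, abs_of_pos (dt_pos (p x)),
        div_le_iff₀ (dt_pos (p x))]
      exact smooth_short (p x) (h x) (by linarith) _
    · have : (Fintype.card ρ : ℝ) ≤ 8 := by exact_mod_cast hρ
      rw [nsmul_eq_mul, card_univ]; nlinarith [bz_pos (d := d) R]
  have e3 := Real.abs_exp_sub_one_le (x := 16 * bz d R)
    (by rw [abs_of_pos (by linarith [bz_pos (d := d) R])]; linarith)
  rw [abs_of_pos (show 0 < 16 * bz d R by linarith [bz_pos (d := d) R])] at e3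
  rw [gg]
  linarith [Real.exp_le_exp.2 e2, le_abs_self (Real.exp (16 * bz d R) - 1)]

theorem sχ (hM : M.PosDef) (h : ∀ u, |χ u| ≤ 1) : Summable fun u => gs M (zc u - θ) * χ u :=
  (summable_gs hM θ).of_norm_bounded fun u => by
    rw [norm_mul, Real.norm_of_nonneg (gs_pos _ _).le]
    exact mul_le_of_le_one_right (gs_pos _ _).le (h u)

theorem sp (hM : M.PosDef) {φ : (ρ → d → ℤ) × (d → ℤ) → ℝ} (h : ∀ u, |φ u| ≤ 1) :
    Summable fun p : (ρ → d → ℤ) × (d → ℤ) =>
      (∏ x, kk M θ pt a x (p.1 x)) * (gs M (zc p.2 - θ) * φ p) :=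
  ((hk hM).summable.mul_of_nonneg (summable_gs hM θ) k0 fun _ => (gs_pos _ _).le).of_norm_bounded
    fun p => by
      rw [norm_mul, norm_mul, Real.norm_of_nonneg (k0 _), Real.norm_of_nonneg (gs_pos _ _).le]
      exact mul_le_mul_of_nonneg_left (mul_le_of_le_one_right (gs_pos _ _).le (h p)) (k0 _)

theorem f0 (hM : M.PosDef) (h : ∀ u, |χ u| ≤ 1) : ∑' p : (ρ → d → ℤ) × (d → ℤ),
    (∏ x, kk M θ pt a x (p.1 x)) * (gs M (zc p.2 - θ) * χ p.2) =
      gg M θ pt a * ∑' u, gs M (zc u - θ) * χ u := by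
  rw [(sp hM fun p => h p.2).tsum_prod]
  simp only [tsum_mul_left, tsum_mul_right, (hk hM).tsum_eq]

theorem f2 (hM : M.PosDef) (h : ∀ u, |χ u| ≤ 1) {x : ρ} (e1 : pt x = true) (e2 : a x = 0) :
    ∑' p : (ρ → d → ℤ) × (d → ℤ), (∏ x, kk M θ pt a x (p.1 x)) * (gs M (zc p.2 - θ) * χ (p.1 x)) =
      gg M θ pt a * ∑' u, gs M (zc u - θ) * χ u := by
  have e : kk M θ pt a x = fun u => gs M (zc u - θ) := by funext u; simp [kk, e1, e2]
  have := (pi_one (sk (θ := θ) (pt := pt) (a := a) hM) x (φ := χ)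
    (by rw [e]; exact sχ hM h)).tsum_eq
  rw [(sp hM fun p => h (p.1 x)).tsum_prod]
  simp only [tsum_mul_left, tsum_mul_right, ← mul_assoc]
  simp only [mul_right_comm _ _ (χ _), tsum_mul_right]
  rw [this, ← (hk hM).tsum_eq, (Gw.hasSum_pi_prod (V := fun _ => d → ℤ) _ (sk hM)).tsum_eq,
    ← mul_prod_erase _ _ (mem_univ x), e]
  ring

theorem sh (hM : M.PosDef) (h : ∀ u, |χ u| ≤ 1) (z : d → ℤ) :
    ‖∑' u, gs M (zc u - θ) * χ (u + z) - ∑' u, gs M (zc u - θ) * χ u‖ ≤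
      2 * √(Real.pi * qf M (zc z)) * th M θ := by
  have s3 : Summable fun u : d → ℤ => gs M (zc (u + z) - θ) * χ (u + z) :=
    ((Equiv.addRight z).summable_iff (f := fun u => gs M (zc u - θ) * χ u)).2 (sχ hM h)
  have s4 : Summable fun u : d → ℤ => gs M (zc (u + z) - θ) :=
    ((Equiv.addRight z).summable_iff (f := fun u => gs M (zc u - θ))).2 (summable_gs hM θ)
  have e : ∑' u, gs M (zc u - θ) * χ u = ∑' u, gs M (zc (u + z) - θ) * χ (u + z) :=
    ((Equiv.addRight z).tsum_eq fun u => gs M (zc u - θ) * χ u).symm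
  rw [e, ← (sχ (χ := fun u => χ (u + z)) hM fun u => h (u + z)).tsum_sub s3]
  refine le_trans (tsum_of_norm_bounded (g := fun u => |gs M (zc u - θ) - gs M (zc (u + z) - θ)|)
    ((summable_gs hM θ).sub s4).abs.hasSum fun u => ?_) (tv_shift hM θ z)
  rw [← sub_mul, norm_mul]
  exact mul_le_of_le_one_right (abs_nonneg _) (h _)

theorem f1 (hM : M.PosDef) (h : ∀ u, |χ u| ≤ 1) {α : ρ → ℤ} {τ : ℝ} (τ0 : 0 ≤ τ)
    (hα : ∀ x, α x ≠ 0 → pt x = false ∧ |(α x : ℝ)| ≤ τ * 2 ^ a x) :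
    |∑' p : (ρ → d → ℤ) × (d → ℤ), (∏ x, kk M θ pt a x (p.1 x)) *
      (gs M (zc p.2 - θ) * χ (p.2 + ∑ x, α x • p.1 x)) - gg M θ pt a * ∑' u, gs M (zc u - θ) * χ u| ≤
      4 * Fintype.card ρ * τ * (Fintype.card d + 2) * (th M θ * gg M θ pt a) := by
  have p : ∀ x, (((4 : ℝ) ^ a x) • M).PosDef := fun x => hM.smul (by positivity)
  have t0 := th_nonneg M θ
  have s1 := sp (θ := θ) (pt := pt) (a := a) hM fun p => h (p.2 + ∑ x, α x • p.1 x)
  have s2 := s1.prod
  simp only [tsum_mul_left] at s2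
  rw [s1.tsum_prod, ← (hk hM).tsum_eq, ← tsum_mul_right]
  simp only [tsum_mul_left]
  rw [← s2.tsum_sub ((hk hM).summable.mul_right _), ← Real.norm_eq_abs]
  have one : ∀ x, ∃ c, c ≤ τ * (Fintype.card d + 2) * gg M θ pt a ∧ HasSum (fun n : ρ → d → ℤ =>
      (∏ x, kk M θ pt a x (n x)) * (|(α x : ℝ)| * √(qf M (zc (n x))))) c := fun x => by
    by_cases z : α x = 0
    · exact ⟨0, by have := gg_pos (θ := θ) (pt := pt) (a := a) hM; positivity,
        by simp [z]⟩
    obtain ⟨b1, b2⟩ := hα x z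
    have e : kk M θ pt a x = fun u => gs (((4 : ℝ) ^ a x) • M) (zc u - 0) := by
      funext u; simp [kk, b1]
    have e' : ∀ u : d → ℤ, √(qf (((4 : ℝ) ^ a x) • M) (zc u)) = 2 ^ a x * √(qf M (zc u)) := fun u => by
      rw [qf_smul, show (4 : ℝ) ^ a x = (2 ^ a x) ^ 2 by rw [← pow_mul, mul_comm, pow_mul]; norm_num,
        Real.sqrt_mul (by positivity), Real.sqrt_sq (by positivity)]
    obtain ⟨m1, m2⟩ := mom (p x)
    have m3 := (pi_one (sk (θ := θ) (pt := pt) (a := a) hM) x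
      (φ := fun u => √(qf (((4 : ℝ) ^ a x) • M) (zc u))) (by rw [e]; exact m1)).mul_left
      (|(α x : ℝ)| / 2 ^ a x)
    refine ⟨_, ?_, (congrArg (HasSum · _) (funext fun n => ?_)).mp m3⟩
    · rw [← (hk hM).tsum_eq, (Gw.hasSum_pi_prod (V := fun _ => d → ℤ) _ (sk hM)).tsum_eq,
        ← mul_prod_erase _ _ (mem_univ x), mul_assoc τ, ← mul_assoc (_ + 2 : ℝ), e]
      have : 0 ≤ ∏ x' ∈ univ.erase x, ∑' u, kk M θ pt a x' u :=
        prod_nonneg fun _ _ => tsum_nonneg fun _ => (gs_pos _ _).le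
      exact mul_le_mul ((div_le_iff₀ (by positivity)).2 b2) (mul_le_mul_of_nonneg_right m2 this)
        (mul_nonneg (tsum_nonneg fun _ => mul_nonneg (gs_pos _ _).le (Real.sqrt_nonneg _)) this) τ0
    · rw [e']; field_simp
  choose c c1 c2 using one
  refine (tsum_of_norm_bounded ((hasSum_sum fun x (_ : x ∈ univ) => c2 x).mul_left (4 * th M θ))
    fun n => ?_).trans ?_
  · rw [← mul_sub, norm_mul, Real.norm_of_nonneg (k0 _), ← mul_sum, mul_left_comm]
    refine mul_le_mul_of_nonneg_left ?_ (k0 _)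
    generalize hz : ∑ x, α x • n x = z
    refine (sh hM h z).trans ?_
    have e1 : √Real.pi ≤ 2 := Real.sqrt_le_iff.2 ⟨zero_le_two, by linarith [Real.pi_le_four]⟩
    have e2 : √(qf M (zc z)) ≤ ∑ x, |(α x : ℝ)| * √(qf M (zc (n x))) := by
      have : zc z = ∑ x, (α x : ℝ) • zc (n x) := by funext i; simp [← hz, zc]
      rw [this, ← nq_apply hM]
      refine (le_sum_of_subadditive (nq hM) (map_zero _).le (map_add_le_add _) _ _).trans_eq ?_
      exact sum_congr rfl fun x _ => map_smul_eq_mul _ _ _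
    rw [Real.sqrt_mul Real.pi_pos.le]
    nlinarith [mul_le_mul e1 e2 (Real.sqrt_nonneg _) zero_le_two]
  · have := sum_le_card_nsmul univ c _ fun x _ => c1 x
    rw [nsmul_eq_mul, card_univ, (hk hM).tsum_eq] at *
    nlinarith

end Crest.Agent.N49.Rm.Cl
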