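import Crest.Agent.N49.Rm.Law
import Crest.Agent.N49.Rm.Mono
import Crest.Agent.N49.Rm.Cl0

/-! Row 49, block RMH/B (helper42): CLM. -/

set_option autoImplicit false
set_option linter.unusedSectionVars false
noncomputable section
namespace Crest.Agent.N49.Rm
open Finset Matrix Po Cl

variable {L C : Type} [Fintype L] [DecidableEq L] [Fintype C] [DecidableEq C]
  {ρ : Type} [Fintype ρ] [DecidableEq ρ]
namespace TT
variable {T : TT L C} {j : L} {pt : ρ → Bool} {a : ρ → ℕ}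

theorem ind_pre {X Y : Type} (f : X → Y) (H : Set Y) (w : X) :
    {w | f w ∈ H}.indicator (1 : X → ℝ) w = H.indicator 1 (f w) := rfl

/-- rest, clones, block -/
def cE (T : TT L C) (j : L) (ρ : Type) :
    ({c // j ∉ T.ty c} → ℤ) × (ρ → T.Bl j → ℤ) × (T.Bl j → ℤ) ≃ (T.CC j ρ → ℤ) :=
  (((Equiv.refl _).prodCongr (Equiv.prodComm _ _)).trans (Equiv.prodAssoc _ _ _).symm).trans
    (((T.fbE j).prodCongr (Equiv.refl _)).trans (T.clE j ρ))

theorem cE_eq (r : {c // j ∉ T.ty c} → ℤ) (p : (ρ → T.Bl j → ℤ) × (T.Bl j → ℤ)) :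
    T.cE j ρ (r, p) = T.clE j ρ (T.jn j (T.rp j r) p.2, p.1) := by rw [← fbE_eq]; rfl

theorem Ok.cl_sum (h : T.Ok) (hc : (T.cl j pt a).Ok) {g : (T.CC j ρ → ℤ) → ℝ} (hg : ∀ w, |g w| ≤ 1) :
    HasSum (fun r => T.wr j (T.rp j r) * ∑' p : (ρ → T.Bl j → ℤ) × (T.Bl j → ℤ),
      (∏ x, kk (T.Mm j (T.rp j r)) (T.ce j (T.rp j r)) pt a x (p.1 x)) *
        (gs (T.Mm j (T.rp j r)) (zc p.2 - T.ce j (T.rp j r)) *
          g (T.clE j ρ (T.jn j (T.rp j r) p.2, p.1)))) (∑' w, (T.cl j pt a).wt w * g w) := by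
  have s := (T.cE j ρ).hasSum_iff.2 (hc.summable_mul hg).hasSum
  refine (congrArg (HasSum · _) (funext fun r => ?_)).mp
    (s.prod_fiberwise fun r => (s.summable.prod_factor r).hasSum)
  rw [← tsum_mul_left]
  refine tsum_congr fun p => ?_
  rw [Function.comp_apply, cE_eq, h.cl_wt, h.wt_jn, cM_jn, cc_jn]
  simp only [kk, cM, cc]
  ring

theorem Ok.cl_tot (h : T.Ok) (hc : (T.cl j pt a).Ok) (B : Set ({c // j ∉ T.ty c} → ℤ)) :
    HasSum (B.indicator fun r => T.wr j (T.rp j r) * th (T.Mm j (T.rp j r)) (T.ce j (T.rp j r)) *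
      gg (T.Mm j (T.rp j r)) (T.ce j (T.rp j r)) pt a)
      (∑' w, (T.cl j pt a).wt w * {w : T.CC j ρ → ℤ | (fun c => w (.inl c.1)) ∈ B}.indicator 1 w) := by
  refine (congrArg (HasSum · _) (funext fun r => ?_)).mp (h.cl_sum hc (abs_ind _))
  have e : ∀ p : (ρ → T.Bl j → ℤ) × (T.Bl j → ℤ), (fun c : {c // j ∉ T.ty c} =>
      T.clE j ρ (T.jn j (T.rp j r) p.2, p.1) (.inl c.1)) = r := fun p => funext fun c => by
    simp [clE_inl, jn, rp, fbE, c.2]
  simp only [ind_pre, e]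
  by_cases k : r ∈ B
  · have := f0 (θ := T.ce j (T.rp j r)) (pt := pt) (a := a) (χ := fun _ => 1) (h.Mm_pd j (T.rp j r))
      fun _ => abs_one.le
    simp only [Set.indicator_of_mem k, Pi.one_apply]
    rw [this]
    simp only [mul_one, th]; ring
  · simp [k]

/-- the block of a clone -/
def bE (T : TT L C) (j : L) (pt : ρ → Bool) (a : ρ → ℕ) (x : ρ) :
    T.Bl j ≃ (T.cl j pt a).Bl (.inr x) :=
  Equiv.ofBijective (fun c => ⟨.inr (c, x), mem_insert_self _ _⟩)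
    ⟨fun c c' e => (Prod.mk.inj (Sum.inr.inj (congrArg Subtype.val e))).1, fun ⟨c, k⟩ => by
      cases c with
      | inl c => simp [cl] at k
      | inr c =>
        obtain rfl : x = c.2 := by simpa [cl] using k
        exact ⟨c.1, rfl⟩⟩

theorem cl_Nm (x : ρ) (y : C → ℤ) (n : ρ → T.Bl j → ℤ) :
    ((T.cl j (fun _ => false) a).Nm (.inr x) (cf (T.clE j ρ (y, n)))).submatrix
      (T.bE j (fun _ => false) a x) (T.bE j (fun _ => false) a x) =
        ((2 : ℝ) ^ a x) • T.Nm j (cf y) := by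
  ext c c'
  change 2 ^ a x * T.Φ (T.px j (fun _ => false) x _) c.1 = 2 ^ a x * T.Φ _ c.1
  congr 2
  funext v
  cases v with
  | inl d =>
    simp only [px, jr]
    split_ifs with k k' k'
    · exact Pi.single_apply _ _ _ |>.trans ((if_congr
        (T.bE j (fun _ => false) a x).apply_eq_iff_eq rfl rfl).trans (Pi.single_apply _ _ _).symm)
    · exact absurd (mem_insert_self _ _) k'
    · simp [cl] at k'
    · rfl
  | inr ℓ => simp [px, jr, cf]

theorem Ok.cl_dual (hc : (T.cl j (fun _ => false) a).Ok) {x : ρ} {y : C → ℤ}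
    {n : ρ → T.Bl j → ℤ} {R : ℝ} (hR : 0 ≤ R)
    (u : (T.cl j (fun _ => false) a).UQ univ {.inr x} (T.clE j ρ (y, n)) R) {m : T.Bl j → ℤ}
    (m0 : m ≠ 0) : R ^ 2 < Fintype.card (T.Bl j) * qf (T.cM j a y x)⁻¹ (zc m) := by
  let e := T.bE j (fun _ => false) a x
  have := hc.dual_min hR u (m := m ∘ e.symm) fun k => m0 (funext fun c => by
    simpa using congrFun k (e c))
  have e2 : T.cM j a y x = ((T.cl j (fun _ => false) a).Mm (.inr x)
      (T.clE j ρ (y, n))).submatrix e e := by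
    rw [Mm, ← submatrix_mul_equiv _ _ _ e, ← transpose_submatrix, cl_Nm, transpose_smul,
      Matrix.smul_mul, Matrix.mul_smul, smul_smul, ← mul_pow, cM, Mm]
    norm_num
  rw [e2, inv_submatrix_equiv, Fintype.card_congr e, qf, submatrix_mulVec_equiv]
  refine this.trans_eq (congrArg _ ?_)
  rw [qf, ← comp_equiv_dotProduct_comp_equiv _ _ e]
  congr 1
  funext c; simp [zc]

/-- the general comparison -/
theorem Ok.cl_cmp (h : T.Ok) (hc : (T.cl j pt a).Ok) (hc0 : (T.cl j (fun _ => false) a).Ok)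
    {n b : ℕ} (s : (T.cl j (fun _ => false) a).SM b) (hn : Fintype.card C ≤ 2 ^ n)
    (hρ : Fintype.card ρ ≤ 8) (hb : 2 * n + 5 ≤ b) (H : Set (C → ℤ)) (E : Set (T.CC j ρ → ℤ)) {ε : ℝ}
    (hE : ∀ y, |∑' p : (ρ → T.Bl j → ℤ) × (T.Bl j → ℤ), (∏ x, kk (T.Mm j y) (T.ce j y) pt a x (p.1 x)) *
      (gs (T.Mm j y) (zc p.2 - T.ce j y) * E.indicator 1 (T.clE j ρ (T.jn j y p.2, p.1))) -
      gg (T.Mm j y) (T.ce j y) pt a * ∑' u, gs (T.Mm j y) (zc u - T.ce j y) *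
        H.indicator 1 (T.jn j y u)| ≤ ε * (th (T.Mm j y) (T.ce j y) * gg (T.Mm j y) (T.ce j y) pt a)) :
    |(T.cl j pt a).pr E - T.pr H| ≤ ε + 128 * (1 / 2) ^ b := by
  obtain ⟨D, hD⟩ : ∃ D, ∀ y, ∏ x, dt (((4 : ℝ) ^ a x) • T.Mm j y) = D :=
    ⟨_, fun y => prod_congr rfl fun x _ => h.dt_cM j a y 0 x⟩
  have D0 : 0 < D := hD 0 ▸ prod_pos fun x _ => dt_pos (h.cM_pd j a 0 x)
  have hd : Fintype.card (T.Bl j) ≤ 2 ^ n := (Fintype.card_subtype_le _).trans hn
  have z1 := bz_le_half (m := b) hd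
  have z2 : (1 / 2 : ℝ) ^ b ≤ 1 / 32 :=
    (half_anti (show 5 ≤ b by omega)).trans_eq (by norm_num)
  have p := fun r => h.Mm_pd j (T.rp j r)
  have tp := fun r => th_pos (p r) (T.ce j (T.rp j r))
  let B : Set ({c // j ∉ T.ty c} → ℤ) := {r | ¬ ∀ x, ∀ m : T.Bl j → ℤ, m ≠ 0 →
    (2 : ℝ) ^ (n + b + 1) ≤ qf (((4 : ℝ) ^ a x) • T.Mm j (T.rp j r))⁻¹ (zc m)}
  have sm : ∀ (pt : ρ → Bool) r, r ∉ B →
      |gg (T.Mm j (T.rp j r)) (T.ce j (T.rp j r)) pt a / D - 1| ≤ 32 * (1 / 2) ^ b := fun pt r k => by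
    rw [← hD (T.rp j r)]
    exact (gg_sm (p r) hρ (z1.trans z2) (not_not.1 k)).trans (by linarith)
  have t0 := h.cl_tot hc0 Set.univ
  have t1 := h.cl_tot hc Set.univ
  have tB := h.cl_tot hc0 B
  simp only [Set.indicator_univ, Set.mem_univ, Set.ofPred_true, Pi.one_apply, mul_one] at t0 t1
  have hB : (T.cl j (fun _ => false) a).pr {w | (fun c => w (.inl c.1)) ∈ B} ≤ 8 * (1 / 2) ^ b := by
    refine (hc0.pr_mono (H' := ⋃ x ∈ (univ : Finset ρ), {w | ¬ (T.cl j (fun _ => false) a).UQ univ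
      {.inr x} w (2 ^ b)}) fun w k => ?_).trans ((hc0.pr_biUnion _ _).trans
        ((sum_le_card_nsmul _ _ _ fun x _ => (s (.inr x)).1).trans ?_))
    · by_contra o
      simp only [mem_univ, Set.iUnion_true, Set.mem_iUnion, Set.mem_ofPred_eq, not_exists,
        not_not] at o
      obtain ⟨⟨y, v⟩, rfl⟩ := (T.clE j ρ).surjective w
      refine k fun x m m0 => ?_
      have o1 := hc0.cl_dual (by positivity) (o x) m0
      rw [Mm_congr (y' := y) fun c k => by simp [rp, fbE, k, clE_inl]]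
      have o2 : (Fintype.card (T.Bl j) : ℝ) ≤ 2 ^ n := by exact_mod_cast hd
      have o3 : (2 : ℝ) ^ n * 2 ^ (n + b + 1) ≤ (2 ^ b) ^ 2 := by
        rw [← pow_add, ← pow_mul]; exact pow_le_pow_right₀ one_le_two (by omega)
      refine le_of_mul_le_mul_left (o3.trans (o1.le.trans (mul_le_mul_of_nonneg_right o2
        (qf_nonneg (h.cM_pd j a y x).inv _)))) (by positivity)
    · rw [nsmul_eq_mul]
      exact mul_le_mul_of_nonneg_right (by exact_mod_cast hρ) (by positivity)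
  rw [pr_eq, Ex, div_le_iff₀ hc0.Z_pos, Z, ← tB.tsum_eq, ← t0.tsum_eq] at hB
  have w0 : ∀ (g : (C → ℤ) → ℝ), (∀ y, |g y| ≤ 1) → HasSum (fun r => T.wr j (T.rp j r) *
      ∑' u, gs (T.Mm j (T.rp j r)) (zc u - T.ce j (T.rp j r)) * g (T.jn j (T.rp j r) u))
      (∑' y, T.wt y * g y) := fun g hg => by
    have := summable_fb (T := T) j (h.summable_mul hg)
    rw [tsum_fb (T := T) j (h.summable_mul hg)]
    simp only [h.wt_jn, mul_assoc, tsum_mul_left] at this ⊢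
    exact this.hasSum
  have w1 := w0 (fun _ => 1) fun _ => abs_one.le
  have w2 := w0 _ (abs_ind H)
  simp only [mul_one] at w1
  have key := marg (u := fun r => T.wr j (T.rp j r) * th (T.Mm j (T.rp j r)) (T.ce j (T.rp j r)))
    (G := fun r => gg (T.Mm j (T.rp j r)) (T.ce j (T.rp j r)) pt a / D)
    (F := fun r => gg (T.Mm j (T.rp j r)) (T.ce j (T.rp j r)) (fun _ => false) a / D)
    (h := fun r => (∑' u, gs (T.Mm j (T.rp j r)) (zc u - T.ce j (T.rp j r)) *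
      H.indicator 1 (T.jn j (T.rp j r) u)) / th (T.Mm j (T.rp j r)) (T.ce j (T.rp j r)))
    (a := fun r => T.wr j (T.rp j r) * (∑' p : (ρ → T.Bl j → ℤ) × (T.Bl j → ℤ),
      (∏ x, kk (T.Mm j (T.rp j r)) (T.ce j (T.rp j r)) pt a x (p.1 x)) *
        (gs (T.Mm j (T.rp j r)) (zc p.2 - T.ce j (T.rp j r)) *
          E.indicator 1 (T.clE j ρ (T.jn j (T.rp j r) p.2, p.1)))) / D) (ε := ε)
    (η := 32 * (1 / 2) ^ b) (δ := 8 * (1 / 2) ^ b) (fun r => mul_pos (wr_pos _ _) (tp r)) w1.summable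
    (fun r => div_pos (gg_pos (p r)) D0) (fun r => div_le_div_of_nonneg_right (gg_le (p r)) D0.le)
    (fun r => (one_le_div D0).2 (hD (T.rp j r) ▸ le_gg (p r)))
    (by simpa only [mul_div_assoc] using t0.summable.div_const D)
    (fun r => div_nonneg (tsum_nonneg fun u => mul_nonneg (gs_pos _ _).le
      (Set.indicator_nonneg (fun _ _ => zero_le_one) _)) (tp r).le)
    (fun r => (div_le_one (tp r)).2 ((sχ (p r) fun _ => abs_ind H _).tsum_le_tsum (fun u =>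
      mul_le_of_le_one_right (gs_pos _ _).le ((le_abs_self _).trans (abs_ind H _)))
      (summable_gs (p r) _))) B (sm pt) (fun r k => by linarith [(abs_le.1 (sm (fun _ => false) r k)).2])
    (by positivity) (by positivity) (by linarith) ?_ (fun r => ?_) 0
  · simp only [mul_assoc (T.wr j _) _ (_ / th _ _), mul_div_cancel₀ _ (tp _).ne', w2.tsum_eq] at key
    simp only [← mul_div_assoc, tsum_div_const, (h.cl_sum hc (abs_ind E)).tsum_eq, t1.tsum_eq,
      div_div_div_cancel_right₀ D0.ne'] at key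
    rw [pr_eq, pr_eq, Ex, Ex, Z, Z, ← w1.tsum_eq]
    exact key.trans (by linarith)
  · have := div_le_div_of_nonneg_right hB D0.le
    rw [mul_div_assoc, ← tsum_div_const, ← tsum_div_const] at this
    simp only [← mul_div_assoc]
    refine le_of_eq_of_le (tsum_congr fun r => ?_) this
    by_cases k : r ∈ B
    · simp only [Set.indicator_of_mem k]
    · simp only [Set.indicator_of_notMem k, zero_div]
  · have o := div_pos (wr_pos (T := T) j (T.rp j r)) D0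
    have o1 := mul_le_mul_of_nonneg_left (hE (T.rp j r)) o.le
    rw [← abs_of_pos o, ← abs_mul, abs_of_pos o] at o1
    have := (tp r).ne'
    refine le_of_eq_of_le (congrArg _ ?_) (o1.trans_eq ?_) <;> field_simp

end TT

theorem clm1 (T : TT L C) (n b m : ℕ) (j : L) (r : ℕ) (pt : Fin r → Bool) (a : Fin r → ℕ)
    (H : Set (C → ℤ)) (hn : Fintype.card C ≤ 2 ^ n) (hr : r ≤ 8) (ha : ∀ x, a x ≤ b)
    (hb : 2 * n + m + 30 ≤ b) (hG : Good b 9 L C T) :
    (∀ α : Fin r → ℤ, (∀ x, α x ≠ 0 → pt x = false ∧ |α x| * 2 ^ (2 * n + m + 10) ≤ 2 ^ a x) →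
      |(T.cl j pt a).pr {w | T.posZ j 1 α w ∈ H} - T.pr H| ≤ (1 / 2) ^ m) ∧
    ∀ x, pt x = true → a x = 0 →
      |(T.cl j pt a).pr {w | T.posZ j 0 (Pi.single x 1) w ∈ H} - T.pr H| ≤ (1 / 2) ^ m := by
  obtain ⟨h, -, g, -⟩ := hG
  have hc := (g j r pt a hr ha).ok_sm.1
  obtain ⟨hc0, s⟩ := (g j r (fun _ => false) a hr ha).ok_sm
  have hρ : Fintype.card (Fin r) ≤ 8 := by simpa using hr
  have z : (128 : ℝ) * (1 / 2) ^ b ≤ (1 / 2) ^ m / 2 := by
    have := half_anti (show m + 8 ≤ b by omega)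
    rw [pow_add] at this
    linarith
  refine ⟨fun α hα => (h.cl_cmp hc hc0 s hn hρ (by omega) H _ (ε := (1 / 2) ^ m / 2)
    fun y => ?_).trans (by linarith), fun x e1 e2 => (h.cl_cmp hc hc0 s hn hρ (by omega) H _
      (ε := 0) fun y => ?_).trans (by linarith [pow_nonneg (one_half_pos (α := ℝ)).le m])⟩
  · have e : ∀ p : (Fin r → T.Bl j → ℤ) × (T.Bl j → ℤ),
        T.posZ j 1 α (T.clE j (Fin r) (T.jn j y p.2, p.1)) =
          T.jn j y (p.2 + ∑ x, α x • p.1 x) := fun p => by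
      rw [TT.posZ_clE, TT.jn_jn, TT.bl_jn, one_smul]
    simp only [TT.ind_pre, e]
    refine (f1 (χ := fun u => H.indicator 1 (T.jn j y u)) (τ := (1 / 2) ^ (2 * n + m + 10))
      (h.Mm_pd j y) (fun _ => TT.abs_ind H _) (by positivity) fun x k => ⟨(hα x k).1, ?_⟩).trans
      (mul_le_mul_of_nonneg_right ?_ (mul_nonneg (th_nonneg _ _) (gg_pos (h.Mm_pd j y)).le))
    · rw [one_div, inv_pow, le_inv_mul_iff₀ (by positivity), mul_comm]
      exact_mod_cast (hα x k).2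
    · have o1 : (Fintype.card (T.Bl j) : ℝ) ≤ 2 ^ n := by
        exact_mod_cast (Fintype.card_subtype_le _).trans hn
      have o2 : (Fintype.card (Fin r) : ℝ) ≤ 8 := by exact_mod_cast hρ
      have o3 : (1 : ℝ) ≤ 2 ^ n := one_le_pow₀ one_le_two
      have o4 : (1 / 2 : ℝ) ^ (2 * n + m + 10) * (2 ^ n * 2 ^ n) = (1 / 2) ^ m / 1024 := by
        rw [pow_add, pow_add, two_mul, pow_add, one_div, inv_pow]; field_simp; norm_num
      have o5 : (Fintype.card (T.Bl j) + 2 : ℝ) ≤ 3 * (2 ^ n * 2 ^ n) := by nlinarith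
      calc _ ≤ 4 * 8 * (1 / 2 : ℝ) ^ (2 * n + m + 10) * (3 * (2 ^ n * 2 ^ n)) := by gcongr
        _ ≤ _ := by nlinarith [pow_nonneg (one_half_pos (α := ℝ)).le m]
  · have e : ∀ p : (Fin r → T.Bl j → ℤ) × (T.Bl j → ℤ),
        T.posZ j 0 (Pi.single x 1) (T.clE j (Fin r) (T.jn j y p.2, p.1)) = T.jn j y (p.1 x) :=
      fun p => by simp [TT.posZ_clE, TT.jn_jn, Pi.single_apply]
    simp only [TT.ind_pre, e]
    rw [f2 (χ := fun u => H.indicator 1 (T.jn j y u)) (h.Mm_pd j y) (fun _ => TT.abs_ind H _) e1 e2]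
    simp

theorem clm0 : CLM := fun _ _ _ _ _ _ T n b m j r pt a H hn _ => clm1 T n b m j r pt a H hn

/-- the law of a corner of the rectangle shape -/
theorem cor_pr {T : TT L C} {n b m a1 a2 : ℕ} (j : L) (l : Fin 4) (H : Set (C → ℤ))
    (hn : Fintype.card C ≤ 2 ^ n) (h1 : 2 * n + m + 10 ≤ a1) (h2 : a1 ≤ a2) (h3 : a2 ≤ b)
    (hb : 2 * n + m + 30 ≤ b) (hG : Good b 9 L C T) :
    |(T.rect j a1 a2).pr {w | T.cor j l w ∈ H} - T.pr H| ≤ (1 / 2) ^ m := by
  refine (clm1 T n b m j 4 _ _ H hn (by norm_num) (fun x => by fin_cases x <;> simp <;> omega)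
    hb hG).1 _ fun x e => ⟨rfl, ?_⟩
  have e1 : (2 : ℤ) ^ (2 * n + m + 10) ≤ 2 ^ a1 := pow_le_pow_right₀ one_le_two h1
  have e2 : (2 : ℤ) ^ (2 * n + m + 10) ≤ 2 ^ a2 := pow_le_pow_right₀ one_le_two (h1.trans h2)
  fin_cases l <;> fin_cases x <;> first | simpa using e1 | simpa using e2 | simp at e

end Crest.Agent.N49.Rm
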