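import Crest.Agent.N49.Rm.Fb
import Crest.Agent.N49.Rm.Pr
import Crest.Agent.N49.Rm.Mono
import Crest.Agent.N49.Po.Mix
/-! Row 49 (helper68): deleting a set of letters; picking one good fibre of a block. -/
set_option autoImplicit false
set_option linter.unusedSectionVars false
noncomputable section
namespace Crest.Agent.N49.Rm
open Finset Crest.Agent.N49.Po

variable {L C : Type} [Fintype L] [DecidableEq L] [Fintype C] [DecidableEq C]
namespace TT
/-- delete all the letters of `S` -/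
def dls (T : TT L C) (S : Finset L) : TT L C where
  ty c := if Disjoint (T.ty c) S then T.ty c else ∅
  Φ p c := if Disjoint (T.ty c) S then T.Φ p c else p (.inl c)
/-- `E` reads only the words that miss `S` -/
def Rd (T : TT L C) (S : Finset L) (E : Set (C → ℤ)) : Prop :=
  ∀ y y', (∀ c, Disjoint (T.ty c) S → y c = y' c) → y ∈ E → y' ∈ E

variable {T : TT L C} {S : Finset L} {E : Set (C → ℤ)} {c : C}
theorem dls_ty (h : Disjoint (T.ty c) S) : (T.dls S).ty c = T.ty c := if_pos h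
theorem dls_ty' (h : ¬ Disjoint (T.ty c) S) : (T.dls S).ty c = ∅ := if_neg h
theorem dls_Φ (h : Disjoint (T.ty c) S) (p : C ⊕ L → ℝ) : (T.dls S).Φ p c = T.Φ p c := if_pos h
theorem mem_dls {x : L} : x ∈ (T.dls S).ty c ↔ x ∈ T.ty c ∧ Disjoint (T.ty c) S := by
  by_cases h : Disjoint (T.ty c) S <;> simp [dls, h]
theorem dls_empty (T : TT L C) : T.dls ∅ = T := by simp [dls]
theorem dls_insert (T : TT L C) (ℓ : L) (S : Finset L) :
    T.dls (insert ℓ S) = (T.dls S).del ℓ := by
  simp only [dls, del, disjoint_insert_right]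
  congr 1
  · funext c; by_cases h : Disjoint (T.ty c) S <;> by_cases k : ℓ ∈ T.ty c <;> simp [h, k]
  · funext p c; by_cases h : Disjoint (T.ty c) S <;> by_cases k : ℓ ∈ T.ty c <;> simp [h, k]
theorem Rd.mono {S' : Finset L} (h : T.Rd S E) (e : S' ⊆ S) : T.Rd S' E :=
  fun y y' k => h y y' fun c d => k c (d.mono_right e)

theorem Ok.fib_wt (h : T.Ok) (x : L) (w : C → ℤ) :
    ∑' n, T.wt (T.jn x w n) = T.wr x w * th (T.Mm x w) (T.ce x w) := by
  simp only [h.wt_jn, tsum_mul_left, th]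
theorem Ok.fib_ind (h : T.Ok) (x : L) (w : C → ℤ) (E : Set (C → ℤ)) :
    ∑' n, E.indicator T.wt (T.jn x w n) = T.wr x w * th (T.Mm x w) (T.ce x w) *
      (gm (T.Mm x w) (T.ce x w)).real {n | T.jn x w n ∈ E} := by
  rw [gm_real (h.Mm_pd x w), ← tsum_mul_left]
  refine tsum_congr fun n => ?_
  by_cases k : T.jn x w n ∈ E
  · rw [Set.indicator_of_mem k, Set.indicator_of_mem (show n ∈ {n | T.jn x w n ∈ E} from k),
      h.wt_jn, mul_assoc, mul_div_cancel₀ _ (th_pos (h.Mm_pd x w) _).ne']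
  · rw [Set.indicator_of_notMem k, Set.indicator_of_notMem (show n ∉ {n | T.jn x w n ∈ E} from k),
      mul_zero]
/-- the mass of an event is at most the largest mass of its fibres -/
theorem Ok.pr_le_fib (h : T.Ok) (x : L) {δ : ℝ}
    (k : ∀ w, (gm (T.Mm x w) (T.ce x w)).real {n | T.jn x w n ∈ E} ≤ δ) : T.pr E ≤ δ := by
  have s := h.summable
  have s' := s.indicator E
  refine (div_le_iff₀ h.Z_pos).2 ?_
  rw [Z, tsum_fb (T := T) x s', tsum_fb (T := T) x s, ← tsum_mul_left]
  refine (summable_fb (T := T) x s').tsum_le_tsum (fun r => ?_)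
    ((summable_fb (T := T) x s).mul_left δ)
  rw [h.fib_ind, h.fib_wt, mul_comm δ]
  exact mul_le_mul_of_nonneg_left (k _) (mul_pos (wr_pos _ _) (th_pos (h.Mm_pd _ _) _)).le
/-- one fibre outside a bad set of rests carries the mass -/
theorem Ok.exists_fib (h : T.Ok) (x : L) {Bd : Set (C → ℤ)} (hB : T.Rd {x} Bd) {δ : ℝ} (h0 : 0 ≤ δ)
    (k : δ + T.pr Bd < T.pr E) :
    ∃ w ∉ Bd, δ < (gm (T.Mm x w) (T.ce x w)).real {n | T.jn x w n ∈ E} := by
  by_contra a
  push Not at a
  have := h.pr_le_fib (E := E \ Bd) x (δ := δ) fun w => by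
    by_cases b : w ∈ Bd
    · rw [show {n | T.jn x w n ∈ E \ Bd} = ∅ from Set.eq_empty_of_forall_notMem fun n e =>
        e.2 (hB w _ (fun c d => (jn_out _ _ (by simpa using d)).symm) b)]
      simpa using h0
    · have := gm_prob (h.Mm_pd x w) (T.ce x w)
      exact (MeasureTheory.measureReal_mono fun n e => e.1).trans (a w b)
  linarith [h.pr_diff E Bd]
theorem rd_uq (x : L) (R : ℝ) : T.Rd {x} {y | ¬ T.UQ univ {x} y R} := fun y y' e a b => a <| by
  simpa only [UQ, IntF, Sm, fib_congr e] using b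
end TT
open TT

theorem Good.dls {b g : ℕ} {T : TT L C} (S : Finset L) (h : Good b (g + #S) L C T) :
    Good b g L C (T.dls S) := by
  induction S using Finset.induction_on generalizing g with
  | empty => simpa [dls_empty] using h
  | insert ℓ S k ih =>
    rw [card_insert_of_notMem k, ← add_assoc, add_right_comm] at h
    rw [dls_insert]
    exact (ih h).2.2.2.1 ℓ

/-- deleting a set of letters is a marginal -/
theorem mg_dls (mg : MG) {n b g : ℕ} {T : TT L C} (S : Finset L) (hC : Fintype.card C ≤ 2 ^ n)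
    (hb : 2 * n + 10 ≤ b) (h : Good b (g + #S) L C T) {E : Set (C → ℤ)} (hE : T.Rd S E) :
    |T.pr E - (T.dls S).pr E| ≤ 8 * #S * (1 / 2) ^ b := by
  induction S using Finset.induction_on generalizing g with
  | empty => simp [dls_empty]
  | insert ℓ S k ih =>
    rw [card_insert_of_notMem k, ← add_assoc, add_right_comm] at h
    have o := (h.dls S).ok_sm
    have a := ih h (hE.mono (subset_insert _ _))
    have c := mg L C (T.dls S) n b ℓ E hC hb o.1 o.2 fun y y' e => hE y y' fun c d =>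
      e c fun m => disjoint_left.1 d (mem_dls.1 m).1 (mem_insert_self _ _)
    rw [dls_insert, card_insert_of_notMem k]
    push_cast
    linarith [abs_sub_le (T.pr E) ((T.dls S).pr E) (((T.dls S).del ℓ).pr E)]

/-- **one good fibre** of the block of `x` after deleting the letters of `S` -/
theorem fib_pick (mg : MG) {n b g : ℕ} {T : TT L C} (S : Finset L) (x : L)
    (hC : Fintype.card C ≤ 2 ^ n) (hS : #S ≤ 2 ^ n) (hb : 2 * n + 10 ≤ b)
    (h : Good b (g + #S) L C T) {E : Set (C → ℤ)} (hE : T.Rd S E) (hp : (1 / 2 : ℝ) ^ n ≤ T.pr E) :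
    ∃ w, (T.dls S).UQ univ {x} w (2 ^ b) ∧ (1 / 2 : ℝ) ^ (n + 1) ≤
      (gm ((T.dls S).Mm x w) ((T.dls S).ce x w)).real {m | (T.dls S).jn x w m ∈ E} := by
  have o := (h.dls S).ok_sm
  have a := (abs_le.1 (mg_dls mg S hC hb h hE)).2
  have c := (o.2 x).1
  have d := half_anti hb
  have e : (#S : ℝ) ≤ 2 ^ n := by exact_mod_cast hS
  have u : (1 / 2 : ℝ) ^ (2 * n + 10) * 2 ^ n = (1 / 2) ^ n / 1024 := by
    rw [pow_add, two_mul, pow_add, one_div, inv_pow]; field_simp; norm_num
  have p0 : (0 : ℝ) < (1 / 2) ^ n := by positivity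
  have p1 : (1 : ℝ) ≤ 2 ^ n := one_le_pow₀ one_le_two
  have p2 : (0 : ℝ) < (1 / 2) ^ b := by positivity
  have v : (1 / 2 : ℝ) ^ b * 2 ^ n ≤ (1 / 2) ^ n / 1024 := u ▸ by gcongr
  obtain ⟨w, w1, w2⟩ := o.1.exists_fib (E := E) x (rd_uq x (2 ^ b)) (δ := (1 / 2) ^ (n + 1))
    (by positivity) (by rw [pow_succ]; nlinarith)
  exact ⟨w, not_not.1 w1, w2.le⟩
end Crest.Agent.N49.Rm
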