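import Crest.Agent.N49.Rm.Api
import Crest.Agent.N49.Rm.Sol
import Crest.Agent.N49.Af.Tsd
/-! Row 49, block RMH (helper67): the normed space of `M`-forms over a configuration. -/
set_option autoImplicit false
set_option linter.unusedSectionVars false
noncomputable section
namespace Crest.Agent.N49.Rm.TT
open Finset
open scoped ENNReal

variable {L C : Type} [Fintype L] [DecidableEq L] [Fintype C] [DecidableEq C] {T : TT L C}

/-- the test vectors -/
def tsv (σ : L → Option C) (c : C) : ℝ := if ∃ ℓ, σ ℓ = some c then 1 else 0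

/-- expansion of a function that is linear in the blocks of `M` -/
theorem expand (ty : C → Finset L) (M : Finset L) (G : (C → ℝ) → ℝ)
    (hG : ∀ ℓ ∈ M, ∀ t : C → ℝ, IsLinearMap ℝ fun x : C → ℝ => G fun c => if ℓ ∈ ty c then x c else t c)
    {β : ℝ} (hβ : ∀ σ : L → Option C, |G (tsv σ)| ≤ β) : ∀ N ⊆ M, ∀ (t : C → ℝ) (σ : L → Option C),
      (∀ c, |t c| ≤ 1) → (∀ ℓ ∈ N, σ ℓ = none) →
      (∀ c, (Disjoint (ty c) M ∨ ¬ ty c ∩ M ⊆ N) → t c = tsv σ c) →
      |G t| ≤ (Fintype.card C : ℝ) ^ #N * β := by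
  intro N
  induction N using Finset.induction_on with
  | empty =>
    intro _ t σ _ _ e
    rw [show t = tsv σ from funext fun c => e c (by
      rw [disjoint_iff_inter_eq_empty, subset_empty]; exact em _)]
    simpa using hβ σ
  | insert ℓ N hl ih =>
    intro hN t σ h1 h2 h3
    have lM := hN (mem_insert_self _ _)
    have e := LinearMap.pi_apply_eq_sum_univ (IsLinearMap.mk' _ (hG ℓ lM t)) t
    simp only [IsLinearMap.mk'_apply, ite_self, smul_eq_mul] at e
    rw [e, card_insert_of_notMem hl, pow_succ', mul_assoc, ← nsmul_eq_mul, ← card_univ]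
    refine (abs_sum_le_sum_abs _ _).trans (sum_le_card_nsmul _ _ _ fun c _ => ?_)
    have b0 : 0 ≤ (Fintype.card C : ℝ) ^ #N * β :=
      mul_nonneg (by positivity) ((abs_nonneg _).trans (hβ σ))
    rw [abs_mul]
    refine (mul_le_of_le_one_left (abs_nonneg _) (h1 c)).trans ?_
    by_cases hc : ℓ ∈ ty c
    · refine ih ((subset_insert _ _).trans hN) _
        (fun m => if m = ℓ then some c else (σ m).filter fun c' => decide (ℓ ∉ ty c'))
        (fun c' => ?_) (fun m hm => ?_) fun c' k => ?_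
      · split_ifs <;> simp [h1]
      · rw [if_neg fun z : m = ℓ => hl (z ▸ hm), h2 m (mem_insert_of_mem hm)]; rfl
      · by_cases z : ℓ ∈ ty c'
        · rw [if_pos z, tsv]
          refine if_congr ⟨fun w => ⟨ℓ, by simp [w]⟩, fun ⟨m, w⟩ => ?_⟩ rfl rfl
          split_ifs at w
          · exact Option.some.inj w
          · simp [Option.filter_eq_some_iff, z] at w
        · rw [if_neg z, h3 c' (k.imp_right fun k w => k fun m hm =>
            (mem_insert.1 (w hm)).resolve_left fun x => z (x ▸ (mem_inter.1 hm).1)), tsv, tsv]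
          refine if_congr ⟨fun ⟨m, w⟩ => ⟨m, ?_⟩, fun ⟨m, w⟩ => ⟨m, ?_⟩⟩ rfl rfl
          · rw [if_neg fun x : m = ℓ => by simp [x, h2 ℓ (mem_insert_self _ _)] at w]
            simp [w, z]
          · split_ifs at w
            · exact absurd (Option.some.inj w ▸ hc) z
            · exact (Option.filter_eq_some_iff.1 w).1
    · have := (hG ℓ lM t).map_smul 0 0
      simp only [zero_smul, Pi.zero_apply] at this
      rw [show (fun c' => if ℓ ∈ ty c' then (if c = c' then (1 : ℝ) else 0) else t c') =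
        fun c' => if ℓ ∈ ty c' then 0 else t c' from funext fun c' => by
          split_ifs with a b
          · exact absurd (b ▸ a) hc
          · rfl
          · rfl, this, abs_zero]
      exact b0

/-- tests for families of vectors -/
theorem ts_pi {V : Type} [NormedAddCommGroup V] [NormedSpace ℝ V] {P D : Type} [Fintype P]
    [Fintype D] (io : V →ₗ[ℝ] (P → ℝ)) {K : ℝ} (hK : 0 ≤ K) (h1 : ∀ v σ, ‖io v σ‖ ≤ ‖v‖)
    (h2 : ∀ v β, (∀ σ, ‖io v σ‖ ≤ β) → ‖v‖ ≤ K * β) (Z : AddSubgroup V) {sg r R : ℝ} (hsg : 0 < sg)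
    (sep : ∀ z ∈ Z, ‖z‖ < sg → z = 0) (hr : 0 ≤ r) (hR : 0 < R)
    (h : 26 * (Fintype.card (D × P) + 5) * (Fintype.card (D × P) + 1) * K * r ≤ R) :
    Af.Tt.Ts {v : D → V | Lo.Nr (.pi Set.univ fun _ => Z) r v}
      {v | Lo.Nr (.pi Set.univ fun _ => Z) R v} :=
  Af.Tt.ts_disc (P := D × P)
    { toFun := fun (v : D → V) (x : D × P) => io (v x.1) x.2
      map_add' := fun _ _ => funext fun x => by simp
      map_smul' := fun _ _ => funext fun x => by simp } K
    (fun v => (pi_norm_le_iff_of_nonneg (norm_nonneg _)).2 fun x =>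
      (h1 _ _).trans (norm_le_pi_norm v x.1))
    (fun v => (pi_norm_le_iff_of_nonneg (by positivity)).2 fun d => h2 _ _ fun σ =>
      norm_le_pi_norm (fun x : D × P => io (v x.1) x.2) (d, σ))
    _ hsg (fun v a b => funext fun d => sep _ (a d trivial) ((norm_le_pi_norm v d).trans_lt b))
    hr hR h

section
variable (h : T.Ok) (A M : Finset L) (y : C → ℤ)
include h

theorem Ok.exists_fp (t : C → ℝ) :
    ∃ p ∈ T.Fib M y, ∀ c, ¬ Disjoint (T.ty c) M → T.Φ p c = t c := by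
  obtain ⟨p, a, b⟩ := h.exists_sol (u := fun S => ¬ Disjoint S M) (by simp) t
    (Sum.elim (fun c => (y c : ℝ)) fun ℓ => if ℓ ∈ M then 0 else 1)
  exact ⟨p, ⟨fun c d => a _ fun c' e => by cases e; exact not_not.2 d, fun ℓ => a _ (by simp)⟩, b⟩

/-- the point of the fibre with errors `t` -/
def Ok.fp (t : C → ℝ) : C ⊕ L → ℝ := (h.exists_fp M y t).choose

theorem Ok.fp_fib (t : C → ℝ) : h.fp M y t ∈ T.Fib M y := (h.exists_fp M y t).choose_spec.1

theorem Ok.fp_phi (t : C → ℝ) {c : C} (k : ¬ Disjoint (T.ty c) M) : T.Φ (h.fp M y t) c = t c :=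
  (h.exists_fp M y t).choose_spec.2 c k

variable {M y} in
/-- two points of a fibre with the same errors inside `A` -/
theorem Ok.fib_uniq {p p' : C ⊕ L → ℝ} (a : p ∈ T.Fib M y) (b : p' ∈ T.Fib M y)
    (e : ∀ c, ¬ Disjoint (T.ty c) M → T.ty c ⊆ A → T.Φ p c = T.Φ p' c) :
    ∀ v, T.tv v ⊆ A → (T.tv v).Nonempty → p v = p' v :=
  h.uniq (u := fun S => ¬ Disjoint S M) (by simp) A (fun v _ _ k => by
    cases v with
    | inl c => rw [a.1 c (not_not.1 (k c rfl)), b.1 c (not_not.1 (k c rfl))]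
    | inr ℓ => rw [a.2, b.2]) e

variable {A M} in
theorem Ok.fp_lin {F : Fm L C} (hF : T.Dat A M F) {ℓ : L} (hl : ℓ ∈ M) (t : C → ℝ) :
    IsLinearMap ℝ fun x : C → ℝ => F (h.fp M y fun c => if ℓ ∈ T.ty c then x c else t c) := by
  have key : ∀ (a b : ℝ) (x x' : C → ℝ),
      F (h.fp M y fun c => if ℓ ∈ T.ty c then (a • x + b • x') c else t c) =
        a * F (h.fp M y fun c => if ℓ ∈ T.ty c then x c else t c) +
          b * F (h.fp M y fun c => if ℓ ∈ T.ty c then x' c else t c) := fun a b x x' => by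
    have e : ∀ v, ℓ ∉ T.tv v → h.fp M y (fun c => if ℓ ∈ T.ty c then x c else t c) v =
        h.fp M y (fun c => if ℓ ∈ T.ty c then x' c else t c) v := fun v k => by
      rcases (T.tv v).eq_empty_or_nonempty with z | z
      · cases v with
        | inl c =>
          have d : Disjoint (T.ty c) M := by rw [show T.ty c = ∅ from z]; simp
          rw [(h.fp_fib M y _).1 c d, (h.fp_fib M y _).1 c d]
        | inr m => simp [tv] at z
      · refine h.fib_uniq (univ.erase ℓ) (h.fp_fib M y _) (h.fp_fib M y _) (fun c d s => ?_) v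
          (fun m hm => by simpa using fun e : m = ℓ => k (e ▸ hm)) z
        have : ℓ ∉ T.ty c := fun w => by simpa using s w
        rw [h.fp_phi M y _ d, h.fp_phi M y _ d, if_neg this, if_neg this]
    rw [← hF.2 ℓ hl a b _ _ e]
    refine hF.1 _ _ (h.fib_uniq A (h.fp_fib M y _)
      (cmb_mem_fib hl (h.fp_fib M y _) (h.fp_fib M y _) a b) fun c d _ => ?_)
    by_cases w : ℓ ∈ T.ty c
    · rw [h.phi_cmb w a b e]; simp [h.fp_phi M y _ d, w]
    · rw [h.phi_cmb' w]; simp [h.fp_phi M y _ d, w]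
  exact ⟨fun x x' => by simpa using key 1 1 x x', fun a x => by simpa using key a 0 x x⟩

theorem Ok.fp_cube (σ : L → Option C) : T.Cube A M (h.fp M y (tsv σ)) := fun c _ d => by
  rw [h.fp_phi M y _ d, tsv]; split_ifs <;> simp

variable {A M} in
/-- **expansion**: a form is controlled by its values at the test points -/
theorem Ok.sm_of_test {F : Fm L C} (hF : T.Dat A M F) {β : ℝ}
    (hβ : ∀ σ : L → Option C, |F (h.fp M y (tsv σ))| ≤ β) :
    T.Sm A M y ((Fintype.card C : ℝ) ^ #M * β) F := by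
  classical
  intro p a b
  let t : C → ℝ := fun c => if T.ty c ⊆ A ∧ ¬ Disjoint (T.ty c) M then T.Φ p c else 0
  rw [hF.1 p (h.fp M y t) (h.fib_uniq A a (h.fp_fib M y t) fun c d s => by
    rw [h.fp_phi M y _ d]; exact (if_pos ⟨s, d⟩).symm)]
  refine expand T.ty M (fun t => F (h.fp M y t)) (fun ℓ hl t => h.fp_lin y hF hl t) hβ M
    Subset.rfl t (fun _ => none) (fun c => ?_) (fun _ _ => rfl) fun c k => ?_
  · by_cases w : T.ty c ⊆ A ∧ ¬ Disjoint (T.ty c) M
    · simp only [t, if_pos w]; exact b c w.1 w.2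
    · simp [t, if_neg w]
  · rw [tsv, if_neg (by simp)]
    exact if_neg fun w => w.2 (k.resolve_right fun z => z inter_subset_right)

variable {A M} in
theorem Ok.exists_sm {F : Fm L C} (hF : T.Dat A M F) : ∃ B, T.Sm A M y B F :=
  ⟨_, h.sm_of_test y hF (β := ‖fun σ : L → Option C => F (h.fp M y (tsv σ))‖) fun σ =>
    norm_le_pi_norm (fun σ : L → Option C => F (h.fp M y (tsv σ))) σ⟩

variable (T) in
/-- the data of type `(A, M)` -/
def dat : Submodule ℝ (Fm L C) where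
  carrier := {F | T.Dat A M F}
  add_mem' a b := Dat.add a b
  zero_mem' := Dat.zero
  smul_mem' r _ a := Dat.smul a r

variable (T) in
/-- the unit cube of the fibre -/
def QF : Type := {p : C ⊕ L → ℝ // p ∈ T.Fib M y ∧ T.Cube A M p}

/-- restriction to the cube -/
def Ok.res : T.dat A M →ₗ[ℝ] lp (fun _ : T.QF A M y => ℝ) ∞ where
  toFun F := ⟨fun p => F.1 p.1, memℓp_infty (let ⟨B, k⟩ := h.exists_sm y F.2
    ⟨B, by rintro _ ⟨p, rfl⟩; exact k p.1 p.2.1 p.2.2⟩)⟩
  map_add' _ _ := rfl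
  map_smul' _ _ := rfl

/-- **the space of `M`-forms over `y`** -/
abbrev FV : Type := LinearMap.range (h.res A M y)

/-- the class of a datum -/
def Ok.mf : T.dat A M →ₗ[ℝ] FV h A M y := (h.res A M y).rangeRestrict

theorem Ok.mf_surj : Function.Surjective (h.mf A M y) := LinearMap.surjective_rangeRestrict _

theorem Ok.mf_apply (F : T.dat A M) (p : T.QF A M y) : (h.mf A M y F).1 p = F.1 p.1 := rfl

/-- the test points as points of the cube -/
def Ok.tp (σ : L → Option C) : T.QF A M y := ⟨_, h.fp_fib M y _, h.fp_cube A M y σ⟩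

theorem Ok.norm_mf (F : T.dat A M) (B : ℝ) : ‖h.mf A M y F‖ ≤ B ↔ T.Sm A M y B F.1 :=
  haveI : Nonempty (T.QF A M y) := ⟨h.tp A M y fun _ => none⟩
  ⟨fun k p a b => (lp.norm_apply_le_norm ENNReal.top_ne_zero (h.mf A M y F).1 ⟨p, a, b⟩).trans k,
    fun k => lp.norm_le_of_forall_le' B fun p => k p.1 p.2.1 p.2.2⟩

/-- evaluation at the test points -/
def Ok.io : FV h A M y →ₗ[ℝ] ((L → Option C) → ℝ) where
  toFun v σ := v.1 (h.tp A M y σ)
  map_add' _ _ := rfl
  map_smul' _ _ := rfl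

theorem Ok.io_le (v : FV h A M y) (σ : L → Option C) : ‖h.io A M y v σ‖ ≤ ‖v‖ :=
  lp.norm_apply_le_norm ENNReal.top_ne_zero v.1 _

theorem Ok.le_io (v : FV h A M y) {β : ℝ} (k : ∀ σ, ‖h.io A M y v σ‖ ≤ β) :
    ‖v‖ ≤ (Fintype.card C : ℝ) ^ #M * β := by
  obtain ⟨F, rfl⟩ := h.mf_surj A M y v
  exact (h.norm_mf A M y F _).2 (h.sm_of_test y F.2 k)

instance : FiniteDimensional ℝ (FV h A M y) :=
  .of_injective (h.io A M y) ((injective_iff_map_eq_zero _).2 fun v e =>
    norm_le_zero_iff.1 ((h.le_io A M y v (β := 0) fun σ => by simp [e]).trans_eq (mul_zero _)))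

instance : CompleteSpace (FV h A M y) := FiniteDimensional.complete ℝ _

theorem Ok.exists_sec : ∃ s : FV h A M y →ₗ[ℝ] T.dat A M, ∀ v, h.mf A M y (s v) = v :=
  let ⟨s, e⟩ := (h.mf A M y).exists_rightInverse_of_surjective
    (LinearMap.range_eq_top.2 (h.mf_surj A M y))
  ⟨s, LinearMap.congr_fun e⟩

/-- a linear choice of representatives -/
def Ok.sec : FV h A M y →ₗ[ℝ] T.dat A M := (h.exists_sec A M y).choose

theorem Ok.mf_sec (v : FV h A M y) : h.mf A M y (h.sec A M y v) = v :=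
  (h.exists_sec A M y).choose_spec v

/-- data have the same class iff they agree on the fibre -/
theorem Ok.mf_eq_zero (F : T.dat A M) : h.mf A M y F = 0 ↔ ∀ p ∈ T.Fib M y, F.1 p = 0 := by
  rw [← norm_le_zero_iff, h.norm_mf]
  refine ⟨fun k p a => ?_, fun k p a _ => by simp [k p a]⟩
  have := h.sm_scale F.2.2 k (K := 1 + ∑ c, |T.Φ p c|)
    (le_add_of_nonneg_right (sum_nonneg fun _ _ => abs_nonneg _)) a fun c _ _ =>
      (single_le_sum (f := fun c => |T.Φ p c|) (fun _ _ => abs_nonneg _) (mem_univ c)).trans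
        (le_add_of_nonneg_left zero_le_one)
  simpa using this

theorem Ok.mf_eq (F G : T.dat A M) :
    h.mf A M y F = h.mf A M y G ↔ ∀ p ∈ T.Fib M y, F.1 p = G.1 p := by
  rw [← sub_eq_zero, ← map_sub, h.mf_eq_zero]
  exact forall₂_congr fun _ _ => sub_eq_zero

theorem Ok.sec_mf (F : T.dat A M) : ∀ p ∈ T.Fib M y, (h.sec A M y (h.mf A M y F)).1 p = F.1 p :=
  (h.mf_eq A M y _ _).1 (h.mf_sec A M y _)

/-- the classes of the integer forms divided by `q` -/
def Ok.ZI (q : ℕ) : AddSubgroup (FV h A M y) where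
  carrier := {v | ∃ I : T.dat A M, T.IntF A M y I.1 ∧ v = (q : ℝ)⁻¹ • h.mf A M y I}
  add_mem' := by
    rintro _ _ ⟨I, a, rfl⟩ ⟨J, b, rfl⟩
    exact ⟨I + J, a.add b, by rw [map_add, smul_add]⟩
  zero_mem' := ⟨0, IntF.zero, by simp⟩
  neg_mem' := by
    rintro _ ⟨I, a, rfl⟩
    exact ⟨-I, a.neg, by rw [map_neg, smul_neg]⟩

theorem Ok.nr_mf (q : ℕ) (B : ℝ) (F : T.dat A M) :
    Lo.Nr (h.ZI A M y q) B (h.mf A M y F) ↔ T.Rel A M y q B F.1 := by
  have e : ∀ I : T.dat A M, ‖h.mf A M y F - (q : ℝ)⁻¹ • h.mf A M y I‖ ≤ B ↔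
      T.Sm A M y B fun p => F.1 p - I.1 p / q := fun I => by
    rw [← map_smul, ← map_sub, h.norm_mf]
    simp only [div_eq_inv_mul]; rfl
  exact ⟨fun ⟨_, ⟨I, a, rfl⟩, b⟩ => ⟨I.1, a, (e I).1 b⟩,
    fun ⟨I, a, b⟩ => ⟨_, ⟨⟨I, a.1⟩, a, rfl⟩, (e ⟨I, a.1⟩).2 b⟩⟩

theorem Ok.nr_sec (q : ℕ) (B : ℝ) (v : FV h A M y) :
    Lo.Nr (h.ZI A M y q) B v ↔ T.Rel A M y q B (h.sec A M y v).1 := by
  rw [← h.nr_mf, h.mf_sec]

variable {A M y} in
/-- `UQ` separates the integer classes -/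
theorem Ok.zi_sep {R : ℝ} (u : T.UQ A M y R) {q : ℕ} (hq : 1 ≤ q) :
    ∀ v ∈ h.ZI A M y q, ‖v‖ ≤ R / q → v = 0 := by
  rintro _ ⟨I, a, rfl⟩ k
  have q0 : (0 : ℝ) < q := by positivity
  rw [norm_smul, norm_inv, Real.norm_of_nonneg q0.le, ← div_eq_inv_mul,
    div_le_div_iff_of_pos_right q0, h.norm_mf] at k
  rw [(h.mf_eq_zero A M y I).2 (u _ a k), smul_zero]

/-! ### families -/
variable (D : Type) [Fintype D]

/-- integer classes of families -/
def Ok.ZD (q : ℕ) : AddSubgroup (D → FV h A M y) := .pi Set.univ fun _ => h.ZI A M y q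

variable {D}

theorem Ok.nr_zd (q : ℕ) {B : ℝ} (hB : 0 ≤ B) (v : D → FV h A M y) :
    Lo.Nr (h.ZD A M y D q) B v ↔ ∀ d, Lo.Nr (h.ZI A M y q) B (v d) :=
  ⟨fun ⟨z, a, b⟩ d => ⟨z d, a d trivial, (norm_le_pi_norm (v - z) d).trans b⟩, fun k => by
    choose z a b using k
    exact ⟨z, fun d _ => a d, (pi_norm_le_iff_of_nonneg hB).2 b⟩⟩

theorem Ok.nr_fam (q : ℕ) {B : ℝ} (hB : 0 ≤ B) (F : D → T.dat A M) :
    Lo.Nr (h.ZD A M y D q) B (fun d => h.mf A M y (F d)) ↔ ∀ d, T.Rel A M y q B (F d).1 := by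
  simp only [h.nr_zd A M y q hB, h.nr_mf]

variable {A M y} in
theorem Ok.zd_sep {R : ℝ} (u : T.UQ A M y R) {q : ℕ} (hq : 1 ≤ q) :
    ∀ v ∈ h.ZD A M y D q, ‖v‖ < R / q → v = 0 := fun v a b =>
  funext fun d => h.zi_sep u hq _ (a d trivial) ((norm_le_pi_norm v d).trans b.le)

variable {A M y} in
/-- **tests** in the space of families of forms -/
theorem Ok.ts_fv {R : ℝ} (u : T.UQ A M y R) (hR : 0 < R) {q : ℕ} (hq : 1 ≤ q) {r r' : ℝ}
    (hr : 0 ≤ r) (hr' : 0 < r') {N : ℝ}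
    (hN : Fintype.card D * (Fintype.card C + 1) ^ Fintype.card L ≤ N)
    (hC : (Fintype.card C : ℝ) ^ #M ≤ N) (k : 26 * (N + 5) ^ 3 * r ≤ r') :
    Af.Tt.Ts {v | Lo.Nr (h.ZD A M y D q) r v} {v | Lo.Nr (h.ZD A M y D q) r' v} := by
  classical
  have c0 : (0 : ℝ) ≤ (Fintype.card C : ℝ) ^ #M := by positivity
  refine ts_pi (h.io A M y) c0 (h.io_le A M y) (fun v β => h.le_io A M y v) _
    (div_pos hR (by positivity)) (fun v a b => h.zi_sep u hq v a b.le) hr hr' (le_trans ?_ k)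
  have e : (Fintype.card (D × (L → Option C)) : ℝ) ≤ N := by simpa using hN
  have n0 : 0 ≤ N := c0.trans hC
  refine mul_le_mul_of_nonneg_right ?_ hr
  rw [show 26 * (N + 5) ^ 3 = 26 * (N + 5) * (N + 5) * (N + 5) by ring]
  gcongr <;> linarith

end
end Crest.Agent.N49.Rm.TT
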