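import Crest.Agent.N49.Rm.Api
/-! Row 49 (helper68): transfer of relations between configurations that agree inside `A`. -/
set_option autoImplicit false
set_option linter.unusedSectionVars false
noncomputable section
namespace Crest.Agent.N49.Rm.TT
open Finset

variable {L C : Type} [Fintype L] [DecidableEq L] [Fintype C] [DecidableEq C] {T : TT L C}
  {A M : Finset L} {F I : Fm L C} {y y' : C → ℤ} {q : ℕ} {B R : ℝ}

/-- `y, y'` agree on the live words inside `A` that miss `M` -/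
def Agr (T : TT L C) (A M : Finset L) (y y' : C → ℤ) : Prop :=
  ∀ c, T.ty c ⊆ A → (T.ty c).Nonempty → Disjoint (T.ty c) M → y c = y' c

theorem Agr.symm (h : T.Agr A M y y') : T.Agr A M y' y := fun c a b d => (h c a b d).symm
theorem agr_self (A : Finset L) (y y' : C → ℤ) : T.Agr A A y y' := fun _ a b d =>
  absurd (disjoint_self.1 (d.mono_right a)) b.ne_empty

/-- move a point to the `M`-fibre over `y` -/
def mvf (T : TT L C) (M : Finset L) (y : C → ℤ) (p : C ⊕ L → ℝ) : C ⊕ L → ℝ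
  | .inl c => if Disjoint (T.ty c) M then y c else p (.inl c)
  | .inr ℓ => p (.inr ℓ)

theorem mvf_fib {p : C ⊕ L → ℝ} (hp : p ∈ T.Fib M y') : T.mvf M y p ∈ T.Fib M y :=
  ⟨fun _ k => if_pos k, hp.2⟩
theorem mvf_int {p : C ⊕ L → ℝ} (hp : IntP p) : IntP (T.mvf M y p) := by
  rintro (c | ℓ)
  · by_cases k : Disjoint (T.ty c) M
    · exact ⟨y c, if_pos k⟩
    · exact (hp (.inl c)).imp fun n e => (if_neg k).trans e
  · exact hp _
theorem Agr.ty (h : T.Agr A M y y') (hF : T.Ty A F) {p : C ⊕ L → ℝ} (hp : p ∈ T.Fib M y') :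
    F (T.mvf M y p) = F p := by
  refine hF _ _ ?_
  rintro (c | ℓ) a b
  · by_cases k : Disjoint (T.ty c) M
    · exact (if_pos k).trans (by rw [hp.1 c k, h c a b k])
    · exact if_neg k
  · rfl
theorem Agr.cube (h : T.Agr A M y y') (hT : T.Ok) {p : C ⊕ L → ℝ} (hp : p ∈ T.Fib M y')
    (k : T.Cube A M p) : T.Cube A M (T.mvf M y p) := fun c a b => by
  have n : (T.ty c).Nonempty := nonempty_iff_ne_empty.2 fun e => b (by simp [e])
  rw [h.ty ((hT.dat c n).1.mono a) hp]; exact k c a b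

theorem Agr.intF (h : T.Agr A M y y') (k : T.IntF A M y I) : T.IntF A M y' I :=
  ⟨k.1, fun p a b => h.ty k.1.1 a ▸ k.2 _ (mvf_fib a) (mvf_int b)⟩
theorem Agr.sm (h : T.Agr A M y y') (hT : T.Ok) (hF : T.Ty A F) (k : T.Sm A M y B F) :
    T.Sm A M y' B F := fun p a b => h.ty hF a ▸ k _ (mvf_fib a) (h.cube hT a b)
theorem Agr.rel (h : T.Agr A M y y') (hT : T.Ok) (hF : T.Ty A F) (k : T.Rel A M y q B F) :
    T.Rel A M y' q B F :=
  let ⟨I, a, b⟩ := k
  ⟨I, h.intF a, h.sm hT (hF.map₂ a.1.1 fun s t => s - t / q) b⟩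
theorem Agr.uq (h : T.Agr A M y y') (hT : T.Ok) (k : T.UQ A M y R) : T.UQ A M y' R :=
  fun I a b p hp => h.ty a.1.1 hp ▸ k I (h.symm.intF a) (h.symm.sm hT a.1.1 b) _ (mvf_fib hp)
theorem Agr.sm_iff (h : T.Agr A M y y') (hT : T.Ok) (hF : T.Ty A F) :
    T.Sm A M y B F ↔ T.Sm A M y' B F := ⟨h.sm hT hF, h.symm.sm hT hF⟩
theorem Agr.rel_iff (h : T.Agr A M y y') (hT : T.Ok) (hF : T.Ty A F) :
    T.Rel A M y q B F ↔ T.Rel A M y' q B F := ⟨h.rel hT hF, h.symm.rel hT hF⟩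
theorem Agr.uq_iff (h : T.Agr A M y y') (hT : T.Ok) : T.UQ A M y R ↔ T.UQ A M y' R :=
  ⟨h.uq hT, h.symm.uq hT⟩
/-- with all letters of `A` marked the relation does not see the configuration -/
theorem Rel.all (k : T.Rel A A y q B F) (hT : T.Ok) (hF : T.Ty A F) (y' : C → ℤ) :
    T.Rel A A y' q B F := (agr_self A y y').rel hT hF k

end Crest.Agent.N49.Rm.TT
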