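import Crest.Agent.N49.Rm.St
import Crest.Agent.N49.Rm.Op
import Crest.Agent.N49.Rm.Api
/-! Row 49, block RMH/B: a representation along `j` is Freiman along `j` (helper91). -/
set_option autoImplicit false
set_option linter.unusedSectionVars false
noncomputable section
namespace Crest.Agent.N49.Rm
open Finset TT
namespace FrA
variable {L C : Type} [Fintype L] [DecidableEq L] [Fintype C] [DecidableEq C] {T : TT L C}
  {A M : Finset L} {G : Fm L C} {y y' : C → ℤ} {q : ℕ} {B : ℝ}

/-- a relation only sees the live words inside `A` that miss `M` -/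
theorem tr (hT : T.Ok) (e : ∀ c, T.ty c ⊆ A → (T.ty c).Nonempty → Disjoint (T.ty c) M → y c = y' c)
    (hG : T.Ty A G) (h : T.Rel A M y q B G) : T.Rel A M y' q B G := by
  obtain ⟨I, ⟨hI, hz⟩, hs⟩ := h
  let f : (C ⊕ L → ℝ) → C ⊕ L → ℝ := fun p =>
    Sum.elim (fun c => if Disjoint (T.ty c) M then (y c : ℝ) else p (.inl c)) fun l => p (.inr l)
  have hf : ∀ p ∈ T.Fib M y', f p ∈ T.Fib M y := fun p hp =>
    ⟨fun c hc => if_pos hc, fun l => hp.2 l⟩
  have ha : ∀ p ∈ T.Fib M y', ∀ v, T.tv v ⊆ A → (T.tv v).Nonempty → p v = f p v := by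
    intro p hp v h1 h2
    cases v with
    | inr l => rfl
    | inl c =>
      show _ = if Disjoint (T.ty c) M then (y c : ℝ) else p (.inl c)
      split_ifs with k
      · rw [hp.1 c k, e c h1 h2 k]
      · rfl
  refine ⟨I, ⟨hI, fun p hp ip => ?_⟩, fun p hp hc => ?_⟩
  · rw [hI.1 p (f p) (ha p hp)]
    refine hz _ (hf p hp) fun v => ?_
    cases v with
    | inr l => exact ip _
    | inl c =>
      show ∃ n : ℤ, (if Disjoint (T.ty c) M then (y c : ℝ) else p (.inl c)) = n
      split_ifs with k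
      · exact ⟨_, rfl⟩
      · exact ip _
  · show |G p - I p / q| ≤ B
    rw [hI.1 p (f p) (ha p hp), hG p (f p) (ha p hp)]
    refine hs (f p) (hf p hp) fun c h1 h2 => ?_
    have hn : (T.ty c).Nonempty := nonempty_iff_ne_empty.2 fun z => h2 (z ▸ disjoint_empty_left _)
    have := (hT.dat c hn).1 p (f p) fun v h3 h4 => ha p hp v (h3.trans h1) h4
    simp only at this
    rw [← this]
    exact hc c h1 h2

/-- the factor in front of the bound may grow (whatever the sign of `B`) -/
theorem up {c c' : ℝ} (h : T.Rel A M y q (c * B) G) (h0 : 0 < c) (e : c ≤ c') :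
    T.Rel A M y q (c' * B) G := by
  obtain ⟨I, hI, hs⟩ := h
  refine ⟨I, hI, fun p hp hc => ?_⟩
  have h1 := hs p hp hc
  have h2 : 0 ≤ B := nonneg_of_mul_nonneg_right ((abs_nonneg _).trans h1) h0
  exact h1.trans (mul_le_mul_of_nonneg_right e h2)

theorem rnd {a b c d : ℝ} (h : a - b - c + d = 0) (ha : |a - round a| ≤ 1 / 8)
    (hb : |b - round b| ≤ 1 / 8) (hc : |c - round c| ≤ 1 / 8) (hd : |d - round d| ≤ 1 / 8) :
    (round a : ℝ) - round b - round c + round d = 0 := by
  rw [abs_le] at ha hb hc hd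
  have h1 : ((round a - round b - round c + round d : ℤ) : ℝ) < 1 := by push_cast; linarith
  have h2 : (-1 : ℝ) < ((round a - round b - round c + round d : ℤ) : ℝ) := by push_cast; linarith
  have h3 : round a - round b - round c + round d = 0 := by
    have k1 : round a - round b - round c + round d < 1 := by exact_mod_cast h1
    have k2 : -1 < round a - round b - round c + round d := by exact_mod_cast h2
    omega
  exact_mod_cast h3
end FrA

theorem fr : FR := by
  intro L C _ _ _ _ T D E _ A M j H q B F γ X Λ hT hM hj hjM hF hR y1 h1 y2 h2 y3 h3 y4 h4 hQ d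
  obtain ⟨hγ, hX, hΛ, hH⟩ := hR
  set w := T.gl j y1 ![y2, y3] with hw
  have key : ∀ (α0 : ℤ) (α : Fin 2 → ℤ) (y : C → ℤ), y ∈ H → α0 + (α 0 + α 1) = 1 →
      |(α0 : ℝ)| + (|(α 0 : ℝ)| + |(α 1 : ℝ)|) ≤ 3 →
      (∀ c, T.ty c ⊆ A → (T.ty c).Nonempty → Disjoint (T.ty c) M → y c = T.posZ j α0 α w c) →
      ((T.cl j (fun _ : Fin 2 => true) fun _ => 0).Rel (upA A (Fin 2)) (M.image Sum.inl) w q
        (3 ^ #M * B) fun p => F d (T.pos j (fun _ => true) α0 α p) -
          (α0 * X d (T.p0 j p) + (α 0 * X d (T.px j (fun _ => true) 0 p) +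
            α 1 * X d (T.px j (fun _ => true) 1 p))) -
          ∑ e, round (γ e (cf y)) * Λ d e (T.p0 j p)) ∧
      ∀ e, γ e (cf y) = α0 * γ e (T.p0 j (cf w)) + (α 0 * γ e (T.px j (fun _ => true) 0 (cf w)) +
        α 1 * γ e (T.px j (fun _ => true) 1 (cf w))) := by
    intro α0 α y hy m n a
    have m' : α0 + ∑ x with (fun _ : Fin 2 => true) x, α x = 1 := by simpa [Fin.sum_univ_two] using m
    have n' : |(α0 : ℝ)| + ∑ x, |(α x : ℝ)| ≤ 3 := by simpa [Fin.sum_univ_two] using n
    have dG : T.Dat A M fun p => F d p - X d p - ∑ e, round (γ e (cf y)) * Λ d e p :=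
      ((hF d).sub ((hX d).mono subset_rfl (subset_insert _ _))).sub (Dat.sum _ fun e _ =>
        ((hΛ d e).mono (erase_subset _ _) subset_rfl).smul _)
    constructor
    · have r := Rel.pos j (fun _ : Fin 2 => true) (fun _ => 0) α0 α hT hjM m' (by norm_num) n'
        (FrA.tr hT a dG.1 ((hH y hy).2 d)) dG.2
      refine r.congr fun p _ => ?_
      rw [Lin.pos _ α0 α ((hX d).2 j (mem_insert_self _ _)), Fin.sum_univ_two]
      congr 1
      exact sum_congr rfl fun e _ => by
        rw [Ind.pos _ α0 α ((hΛ d e).1.ind (notMem_erase _ _))]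
    · intro e
      rw [← Fin.sum_univ_two fun x => (α x : ℝ) * γ e (T.px j (fun _ => true) x (cf w)),
        ← Lin.pos _ α0 α ((hγ e).2 j (mem_singleton_self _)), T.pos_cf j _ α0 α m']
      refine (hγ e).1 _ _ fun v k1 k2 => ?_
      cases v with
      | inr l => rfl
      | inl c =>
        show (y c : ℝ) = T.posZ j α0 α w c
        rw [a c (k1.trans sdiff_subset) k2 (disjoint_of_subset_left k1 sdiff_disjoint)]
  have pz : ∀ (α0 : ℤ) (α : Fin 2 → ℤ) c, T.posZ j α0 α w c =
      if j ∈ T.ty c then α0 * y1 c + (α 0 * y2 c + α 1 * y3 c) else y1 c := by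
    intro α0 α c
    unfold posZ
    split_ifs with k
    · rw [Fin.sum_univ_two]; rfl
    · rfl
  obtain ⟨r1, g1⟩ := key 1 ![0, 0] y1 h1 (by simp) (by norm_num) fun c _ _ _ => by
    rw [pz]; simp
  obtain ⟨r2, g2⟩ := key 0 ![1, 0] y2 h2 (by simp) (by norm_num) fun c a b e => by
    have := hQ c a b e
    rw [pz]; split_ifs at this ⊢ with k
    · simp
    · exact this.1.symm
  obtain ⟨r3, g3⟩ := key 0 ![0, 1] y3 h3 (by simp) (by norm_num) fun c a b e => by
    have := hQ c a b e
    rw [pz]; split_ifs at this ⊢ with k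
    · simp
    · exact this.2.1.symm
  obtain ⟨r4, g4⟩ := key (-1) ![1, 1] y4 h4 (by simp) (by norm_num) fun c a b e => by
    have := hQ c a b e
    rw [pz]; split_ifs at this ⊢ with k
    · simp; omega
    · exact this.2.2.symm
  have r := ((r1.sub r2).sub r3).add r4
  have e4 : 3 ^ #M * B + 3 ^ #M * B + 3 ^ #M * B + 3 ^ #M * B = (4 * 3 ^ #M) * B := by ring
  rw [e4] at r
  refine (FrA.up r (by positivity) ?_).congr fun p _ => ?_
  · have : (3 : ℝ) ^ #M ≤ 3 ^ Fintype.card L := pow_le_pow_right₀ (by norm_num) (card_le_univ _)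
    linarith
  · have z : ∀ e, (round (γ e (cf y1)) : ℝ) - round (γ e (cf y2)) - round (γ e (cf y3)) +
        round (γ e (cf y4)) = 0 := fun e =>
      FrA.rnd (by rw [g1, g2, g3, g4]; simp; ring) ((hH y1 h1).1 e) ((hH y2 h2).1 e) ((hH y3 h3).1 e)
        ((hH y4 h4).1 e)
    have s : ∑ e, round (γ e (cf y1)) * Λ d e (T.p0 j p) - ∑ e, round (γ e (cf y2)) * Λ d e (T.p0 j p) -
        ∑ e, round (γ e (cf y3)) * Λ d e (T.p0 j p) +
        ∑ e, round (γ e (cf y4)) * Λ d e (T.p0 j p) = 0 := by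
      rw [← sum_sub_distrib, ← sum_sub_distrib, ← sum_add_distrib]
      exact sum_eq_zero fun e _ => by rw [← sub_mul, ← sub_mul, ← add_mul, z, zero_mul]
    simp only [Matrix.cons_val_zero, Matrix.cons_val_one, Int.cast_zero, Int.cast_one, Int.cast_neg]
    linarith

end Crest.Agent.N49.Rm
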