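import Crest.Agent.N49.Rm.Hk
import Crest.Agent.N49.Rm.Kit
import Crest.Agent.N49.Rm.Fr
/-! Row 49, block RMH (helper57): composition of output packages. -/
set_option autoImplicit false
set_option linter.unusedSectionVars false
noncomputable section
namespace Crest.Agent.N49.Rm
open Finset TT

theorem lin_le_pow {n : ℕ} (h : 2 ≤ n) (a b : ℕ) : a * n + b ≤ n ^ (a + b + 1) := by
  have h1 : a + b ≤ n ^ (a + b) := Nat.lt_two_pow_self.le.trans (Nat.pow_le_pow_left h _)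
  rw [pow_succ]
  nlinarith

theorem le_pow_self' {n c : ℕ} (h : 2 ≤ n) (hc : 1 ≤ c) : n ≤ n ^ c := by
  simpa using Nat.pow_le_pow_right (by omega : 0 < n) hc

theorem pow_mono' {n c c' : ℕ} (h : 2 ≤ n) (hc : c ≤ c') : n ^ c ≤ n ^ c' :=
  Nat.pow_le_pow_right (by omega) hc

theorem two_pow_mono {a b : ℕ} (h : a ≤ b) : (2 : ℝ) ^ a ≤ 2 ^ b := pow_le_pow_right₀ one_le_two h

section
variable {L C : Type} [Fintype L] [DecidableEq L] [Fintype C] [DecidableEq C] {T : TT L C}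
  {H H' : Set (C → ℤ)} {X : Hk L C} {P Q : Out L C} {k0 k1 k2 s s' K' K1 n n' : ℕ}

theorem Sz.mono' (h : Sz n T H) (e : n ≤ n') : Sz n' T H :=
  ⟨h.1.trans e, h.2.1.trans (Nat.pow_le_pow_right two_pos e), (half_anti e).trans h.2.2⟩

theorem Sz.sub (h : Sz n T H) (e : n ≤ n') (k : (1 / 2 : ℝ) ^ n' ≤ T.pr H') : Sz n' T H' :=
  ⟨h.1.trans e, h.2.1.trans (Nat.pow_le_pow_right two_pos e), k⟩

theorem Ov.of_sub (e : H' ⊆ H) : Ov (L := L) id H' H := fun y hy => ⟨y, e hy, rfl⟩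

theorem Ov.comp {C1 C2 : Type} {ι : (C1 ⊕ L → ℝ) → (C ⊕ L → ℝ)} {ι' : (C2 ⊕ L → ℝ) → (C1 ⊕ L → ℝ)}
    {H1 : Set (C1 → ℤ)} {H2 : Set (C2 → ℤ)} (h : Ov ι H1 H) (k : Ov ι' H2 H1) :
    Ov (ι ∘ ι') H2 H := fun y hy => by
  obtain ⟨y1, h1, e1⟩ := k y hy
  obtain ⟨y0, h0, e0⟩ := h y1 h1
  exact ⟨y0, h0, by simp [e1, e0]⟩

theorem Ov.mono {C1 : Type} {ι : (C1 ⊕ L → ℝ) → (C ⊕ L → ℝ)} {H1 H2 : Set (C1 → ℤ)}
    (h : Ov ι H1 H') (a : H2 ⊆ H1) (b : H' ⊆ H) : Ov ι H2 H := fun y hy =>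
  let ⟨x, h0, e⟩ := h y (a hy); ⟨x, b h0, e⟩

theorem NX.here (h1 : n ≤ n') (h2 : n' ≤ s) (g : GG (n' ^ K') T X) (e : H' ⊆ H) (z : Sz n' T H')
    (p : P C T id H' n') : NX k0 s K' n T H X P :=
  ⟨C, _, _, T, id, H', n', 0, by simpa using h1, h2, Nat.zero_le _, .refl,
    by rwa [Hk.push_id], z, .of_sub e, p⟩

/-- what is known about an output -/
structure Mv (k0 s n : ℕ) (T : TT L C) (H : Set (C → ℤ)) {C' : Type} [Fintype C'] [DecidableEq C']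
    (T' : TT L C') (ι : (C' ⊕ L → ℝ) → (C ⊕ L → ℝ)) (H' : Set (C' → ℤ)) (n' k : ℕ) : Prop where
  le : n + k * (Fintype.card L + 1) ≤ n'
  le' : n' ≤ s
  kle : k ≤ k0
  ref : Ref s T k C' T' ι
  sz : Sz n' T' H'
  ov : Ov ι H' H

theorem NX.bind (h : NX k1 s K1 n T H X P) (e : s ≤ s')
    (f : ∀ (C' : Type) [Fintype C'] [DecidableEq C'] (T' : TT L C') ι H' n' k,
      Mv k1 s n T H T' ι H' n' k → GG (n' ^ K1) T' (X.push ι k) → P C' T' ι H' n' →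
      NX k2 s' K' n' T' H' (X.push ι k) fun C'' _ _ T'' ι' H'' n'' => Q C'' T'' (ι ∘ ι') H'' n'') :
    NX (k1 + k2) s' K' n T H X Q := by
  obtain ⟨C', _, _, T', ι, H', n', k, a1, a2, a3, a4, a5, a6, a7, a8⟩ := h
  obtain ⟨C'', _, _, T'', ι', H'', n'', k', b1, b2, b3, b4, b5, b6, b7, b8⟩ :=
    f C' T' ι H' n' k ⟨a1, a2, a3, a4, a6, a7⟩ a5 a8
  exact ⟨C'', _, _, T'', ι ∘ ι', H'', n'', k + k', by nlinarith, b2, by omega,
    (a4.mono e).trans b4, by rwa [Hk.push_push] at b5, b6, a7.comp b7, b8⟩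

theorem NX.imp (h : NX k0 s K' n T H X P) (a : k0 ≤ k1) (e : s ≤ s')
    (f : ∀ (C' : Type) [Fintype C'] [DecidableEq C'] (T' : TT L C') ι H' n' k,
      Mv k0 s n T H T' ι H' n' k → T'.Ok → P C' T' ι H' n' → Q C' T' ι H' n') :
    NX k1 s' K' n T H X Q := by
  obtain ⟨C', _, _, T', ι, H', n', k, a1, a2, a3, a4, a5, a6, a7, a8⟩ := h
  exact ⟨C', _, _, T', ι, H', n', k, a1, a2.trans e, a3.trans a, a4.mono e, a5, a6, a7,
    f C' T' ι H' n' k ⟨a1, a2, a3, a4, a6, a7⟩ a5.ok a8⟩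

/-- raise the level of the output -/
theorem NX.bump {c : ℕ} (hc : 1 ≤ c) (h : NX k0 s (c * K') n T H X P)
    (f : ∀ (C' : Type) [Fintype C'] [DecidableEq C'] (T' : TT L C') ι H' n' k,
      Mv k0 s n T H T' ι H' n' k → T'.Ok → P C' T' ι H' n' → Q C' T' ι H' (n' ^ c)) :
    NX k0 (s ^ c) K' n T H X Q := by
  obtain ⟨C', _, _, T', ι, H', n', k, a1, a2, a3, a4, a5, a6, a7, a8⟩ := h
  have e := le_pow_self' a6.1 hc
  exact ⟨C', _, _, T', ι, H', n' ^ c, k, a1.trans e, Nat.pow_le_pow_left a2 _, a3,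
    a4.mono (le_pow_self' (a6.1.trans a2) hc), by rwa [← pow_mul], a6.mono' e, a7,
    f C' T' ι H' n' k ⟨a1, a2, a3, a4, a6, a7⟩ a5.ok a8⟩

/-- start from a subset and a higher level -/
theorem NX.from (h : NX k0 s K' n' T H' X P) (a : n ≤ n') (e : H' ⊆ H) : NX k0 s K' n T H X P := by
  obtain ⟨C', _, _, T', ι, H1, n1, k, a1, a2, a3, a4, a5, a6, a7, a8⟩ := h
  exact ⟨C', _, _, T', ι, H1, n1, k, by omega, a2, a3, a4, a5, a6, a7.mono subset_rfl e, a8⟩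

section mv
variable {C' : Type} [Fintype C'] [DecidableEq C'] {T' : TT L C'}
  {ι : (C' ⊕ L → ℝ) → (C ⊕ L → ℝ)} {H1 : Set (C' → ℤ)} {k : ℕ} {A M : Finset L}

theorem Mv.n_le (m : Mv k0 s n T H T' ι H1 n' k) : n ≤ n' := le_trans (by omega) m.le

theorem Mv.bd (m : Mv k0 s n T H T' ι H1 n' k) (M : Finset L) :
    ((2 : ℝ) ^ k) ^ M.card * 2 ^ n ≤ 2 ^ n' := by
  rw [← pow_mul, ← pow_add]
  refine two_pow_mono (le_trans ?_ m.le)
  have := card_le_univ M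
  nlinarith

theorem Mv.rel (m : Mv k0 s n T H T' ι H1 n' k) (hT : T.Ok) {y : C → ℤ} {y' : C' → ℤ}
    (e : ι (cf y') = cf y) {q : ℕ} {F : Fm L C} (l : ∀ ℓ ∈ M, T.Lin ℓ F)
    (g : T.Rel A M y q (2 ^ n) F) : T'.Rel A M y' q (2 ^ n') fun p => F (ι p) :=
  (m.ref.rel hT e g l).mono (m.bd M)

theorem Mv.frei (m : Mv k0 s n T H T' ι H1 n' k) (hT : T.Ok) {j : L} (hA : j ∈ A) (hj : j ∉ M)
    {D : Type} {q : ℕ} {F : D → Fm L C} (hF : ∀ d, T.Dat A M (F d))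
    (g : T.Frei A M j H q (2 ^ n) F) : T'.Frei A M j H1 q (2 ^ n') fun d p => F d (ι p) :=
  fun y1 h1 y2 h2 y3 h3 y4 h4 hq d =>
    ((m.ref.mor hT).frei hT (m.ref.ok hT) (one_le_pow₀ one_le_two) hA hj m.ov hF g
      y1 h1 y2 h2 y3 h3 y4 h4 hq d).mono (m.bd M)
end mv

/-- Freiman along `j` at level `n` -/
def FrS {D : Type} (T : TT L C) (A M : Finset L) (j : L) (H : Set (C → ℤ)) (n : ℕ)
    (F : D → Fm L C) : Prop := ∃ q, 1 ≤ q ∧ q ≤ 2 ^ n ∧ T.Frei A M j H q (2 ^ n) F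

theorem FrS.mono {D : Type} {A M : Finset L} {j : L} {F : D → Fm L C} (h : FrS T A M j H n F)
    (e : H' ⊆ H) (a : n ≤ n') : FrS T A M j H' n' F :=
  let ⟨q, h1, h2, h3⟩ := h
  ⟨q, h1, h2.trans (Nat.pow_le_pow_right two_pos a), h3.mono e dvd_rfl h1 (two_pow_mono a)⟩

theorem Mv.frS {C' : Type} [Fintype C'] [DecidableEq C'] {T' : TT L C'}
    {ι : (C' ⊕ L → ℝ) → (C ⊕ L → ℝ)} {H1 : Set (C' → ℤ)} {k : ℕ} {A M : Finset L}
    (m : Mv k0 s n T H T' ι H1 n' k) (hT : T.Ok) {j : L} (hA : j ∈ A) (hj : j ∉ M)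
    {D : Type} {F : D → Fm L C} (hF : ∀ d, T.Dat A M (F d)) (g : FrS T A M j H n F) :
    FrS T' A M j H1 n' fun d p => F d (ι p) :=
  let ⟨q, h1, h2, h3⟩ := g
  ⟨q, h1, h2.trans (Nat.pow_le_pow_right two_pos m.n_le), m.frei hT hA hj hF h3⟩

/-- one denominator for all directions -/
theorem FrS.all {D : Type} {A M Z : Finset L} {F : D → Fm L C} (h : ∀ j ∈ Z, FrS T A M j H n F)
    (e : Z.card * n + n ≤ n') :
    ∃ q, 1 ≤ q ∧ q ≤ 2 ^ n' ∧ ∀ j ∈ Z, T.Frei A M j H q (2 ^ n') F := by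
  choose! q h1 h2 h3 using h
  have p : 1 ≤ ∏ j ∈ Z, q j := Nat.succ_le_of_lt (prod_pos h1)
  refine ⟨∏ j ∈ Z, q j, p, ?_, fun j hj =>
    (h3 j hj).mono subset_rfl (dvd_prod_of_mem _ hj) p (two_pow_mono (by omega))⟩
  refine (prod_le_pow_card _ _ _ h2).trans ?_
  rw [← pow_mul]
  exact Nat.pow_le_pow_right two_pos (by nlinarith)
end

/-- predicates on (tower, set, level, datum) with a context -/
abbrev Pf (Ξ : Type → Type) : Type 1 := (L : Type) → [Fintype L] → [DecidableEq L] → (D : Type) →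
  [Fintype D] → Ξ L → (C : Type) → [Fintype C] → [DecidableEq C] → TT L C → Set (C → ℤ) → ℕ →
    (D → Fm L C) → Prop

/-- polynomial arrows -/
def Ar (l0 : ℕ) {Ξ : Type → Type} (P Q : Pf Ξ) : Prop := ∃ k0 : ℕ, ∀ K' : ℕ, ∃ K : ℕ,
  ∀ (L C : Type) [Fintype L] [DecidableEq L] [Fintype C] [DecidableEq C] (T : TT L C) (X : Hk L C)
    (D : Type) [Fintype D] (n : ℕ) (H : Set (C → ℤ)) (x : Ξ L) (F : D → Fm L C),
    Fintype.card L ≤ l0 → Sz n T H → GG (n ^ K) T X → Fintype.card D ≤ n → P L D x C T H n F →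
    NX k0 (n ^ K) K' n T H X fun C' _ _ T' ι H' n' => Q L D x C' T' H' n' fun d p => F d (ι p)

namespace Ar
variable {l0 : ℕ} {Ξ : Type → Type} {P P' Q Q' R : Pf Ξ}

theorem trans (h : Ar l0 P Q) (g : Ar l0 Q R) : Ar l0 P R := by
  obtain ⟨k1, h⟩ := h
  obtain ⟨k2, g⟩ := g
  refine ⟨k1 + k2, fun K' => ?_⟩
  obtain ⟨K2, g⟩ := g K'
  obtain ⟨K1, h⟩ := h K2
  refine ⟨K1 * (K2 + 1), fun L C _ _ _ _ T X D _ n H x F l z gg d p => ?_⟩
  have e : n ^ K1 ≤ n ^ (K1 * (K2 + 1)) := pow_mono' z.1 (by nlinarith)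
  refine (h L C T X D n H x F l z (gg.mono e) d p).bind e fun C' _ _ T' ι H' n' k m gg' q => ?_
  refine (g L C' T' _ D n' H' x _ l m.sz gg' (d.trans m.n_le) q).imp le_rfl ?_
    fun _ _ _ _ _ _ _ _ _ _ r => r
  calc n' ^ K2 ≤ (n ^ K1) ^ K2 := Nat.pow_le_pow_left m.le' _
    _ ≤ _ := by rw [← pow_mul]; exact pow_mono' z.1 (by nlinarith)

/-- a step that only passes to a subset -/
theorem sub (c : ℕ) (h : ∀ (L C : Type) [Fintype L] [DecidableEq L] [Fintype C] [DecidableEq C]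
    (T : TT L C) (D : Type) [Fintype D] (n : ℕ) (H : Set (C → ℤ)) (x : Ξ L) (F : D → Fm L C),
    Fintype.card L ≤ l0 → Sz n T H → G (n ^ c) T → Fintype.card D ≤ n → P L D x C T H n F →
    ∃ H' ⊆ H, ∃ n', n ≤ n' ∧ n' ≤ n ^ c ∧ (1 / 2 : ℝ) ^ n' ≤ T.pr H' ∧ Q L D x C T H' n' F) :
    Ar l0 P Q := by
  refine ⟨0, fun K' => ⟨c * (K' + 1), fun L C _ _ _ _ T X D _ n H x F l z gg d p => ?_⟩⟩
  have e : n ^ c ≤ n ^ (c * (K' + 1)) := pow_mono' z.1 (by nlinarith)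
  obtain ⟨H', s, n', a, b, m, q⟩ := h L C T D n H x F l z (gg.g e) d p
  refine NX.here a (b.trans e) (gg.mono ?_) s (z.sub a m) q
  calc n' ^ K' ≤ (n ^ c) ^ K' := Nat.pow_le_pow_left b _
    _ ≤ _ := by rw [← pow_mul]; exact pow_mono' z.1 (by nlinarith)

/-- a deterministic step -/
theorem det (c : ℕ) (hc : 1 ≤ c) (h : ∀ (L C : Type) [Fintype L] [DecidableEq L] [Fintype C]
    [DecidableEq C] (T : TT L C) (D : Type) [Fintype D] (n : ℕ) (H : Set (C → ℤ)) (x : Ξ L)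
    (F : D → Fm L C), Fintype.card L ≤ l0 → Sz n T H → T.Ok → Fintype.card D ≤ n →
    P L D x C T H n F → Q L D x C T H (n ^ c) F) : Ar l0 P Q :=
  sub c fun L C _ _ _ _ T D _ n H x F l z g d p =>
    ⟨H, subset_rfl, n ^ c, le_pow_self' z.1 hc, le_rfl, (z.mono' (le_pow_self' z.1 hc)).2.2,
      h L C T D n H x F l z g.ok_sm.1 d p⟩

theorem imp (h : ∀ (L C : Type) [Fintype L] [DecidableEq L] [Fintype C]
    [DecidableEq C] (T : TT L C) (D : Type) [Fintype D] (n : ℕ) (H : Set (C → ℤ)) (x : Ξ L)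
    (F : D → Fm L C), Fintype.card L ≤ l0 → P L D x C T H n F → Q L D x C T H n F) : Ar l0 P Q :=
  det 1 le_rfl fun L C _ _ _ _ T D _ n H x F l _ _ _ p => by
    simpa using h L C T D n H x F l p

theorem or (h : Ar l0 P R) (g : Ar l0 Q R) :
    Ar l0 (fun L _ _ D _ x C _ _ T H n F => P L D x C T H n F ∨ Q L D x C T H n F) R := by
  obtain ⟨k1, h⟩ := h
  obtain ⟨k2, g⟩ := g
  refine ⟨k1 + k2, fun K' => ?_⟩
  obtain ⟨K2, g⟩ := g K'
  obtain ⟨K1, h⟩ := h K'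
  refine ⟨K1 + K2, fun L C _ _ _ _ T X D _ n H x F l z gg d p => ?_⟩
  have e1 : n ^ K1 ≤ n ^ (K1 + K2) := pow_mono' z.1 (by omega)
  have e2 : n ^ K2 ≤ n ^ (K1 + K2) := pow_mono' z.1 (by omega)
  rcases p with p | p
  · exact (h L C T X D n H x F l z (gg.mono e1) d p).imp (by omega) e1 fun _ _ _ _ _ _ _ _ _ _ r => r
  · exact (g L C T X D n H x F l z (gg.mono e2) d p).imp (by omega) e2 fun _ _ _ _ _ _ _ _ _ _ r => r

/-- change of context; part of it may be chosen from the state -/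
theorem ctx {Ξ' : Type → Type} {P1 Q1 : Pf Ξ'} (h : Ar l0 P1 Q1)
    (f : ∀ (L C : Type) [Fintype L] [DecidableEq L] [Fintype C] [DecidableEq C] (T : TT L C)
      (D : Type) [Fintype D] (n : ℕ) (H : Set (C → ℤ)) (x : Ξ L) (F : D → Fm L C),
      P L D x C T H n F → ∃ x', P1 L D x' C T H n F ∧ ∀ (C' : Type) [Fintype C'] [DecidableEq C']
        (T' : TT L C') H' n' F', Q1 L D x' C' T' H' n' F' → Q L D x C' T' H' n' F') : Ar l0 P Q := by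
  obtain ⟨k1, h⟩ := h
  refine ⟨k1, fun K' => ?_⟩
  obtain ⟨K, h⟩ := h K'
  refine ⟨K, fun L C _ _ _ _ T X D _ n H x F l z gg d p => ?_⟩
  obtain ⟨x', p', r⟩ := f L C T D n H x F p
  exact (h L C T X D n H x' F l z gg d p').imp le_rfl le_rfl
    fun _ _ _ _ _ _ _ _ _ _ q => r _ _ _ _ _ q

/-- iterate a step over the letters of `Z x` -/
theorem iter (Z : ∀ L, Ξ L → Finset L) (S : Pf fun L => Ξ L × Finset L)
    (h : Ar l0 (Ξ := fun L => (Ξ L × Finset L) × L)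
      (fun L _ _ D _ x C _ _ T H n F => x.2 ∈ Z L x.1.1 ∧ x.1.2 ⊆ Z L x.1.1 ∧ S L D x.1 C T H n F)
      fun L _ _ D _ x C _ _ T H n F => S L D (x.1.1, insert x.2 x.1.2) C T H n F) :
    Ar l0 (fun L _ _ D _ x C _ _ T H n F => S L D (x, ∅) C T H n F)
      fun L _ _ D _ x C _ _ T H n F => S L D (x, Z L x) C T H n F := by
  let U : ℕ → Pf Ξ := fun t L _ _ D _ x C _ _ T H n F =>
    ∃ J ⊆ Z L x, (t ≤ J.card ∨ J = Z L x) ∧ S L D (x, J) C T H n F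
  have st : ∀ t, Ar l0 (U t) (U (t + 1)) := fun t => by
    have a1 : Ar l0 (fun L _ _ D _ x C _ _ T H n F => S L D (x, Z L x) C T H n F) (U (t + 1)) :=
      imp fun L C _ _ _ _ T D _ n H x F _ p => ⟨_, subset_rfl, .inr rfl, p⟩
    have a2 : Ar l0 (fun L _ _ D _ x C _ _ T H n F => ∃ J ⊆ Z L x, t ≤ J.card ∧ J ≠ Z L x ∧
        S L D (x, J) C T H n F) (U (t + 1)) := by
      refine h.ctx fun L C _ _ _ _ T D _ n H x F ⟨J, s, a, b, p⟩ => ?_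
      obtain ⟨j, h1, h2⟩ := exists_of_ssubset (s.ssubset_of_ne b)
      exact ⟨((x, J), j), ⟨h1, s, p⟩, fun C' _ _ T' H' n' F' q =>
        ⟨_, insert_subset h1 s, .inl (by rw [card_insert_of_notMem h2]; omega), q⟩⟩
    refine trans (imp fun L C _ _ _ _ T D _ n H x F _ ⟨J, s, a, p⟩ => ?_) (a1.or a2)
    by_cases e : J = Z L x
    · exact .inl (e ▸ p)
    · exact .inr ⟨J, s, a.resolve_right e, e, p⟩
  have al : ∀ t, Ar l0 (U 0) (U t) := fun t => by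
    induction t with
    | zero => exact imp fun _ _ _ _ _ _ _ _ _ _ _ _ _ _ p => p
    | succ t ih => exact ih.trans (st t)
  refine trans (imp fun L C _ _ _ _ T D _ n H x F _ p => ⟨∅, empty_subset _, .inl le_rfl, p⟩)
    ((al l0).trans (imp fun L C _ _ _ _ T D _ n H x F l ⟨J, s, a, p⟩ => ?_))
  have : J = Z L x := a.elim (fun a => eq_of_subset_of_card_le s
    ((card_le_univ _).trans (l.trans a))) id
  exact this ▸ p
end Ar

/-- UPGRADE: 1% of respected rectangles ⇒ Freiman on a dense set -/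
def UPG (l0 : ℕ) : Prop := ∃ K0 k0 : ℕ, 1 ≤ K0 ∧ ∀ K' : ℕ, ∃ K : ℕ, ∀ (L C : Type) [Fintype L]
  [DecidableEq L] [Fintype C] [DecidableEq C] (T : TT L C) (X : Hk L C) (D : Type) [Fintype D]
  (n : ℕ) (H : Set (C → ℤ)) (A M : Finset L) (j : L) (q : ℕ) (F : Fin 4 → D → Fm L C),
  Fintype.card L ≤ l0 → Sz n T H → GG (n ^ K) T X → Fintype.card D ≤ n → M.Nonempty → M ⊆ A →
  j ∈ A → j ∉ M → (∀ l d, T.Dat A M (F l d)) → 1 ≤ q → q ≤ 2 ^ n →
  (1 / 2 : ℝ) ^ n ≤ T.RM0 A M j H q (2 ^ n) F (n ^ K0) (2 * n ^ K0) →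
  NX k0 (n ^ K) K' n T H X fun _ _ _ T' ι H' n' => FrS T' A M j H' n' fun d p => F 0 d (ι p)

theorem upg {l0 : ℕ} (h : ONEX l0) : UPG l0 := by
  obtain ⟨K0, k0, h0, h⟩ := h
  refine ⟨K0, k0, h0, fun K' => ?_⟩
  obtain ⟨K, h⟩ := h ((2 * l0 + 4) * K')
  refine ⟨K * (2 * l0 + 4), fun L C _ _ _ _ T X D _ n H A M j q F l z g d m1 m2 j1 j2 f q1 q2 r => ?_⟩
  rw [pow_mul]
  refine (h L C T X D n H A M j q F l z (g.mono (pow_mono' z.1 (by nlinarith))) d m1 m2 j1 j2 f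
    q1 q2 r).bump (by omega) ?_
  rintro C' _ _ T' ι H' n' k m o ⟨E, _, q', γ, Y, Λ, -, a1, a2, a3⟩
  have e := lin_le_pow m.sz.1 1 (2 * l0 + 2)
  rw [show 1 + (2 * l0 + 2) + 1 = 2 * l0 + 4 by ring] at e
  refine ⟨q', a1, a2.trans (Nat.pow_le_pow_right two_pos (by omega)), ?_⟩
  refine (fr L C' T' D E A M j H' q' _ _ γ Y Λ o m2 j1 j2 (fun d => m.ref.dat (f 0 d)) a3).mono
    subset_rfl dvd_rfl a1 (le_trans ?_ (two_pow_mono e))
  have : (3 : ℝ) ^ Fintype.card L ≤ 2 ^ (2 * l0) := by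
    rw [pow_mul]
    exact (pow_le_pow_left₀ (by norm_num) (by norm_num) _).trans
      (pow_le_pow_right₀ (by norm_num) l)
  rw [one_mul, pow_add, pow_add]
  have h2 : (0 : ℝ) < 2 ^ n' := by positivity
  nlinarith
end Crest.Agent.N49.Rm
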