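import Crest.Agent.N49.Rm.St
import Crest.Agent.N49.Rm.Pr
import Crest.Agent.N49.Rm.Op
/-! Row 49 (helper21): box Cauchy–Schwarz on the rectangle shape. -/
set_option autoImplicit false
set_option linter.unusedSectionVars false
noncomputable section
namespace Crest.Agent.N49.Rm
open Finset

namespace Bx
variable {X B : Type} {u : X → ℝ} {g : X → B → ℝ}

/-- the weight of two conditionally independent clones -/
def W2 (u : X → ℝ) (g : X → B → ℝ) (z : X × B × B) : ℝ := u z.1 * (g z.1 z.2.1 * g z.1 z.2.2)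

theorem sm2 (hu : ∀ x, 0 < u x) (hg : ∀ x b, 0 < g x b) (hs : Summable (W2 u g))
    {F : X × B × B → ℝ} {K : ℝ} (hF : ∀ z, |F z| ≤ K) : Summable fun z => W2 u g z * F z := by
  refine Summable.of_norm_bounded (hs.mul_right K) fun z => ?_
  have : 0 < W2 u g z := mul_pos (hu _) (mul_pos (hg _ _) (hg _ _))
  rw [Real.norm_eq_abs, abs_mul, abs_of_pos this]
  exact mul_le_mul_of_nonneg_left (hF z) this.le

theorem pos2 (hu : ∀ x, 0 < u x) (hg : ∀ x b, 0 < g x b) (hs : Summable (W2 u g))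
    {ψ : X → B → ℝ} {K : ℝ} (h : ∀ x b, |ψ x b| ≤ K) :
    0 ≤ ∑' z, W2 u g z * (ψ z.1 z.2.1 * ψ z.1 z.2.2) := by
  rw [(sm2 hu hg hs (K := K * K) fun z => by
    rw [abs_mul]; exact mul_le_mul (h _ _) (h _ _) (abs_nonneg _) ((abs_nonneg _).trans (h z.1 z.2.1))
    ).tsum_prod]
  refine tsum_nonneg fun x => ?_
  rcases isEmpty_or_nonempty B with _ | ⟨⟨b0⟩⟩
  · simp
  have s0 : Summable (g x) := by
    have := (hs.prod_factor x).prod_factor b0
    simp only [W2, ← mul_assoc] at this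
    exact (summable_mul_left_iff (mul_pos (hu x) (hg x b0)).ne').1 this
  have s1 : Summable fun b => ‖g x b * ψ x b‖ :=
    Summable.of_nonneg_of_le (fun _ => norm_nonneg _) (fun b => by
      rw [Real.norm_eq_abs, abs_mul, abs_of_pos (hg x b)]
      exact mul_le_mul_of_nonneg_left (h x b) (hg x b).le) (s0.mul_right K)
  have := mul_nonneg (hu x).le (mul_self_nonneg (∑' b, g x b * ψ x b))
  rw [tsum_mul_tsum_of_summable_norm s1 s1, ← tsum_mul_left] at this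
  refine this.trans_eq (tsum_congr fun z => ?_)
  simp only [W2]; ring

/-- Cauchy–Schwarz by cloning -/
theorem cs2 (hu : ∀ x, 0 < u x) (hg : ∀ x b, 0 < g x b) (hs : Summable (W2 u g))
    {φ : X → B → ℝ} (h : ∀ x b, |φ x b| ≤ 1) : (∑' z, W2 u g z * φ z.1 z.2.1) ^ 2 ≤
      (∑' z, W2 u g z) * ∑' z, W2 u g z * (φ z.1 z.2.1 * φ z.1 z.2.2) := by
  have s1 := (sm2 hu hg hs (F := fun z => φ z.1 z.2.1) fun z => h _ _).hasSum
  have s2 : HasSum (fun z => W2 u g z * φ z.1 z.2.2) (∑' z, W2 u g z * φ z.1 z.2.1) := by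
    rw [← ((Equiv.refl X).prodCongr (Equiv.prodComm B B)).hasSum_iff] at s1
    convert s1 using 2 with z
    simp [W2, mul_comm]
  have s3 := (sm2 hu hg hs (F := fun z => φ z.1 z.2.1 * φ z.1 z.2.2) (K := 1) fun z => by
    rw [abs_mul]; exact mul_le_one₀ (h _ _) (abs_nonneg _) (h _ _)).hasSum
  have := discrim_le_zero (a := ∑' z, W2 u g z) (b := -2 * ∑' z, W2 u g z * φ z.1 z.2.1)
    (c := ∑' z, W2 u g z * (φ z.1 z.2.1 * φ z.1 z.2.2)) fun t => by
      have s := (((hs.hasSum.mul_right (t * t)).sub (s1.mul_right t)).sub (s2.mul_right t)).add s3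
      have p := pos2 hu hg hs (ψ := fun x b => φ x b - t) (K := 1 + |t|) fun x b =>
        (abs_sub _ _).trans (add_le_add (h x b) le_rfl)
      rw [tsum_congr fun z => (by ring : W2 u g z * ((φ z.1 z.2.1 - t) * (φ z.1 z.2.2 - t)) =
        W2 u g z * (t * t) - W2 u g z * φ z.1 z.2.1 * t - W2 u g z * φ z.1 z.2.2 * t +
          W2 u g z * (φ z.1 z.2.1 * φ z.1 z.2.2)), s.tsum_eq] at p
      linarith
  rw [discrim] at this
  nlinarith

theorem cs_e {Ω : Type} (e : X × B × B ≃ Ω) {w F G : Ω → ℝ} (hu : ∀ x, 0 < u x)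
    (hg : ∀ x b, 0 < g x b) (hs : Summable w) (z0 : 0 < ∑' y, w y) (hw : ∀ z, w (e z) = W2 u g z)
    {φ : X → B → ℝ} (h : ∀ x b, |φ x b| ≤ 1) (hF : ∀ z, F (e z) = φ z.1 z.2.1)
    (hG : ∀ z, G (e z) = φ z.1 z.2.1 * φ z.1 z.2.2) :
    ((∑' y, w y * F y) / ∑' y, w y) ^ 2 ≤ (∑' y, w y * G y) / ∑' y, w y := by
  rw [div_pow, div_le_div_iff₀ (by positivity) z0, sq (∑' y, w y), ← mul_assoc]
  refine mul_le_mul_of_nonneg_right ?_ z0.le
  rw [mul_comm (∑' y, w y * G y), ← e.tsum_eq w, ← e.tsum_eq fun y => w y * F y,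
    ← e.tsum_eq fun y => w y * G y]
  simp only [hw, hF, hG]
  exact cs2 hu hg ((e.summable_iff.2 hs).congr hw) h

variable {L C : Type} [Fintype L] [DecidableEq L] [Fintype C] [DecidableEq C] (T : TT L C) (j : L)
open TT

/-- a configuration of the cloned shape -/
def mk {ρ : Type} (y : C → ℤ) (v : ρ → T.Bl j → ℤ) : T.CC j ρ → ℤ := Sum.elim y fun cx => v cx.2 cx.1
/-- the weight of one clone -/
def gk (pt : Bool) (a : ℕ) (y : C → ℤ) (n : T.Bl j → ℤ) : ℝ := Real.exp (-Real.pi * ∑ c : T.Bl j,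
  (2 ^ a * T.Φ (T.px j (fun _ : Unit => pt) () (cf (mk T j y fun _ => n))) c.1) ^ 2)

theorem gk_pos (pt : Bool) (a : ℕ) (y : C → ℤ) (n : T.Bl j → ℤ) : 0 < gk T j pt a y n :=
  Real.exp_pos _

theorem wt_mk {ρ : Type} [Fintype ρ] [DecidableEq ρ] (pt : ρ → Bool) (a : ρ → ℕ) (y : C → ℤ)
    (v : ρ → T.Bl j → ℤ) :
    (T.cl j pt a).wt (mk T j y v) = T.wt y * ∏ x, gk T j (pt x) (a x) y (v x) := by
  have e : ∀ x, T.px j pt x (cf (mk T j y v)) =
      T.px j (fun _ : Unit => pt x) () (cf (mk T j y fun _ => v x)) := fun x => by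
    funext w; rcases w with c | ℓ <;> rfl
  simp only [wt, gk, ← Real.exp_sum, ← Real.exp_add, Fintype.sum_sum_type, Fintype.sum_prod_type_right,
    cl_Φ_l, cl_Φ_r, p0_cf, e, ← mul_sum, ← mul_add]
  rfl

/-- the two orders of the four clones -/
def e4 (σ : Equiv.Perm (Fin 4)) : ((C → ℤ) × (T.Bl j → ℤ) × (T.Bl j → ℤ)) × (T.Bl j → ℤ) × (T.Bl j → ℤ) ≃
    (T.CC j (Fin 4) → ℤ) where
  toFun z := mk T j z.1.1 fun x => ![z.1.2.1, z.1.2.2, z.2.1, z.2.2] (σ x)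
  invFun w := ((fun c => w (.inl c), fun c => w (.inr (c, σ.symm 0)), fun c => w (.inr (c, σ.symm 1))),
    fun c => w (.inr (c, σ.symm 2)), fun c => w (.inr (c, σ.symm 3)))
  left_inv z := by simp [mk]
  right_inv w := by
    funext c
    rcases c with c | ⟨c, x⟩
    · rfl
    · obtain ⟨x, rfl⟩ := σ.symm.surjective x
      fin_cases x <;> simp [mk]

/-- a point moved by two directions -/
def mv (y : C → ℤ) (s t : T.Bl j → ℤ) : C → ℤ :=
  fun c => if h : j ∈ T.ty c then y c + s ⟨c, h⟩ + t ⟨c, h⟩ else y c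

theorem cor_mk (y : C → ℤ) (v : Fin 4 → T.Bl j → ℤ) :
    T.cor j 0 (mk T j y v) = mv T j y (v 0) (v 2) ∧ T.cor j 1 (mk T j y v) = mv T j y (v 0) (v 3) ∧
    T.cor j 2 (mk T j y v) = mv T j y (v 1) (v 2) ∧ T.cor j 3 (mk T j y v) = mv T j y (v 1) (v 3) := by
  refine ⟨?_, ?_, ?_, ?_⟩ <;> funext c <;> by_cases h : j ∈ T.ty c <;>
    simp [cor, posZ, mk, mv, h, Fin.sum_univ_four, add_assoc]

/-- exchange the two pairs -/
def s4 : Equiv.Perm (Fin 4) := ⟨![2, 3, 0, 1], ![2, 3, 0, 1], by decide, by decide⟩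

theorem cor_s4 (z) : T.cor j 0 (e4 T j s4 z) = mv T j z.1.1 z.2.1 z.1.2.1 ∧
    T.cor j 2 (e4 T j s4 z) = mv T j z.1.1 z.2.2 z.1.2.1 :=
  let h := cor_mk T j z.1.1 fun x => ![z.1.2.1, z.1.2.2, z.2.1, z.2.2] (s4 x)
  ⟨h.1, h.2.2.1⟩

theorem cor_1 (z) : T.cor j 0 (e4 T j 1 z) = mv T j z.1.1 z.1.2.1 z.2.1 ∧
    T.cor j 1 (e4 T j 1 z) = mv T j z.1.1 z.1.2.1 z.2.2 ∧
    T.cor j 2 (e4 T j 1 z) = mv T j z.1.1 z.1.2.2 z.2.1 ∧
    T.cor j 3 (e4 T j 1 z) = mv T j z.1.1 z.1.2.2 z.2.2 :=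
  cor_mk T j z.1.1 fun x => ![z.1.2.1, z.1.2.2, z.2.1, z.2.2] x

variable {T}
/-- **box Cauchy–Schwarz**, exact form -/
theorem box4 (hT : T.Ok) (a1 a2 : ℕ) {f : (C → ℤ) → ℝ} (hf : ∀ y, |f y| ≤ 1) :
    (T.rect j a1 a2).Ex (fun w => f (T.cor j 0 w)) ^ 4 ≤ (T.rect j a1 a2).Ex fun w =>
      f (T.cor j 0 w) * f (T.cor j 2 w) * (f (T.cor j 1 w) * f (T.cor j 3 w)) := by
  have o := hT.cl j (fun _ : Fin 4 => false) ![a1, a1, a2, a2]
  have w1 : ∀ z, (T.rect j a1 a2).wt (e4 T j s4 z) = W2 (W2 T.wt (gk T j false a2))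
      (fun x => gk T j false a1 x.1) z := fun z =>
    (wt_mk T j _ _ z.1.1 fun x => ![z.1.2.1, z.1.2.2, z.2.1, z.2.2] (s4 x)).trans
      (by simp [W2, Fin.prod_univ_four, s4]; ring)
  have w2 : ∀ z, (T.rect j a1 a2).wt (e4 T j 1 z) = W2 (W2 T.wt (gk T j false a1))
      (fun x => gk T j false a2 x.1) z := fun z =>
    (wt_mk T j _ _ z.1.1 fun x => ![z.1.2.1, z.1.2.2, z.2.1, z.2.2] x).trans
      (by simp [W2, Fin.prod_univ_four]; ring)
  have p : ∀ a x, 0 < W2 T.wt (gk T j false a) x := fun a x =>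
    mul_pos (wt_pos _) (mul_pos (gk_pos ..) (gk_pos ..))
  have k1 : ((T.rect j a1 a2).Ex fun w => f (T.cor j 0 w)) ^ 2 ≤
      (T.rect j a1 a2).Ex fun w => f (T.cor j 0 w) * f (T.cor j 2 w) :=
    cs_e (e4 T j s4) (p a2) (fun x => gk_pos T j false a1 x.1) o.summable o.Z_pos w1
      (φ := fun x s => f (mv T j x.1 s x.2.1)) (fun _ _ => hf _)
      (fun z => by simp only [cor_s4]) fun z => by simp only [cor_s4]
  have k2 : ((T.rect j a1 a2).Ex fun w => f (T.cor j 0 w) * f (T.cor j 2 w)) ^ 2 ≤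
      (T.rect j a1 a2).Ex fun w =>
        f (T.cor j 0 w) * f (T.cor j 2 w) * (f (T.cor j 1 w) * f (T.cor j 3 w)) :=
    cs_e (e4 T j 1) (p a1) (fun x => gk_pos T j false a2 x.1) o.summable o.Z_pos w2
      (φ := fun x t => f (mv T j x.1 x.2.1 t) * f (mv T j x.1 x.2.2 t))
      (fun _ _ => by rw [abs_mul]; exact mul_le_one₀ (hf _) (abs_nonneg _) (hf _))
      (fun z => by simp only [cor_1]) fun z => by simp only [cor_1]
  calc _ = (((T.rect j a1 a2).Ex fun w => f (T.cor j 0 w)) ^ 2) ^ 2 := by ring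
    _ ≤ _ := (pow_le_pow_left₀ (sq_nonneg _) k1 2).trans k2

theorem box_pr (hT : T.Ok) (a1 a2 : ℕ) (H : Set (C → ℤ)) :
    (T.rect j a1 a2).pr {w | T.cor j 0 w ∈ H} ^ 4 ≤
      (T.rect j a1 a2).pr {w | ∀ i, T.cor j i w ∈ H} := by
  have := box4 j hT a1 a2 (abs_ind H)
  rw [pr_eq, pr_eq]
  refine this.trans_eq (congrArg _ (funext fun w => Eq.symm ?_))
  by_cases h : ∀ i, T.cor j i w ∈ H
  · simp [h]
  · rw [Set.indicator_of_notMem (by exact h)]
    obtain ⟨i, k⟩ := not_forall.1 h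
    fin_cases i <;> simp at k ⊢ <;> tauto
end Bx

theorem box (hm : MONO) (hc : CLM) : BOX := by
  intro L C _ _ _ _ T n b j a1 a2 H ⟨h2, hC, hH⟩ hL ha h12 hb hG
  have c := (hc L C T n b (n + 2) j 4 (fun _ => false) ![a1, a1, a2, a2] H hC hL (by norm_num)
    (fun x => by fin_cases x <;> simp <;> omega) (by omega)
    (hm b b 12 9 L C T le_rfl (by norm_num) hG)).1 ![1, 0, 1, 0] fun x hx => ⟨rfl, by
      have : ∀ a, a1 ≤ a → (2 : ℤ) ^ (2 * n + (n + 2) + 10) ≤ 2 ^ a := fun a k =>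
        pow_le_pow_right₀ one_le_two (by omega)
      fin_cases x <;> simp at hx ⊢
      exacts [this _ le_rfl, this _ h12]⟩
  refine le_trans ?_ (Bx.box_pr j hG.1 a1 a2 H)
  have k : 3 / 4 * (1 / 2 : ℝ) ^ n ≤ (T.rect j a1 a2).pr {w | T.cor j 0 w ∈ H} := by
    have := (abs_le.1 c).1
    rw [pow_add] at this
    change _ ≤ (T.rect j a1 a2).pr {w | T.cor j 0 w ∈ H} - _ at this
    linarith
  refine le_trans ?_ (pow_le_pow_left₀ (by positivity) k 4)
  rw [mul_pow, ← pow_mul, pow_add, mul_comm 4 n, mul_comm]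
  exact mul_le_mul_of_nonneg_right (by norm_num) (by positivity)
end Crest.Agent.N49.Rm
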