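import Crest.Agent.N49.Rm.Cn0
import Crest.Agent.N49.Rm.Ar
import Crest.Agent.N49.Rm.Kit
import Crest.Agent.N49.Rm.Mod
/-! Row 49, block RMH (helper14): `CONST` from `REAL` and `TWO`. -/
set_option autoImplicit false
set_option linter.unusedSectionVars false
noncomputable section
namespace Crest.Agent.N49.Rm
open Finset TT

section
variable {L C : Type} [Fintype L] [DecidableEq L] [Fintype C] [DecidableEq C]
namespace TT
variable (T : TT L C) (j : L) {ρ ρ' : Type} [Fintype ρ] [DecidableEq ρ] [Fintype ρ']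
  [DecidableEq ρ'] (a : ρ → ℕ) (a' : ρ' → ℕ) (β0 : ρ' → ℤ) (β : ρ → ρ' → ℤ) {A M : Finset L}

theorem p0_mp (p) : T.p0 j (T.mp j β0 β p) = T.pos j (fun _ => false) 1 β0 p := by
  funext v
  rcases v with c | ℓ
  · rfl
  · by_cases k : j = ℓ <;> simp [p0, mp, pos, px, k]

theorem px_mp (x : ρ) (p) :
    T.px j (fun _ => false) x (T.mp j β0 β p) = T.pos j (fun _ => false) 0 (β x) p := by
  funext v
  rcases v with c | ℓ
  · by_cases k : j ∈ T.ty c <;> simp [mp, pos, px, k]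
  · by_cases k : j = ℓ
    · simp [p0, mp, pos, px, k]
    · simp [p0, mp, pos, px, k, Ne.symm k]

theorem pos_mp (α : ρ → ℤ) (p) : T.pos j (fun _ => false) 1 α (T.mp j β0 β p) =
    T.pos j (fun _ => false) 1 (fun x' => β0 x' + ∑ x, α x * β x x') p := by
  funext v
  unfold pos
  rw [p0_mp]
  simp only [px_mp, pos]
  split_ifs
  · simp only [Int.cast_one, one_mul, Int.cast_zero, zero_mul, zero_add, Int.cast_add,
      Int.cast_sum, Int.cast_mul, add_mul, sum_add_distrib, mul_sum, sum_mul, mul_assoc, add_assoc]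
    rw [sum_comm]
  · rfl

theorem pb_mp {ℓ : L} (h : ℓ ≠ j) : (T.cl j (fun _ => false) a).Pb (T.cl j (fun _ => false) a')
    (T.mp j β0 β) (.inl ℓ) (.inl ℓ) := by
  rintro ((c | cx) | ℓ' | x)
  · simpa [mp] using T.pb_pos j (fun _ => false) a' 1 β0 h (.inl c)
  · simpa [mp, h] using T.pb_pos j (fun _ => false) a' 0 (β cx.2) h (.inl cx.1.1)
  · exact ⟨fun k => lin_co (by simpa using k), fun k => ind_co (by simpa using k)⟩
  · exact ⟨fun k => by simp at k, fun _ => ind_c _⟩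

theorem pt_mp (h : j ∈ A) : (T.cl j (fun _ => false) a).Pt (T.cl j (fun _ => false) a')
    (T.mp j β0 β) (upA A ρ) (upA A ρ') := by
  have k := fun α0 α => T.pt_pos j (fun _ => false) a' α0 α (A := A) (fun _ => inl_upA.2)
    fun _ => inr_upA
  rintro ((c | cx) | ℓ' | x) s n
  · exact k 1 β0 (.inl c) (fun ℓ m => inl_upA.1 (s (mem_image_of_mem _ m))) (image_nonempty.1 n)
  · refine k 0 (β cx.2) (.inl cx.1.1) (fun ℓ m => ?_) ⟨j, cx.1.2⟩
    by_cases e : ℓ = j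
    · exact e ▸ h
    · exact inl_upA.1 (s (mem_insert_of_mem (mem_image_of_mem _ (mem_erase.2 ⟨e, m⟩))))
  · exact ty_co (singleton_subset_iff.2 (inl_upA.2 (inl_upA.1 (s (mem_singleton_self _)))))
      (singleton_nonempty _)
  · exact ty_c _

theorem intP_mp {p} (h : IntP p) : IntP (T.mp j β0 β p) := by
  rintro ((c | cx) | ℓ' | x)
  exacts [T.intP_pos j _ _ _ h _, T.intP_pos j _ _ _ h _, h _, ⟨1, by simp [mp]⟩]

theorem fib_mp (hj : j ∉ M) (w : T.CC j ρ' → ℤ) :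
    ∀ p ∈ (T.cl j (fun _ => false) a').Fib (M.image .inl) w,
      T.mp j β0 β p ∈ (T.cl j (fun _ => false) a).Fib (M.image .inl) (T.mZ j β0 β w) := by
  intro p hp
  refine ⟨?_, ?_⟩
  · rintro (c | ⟨⟨c, k⟩, x⟩) d
    · exact (T.fib_pos j _ a' 1 β0 hj (by simp) w p hp).1 c
        (by simpa [disjoint_image Sum.inl_injective] using d)
    · have h1 := fun x => hp.1 (.inr (⟨c, k⟩, x)) (by
        simpa [disjoint_image Sum.inl_injective] using d)
      simp [mp, mZ, pos, posZ, px, k, h1]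
  · rintro (ℓ | x) <;> simp [mp, hp.2]

theorem cube_mp (hT : T.Ok) (hj : j ∉ M) (h0 : 1 + ∑ x, |(β0 x : ℝ)| ≤ 4)
    (h1 : ∀ x, ∑ x', |(β x x' : ℝ)| ≤ 4) (ha : ∀ x x', a x ≤ a' x') {p}
    (h : (T.cl j (fun _ => false) a').Cube (upA A ρ') (M.image .inl) p) :
    (T.cl j (fun _ => false) a).CubeR (upA A ρ) (M.image .inl) 4 (T.mp j β0 β p) := by
  rintro (c | ⟨⟨c, k⟩, x⟩) s d
  · rw [cl_Φ_l, p0_mp]
    exact hT.cube_pos j _ a' 1 β0 hj (by norm_num) (by simpa using h0) h c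
      (fun ℓ m => inl_upA.1 (s (mem_image_of_mem _ m)))
      (by simpa [disjoint_image Sum.inl_injective] using d)
  · rw [cl_Φ_r, px_mp, hT.Φ_pos j _ _ _ p k, Int.cast_zero, zero_mul, zero_add, mul_sum]
    refine ((abs_sum_le_sum_abs _ _).trans (sum_le_sum fun x' _ => ?_)).trans (h1 x)
    have := h (.inr (⟨c, k⟩, x')) (insert_subset (inr_upA x') (image_subset_iff.2 fun ℓ m =>
      inl_upA.2 (inl_upA.1 (s (mem_insert_of_mem (mem_image_of_mem _ m))))))
      (by simpa [disjoint_image Sum.inl_injective] using d)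
    rw [cl_Φ_r, abs_mul, abs_of_pos (by positivity)] at this
    rw [mul_left_comm, abs_mul, abs_mul, abs_of_pos (a := (2 : ℝ) ^ _) (by positivity)]
    exact mul_le_of_le_one_right (abs_nonneg _) (le_trans (mul_le_mul_of_nonneg_right
      (pow_le_pow_right₀ one_le_two (ha x x')) (abs_nonneg _)) this)

theorem ind_pos0 (α0 : ℤ) (α : ρ' → ℤ) {x5 : ρ'} (h : α x5 = 0) (v) :
    (T.cl j (fun _ => false) a').Ind (.inr x5) fun p => T.pos j (fun _ => false) α0 α p v := by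
  intro p p' e
  have h0 : T.p0 j p v = T.p0 j p' v := T.ind_p0 j _ a' x5 (fun p => p v) p p' e
  have h1 : ∀ x, (α x : ℝ) * T.px j (fun _ => false) x p v =
      α x * T.px j (fun _ => false) x p' v := fun x => by
    by_cases k : x = x5
    · simp [k, h]
    · congr 1
      rcases v with c | ℓ <;> simp only [px] <;> split_ifs <;>
        first | rfl | exact e _ (by simp [Ne.symm k])
  simp only [pos, h0, h1]

theorem ind_mp {x0 : ρ} {x5 : ρ'} (h0 : β0 x5 = 0) (h1 : ∀ x, x ≠ x0 → β x x5 = 0)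
    {G : Fm (L ⊕ ρ) (T.CC j ρ)} (h : (T.cl j (fun _ => false) a).Ind (.inr x0) G) :
    (T.cl j (fun _ => false) a').Ind (.inr x5) fun p => G (T.mp j β0 β p) := fun p p' e => by
  refine h _ _ ?_
  rintro ((c | cx) | ℓ | x) k
  · exact T.ind_pos0 j a' 1 β0 h0 _ p p' e
  · exact T.ind_pos0 j a' 0 _ (h1 _ fun r => k (by simp [r])) _ p p' e
  · exact e _ (by simp)
  · rfl

variable {T j}
theorem Ty.era {F : Fm L C} (h : T.Ty A F) (k : T.Ind j F) : T.Ty (A.erase j) F := fun p p' e => by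
  rw [k p (fun v => if j ∈ T.tv v then p' v else p v) fun v m => (if_neg m).symm]
  refine h _ _ fun v s n => ?_
  split_ifs with m
  exacts [rfl, e v (subset_erase.2 ⟨s, m⟩) n]

theorem fib_cf {y : C → ℤ} {p} (h : p ∈ T.Fib ∅ y) : p = cf y := by
  funext v
  rcases v with c | ℓ
  exacts [h.1 c (disjoint_empty_right _), by simpa using h.2 ℓ]
end TT

/-- one rectangle of the realised shape -/
theorem const_one {T : TT L C} {j : L} {a a' n n' q : ℕ} {C' : Type} [Fintype C'] [DecidableEq C']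
    {T' : TT L C'} {ι ψ ψZ} (hT : T.Ok) (z : T.Rz j ![a, a, a, a, a', a'] T' ι ψ ψZ) (ha : a ≤ a')
    {β : Fin 4 → Fin 6 → ℤ} {x0 : Fin 4} (h1 : ∀ x, ∑ x', |(β x x' : ℝ)| ≤ 4)
    (h2 : ∀ x, x ≠ x0 → β x (Fin.last 5) = 0) (h3 : ∀ x', c0 x' + ∑ x, cv 0 x * β x x' = 1)
    {D : Type} {A M : Finset L} (hA : j ∈ A) (hj : j ∉ M) {F : D → Fm L C}
    {G : D → Fm (L ⊕ Fin 4) (T.CC j (Fin 4))} (hF : ∀ d, T.Dat A M (F d))
    (hG : ∀ d, (T.rect j a a).Dat ((upA A (Fin 4)).erase (.inr x0)) (M.image Sum.inl) (G d))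
    (hn : n + 2 * Fintype.card L ≤ n') {H' : Set (C' → ℤ)}
    (h : ∀ y ∈ H', (T.rect j a a).VR (upA A (Fin 4)) (M.image Sum.inl) (T.mZ j c0 β (ψZ y)) q n
      fun d p => F d (T.cq j 0 p) - G d p) : T'.Cst A M j H' q n' fun d p => F d (ι p) := by
  have t := (T.pt_mp j ![a, a, a, a] ![a, a, a, a, a', a'] c0 β hA).cp (z.pt A hA)
  have g : ∀ ℓ' ∈ M, ∃ ℓ ∈ M.image Sum.inl, (T.rect j a a).Pb T'
      (fun p => T.mp j c0 β (ψ p)) ℓ ℓ' := fun ℓ m =>
    have e : ℓ ≠ j := fun e => hj (e ▸ m)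
    ⟨.inl ℓ, mem_image_of_mem _ m, (T.pb_mp j _ _ c0 β e).cp (z.pb ℓ e)⟩
  refine ⟨fun d p => G d (T.mp j c0 β (ψ p)), fun d => ?_, fun y hy d => ?_⟩
  · have := Dat.pb ⟨(hG d).1.mono (erase_subset _ _), (hG d).2⟩ t g
    exact ⟨this.1.era (z.ind _ (T.ind_mp j _ _ c0 β rfl h2 ((hG d).1.ind (notMem_erase _ _)))),
      this.2⟩
  · refine (((h y hy d).pb (R := 4) (hT.cl j _ _) (fun ℓ m =>
      ((Dat.pos _ _ _ 1 (cv 0) hj (hF d)).2 ℓ m).sub ((hG d).2 ℓ m)) (by norm_num) t g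
      (fun p k => T.intP_mp j c0 β (z.int p k))
      (fun p k => T.fib_mp j _ _ c0 β hj _ _ (z.fib M y hj p k)) fun p _ k =>
        T.cube_mp j _ _ c0 β hT hj (by simp [c0, Fin.sum_univ_succ]; norm_num) h1
          (fun x x' => by fin_cases x <;> fin_cases x' <;> simp [ha])
          (z.cube A M p hA hj k)).mono ?_).congr fun p k => ?_
    · rw [show (4 : ℝ) = 2 ^ 2 by norm_num, ← pow_mul, ← pow_add]
      have := card_image_le (s := M) (f := (Sum.inl : L → L ⊕ Fin 4))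
      have := card_le_univ M
      exact two_pow_mono (by omega)
    · simp only [cq, pos_mp, h3]
      rw [z.pos p (by simpa [hj] using k.2 j)]
end

theorem const {l0 : ℕ} (hR : REAL) (hW : TWO) : CONST l0 := by
  refine ⟨8 + (8 * l0 + 60) + 1, 6, by omega, fun K' =>
    ⟨(2 + (8 * l0 + 15) + 1) * K' + (8 + (8 * l0 + 60) + 1) + 5, ?_⟩⟩
  intro L C _ _ _ _ T hk D1 D2 n H A1 M1 A2 M2 j q F1 F2 G1 G2 hL hS hG _ _ a1 a2 m1 m2 f1 f2 g1 g2 h
  have hn := hS.1
  have hT := hG.ok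
  obtain ⟨n', hn'⟩ : ∃ n', n' = 2 * n + (8 * l0 + 15) := ⟨_, rfl⟩
  have b1 := lin_le_pow hn 8 (8 * l0 + 60)
  have b2 : n' ^ K' ≤ n ^ ((2 + (8 * l0 + 15) + 1) * K') := by
    rw [pow_mul, hn']; exact Nat.pow_le_pow_left (lin_le_pow hn _ _) _
  have b3 := b2.trans (pow_mono' hn (Nat.le_add_right _ (8 + (8 * l0 + 60) + 1)))
  have b4 := pow_mono' hn (Nat.le_add_left (8 + (8 * l0 + 60) + 1) ((2 + (8 * l0 + 15) + 1) * K'))
  have b5 := Nat.mul_le_mul_left (n ^ ((2 + (8 * l0 + 15) + 1) * K' + (8 + (8 * l0 + 60) + 1)))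
    (Nat.pow_le_pow_left hn 5)
  rw [← pow_add] at b5
  generalize n ^ ((2 + (8 * l0 + 15) + 1) * K' + (8 + (8 * l0 + 60) + 1) + 5) = b at *
  generalize n ^ (8 + (8 * l0 + 60) + 1) = a at *
  have up : ∀ {x y : ℕ}, x ≤ y → 2 ^ x ≤ 2 ^ y := Nat.pow_le_pow_right two_pos
  have cL : Fintype.card L ≤ 2 ^ (n + l0) :=
    (hL.trans Nat.lt_two_pow_self.le).trans (up (by omega))
  have w := hW L C T (n + l0) b j a (a + 8 * (n + l0) + 60) _ (hS.2.1.trans (up (by omega))) cL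
    (by omega) le_rfl (by omega) (GX.mono le_rfl 12 b _ _ _ (by omega) hG).good
    ((half_anti (by omega)).trans h)
  obtain ⟨C', _, _, T', ι, ψ, ψZ, r1, r2, r3, r4⟩ := hR 5 L C T hk (2 * (n + l0) + 3) b
    (n' ^ K' + 9) j _ _ (by omega) (hS.2.1.trans (up (by omega))) (cL.trans (up (by omega)))
    (Fin.monotone_iff_le_succ.2 fun x => by fin_cases x <;> simp; omega)
    (fun x => by fin_cases x <;> simp <;> omega) (by omega) (by omega)
    (GX.mono le_rfl _ b _ _ _ (by omega) hG) w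
  refine ⟨C', _, _, T', ι, _, n', 5 + 1, by omega, by omega, le_rfl, r1,
    GX.mono (by omega) _ _ _ _ _ (by omega) r2,
    ⟨by omega, ?_, (half_anti (by omega)).trans r4⟩, fun y hy => ⟨_, hy.1.1, ?_⟩,
    const_one (x0 := 2) hT r3 (by omega) ?_ (by decide) (by decide) a1 m1 f1 g1 (by omega)
      fun y hy => hy.1.2.1,
    const_one (x0 := 0) hT r3 (by omega) ?_ (by decide) (by decide) a2 m2 f2 g2 (by omega)
      fun y hy => hy.2.2.2⟩
  · refine (r1.card.trans (Nat.mul_le_mul_left _ hS.2.1)).trans ?_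
    rw [← pow_add]; exact up (by omega)
  · have := T.fib_pos j (fun _ => false) ![a, a, a, a] 1 (cv 0) (notMem_empty j) (by simp) _ _
      (T.fib_mp j _ _ c0 c1 (notMem_empty j) _ _ (r3.fib ∅ y (notMem_empty j) _ (cf_mem_fib y)))
    rw [pos_mp, show (fun x' => c0 x' + ∑ x, cv 0 x * c1 x x') = fun _ => 1 by decide] at this
    rw [r3.pos _ rfl]
    exact fib_cf this
  all_goals intro x; fin_cases x <;> simp [c1, c2, Fin.sum_univ_succ] <;> norm_num
end Crest.Agent.N49.Rm
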