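import Crest.Agent.N49.Rm.St
import Crest.Agent.N49.Rm.Pr

/-!
# Row 49 (helper72): CTR, fixing the centre by averaging
-/

set_option autoImplicit false
noncomputable section
open Finset

namespace Crest.Agent.N49.Rm
namespace Ct

variable {L C : Type} [Fintype L] [DecidableEq L] [Fintype C] [DecidableEq C] (T : TT L C) (j : L)

/-- the pure words of `j` -/
abbrev J := {c : T.Bl j // T.ty c.1 = {j}}

/-- extension by zero -/
def ze (ζ : J T j → ℤ) (c : C) : ℤ :=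
  if h : j ∈ T.ty c then (if k : T.ty c = {j} then ζ ⟨⟨c, h⟩, k⟩ else 0) else 0

/-- centre and rest against clone configuration and noise -/
def sw : (J T j → ℤ) × (T.CR j → ℤ) ≃ (T.CC j (Fin 1) → ℤ) × (J T j → ℤ) where
  toFun x := (T.rcw j (ze T j x.1) x.2, fun c => x.2 (.inr c.1))
  invFun x := (fun c => x.1 (.inl c.1.1), Sum.elim
    (fun c => if h : j ∈ T.ty c then x.1 (.inr (⟨c, h⟩, 0)) else x.1 (.inl c))
    fun c => if k : T.ty c.1 = {j} then x.2 ⟨c, k⟩ else x.1 (.inl c.1))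
  left_inv x := by
    refine Prod.ext (funext fun c => ?_) (funext fun c => ?_)
    · simp [TT.rcw, ze, c.2]
    · rcases c with c | c
      · by_cases h : j ∈ T.ty c <;> simp [TT.rcw, h]
      · by_cases k : T.ty c.1 = {j} <;> simp [TT.rcw, k, c.2]
  right_inv x := by
    refine Prod.ext (funext fun c => ?_) (funext fun c => ?_)
    · rcases c with c | ⟨c, i⟩
      · by_cases h : j ∈ T.ty c
        · by_cases k : T.ty c = {j} <;> simp [TT.rcw, ze, h, k]
        · simp [TT.rcw, h]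
      · simp [TT.rcw, c.2, Subsingleton.elim i 0]
    · simp [c.2]

variable {T j}

omit [Fintype L] [Fintype C] [DecidableEq C] in
theorem rc_congr (a : ℕ) {z z' : C → ℤ} (h : ∀ c, T.ty c = {j} → z c = z' c) :
    T.rc j a z = T.rc j a z' := by
  have : T.dn j z = T.dn j z' := by
    funext p v
    rcases v with c | l
    · by_cases k : T.ty c = {j} <;> simp [TT.dn, k, h c]
    · rfl
  simp only [TT.rc, this]

omit [Fintype L] [DecidableEq C] in
theorem wt_sw (h : T.Ok) (a : ℕ) (z : C → ℤ) (y : T.CR j → ℤ) :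
    Real.exp (-Real.pi * ∑ c : J T j, T.Φ (TT.cf z) c.1.1 ^ 2) * (T.rc j a z).wt y =
      (T.cl j (fun _ : Fin 1 => false) fun _ => a).wt (T.rcw j z y) *
        Real.exp (-Real.pi * ∑ c : J T j, (y (.inr c.1) : ℝ) ^ 2) := by
  have e0 : T.p0 j (TT.cf (T.rcw j z y)) = T.dn j z (TT.cf y) := by
    funext v
    rcases v with c | l
    · by_cases k : j ∈ T.ty c
      · by_cases k' : T.ty c = {j} <;> simp [TT.p0, TT.dn, TT.cf, TT.rcw, k, k']
      · simp [TT.p0, TT.dn, TT.cf, TT.rcw, k]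
    · simp [TT.p0, TT.dn, TT.cf]
  have e1 : ∀ x, T.px j (fun _ : Fin 1 => false) x (TT.cf (T.rcw j z y)) = T.up j (TT.cf y) := by
    intro x
    funext v
    rcases v with c | l
    · by_cases k : j ∈ T.ty c <;> simp [TT.px, TT.up, TT.cf, TT.rcw, k]
    · simp [TT.px, TT.up, TT.cf]
  have e2 : ∀ c, j ∉ T.ty c → T.Φ (T.up j (TT.cf y)) c = T.Φ (T.dn j z (TT.cf y)) c := fun c k => by
    rcases (T.ty c).eq_empty_or_nonempty with e | e
    · rw [h.dead c _ e, h.dead c _ e]; simp [TT.up, TT.dn, k]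
    refine (h.dat c e).1 _ _ fun v s _ => ?_
    rcases v with c' | l
    · have : j ∉ T.ty c' := fun m => k (s m)
      simp [TT.up, TT.dn, this]
    · have : l ≠ j := fun m => k (s (by simp [TT.tv, m]))
      simp [TT.up, TT.dn, this]
  have e3 : ∀ c : J T j, T.Φ (TT.cf z) c.1.1 = T.Φ (T.dn j z (TT.cf y)) c.1.1 := fun c => by
    refine (h.dat c.1.1 ⟨j, c.1.2⟩).1 _ _ fun v s n => ?_
    rw [c.2] at s
    rcases v with c' | l
    · have : T.ty c' = {j} := n.subset_singleton_iff.1 s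
      simp [TT.dn, TT.cf, this]
    · simp [TT.dn, TT.cf]
  have sp : ∀ f : C → ℝ, ∑ c, f c = ∑ c with j ∉ T.ty c, f c + ∑ c : T.Bl j, f c.1 := fun f => by
    rw [← sum_filter_add_sum_filter_not univ fun c => j ∉ T.ty c]
    congr 1
    exact sum_subtype _ (by simp) f
  have sj : ∀ f : T.Bl j → ℝ, ∑ c : J T j, f c.1 = ∑ c, if T.ty c.1 = {j} then f c else 0 :=
    fun f => by rw [← sum_filter]; exact (sum_subtype _ (by simp) f).symm
  rw [TT.wt, TT.wt, ← Real.exp_add, ← Real.exp_add, ← mul_add, ← mul_add]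
  congr 2
  simp only [Fintype.sum_sum_type, TT.rc, TT.cl, Sum.elim_inl, Sum.elim_inr, e0, e1, e3,
    Fintype.sum_prod_type, Fin.sum_univ_one]
  rw [sp, sp fun c => T.Φ (T.dn j z (TT.cf y)) c ^ 2, sj fun c => T.Φ (T.dn j z (TT.cf y)) c.1 ^ 2,
    sj fun c => (y (.inr c) : ℝ) ^ 2, sum_congr rfl (g := fun c => T.Φ (T.dn j z (TT.cf y)) c ^ 2)
      (s₂ := univ.filter fun c => j ∉ T.ty c) fun c k => by
        rw [if_neg (mem_filter.1 k).2, one_mul, e2 c (mem_filter.1 k).2]]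
  have : ∑ c : T.Bl j, (if T.ty c.1 = {j} then T.Φ (T.dn j z (TT.cf y)) c.1 ^ 2 else 0) +
      ∑ c : T.Bl j, (if T.ty c.1 = {j} then TT.cf (L := L) y (.inl (.inr c))
        else T.Φ (T.dn j z (TT.cf y)) c.1) ^ 2 = ∑ c : T.Bl j, T.Φ (T.dn j z (TT.cf y)) c.1 ^ 2 +
      ∑ c : T.Bl j, if T.ty c.1 = {j} then (y (.inr c) : ℝ) ^ 2 else 0 := by
    rw [← sum_add_distrib, ← sum_add_distrib]
    exact sum_congr rfl fun c _ => by split_ifs <;> simp [TT.cf]
  have e4 : ∑ c : T.Bl j, ((if j ∈ T.ty c.1 then (2 : ℝ) ^ a else 1) * T.Φ (T.up j (TT.cf y)) c.1) ^ 2 =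
      ∑ c : T.Bl j, (2 ^ a * T.Φ (T.up j (TT.cf y)) c.1) ^ 2 :=
    sum_congr rfl fun c _ => by rw [if_pos c.2]
  linarith

/-- the clone law is a mixture of recentred laws -/
theorem mix (h : T.Ok) (a : ℕ) (hc : (T.cl j (fun _ : Fin 1 => false) fun _ => a).Ok)
    (K : Set (T.CC j (Fin 1) → ℤ)) {r : ℝ}
    (k : ∀ z, ∑' y, {y | T.rcw j z y ∈ K}.indicator (T.rc j a z).wt y ≤ r * ∑' y, (T.rc j a z).wt y) :
    (T.cl j (fun _ : Fin 1 => false) fun _ => a).pr K ≤ r := by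
  obtain ⟨ν, hν⟩ : ∃ ν : (J T j → ℤ) → ℝ, ∀ x, ν x = Real.exp (-Real.pi * ∑ c, (x c : ℝ) ^ 2) :=
    ⟨_, fun _ => rfl⟩
  have ν0 : ∀ x, 0 < ν x := fun x => hν x ▸ Real.exp_pos _
  have sν : Summable ν := by
    convert Po.summable_gs (Matrix.PosDef.one (n := J T j) (R := ℝ)) 0 using 2 with x
    simp [hν, Po.gs, Po.qf, Po.zc, dotProduct, sq]
  have N0 : 0 < ∑' x, ν x := sν.tsum_pos (fun x => (ν0 x).le) 0 (ν0 0)
  have key : ∀ K : Set (T.CC j (Fin 1) → ℤ), HasSum (fun ζ : J T j → ℤ =>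
      Real.exp (-Real.pi * ∑ c : J T j, T.Φ (TT.cf (ze T j ζ)) c.1.1 ^ 2) *
        ∑' y, {y | T.rcw j (ze T j ζ) y ∈ K}.indicator (T.rc j a (ze T j ζ)).wt y)
      ((∑' w, K.indicator (T.cl j (fun _ : Fin 1 => false) fun _ => a).wt w) * ∑' x, ν x) := by
    intro K
    have s1 := hc.summable.indicator K
    have s2 := s1.mul_of_nonneg sν (fun w => Set.indicator_nonneg (fun _ _ => (TT.wt_pos _).le) w)
      fun x => (ν0 x).le
    have s3 := (sw T j).hasSum_iff.2 (s1.hasSum.mul sν.hasSum s2)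
    refine (congrArg (HasSum · _) (funext fun ζ => ?_)).mpr
      (s3.prod_fiberwise fun ζ => (s3.summable.prod_factor ζ).hasSum)
    rw [← tsum_mul_left]
    refine tsum_congr fun y => ?_
    by_cases m : T.rcw j (ze T j ζ) y ∈ K
    · rw [Set.indicator_of_mem (s := {y | T.rcw j (ze T j ζ) y ∈ K}) m, wt_sw h]
      simp only [Function.comp, sw, Equiv.coe_fn_mk, Set.indicator_of_mem m, hν]
    · rw [Set.indicator_of_notMem (s := {y | T.rcw j (ze T j ζ) y ∈ K}) m]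
      simp only [Function.comp, sw, Equiv.coe_fn_mk, Set.indicator_of_notMem m, mul_zero, zero_mul]
  have := hasSum_le (fun ζ => ?_) (key K) ((key Set.univ).mul_left r)
  · rw [Set.indicator_univ, ← mul_assoc] at this
    exact (div_le_iff₀ hc.Z_pos).2 (le_of_mul_le_mul_right this N0)
  · rw [mul_left_comm]
    refine mul_le_mul_of_nonneg_left ?_ (Real.exp_pos _).le
    simpa using k (ze T j ζ)

end Ct

/-- CTR for an arbitrary small exceptional set of centres -/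
theorem ctrB (hC : CLM) {L C : Type} [Fintype L] [DecidableEq L] [Fintype C] [DecidableEq C]
    {T : TT L C} {n b : ℕ} {j : L} {a : ℕ} {H : Set (T.CC j (Fin 1) → ℤ)} {Bad : Set (C → ℤ)}
    (cC : Fintype.card C ≤ 2 ^ n) (cL : Fintype.card L ≤ 2 ^ n) (ab : a ≤ b) (nb : 4 * n + 40 ≤ b)
    (hG : Good b 9 L C T) (b1 : T.pr Bad ≤ (1 / 2) ^ b) (ok : ∀ z ∉ Bad, (T.rc j a z).Ok)
    (hH : (1 / 2 : ℝ) ^ n ≤ (T.cl j (fun _ : Fin 1 => false) fun _ => a).pr H) :
    ∃ z ∉ Bad, (1 / 2 : ℝ) ^ (n + 1) ≤ (T.rc j a z).pr {y | T.rcw j z y ∈ H} := by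
  obtain ⟨B, hB⟩ : ∃ B : Set (C → ℤ), ∀ z, z ∈ B ↔ ∀ z', (∀ c, T.ty c = {j} → z c = z' c) →
    z' ∈ Bad := ⟨{z | _}, fun _ => Iff.rfl⟩
  have hc := (hG.2.2.1 j 1 (fun _ => false) (fun _ => a) (by norm_num) fun _ => ab).1
  have b0 : T.pr B ≤ T.pr Bad := hG.1.pr_mono fun z m => (hB z).1 m z fun _ _ => rfl
  have b2 := (abs_le.1 ((hC L C T n b (n + 3) j 1 (fun _ => false) (fun _ => a) B cC cL
    (by norm_num) (fun _ => ab) (by omega) hG).1 0 fun x k => (k rfl).elim)).2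
  by_contra c
  push Not at c
  have b3 := hc.pr_diff H {w | T.posZ j 1 0 w ∈ B}
  have b4 := Ct.mix hG.1 a hc (H \ {w | T.posZ j 1 0 w ∈ B}) (r := (1 / 2) ^ (n + 1)) fun z => by
    by_cases k : z ∈ B
    · refine ((tsum_congr fun y => Set.indicator_of_notMem (fun m => m.2 ?_) _).trans
        tsum_zero).trans_le (mul_nonneg (by positivity) (tsum_nonneg fun _ => (TT.wt_pos _).le))
      exact (hB _).2 fun z' e => (hB z).1 k z' fun c t => by
        rw [← e c t]; simp [TT.posZ, TT.rcw, t]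
    · simp only [hB, not_forall] at k
      obtain ⟨z', e, k⟩ := k
      have e' : T.rcw j z = T.rcw j z' := by
        funext y v
        rcases v with c | c
        · by_cases t : T.ty c = {j} <;> simp [TT.rcw, t, e c]
        · rfl
      rw [Ct.rc_congr a e, e']
      exact (div_le_iff₀ (ok z' k).Z_pos).1 (((ok z' k).pr_mono (fun y m => m.1 :
        {y | T.rcw j z' y ∈ H \ {w | T.posZ j 1 0 w ∈ B}} ⊆ {y | T.rcw j z' y ∈ H})).trans (c z' k).le)
  have b5 : (1 / 2 : ℝ) ^ b ≤ (1 / 2) ^ (n + 3) :=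
    pow_le_pow_of_le_one (by norm_num) (by norm_num) (by omega)
  have b6 : (0 : ℝ) < (1 / 2) ^ n := by positivity
  rw [pow_add] at b2 b4 b5
  linarith

theorem ctr (hM : MONO) (hC : CLM) : CTR := by
  intro L C _ _ _ _ T n b g j a H cC cL ab nb ng hG hH
  obtain ⟨g, rfl⟩ : ∃ g', g = g' + 1 := ⟨g - 1, by omega⟩
  obtain ⟨z, k, e⟩ := ctrB hC cC (cL.trans Nat.lt_two_pow_self.le) ab nb
    (hM _ _ _ _ _ _ T le_rfl (by omega) hG) (hG.2.2.2.2 j a ab) (fun z k => (not_not.1 k).1) hH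
  exact ⟨z, not_not.1 k, e⟩

end Crest.Agent.N49.Rm
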