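import Mathlib
/-! Row 49, block RMH/B (helper12): abstract pair inequality (positive-definite kernel). -/
set_option autoImplicit false
noncomputable section
namespace Crest.Agent.N49.Rm.Pc
open scoped ENNReal

variable {X G : Type*} [AddCommGroup G] {mv : X → G → X}

theorem tsum_mv (h0 : ∀ x, mv x 0 = x) (ha : ∀ x s t, mv (mv x s) t = mv x (s + t)) (u : G)
    (F : X → ℝ≥0∞) : ∑' x, F (mv x u) = ∑' x, F x :=
  (⟨fun x => mv x u, fun x => mv x (-u), fun x => by simp [ha, h0], fun x => by simp [ha, h0]⟩ :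
    X ≃ X).tsum_eq F

theorem two_mul_le (a b : ℝ≥0∞) : 2 * (a * b) ≤ a ^ 2 + b ^ 2 := by
  rcases eq_or_ne a ⊤ with rfl | ha
  · simp
  rcases eq_or_ne b ⊤ with rfl | hb
  · simp
  lift a to NNReal using ha
  lift b to NNReal using hb
  norm_cast
  rw [← NNReal.coe_le_coe]
  push_cast
  nlinarith [sq_nonneg ((a : ℝ) - b)]

/-- the square of the smoothed function -/
theorem sq_le (h0 : ∀ x, mv x 0 = x) (ha : ∀ x s t, mv (mv x s) t = mv x (s + t))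
    {f : X → ℝ≥0∞} {ν ρ : X → G → ℝ≥0∞} (hρ : ∀ x s, ρ (mv x s) = ρ x) {K : ℝ≥0∞}
    (hK : ∀ x s, f x ≠ 0 → ∑' u, ρ x u * ρ x (u + s) ≤ K * ν x s) :
    ∑' m, (∑' u, f (mv m u) * ρ m u) ^ 2 ≤ K * ∑' x, ∑' s, f x * f (mv x s) * ν x s := by
  have e : ∀ m, (∑' u, f (mv m u) * ρ m u) ^ 2 =
      ∑' u, ∑' s, f (mv m u) * f (mv (mv m u) s) * (ρ (mv m u) u * ρ (mv m u) (u + s)) := fun m => by
    rw [sq, ← ENNReal.tsum_mul_right]
    refine tsum_congr fun u => ?_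
    rw [← ENNReal.tsum_mul_left, ← (Equiv.addLeft u).tsum_eq]
    refine tsum_congr fun s => ?_
    simp only [Equiv.coe_addLeft, ha, hρ]
    ring
  simp only [e]
  rw [ENNReal.tsum_comm]
  have e2 : ∀ u, ∑' m, ∑' s, f (mv m u) * f (mv (mv m u) s) * (ρ (mv m u) u * ρ (mv m u) (u + s)) =
      ∑' x, ∑' s, f x * f (mv x s) * (ρ x u * ρ x (u + s)) := fun u =>
    tsum_mv h0 ha u fun x => ∑' s, f x * f (mv x s) * (ρ x u * ρ x (u + s))
  simp only [e2]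
  rw [ENNReal.tsum_comm, ← ENNReal.tsum_mul_left]
  refine ENNReal.tsum_le_tsum fun x => ?_
  rw [ENNReal.tsum_comm, ← ENNReal.tsum_mul_left]
  refine ENNReal.tsum_le_tsum fun s => ?_
  rw [ENNReal.tsum_mul_left]
  rcases eq_or_ne (f x) 0 with z | z
  · simp [z]
  · exact (mul_le_mul_right (hK x s z) _).trans_eq (by ring)

/-- the mean of the smoothed function -/
theorem mean_ge (h0 : ∀ x, mv x 0 = x) (ha : ∀ x s t, mv (mv x s) t = mv x (s + t))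
    {γ f : X → ℝ≥0∞} {ρ σ : X → G → ℝ≥0∞} (hρ : ∀ x s, ρ (mv x s) = ρ x)
    (ev : ∀ x u, ρ x (-u) = ρ x u) {k : ℝ≥0∞}
    (hγ : ∀ x u, 2 * (γ x * σ x u) ≤ γ (mv x u) + γ (mv x (-u)))
    (hk : ∀ x, k ≤ ∑' u, σ x u * ρ x u) :
    2 * (k * ∑' x, f x * γ x) ≤ 2 * ∑' m, γ m * ∑' u, f (mv m u) * ρ m u := by
  have e : ∑' m, γ m * ∑' u, f (mv m u) * ρ m u = ∑' x, f x * ∑' u, γ (mv x (-u)) * ρ x u := by
    simp only [← ENNReal.tsum_mul_left]
    rw [ENNReal.tsum_comm, ENNReal.tsum_comm (f := fun x u => f x * (γ (mv x (-u)) * ρ x u))]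
    refine tsum_congr fun u => ?_
    rw [← tsum_mv h0 ha u fun x => f x * (γ (mv x (-u)) * ρ x u)]
    refine tsum_congr fun m => ?_
    simp only [ha, hρ, add_neg_cancel, h0]
    ring
  rw [e]
  simp only [← ENNReal.tsum_mul_left (f := fun x => f x * _), ← mul_assoc]
  rw [← ENNReal.tsum_mul_left]
  refine ENNReal.tsum_le_tsum fun x => ?_
  have e2 : 2 * ∑' u, γ (mv x (-u)) * ρ x u = ∑' u, (γ (mv x u) + γ (mv x (-u))) * ρ x u := by
    simp only [add_mul]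
    rw [ENNReal.tsum_add, two_mul, ← (Equiv.neg G).tsum_eq fun u => γ (mv x u) * ρ x u]
    simp [ev]
  calc _ = f x * (2 * (γ x * k)) := by ring
    _ ≤ f x * (2 * (γ x * ∑' u, σ x u * ρ x u)) := by gcongr; exact hk x
    _ = f x * ∑' u, 2 * (γ x * σ x u) * ρ x u := by
      simp only [← ENNReal.tsum_mul_left, mul_assoc]
    _ ≤ f x * ∑' u, (γ (mv x u) + γ (mv x (-u))) * ρ x u := by gcongr with u; exact hγ x u
    _ = _ := by rw [← e2]; ring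

/-- symmetrisation -/
theorem symm_le (h0 : ∀ x, mv x 0 = x) (ha : ∀ x s t, mv (mv x s) t = mv x (s + t))
    {γ h : X → ℝ≥0∞} {ν : X → G → ℝ≥0∞} (hν : ∀ x s, ν (mv x s) = ν x)
    (ev : ∀ x u, ν x (-u) = ν x u) :
    2 * ∑' x, ∑' s, h x * γ x * (h (mv x s) * γ (mv x s)) * ν x s ≤
      2 * ∑' x, ∑' s, γ x ^ 2 * ν x s * (h x * h (mv x s)) := by
  have e : ∑' x, ∑' s, γ (mv x s) ^ 2 * ν x s * (h x * h (mv x s)) =
      ∑' x, ∑' s, γ x ^ 2 * ν x s * (h x * h (mv x s)) := by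
    rw [ENNReal.tsum_comm, ENNReal.tsum_comm (f := fun x s => γ x ^ 2 * ν x s * (h x * h (mv x s))),
      ← (Equiv.neg G).tsum_eq fun s => ∑' x, γ x ^ 2 * ν x s * (h x * h (mv x s))]
    refine tsum_congr fun s => ?_
    rw [← tsum_mv h0 ha s fun x => γ x ^ 2 * ν x (Equiv.neg G s) * (h x * h (mv x (Equiv.neg G s)))]
    refine tsum_congr fun x => ?_
    simp only [Equiv.neg_apply, ha, hν, ev, add_neg_cancel, h0]
    ring
  rw [two_mul (∑' x, ∑' s, γ x ^ 2 * ν x s * (h x * h (mv x s)))]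
  nth_rewrite 2 [← e]
  rw [← ENNReal.tsum_add, ← ENNReal.tsum_mul_left]
  refine ENNReal.tsum_le_tsum fun x => ?_
  rw [← ENNReal.tsum_add, ← ENNReal.tsum_mul_left]
  refine ENNReal.tsum_le_tsum fun s => ?_
  calc _ = 2 * (γ x * γ (mv x s)) * (ν x s * (h x * h (mv x s))) := by ring
    _ ≤ (γ x ^ 2 + γ (mv x s) ^ 2) * (ν x s * (h x * h (mv x s))) := by gcongr; exact two_mul_le _ _
    _ = _ := by ring

/-- **pair inequality** -/
theorem pair_core (h0 : ∀ x, mv x 0 = x) (ha : ∀ x s t, mv (mv x s) t = mv x (s + t))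
    {γ h : X → ℝ≥0∞} {ν ρ σ : X → G → ℝ≥0∞} (hν : ∀ x s, ν (mv x s) = ν x)
    (evν : ∀ x u, ν x (-u) = ν x u) (hρ : ∀ x s, ρ (mv x s) = ρ x) (ev : ∀ x u, ρ x (-u) = ρ x u)
    {K k : ℝ≥0∞} (hK : ∀ x s, h x ≠ 0 → ∑' u, ρ x u * ρ x (u + s) ≤ K * ν x s)
    (hγ : ∀ x u, 2 * (γ x * σ x u) ≤ γ (mv x u) + γ (mv x (-u)))
    (hk : ∀ x, k ≤ ∑' u, σ x u * ρ x u) (t : ℝ≥0∞) :
    2 * (t * (k * ∑' x, h x * γ x ^ 2)) ≤
      K * ∑' x, ∑' s, γ x ^ 2 * ν x s * (h x * h (mv x s)) + t ^ 2 * ∑' x, γ x ^ 2 := by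
  have a := sq_le h0 ha (f := fun x => h x * γ x) hρ (K := K) (ν := ν)
    fun x s z => hK x s (left_ne_zero_of_mul z)
  have b := mean_ge h0 ha (f := fun x => h x * γ x) hρ ev hγ hk
  have c := (ENNReal.mul_le_mul_iff_right two_ne_zero ENNReal.ofNat_ne_top).1
    (symm_le h0 ha (γ := γ) (h := h) hν evν)
  calc _ = t * (2 * (k * ∑' x, h x * γ x * γ x)) := by simp only [sq, mul_assoc]; ring
    _ ≤ t * (2 * ∑' m, γ m * ∑' u, h (mv m u) * γ (mv m u) * ρ m u) := by gcongr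
    _ = ∑' m, 2 * ((∑' u, h (mv m u) * γ (mv m u) * ρ m u) * (t * γ m)) := by
      rw [← ENNReal.tsum_mul_left, ← ENNReal.tsum_mul_left]
      exact tsum_congr fun m => by ring
    _ ≤ ∑' m, ((∑' u, h (mv m u) * γ (mv m u) * ρ m u) ^ 2 + (t * γ m) ^ 2) :=
      ENNReal.tsum_le_tsum fun m => two_mul_le _ _
    _ ≤ _ := by
      rw [ENNReal.tsum_add]
      refine add_le_add (a.trans (by gcongr)) (le_of_eq ?_)
      simp only [mul_pow, ENNReal.tsum_mul_left]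

end Crest.Agent.N49.Rm.Pc
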