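import Crest.Agent.N49.Rm.Fb
import Crest.Agent.N49.Rm.Pr
/-! Row 49, block RMH/B (helper12): the one-clone shape. -/
set_option autoImplicit false
set_option linter.unusedSectionVars false
noncomputable section
namespace Crest.Agent.N49.Rm
open Finset Matrix Po
open scoped ENNReal

namespace Pa
variable {L C : Type} [Fintype L] [DecidableEq L] [Fintype C] [DecidableEq C] (T : TT L C)
open TT

/-- move the block of `j` by `q s` -/
def mv (j : L) (q : ℕ) (x : C → ℤ) (s : T.Bl j → ℤ) : C → ℤ :=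
  T.jn j x (T.bl j x + (q : ℤ) • s)
/-- configurations of the one-clone shape -/
def E (j : L) : (C → ℤ) × (T.Bl j → ℤ) ≃ (T.CC j (Fin 1) → ℤ) where
  toFun x := Sum.elim x.1 fun cx => x.2 cx.1
  invFun w := (fun c => w (.inl c), fun c => w (.inr (c, 0)))
  left_inv x := rfl
  right_inv w := by
    funext v
    rcases v with c | ⟨c, i⟩
    · rfl
    · rw [Subsingleton.elim i 0]; rfl
abbrev Tc (j : L) (a : ℕ) := T.cl j (fun _ : Fin 1 => false) fun _ => a

variable {T} {j : L} {a q : ℕ}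
theorem mv_zero (x : C → ℤ) : mv T j q x 0 = x := by rw [mv, smul_zero, add_zero, jn_self]
theorem mv_add (x : C → ℤ) (s t : T.Bl j → ℤ) : mv T j q (mv T j q x s) t = mv T j q x (s + t) := by
  rw [mv, mv, mv, jn_jn, bl_jn, smul_add, add_assoc]
theorem Mm_mv (x : C → ℤ) (s : T.Bl j → ℤ) : T.Mm j (mv T j q x s) = T.Mm j x := Mm_jn _ _
theorem posZ_E (x : C → ℤ) (s : T.Bl j → ℤ) :
    T.posZ j 1 ![(q : ℤ)] (E T j (x, s)) = mv T j q x s := by
  funext c
  by_cases k : j ∈ T.ty c <;> simp [posZ, mv, jn, bl, k] <;> rfl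

theorem px_eq {x : C → ℤ} {p : T.CC j (Fin 1) ⊕ (L ⊕ Fin 1) → ℝ}
    (h1 : ∀ c, p (.inl (.inl c)) = x c) (h2 : ∀ ℓ, p (.inr (.inl ℓ)) = 1) (i : Fin 1) :
    T.px j (fun _ => false) i p = T.jr j (cf x) (fun c => p (.inl (.inr (c, i)))) 0 := by
  funext v
  rcases v with c | ℓ
  · by_cases k : j ∈ T.ty c <;> simp [px, jr, k, cf, h1]
  · by_cases k : ℓ = j <;> simp [px, jr, k, cf, h2]

theorem sq_px (h : T.Ok) {x : C → ℤ} {p : T.CC j (Fin 1) ⊕ (L ⊕ Fin 1) → ℝ}
    (h1 : ∀ c, p (.inl (.inl c)) = x c) (h2 : ∀ ℓ, p (.inr (.inl ℓ)) = 1) :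
    ∑ c : T.Bl j, (Tc T j a).Φ p (.inr (c, 0)) ^ 2 =
      qf (((4 : ℝ) ^ a) • T.Mm j x) fun c => p (.inl (.inr (c, 0))) := by
  have e := h.sum_sq j x (fun c => p (.inl (.inr (c, 0)))) 0
  rw [zero_smul, sub_zero] at e
  rw [qf_smul, ← e, mul_sum, ← px_eq h1 h2]
  refine sum_congr rfl fun c _ => ?_
  change (2 ^ a * _) ^ 2 = _
  rw [mul_pow, ← pow_mul, mul_comm a, pow_mul]
  norm_num

theorem wt_E (h : T.Ok) (x : C → ℤ) (s : T.Bl j → ℤ) :
    (Tc T j a).wt (E T j (x, s)) = T.wt x * gs (((4 : ℝ) ^ a) • T.Mm j x) (zc s) := by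
  have e := sq_px (a := a) h (x := x) (p := cf (E T j (x, s))) (fun _ => rfl) fun _ => rfl
  have e0 : T.p0 j (cf (E T j (x, s))) = cf x := by funext v; rcases v with c | ℓ <;> rfl
  rw [wt, Fintype.sum_sum_type, Fintype.sum_prod_type]
  simp only [Fin.sum_univ_one]
  rw [e, wt, gs, ← Real.exp_add]
  congr 1
  change -Real.pi * (∑ c, T.Φ (T.p0 j (cf (E T j (x, s)))) c ^ 2 + qf _ (zc s)) = _
  rw [e0]; ring

theorem pd (h : T.Ok) (x : C → ℤ) {t : ℝ} (ht : 0 < t) : (t • T.Mm j x).PosDef :=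
  (h.Mm_pd j x).smul ht

/-- uniqueness for the clone letter bounds the dual minimum of the narrow block -/
theorem dual (h : T.Ok) {w : T.CC j (Fin 1) → ℤ} {R : ℝ} (hR : 0 ≤ R)
    (u : (Tc T j a).UQ univ {.inr 0} w R) {m : T.Bl j → ℤ} (m0 : m ≠ 0) :
    R ^ 2 < Fintype.card (T.Bl j) *
      qf (((4 : ℝ) ^ a) • T.Mm j fun c => w (.inl c))⁻¹ (zc m) := by
  by_contra b
  push Not at b
  have hp := pd (j := j) h (fun c => w (.inl c)) (t := 4 ^ a) (by positivity)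
  have mem : ∀ c : T.Bl j, (Sum.inr 0 : L ⊕ Fin 1) ∈ (Tc T j a).tv (.inl (.inr (c, 0))) :=
    fun c => mem_insert_self _ _
  have := u (fun p => ∑ c : T.Bl j, (m c : ℝ) * p (.inl (.inr (c, 0))))
    ⟨⟨fun p p' b => sum_congr rfl fun c _ => by rw [b _ (subset_univ _) ⟨_, mem c⟩],
      fun ℓ l s t p p' _ => by
        rw [mem_singleton.1 l, mul_sum, mul_sum, ← sum_add_distrib]
        refine sum_congr rfl fun c _ => ?_
        rw [cmb, if_pos (mem c)]; ring⟩,
      fun p _ i => by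
        choose f hf using i
        exact ⟨∑ c : T.Bl j, m c * f (.inl (.inr (c, 0))), by simp [hf]⟩⟩
    (fun p f k => by
      have e := sq_px (a := a) h (x := fun c => w (.inl c)) (p := p)
        (fun c => f.1 (.inl c) (by simp [cl])) fun ℓ => by simpa using f.2 (.inl ℓ)
      have e2 : qf (((4 : ℝ) ^ a) • T.Mm j fun c => w (.inl c)) (fun c => p (.inl (.inr (c, 0)))) ≤
          Fintype.card (T.Bl j) := by
        rw [← e]
        refine (sum_le_card_nsmul _ _ 1 fun c _ => ?_).trans (by simp)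
        exact (sq_le_one_iff_abs_le_one _).2 (k _ (subset_univ _) (by simpa using mem c))
      have e3 := dual_sq_le hp (fun c => p (.inl (.inr (c, 0)))) (zc m)
      refine abs_le_of_sq_le_sq' ?_ hR |> abs_le.2
      refine e3.trans (le_trans ?_ b)
      rw [mul_comm]
      exact mul_le_mul_of_nonneg_right e2 (qf_nonneg hp.inv _))
  obtain ⟨c, hc⟩ := Function.ne_iff.1 m0
  have := this (Sum.elim (Sum.elim (fun c => (w (.inl c) : ℝ)) fun cx => (Pi.single c 1 : _ → ℝ) cx.1)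
    fun ℓ => if ℓ ∈ ({.inr 0} : Finset (L ⊕ Fin 1)) then 0 else 1) ⟨fun v d => ?_, fun _ => rfl⟩
  · simp only [Sum.elim_inl, Sum.elim_inr, Pi.single_apply, mul_ite, mul_one, mul_zero,
      sum_ite_eq', mem_univ, if_true] at this
    exact hc (by exact_mod_cast this)
  · rcases v with c' | ⟨c', i⟩
    · rfl
    · rw [Subsingleton.elim i 0] at d
      exact absurd (mem c') (disjoint_singleton_right.1 d)

/-- smooth narrow blocks -/
def Gd (T : TT L C) (j : L) (a : ℕ) : Set (C → ℤ) :=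
  {x | th ((4 * (4 : ℝ) ^ a) • T.Mm j x)⁻¹ 0 ≤ 9 / 8}

theorem gd_of (h : T.Ok) {n b : ℕ} (hC : Fintype.card C ≤ 2 ^ n) (hb : n + 3 ≤ b)
    {w : T.CC j (Fin 1) → ℤ} (u : (Tc T j a).UQ univ {.inr 0} w (2 ^ b)) :
    (fun c => w (.inl c)) ∈ Gd T j a := by
  have hp := pd (j := j) h (fun c => w (.inl c)) (t := 4 ^ a) (by positivity)
  have hp4 := pd (j := j) h (fun c => w (.inl c)) (t := 4 * 4 ^ a) (by positivity)
  have hd : (Fintype.card (T.Bl j) : ℝ) ≤ 2 ^ n := by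
    exact_mod_cast (Fintype.card_subtype_le _).trans hC
  have n1 : (1 : ℝ) ≤ 2 ^ n := one_le_pow₀ one_le_two
  have hb' : (8 : ℝ) * 2 ^ n ≤ 2 ^ b := by
    rw [show (8 : ℝ) * 2 ^ n = 2 ^ (n + 3) by ring]; exact pow_le_pow_right₀ one_le_two hb
  have s := th_short hp4.inv (R := 9 * 2 ^ n) fun m m0 => by
    have d := dual h (by positivity) u m0
    rw [mul_smul, inv_smul' hp four_ne_zero, qf_smul]
    have q0 := qf_nonneg hp.inv (zc m)
    have : (64 * 2 ^ n) * (2 : ℝ) ^ n < _ * 2 ^ n :=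
      ((by nlinarith : (64 * 2 ^ n) * (2 : ℝ) ^ n ≤ (2 ^ b) ^ 2).trans_lt d).trans_le
        ((mul_le_mul_of_nonneg_right hd q0).trans_eq (mul_comm _ _))
    have := lt_of_mul_lt_mul_right this (by positivity)
    linarith
  have z := bz_le (d := T.Bl j) (R := 9 * 2 ^ n) (L := 8) (by linarith) (by norm_num)
  have z2 : Real.exp (-8) ≤ 1 / 9 := by
    rw [Real.exp_neg, one_div]
    exact inv_anti₀ (by norm_num) (by linarith [Real.add_one_le_exp 8])
  have t0 := th_nonneg ((4 * (4 : ℝ) ^ a) • T.Mm j fun c => w (.inl c))⁻¹ 0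
  change th _ 0 ≤ 9 / 8
  nlinarith

theorem th4 (h : T.Ok) {x : C → ℤ} (g : x ∈ Gd T j a) (x0 : C → ℤ) (θ : T.Bl j → ℝ) :
    th ((4 * (4 : ℝ) ^ a) • T.Mm j x) θ ≤ 9 / 8 * dt ((4 * (4 : ℝ) ^ a) • T.Mm j x0) := by
  have hp4 := pd (j := j) h x (t := 4 * 4 ^ a) (by positivity)
  refine (th_le hp4 θ).trans ?_
  rw [th_dual hp4, dt_smul (by positivity) (T.Mm j x0), ← h.dt_eq j x x0,
    ← dt_smul (by positivity), mul_comm]
  exact mul_le_mul_of_nonneg_right g (dt_pos hp4).le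

theorem th1 (h : T.Ok) {x : C → ℤ} (g : x ∈ Gd T j a) (x0 : C → ℤ) :
    th (((4 : ℝ) ^ a) • T.Mm j x) 0 ≤ 9 / 8 * dt (((4 : ℝ) ^ a) • T.Mm j x0) := by
  have hp := pd (j := j) h x (t := 4 ^ a) (by positivity)
  have hp4 := pd (j := j) h x (t := 4 * 4 ^ a) (by positivity)
  rw [th_dual hp, dt_smul (by positivity) (T.Mm j x0), ← h.dt_eq j x x0,
    ← dt_smul (by positivity), mul_comm]
  refine mul_le_mul_of_nonneg_right ((th_mono hp4.inv hp.inv (fun v => ?_) 0).trans g) (dt_pos hp).le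
  rw [mul_smul, inv_smul' hp four_ne_zero, qf_smul]
  linarith [qf_nonneg hp.inv v]

theorem dt_le (h : T.Ok) (x x0 : C → ℤ) {t : ℝ} (ht : 0 < t) :
    dt (t • T.Mm j x0) ≤ th (t • T.Mm j x) 0 := by
  rw [dt_smul ht.le, ← h.dt_eq j x x0, ← dt_smul ht.le]
  exact dt_le_th (pd h x ht)

/-- mass of a cylinder in the one-clone shape -/
theorem mass (h : T.Ok) (hc : (Tc T j a).Ok) (B : Set (C → ℤ)) :
    HasSum (fun x => B.indicator T.wt x * th (((4 : ℝ) ^ a) • T.Mm j x) 0)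
      ((Tc T j a).pr {w | (fun c => w (.inl c)) ∈ B} * (Tc T j a).Z) := by
  have s := (hc.summable.indicator {w | (fun c => w (.inl c)) ∈ B}).hasSum
  rw [pr, show ∑' y, (Tc T j a).wt y = (Tc T j a).Z from rfl, div_mul_cancel₀ _ hc.Z_pos.ne']
  refine ((E T j).hasSum_iff.2 s).prod_fiberwise fun x => ?_
  have := (summable_gs (pd (j := j) h x (t := 4 ^ a) (by positivity)) 0).hasSum.mul_left
    (B.indicator T.wt x)
  refine this.congr_fun fun s => Eq.symm ?_
  change _ = Set.indicator _ _ (E T j (x, s))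
  by_cases k : x ∈ B
  · rw [Set.indicator_of_mem (a := E T j (x, s)) (by exact k), Set.indicator_of_mem k, wt_E h,
      sub_zero]
  · rw [Set.indicator_of_notMem (a := E T j (x, s)) (by exact k), Set.indicator_of_notMem k, zero_mul]

theorem has (h : T.Ok) (B : Set (C → ℤ)) : HasSum (B.indicator T.wt) (T.pr B * T.Z) := by
  rw [pr, show ∑' y, T.wt y = T.Z from rfl, div_mul_cancel₀ _ h.Z_pos.ne']
  exact (h.summable.indicator B).hasSum

theorem ind0 (B : Set (C → ℤ)) (x : C → ℤ) : 0 ≤ B.indicator T.wt x :=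
  Set.indicator_nonneg (fun y _ => (wt_pos y).le) x

end Pa
end Crest.Agent.N49.Rm
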