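import Crest.Agent.N49.Rm.St
import Crest.Agent.N49.Rm.Pd
import Crest.Agent.N49.Rm.Pc
/-! Row 49, block RMH/B (helper12): PAIR. -/
set_option autoImplicit false
set_option linter.unusedSectionVars false
noncomputable section
namespace Crest.Agent.N49.Rm
open Finset Matrix Po
open scoped ENNReal

namespace Pa
variable {L C : Type} [Fintype L] [DecidableEq L] [Fintype C] [DecidableEq C] {T : TT L C}
  {j : L} {a q : ℕ}
open TT

theorem ofr {ι : Type*} {f : ι → ℝ} {r : ℝ} (h : HasSum f r) (h0 : ∀ i, 0 ≤ f i) :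
    ∑' i, ENNReal.ofReal (f i) = ENNReal.ofReal r := by
  rw [← ENNReal.ofReal_tsum_of_nonneg h0 h.summable, h.tsum_eq]

theorem gs_par (M : Matrix (T.Bl j) (T.Bl j) ℝ) (A : ℝ) (u s : T.Bl j → ℤ) :
    gs ((2 * A) • M) (zc u) * gs ((2 * A) • M) (zc (u + s)) =
      gs (A • M) (zc s) * gs ((4 * A) • M) (zc u - -((2⁻¹ : ℝ) • zc s)) := by
  have e := qf_par M (zc u + zc s) (zc u)
  have e2 := qf_smul_right 2 M (zc u - -((2⁻¹ : ℝ) • zc s))
  rw [show (2 : ℝ) • (zc u - -((2⁻¹ : ℝ) • zc s)) = zc u + zc s + zc u by module] at e2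
  rw [add_sub_cancel_left] at e
  simp only [gs, qf_smul, ← Real.exp_add, zc_add]
  congr 1
  linear_combination (-Real.pi * A) * (e2 - e)

theorem wt_mid (h : T.Ok) (x : C → ℤ) (u : T.Bl j → ℤ) :
    2 * (√(T.wt x) * gs (((q : ℝ) ^ 2) • T.Mm j x) (zc u)) ≤
      √(T.wt (mv T j q x u)) + √(T.wt (mv T j q x (-u))) := by
  have z : ∀ v : T.Bl j → ℤ, zc ((q : ℤ) • v) = (q : ℝ) • zc v := fun v => by funext c; simp [zc]
  have g : gs (((q : ℝ) ^ 2) • T.Mm j x) (zc u) = gs (T.Mm j x) ((q : ℝ) • zc u) := by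
    rw [gs, gs, qf_smul, qf_smul_right]
  have m := gs_mid (T.Mm j x) (zc (T.bl j x) - T.ce j x) ((q : ℝ) • zc u)
  have e : T.wt (mv T j q x u) * T.wt (mv T j q x (-u)) =
      (T.wt x * gs (T.Mm j x) ((q : ℝ) • zc u)) ^ 2 := by
    rw [mv, mv, h.wt_jn, h.wt_jn, h.wt_bl j x, zc_add, zc_add, z, z, zc_neg, smul_neg,
      add_sub_right_comm, add_sub_right_comm, ← sub_eq_add_neg]
    linear_combination T.wr j x ^ 2 * m
  have g0 := gs_pos (T.Mm j x) ((q : ℝ) • zc u)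
  have g1 := gs_le_one (h.Mm_pd j x) ((q : ℝ) • zc u)
  have w0 := wt_pos (T := T) x
  have e2 : √(T.wt (mv T j q x u)) * √(T.wt (mv T j q x (-u))) =
      T.wt x * gs (T.Mm j x) ((q : ℝ) • zc u) := by
    rw [← Real.sqrt_mul (wt_pos _).le, e, Real.sqrt_sq (by positivity)]
  rw [g]
  refine (pow_le_pow_iff_left₀ (by positivity) (by positivity) two_ne_zero).1 ?_
  rw [mul_pow, mul_pow, Real.sq_sqrt w0.le]
  nlinarith [sq_nonneg (√(T.wt (mv T j q x u)) - √(T.wt (mv T j q x (-u)))),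
    mul_le_mul_of_nonneg_left g1 (mul_pos w0 g0).le]

theorem core (h : T.Ok) (hc : (Tc T j a).Ok) (hq : 1 ≤ q) (H : Set (C → ℤ)) (x0 : C → ℤ) {t : ℝ}
    (ht : 0 ≤ t) :
    2 * (t * (dt (((q : ℝ) ^ 2 + 2 * 4 ^ a) • T.Mm j x0) * (T.pr (H ∩ Gd T j a) * T.Z))) ≤
      9 / 8 * dt ((4 * (4 : ℝ) ^ a) • T.Mm j x0) * ((Tc T j a).pr
        {w | (fun c => w (.inl c)) ∈ H ∧ T.posZ j 1 ![(q : ℤ)] w ∈ H} * (Tc T j a).Z) +
        t ^ 2 * T.Z := by
  have q0 : (0 : ℝ) < q := by exact_mod_cast hq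
  have dk := dt_pos (pd (j := j) h x0 (t := (q : ℝ) ^ 2 + 2 * 4 ^ a) (by positivity))
  have dK := dt_pos (pd (j := j) h x0 (t := 4 * 4 ^ a) (by positivity))
  have c := Pc.pair_core (mv := mv T j q) mv_zero mv_add
    (γ := fun x => ENNReal.ofReal √(T.wt x)) (h := (H ∩ Gd T j a).indicator 1)
    (ν := fun x s => ENNReal.ofReal (gs (((4 : ℝ) ^ a) • T.Mm j x) (zc s)))
    (ρ := fun x s => ENNReal.ofReal (gs ((2 * (4 : ℝ) ^ a) • T.Mm j x) (zc s)))
    (σ := fun x s => ENNReal.ofReal (gs (((q : ℝ) ^ 2) • T.Mm j x) (zc s)))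
    (fun x s => by simp only [Mm_mv]) (fun x s => by simp only [zc_neg, gs_neg])
    (fun x s => by simp only [Mm_mv]) (fun x s => by simp only [zc_neg, gs_neg])
    (K := ENNReal.ofReal (9 / 8 * dt ((4 * (4 : ℝ) ^ a) • T.Mm j x0)))
    (k := ENNReal.ofReal (dt (((q : ℝ) ^ 2 + 2 * 4 ^ a) • T.Mm j x0)))
    (fun x s n => by
      have g : x ∈ Gd T j a := (Set.mem_of_indicator_ne_zero n).2
      simp only [← ENNReal.ofReal_mul (gs_pos _ _).le, gs_par]
      rw [ofr ((summable_gs (pd h x (by positivity)) _).hasSum.mul_left _)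
        (fun u => (mul_pos (gs_pos _ _) (gs_pos _ _)).le), ← ENNReal.ofReal_mul (by positivity),
        mul_comm]
      exact ENNReal.ofReal_le_ofReal (mul_le_mul_of_nonneg_right (th4 h g x0 _) (gs_pos _ _).le))
    (fun x u => by
      rw [← ENNReal.ofReal_mul (Real.sqrt_nonneg _), ← ENNReal.ofReal_add (Real.sqrt_nonneg _)
        (Real.sqrt_nonneg _), ← ENNReal.ofReal_ofNat, ← ENNReal.ofReal_mul (by norm_num)]
      exact ENNReal.ofReal_le_ofReal (wt_mid h x u))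
    (fun x => by
      simp only [← ENNReal.ofReal_mul (gs_pos _ _).le, ← gs_add_left, ← add_smul]
      have := ofr (summable_gs (pd (j := j) h x (t := (q : ℝ) ^ 2 + 2 * 4 ^ a) (by positivity))
        0).hasSum fun u => (gs_pos _ _).le
      simp only [sub_zero] at this
      rw [this]
      refine ENNReal.ofReal_le_ofReal ((dt_le h x x0 (by positivity)).trans_eq ?_)
      simp [th])
    (ENNReal.ofReal t)
  have sq : ∀ x, ENNReal.ofReal √(T.wt x) ^ 2 = ENNReal.ofReal (T.wt x) := fun x => by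
    rw [← ENNReal.ofReal_pow (Real.sqrt_nonneg _), Real.sq_sqrt (wt_pos x).le]
  simp only [sq] at c
  have e1 : ∑' x, (H ∩ Gd T j a).indicator 1 x * ENNReal.ofReal (T.wt x) =
      ENNReal.ofReal (T.pr (H ∩ Gd T j a) * T.Z) := by
    rw [← ofr (has h _) (ind0 _)]
    exact tsum_congr fun x => by by_cases k : x ∈ H ∩ Gd T j a <;> simp [k]
  have e2 : ∑' x, ENNReal.ofReal (T.wt x) = ENNReal.ofReal T.Z :=
    ofr h.summable.hasSum fun x => (wt_pos x).le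
  have e3 : ∑' x, ∑' s, ENNReal.ofReal (T.wt x) *
      ENNReal.ofReal (gs (((4 : ℝ) ^ a) • T.Mm j x) (zc s)) *
        ((H ∩ Gd T j a).indicator 1 x * (H ∩ Gd T j a).indicator 1 (mv T j q x s)) ≤
      ENNReal.ofReal ((Tc T j a).pr
        {w | (fun c => w (.inl c)) ∈ H ∧ T.posZ j 1 ![(q : ℤ)] w ∈ H} * (Tc T j a).Z) := by
    rw [← ofr (has hc _) (ind0 _), ← (E T j).tsum_eq, ENNReal.tsum_prod']
    refine ENNReal.tsum_le_tsum fun x => ENNReal.tsum_le_tsum fun s => ?_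
    by_cases k : x ∈ H ∩ Gd T j a
    · by_cases k' : mv T j q x s ∈ H ∩ Gd T j a
      · rw [Set.indicator_of_mem (a := E T j (x, s)) (by exact ⟨k.1, posZ_E x s ▸ k'.1⟩), wt_E h,
          ENNReal.ofReal_mul (wt_pos x).le]
        simp [k, k']
      · simp [k']
    · simp [k]
  rw [e1, e2] at c
  have c' := c.trans (add_le_add (mul_le_mul_right e3 _) le_rfl)
  have p1 := mul_nonneg (pr_nonneg (T := T) (H ∩ Gd T j a)) h.Z_pos.le
  have p2 := mul_nonneg (pr_nonneg (T := Tc T j a)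
    {w | (fun c => w (.inl c)) ∈ H ∧ T.posZ j 1 ![(q : ℤ)] w ∈ H}) hc.Z_pos.le
  have z0 := h.Z_pos
  rw [← ENNReal.ofReal_mul dk.le, ← ENNReal.ofReal_mul ht, ← ENNReal.ofReal_ofNat,
    ← ENNReal.ofReal_mul (by norm_num), ← ENNReal.ofReal_mul (by positivity),
    ← ENNReal.ofReal_pow ht, ← ENNReal.ofReal_mul (by positivity),
    ← ENNReal.ofReal_add (by positivity) (by positivity)] at c'
  exact (ENNReal.ofReal_le_ofReal_iff (by positivity)).1 c'

/-- the determinants -/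
theorem dt_rat {d : Type} [Fintype d] [DecidableEq d] (M : Matrix d d ℝ) {A Q : ℝ} (hA : 0 < A)
    (hQ : 0 ≤ Q) (hd : Fintype.card d * Q ≤ A) :
    dt ((4 * A) • M) * dt (A • M) ≤ 2 * dt ((Q + 2 * A) • M) ^ 2 := by
  rw [dt_smul (by positivity), dt_smul hA.le, dt_smul (by positivity), mul_mul_mul_comm, ← mul_pow,
    ← mul_inv, ← Real.sqrt_mul (by positivity), show 4 * A * A = (2 * A) ^ 2 by ring,
    Real.sqrt_sq (by positivity), mul_pow, ← pow_mul, mul_comm _ 2, pow_mul, inv_pow (√_),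
    Real.sq_sqrt (by positivity), ← sq, ← mul_assoc]
  refine mul_le_mul_of_nonneg_right ?_ (sq_nonneg _)
  have b := one_add_mul_le_pow (a := -(Q / (Q + 2 * A))) (by
    have : Q / (Q + 2 * A) ≤ 1 := div_le_one_of_le₀ (by linarith) (by positivity)
    linarith) (Fintype.card d)
  have e : (Q + 2 * A)⁻¹ = (2 * A)⁻¹ * (1 + -(Q / (Q + 2 * A))) := by field_simp; ring
  have f : Fintype.card d * (Q / (Q + 2 * A)) ≤ 1 / 2 := by
    rw [← mul_div_assoc, div_le_iff₀ (by positivity)]; linarith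
  rw [e, mul_pow]
  nlinarith [pow_pos (inv_pos.2 (mul_pos two_pos hA)) (Fintype.card d)]

theorem num {δ β p Z Zc S k K D P : ℝ} (δ0 : 0 < δ) (hβ : β ≤ δ / 64) (δ1 : δ ≤ 1) (Z0 : 0 < Z)
    (Zc0 : 0 < Zc) (k0 : 0 < k) (K0 : 0 < K) (D0 : 0 < D) (S0 : 0 ≤ S)
    (h1 : (1 - β) * Zc ≤ 9 / 8 * D * Z) (h2 : P * Z * D ≤ β * Zc) (hp : δ - P ≤ p)
    (hr : K * D ≤ 2 * k ^ 2)
    (hc : 2 * (k * δ / 2 * (k * (p * Z))) ≤ 9 / 8 * K * (S * Zc) + (k * δ / 2) ^ 2 * Z) :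
    δ ^ 2 / 4 ≤ S := by
  have a : Zc ≤ 8 / 7 * D * Z := by nlinarith [mul_pos D0 Z0]
  have b : P ≤ δ / 56 := by
    refine le_of_mul_le_mul_right ?_ (mul_pos Z0 D0)
    nlinarith [mul_le_mul hβ a Zc0.le (by positivity : 0 ≤ δ / 64)]
  have c : 9 / 8 * K * (S * Zc) ≤ 18 / 7 * S * (k ^ 2 * Z) := by
    have := mul_le_mul_of_nonneg_left a (mul_nonneg S0 K0.le)
    nlinarith [mul_le_mul_of_nonneg_left hr (mul_nonneg S0 Z0.le)]
  have d : δ * (55 / 56 * δ) * (k ^ 2 * Z) ≤ 2 * (k * δ / 2 * (k * (p * Z))) := by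
    nlinarith [mul_le_mul_of_nonneg_left (show 55 / 56 * δ ≤ p by linarith)
      (by positivity : 0 ≤ δ * (k ^ 2 * Z))]
  refine le_of_mul_le_mul_right ?_ (show 0 < k ^ 2 * Z by positivity)
  nlinarith [mul_pos (pow_pos δ0 2) (show 0 < k ^ 2 * Z by positivity)]

/-- pairs on the one-clone shape -/
theorem cl_pair (h : T.Ok) (hc : (Tc T j a).Ok) {n b : ℕ} (sm : (Tc T j a).SM b) {H : Set (C → ℤ)}
    (hH : Sz n T H) (hq : 1 ≤ q) (hq' : q ≤ 2 ^ n) (ha : 2 * n ≤ a) (hb : n + 6 ≤ b) :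
    (1 / 2 : ℝ) ^ (2 * n + 2) ≤
      (Tc T j a).pr {w | (fun c => w (.inl c)) ∈ H ∧ T.posZ j 1 ![(q : ℤ)] w ∈ H} := by
  have p1 := pd (j := j) h 0 (t := 4 ^ a) (by positivity)
  have q0 : (0 : ℝ) < q := by exact_mod_cast hq
  have dk := dt_pos (pd (j := j) h 0 (t := (q : ℝ) ^ 2 + 2 * 4 ^ a) (by positivity))
  have bad : (Tc T j a).pr {w | (fun c => w (.inl c)) ∈ (Gd T j a)ᶜ} ≤ (1 / 2) ^ b :=
    le_trans (hc.pr_mono fun w k u => k (gd_of h hH.2.1 (by omega) u)) (sm (.inr 0)).1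
  have h1 : (1 - (1 / 2) ^ b) * (Tc T j a).Z ≤ 9 / 8 * dt (((4 : ℝ) ^ a) • T.Mm j 0) * T.Z := by
    have := hc.pr_compl {w | (fun c => w (.inl c)) ∈ Gd T j a}
    refine (mul_le_mul_of_nonneg_right (show _ ≤ (Tc T j a).pr
      {w | (fun c => w (.inl c)) ∈ Gd T j a} by linarith [this.symm.trans_le bad])
      hc.Z_pos.le).trans (hasSum_le (fun x => ?_) (mass h hc _) (h.summable.hasSum.mul_left _))
    by_cases k : x ∈ Gd T j a
    · rw [Set.indicator_of_mem k, mul_comm]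
      exact mul_le_mul_of_nonneg_right (th1 h k 0) (wt_pos x).le
    · rw [Set.indicator_of_notMem k, zero_mul]
      exact (mul_pos (mul_pos (by norm_num) (dt_pos p1)) (wt_pos x)).le
  have h2 : T.pr (Gd T j a)ᶜ * T.Z * dt (((4 : ℝ) ^ a) • T.Mm j 0) ≤ (1 / 2) ^ b * (Tc T j a).Z :=
    (hasSum_le (fun x => mul_le_mul_of_nonneg_left (dt_le h x 0 (by positivity)) (ind0 _ x))
      ((has h _).mul_right _) (mass h hc _)).trans (mul_le_mul_of_nonneg_right bad hc.Z_pos.le)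
  have hr := dt_rat (T.Mm j 0) (A := 4 ^ a) (Q := (q : ℝ) ^ 2) (by positivity) (by positivity) (by
    have : Fintype.card (T.Bl j) * q ^ 2 ≤ 4 ^ a :=
      calc _ ≤ 2 ^ n * (2 ^ n) ^ 2 := by gcongr; exact (Fintype.card_subtype_le _).trans hH.2.1
        _ = 2 ^ (3 * n) := by ring
        _ ≤ 2 ^ (2 * a) := Nat.pow_le_pow_right two_pos (by omega)
        _ = 4 ^ a := by rw [pow_mul]; rfl
    exact_mod_cast this)
  have := num (δ := (1 / 2) ^ n) (by positivity) (by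
      rw [show (1 / 2 : ℝ) ^ n / 64 = (1 / 2) ^ (n + 6) by ring]
      exact pow_le_pow_of_le_one (by norm_num) (by norm_num) hb)
    (pow_le_one₀ (by norm_num) (by norm_num)) h.Z_pos hc.Z_pos dk
    (dt_pos (pd h 0 (by positivity))) (dt_pos p1) (pr_nonneg _) h1 h2
    ((sub_le_sub_right hH.2.2 _).trans (h.pr_inter H _)) hr (core h hc hq H 0 (by positivity))
  exact le_of_eq_of_le (by ring) this

end Pa

theorem pair (ctr : CTR) : PAIR := by
  intro L C _ _ _ _ T n b g j a q H hH hL hq hq' ha hab hb hg G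
  have c := G.2.2.1 j 1 (fun _ => false) (fun _ => a) (by norm_num) fun _ => hab
  obtain ⟨g, rfl⟩ : ∃ g', g = g' + 1 := ⟨g - 1, by omega⟩
  obtain ⟨z, z1, z2⟩ := ctr L C T (2 * n + 2) b (g + 1) j a _
    (hH.2.1.trans (Nat.pow_le_pow_right two_pos (by omega))) (by omega) hab (by omega) (by omega) G
    (Pa.cl_pair (q := q) G.1 c.1 c.2.1 hH hq hq' (by omega) (by omega))
  have o : (T.rc j a z).Ok := z1.1
  refine ⟨z, z1, z2.trans (o.pr_mono fun y k => ⟨⟨_, k.2, ?_⟩, ⟨_, k.1, ?_⟩⟩)⟩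
  · funext v
    rcases v with c | ℓ
    · by_cases e : j ∈ T.ty c
      · by_cases e' : T.ty c = {j} <;> simp [TT.rci, TT.dn, TT.cf, TT.posZ, TT.rcw, e, e']
      · simp [TT.rci, TT.cf, TT.posZ, TT.rcw, e]
    · rfl
  · funext v
    rcases v with c | ℓ
    · by_cases e : j ∈ T.ty c
      · by_cases e' : T.ty c = {j} <;> simp [TT.dn, TT.cf, TT.rcw, e, e']
      · simp [TT.dn, TT.cf, TT.rcw, e]
    · simp [TT.dn, TT.cf]
end Crest.Agent.N49.Rm
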