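import Crest.Agent.N49.Rm.Hk
import Crest.Agent.N49.Rm.Ctr
import Crest.Agent.N49.Rm.Pair

/-! Row 49 (helper72): CTRX, PAIRX -/

namespace Crest.Agent.N49.Rm

theorem ctrx (hC : CLM) : CTRX := fun _ _ _ _ _ _ _ _ _ _ _ _ _ cC cL ab nb hG b1 hH =>
  ctrB hC cC (cL.trans Nat.lt_two_pow_self.le) ab nb (mono _ _ _ _ _ _ _ le_rfl (by omega) hG) b1
    (fun _ _ => hG.ok_sm.1.rc _ _ _) hH

theorem pairx (hC : CLM) : PAIRX := by
  intro L C _ _ _ _ T n b j a q H Bad hH hL hq hq' ha hab hb G b1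
  have c := (G.2.2.1 j 1 (fun _ => false) (fun _ => a) (by norm_num) fun _ => hab).ok_sm
  obtain ⟨z, z1, z2⟩ := ctrB (n := 2 * n + 2) hC
    (hH.2.1.trans (Nat.pow_le_pow_right two_pos (by omega)))
    ((hL.trans (by omega)).trans Nat.lt_two_pow_self.le) hab (by omega)
    (mono _ _ _ _ _ _ _ le_rfl (by omega) G) b1 (fun _ _ => G.1.rc _ _ _)
    (Pa.cl_pair (q := q) G.1 c.1 c.2 hH hq hq' (by omega) (by omega))
  refine ⟨z, z1, z2.trans ((G.1.rc j a z).pr_mono fun y k => ⟨⟨_, k.2, ?_⟩, ⟨_, k.1, ?_⟩⟩)⟩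
  · funext v
    rcases v with c | ℓ
    · by_cases e : j ∈ T.ty c
      · by_cases e' : T.ty c = {j} <;> simp [TT.rci, TT.dn, TT.cf, TT.posZ, TT.rcw, e, e']
      · simp [TT.rci, TT.cf, TT.posZ, TT.rcw, e]
    · rfl
  · funext v
    rcases v with c | ℓ
    · by_cases e : j ∈ T.ty c
      · by_cases e' : T.ty c = {j} <;> simp [TT.dn, TT.cf, TT.rcw, e, e']
      · simp [TT.dn, TT.cf, TT.rcw, e]
    · simp [TT.dn, TT.cf]

end Crest.Agent.N49.Rm
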