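import Crest.Agent.N49.Rm.Op
import Crest.Agent.N49.Rm.Sol
import Crest.Agent.N49.Rm.Pr
import Crest.Agent.N49.Rm.St
/-! Row 49, block RMH (helper18): typed descent (two completions + uniqueness). -/
set_option autoImplicit false
set_option linter.unusedSectionVars false
noncomputable section
namespace Crest.Agent.N49.Rm
open Finset

namespace TT
variable {L C : Type} [Fintype L] [DecidableEq L] [Fintype C] [DecidableEq C] {T : TT L C}
  {A M : Finset L} {F I : Fm L C} {j : L} {y : C → ℤ} {q : ℕ} {B B' R κ : ℝ}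

/-- freeze the block of `j`: unmarked words as in `y`, marked words `0` -/
def zj (T : TT L C) (j : L) (M : Finset L) (y : C → ℤ) (p : C ⊕ L → ℝ) : C ⊕ L → ℝ := fun v =>
  if j ∈ T.tv v then Sum.elim (fun c => if Disjoint (T.ty c) M then (y c : ℝ) else 0) (fun _ => 1) v
  else p v

theorem zj_out {p : C ⊕ L → ℝ} {v : C ⊕ L} (k : j ∉ T.tv v) : T.zj j M y p v = p v := if_neg k

theorem zj_fib (hj : j ∉ M) {p : C ⊕ L → ℝ} (k : p ∈ T.Fib M y) : T.zj j M y p ∈ T.Fib M y := by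
  refine ⟨fun c d => ?_, fun ℓ => ?_⟩
  · by_cases m : j ∈ T.ty c
    · simp [zj, m, d]
    · exact (zj_out (v := .inl c) m).trans (k.1 c d)
  · by_cases m : j = ℓ
    · subst m; simp [zj, hj]
    · exact (zj_out (by simpa using m)).trans (k.2 ℓ)

theorem zj_int {p : C ⊕ L → ℝ} (k : IntP p) : IntP (T.zj j M y p) := by
  rintro (c | ℓ) <;> simp only [zj, Sum.elim_inl, Sum.elim_inr] <;> split_ifs
  exacts [⟨_, rfl⟩, ⟨0, by simp⟩, k _, ⟨1, by simp⟩, k _]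

theorem Dat.zj (hj : j ∉ M) (h : T.Dat A M I) : T.Dat (A.erase j) M fun p => I (T.zj j M y p) := by
  refine h.pb (fun v s n => ?_) fun ℓ m => ⟨ℓ, m, fun v => ?_⟩
  · by_cases k : j ∈ T.tv v
    · simp only [TT.zj, k, if_true]; exact ty_c _
    · simp only [TT.zj, k, if_false]; exact ty_co (subset_erase.2 ⟨s, k⟩) n
  · by_cases k : j ∈ T.tv v
    · simp only [TT.zj, k, if_true]
      refine ⟨fun e => ?_, fun _ => ind_c _⟩
      rcases v with c | x
      · rw [Sum.elim_inl, if_neg (show ¬ Disjoint (T.ty c) M from not_disjoint_iff.2 ⟨ℓ, e, m⟩)]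
        exact lin_0
      · exact absurd ((mem_singleton.1 k).trans (mem_singleton.1 e).symm ▸ m) hj
    · simp only [TT.zj, k, if_false]; exact ⟨fun e => lin_co e, fun e => ind_co e⟩

/-- an integer part that does not see the mixed words of `j` descends -/
theorem Ok.rel_erase (hT : T.Ok) (hj : j ∉ M) (hF : T.Ind j F) (a : T.IntF A M y I)
    (b : T.Sm A M y B fun p => F p - I p / q)
    (e : ∀ p ∈ T.Fib M y, ∀ p' ∈ T.Fib M y, (∀ v, j ∉ T.tv v → p v = p' v) → I p = I p') :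
    T.Rel (A.erase j) M y q B F := by
  refine ⟨fun p => I (T.zj j M y p), ⟨a.1.zj hj, fun p k i => a.2 _ (zj_fib hj k) (zj_int i)⟩,
    fun p k c => ?_⟩
  have o : ∀ v, j ∉ T.tv v → T.sol (Mx j M) p v = p v := fun v m =>
    sol_off p fun c z u => m (z ▸ u.1)
  have f : T.sol (Mx j M) p ∈ T.Fib M y := sol_fib (fun _ z => z.2) k
  have := hT.pj_sm (not_mx_empty j M) (fun _ z => z.2)
    (fun _ _ z s => ⟨s z.1, fun d => z.2 (d.mono_left s)⟩) b k fun d s n u =>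
      c d (subset_erase.2 ⟨s, fun m => u ⟨m, n⟩⟩) n
  simp only [Pj] at this
  rwa [hF _ _ o, e _ f _ (zj_fib hj k) fun v m => (o v m).trans (zj_out m).symm] at this

section cl
variable {ρ : Type} [Fintype ρ] [DecidableEq ρ] {pt : ρ → Bool} {a : ρ → ℕ} {w : T.CC j ρ → ℤ}
  {α0 β0 : ℤ} {α β : ρ → ℤ}

/-- spread the mixed words of `p` over the clones -/
def spr (T : TT L C) (j : L) (M : Finset L) (w : T.CC j ρ → ℤ) (v0 : ℝ) (v : ρ → ℝ)
    (p : C ⊕ L → ℝ) : T.CC j ρ ⊕ (L ⊕ ρ) → ℝ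
  | .inl (.inl c) => if Disjoint (T.ty c) M then w (.inl c) else
      if j ∈ T.ty c then v0 * p (.inl c) else p (.inl c)
  | .inl (.inr cx) => if Disjoint (T.ty cx.1.1) M then w (.inr cx) else v cx.2 * p (.inl cx.1.1)
  | .inr (.inl ℓ) => if ℓ ∈ M then 0 else 1
  | .inr (.inr _) => 1

theorem spr_fib (v0 : ℝ) (v : ρ → ℝ) (p : C ⊕ L → ℝ) (hj : j ∉ M) :
    T.spr j M w v0 v p ∈ (T.cl j pt a).Fib (M.image .inl) w := by
  refine ⟨?_, ?_⟩
  · rintro (c | cx) d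
    · exact if_pos (by simpa [disjoint_image Sum.inl_injective] using d)
    · refine if_pos (disjoint_left.2 fun ℓ m m' => ?_)
      exact not_disjoint_iff.2 ⟨.inl ℓ, by simpa using ⟨fun e => hj (e ▸ m'), m⟩, by simpa⟩ d
  · rintro (ℓ | x) <;> simp [spr]

theorem pos_spr (v0 : ℝ) (v : ρ → ℝ) (p : C ⊕ L → ℝ) {c : C} (d : ¬ Disjoint (T.ty c) M) :
    T.pos j pt α0 α (T.spr j M w v0 v p) (.inl c) =
      (if j ∈ T.ty c then α0 * v0 + ∑ x, α x * v x else 1) * p (.inl c) := by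
  by_cases k : j ∈ T.ty c
  · simp [pos, p0, px, spr, k, d, add_mul, sum_mul, mul_assoc]
  · simp [pos, p0, spr, k, d]

theorem fib_ex2 {p p' : C ⊕ L → ℝ} (k : p ∈ T.Fib M y) (k' : p' ∈ T.Fib M y)
    (e : ∀ c, ¬ Disjoint (T.ty c) M → p (.inl c) = p' (.inl c)) : p = p' := by
  funext v
  rcases v with c | ℓ
  · by_cases d : Disjoint (T.ty c) M
    · rw [k.1 c d, k'.1 c d]
    · exact e c d
  · rw [k.2, k'.2]

theorem IntF.pos (hj : j ∉ M) (hm : α0 + ∑ x with pt x, α x = 1)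
    (h : T.IntF A M (T.posZ j α0 α w) I) :
    (T.cl j pt a).IntF univ (M.image .inl) w fun p => I (T.pos j pt α0 α p) :=
  ⟨(h.1.pos j pt a α0 α hj).mono (subset_univ _) Subset.rfl,
    fun p k i => h.2 _ (T.fib_pos j pt a α0 α hj hm w p k) (T.intP_pos j pt α0 α i)⟩

theorem Sm.pos (hT : T.Ok) (hj : j ∉ M) (hm : α0 + ∑ x with pt x, α x = 1) (h1 : 1 ≤ κ)
    (hR : |(α0 : ℝ)| + ∑ x, |(α x : ℝ)| ≤ κ) (h : T.Sm A M (T.posZ j α0 α w) B F)
    (l : ∀ ℓ ∈ M, T.Lin ℓ F) :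
    (T.cl j pt a).Sm univ (M.image .inl) w (κ ^ #M * B) fun p => F (T.pos j pt α0 α p) :=
  fun p k c => h.cubeR hT l h1 (T.fib_pos j pt a α0 α hj hm w p k)
    (hT.cube_pos j pt a α0 α hj h1 hR (c.mono (subset_univ _)))

/-- **two completions + uniqueness**: the letter `j` drops out of the integer part -/
theorem Ok.desc (hT : T.Ok) (hj : j ∉ M) (hα : α0 + ∑ x with pt x, α x = 1)
    (hβ : β0 + ∑ x with pt x, β x = 1) (v0 : ℝ) (v : ρ → ℝ) (h1 : α0 * v0 + ∑ x, α x * v x = 1)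
    (h0 : β0 * v0 + ∑ x, β x * v x = 0) (k1 : 1 ≤ κ) (kα : |(α0 : ℝ)| + ∑ x, |(α x : ℝ)| ≤ κ)
    (kβ : |(β0 : ℝ)| + ∑ x, |(β x : ℝ)| ≤ κ) (hF : T.Ind j F) (l : ∀ ℓ ∈ M, T.Lin ℓ F)
    (u : (T.cl j pt a).UQ univ (M.image .inl) w R) (hq : 1 ≤ q)
    (hR : q * (κ ^ #M * B + κ ^ #M * B') ≤ R) (r : T.Rel A M (T.posZ j α0 α w) q B F)
    (r' : T.Rel A M (T.posZ j β0 β w) q B' F) : T.Rel (A.erase j) M (T.posZ j α0 α w) q B F := by
  obtain ⟨I, i, s⟩ := r
  obtain ⟨I', i', s'⟩ := r'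
  have e := u.eq (F := fun p => F (T.p0 j p)) (i.pos hj hα) (i'.pos hj hβ)
    ((s.pos (a := a) hT hj hα k1 kα fun ℓ m => (l ℓ m).sub ((i.1.2 ℓ m).div _)).congr
      fun p _ => by rw [hF.pos])
    ((s'.pos (a := a) hT hj hβ k1 kβ fun ℓ m => (l ℓ m).sub ((i'.1.2 ℓ m).div _)).congr
      fun p _ => by rw [hF.pos]) hq hR
  have f := fun p => spr_fib (T := T) (pt := pt) (a := a) (w := w) v0 v p hj
  have g : ∀ p ∈ T.Fib M (T.posZ j α0 α w), T.pos j pt α0 α (T.spr j M w v0 v p) = p := fun p k =>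
    fib_ex2 (T.fib_pos j pt a α0 α hj hα w _ (f p)) k fun c d => by rw [pos_spr _ _ _ d, h1]; simp
  refine hT.rel_erase hj hF i s fun p k p' k' o => ?_
  have e1 := e _ (f p)
  have e2 := e _ (f p')
  simp only [g p k, g p' k'] at e1 e2
  rw [e1, e2]
  refine congrArg I' (fib_ex2 (T.fib_pos j pt a β0 β hj hβ w _ (f p))
    (T.fib_pos j pt a β0 β hj hβ w _ (f p')) fun c d => ?_)
  rw [pos_spr _ _ _ d, pos_spr _ _ _ d, h0]
  split_ifs with m
  · simp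
  · rw [o (.inl c) m]
end cl
end TT

open TT

theorem Sz.mono {L C : Type} [Fintype L] [DecidableEq L] [Fintype C] [DecidableEq C] {T : TT L C}
    {H : Set (C → ℤ)} {n n' : ℕ} (h : Sz n T H) (e : n ≤ n') : Sz n' T H :=
  ⟨h.1.trans e, h.2.1.trans (Nat.pow_le_pow_right two_pos e),
    (pow_le_pow_of_le_one (by norm_num) (by norm_num) e).trans h.2.2⟩

theorem card_CC {L C : Type} [Fintype L] [DecidableEq L] [Fintype C] [DecidableEq C] (T : TT L C)
    (j : L) (r : ℕ) : Fintype.card (T.CC j (Fin r)) ≤ (r + 1) * Fintype.card C := by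
  have := Fintype.card_subtype_le fun c => j ∈ T.ty c
  simp only [Fintype.card_sum, Fintype.card_prod, Fintype.card_fin]
  nlinarith

/-- one letter -/
theorem desc_one (h0 : MONO) (h1 : CLM) (h2 : BOX) {l0 : ℕ} (h3 : UQS (l0 + 4)) : ∃ K : ℕ,
    ∀ (L C : Type) [Fintype L] [DecidableEq L] [Fintype C] [DecidableEq C] (T : TT L C) (D : Type)
    (n N b : ℕ) (H : Set (C → ℤ)) (A M : Finset L) (j : L) (q : ℕ) (F : D → Fm L C),
    Fintype.card L ≤ l0 → l0 ≤ N → n ≤ N → Sz N T H → G b T → (50 * N) ^ K ≤ b →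
    M.Nonempty → j ∉ M → (∀ d, T.Ind j (F d) ∧ ∀ ℓ ∈ M, T.Lin ℓ (F d)) → 1 ≤ q → q ≤ 2 ^ n →
    (∀ y ∈ H, ∀ d, T.Rel A M y q (2 ^ n) (F d)) →
    ∃ H' ⊆ H, Sz (6 * N) T H' ∧ ∀ y ∈ H', ∀ d, T.Rel (A.erase j) M y q (2 ^ n) (F d) := by
  obtain ⟨K, hK⟩ := h3
  refine ⟨K + 1, fun L C _ _ _ _ T D n N b H A M j q F hL hl hn hS hG hb hM hj hF hq hq' hr => ?_⟩
  have N2 := hS.1
  have hb' : 50 * N ≤ b := (Nat.le_self_pow (by omega) _).trans hb
  have hb2 : (N + 3 + (4 * N + 4)) ^ K < b :=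
    (Nat.pow_le_pow_left (by omega) K).trans_lt
      ((Nat.pow_lt_pow_right (by omega) K.lt_succ_self).trans_le hb)
  have hL2 : Fintype.card L ≤ 2 ^ N := (hL.trans hl).trans Nat.lt_two_pow_self.le
  have g13 := h0 b b b 13 L C T le_rfl (by omega) hG
  have hT : T.Ok := g13.1
  set a := 8 * N + 40 with ha
  have gb : Good b (b - 1 + 1) L C T := by rwa [Nat.sub_add_cancel (by omega)]
  have gS := gb.2.2.1 j 4 (fun _ => false) ![a, a, a, a] (by norm_num)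
    fun x => by fin_cases x <;> simp <;> omega
  have hR : (T.rect j a a).Ok := hT.cl j _ _
  have u := hK _ _ (T.rect j a a) (N + 3) (4 * N + 4) (M.image .inl) (by simpa using hL) (by omega)
    ((card_CC T j 4).trans (by have := hS.2.1; rw [pow_add]; omega))
    (h0 b _ (b - 1) _ _ _ _ hb2.le (by omega) gS) (hM.image _)
  have bx := h2 L C T N b j a a H hS hL2 le_rfl le_rfl (by omega)
    (h0 b b b 12 L C T le_rfl (by omega) hG)
  let E : Set (T.CC j (Fin 4) → ℤ) := {w | ∀ i, T.cor j i w ∈ H} ∩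
    {w | (T.rect j a a).UQ univ (M.image .inl) w (2 ^ (4 * N + 4))}
  have cm := (h1 L C T N b (4 * N + 4) j 4 (fun _ => false) ![a, a, a, a] (T.cor j 0 '' E) hS.2.1
    hL2 (by norm_num) (fun x => by fin_cases x <;> simp <;> omega) (by omega)
    (h0 b b b 9 L C T le_rfl (by omega) hG)).1 ![1, 0, 1, 0] fun x hx => ⟨rfl, by
      have : (2 : ℤ) ^ (2 * N + (4 * N + 4) + 10) ≤ 2 ^ a := pow_le_pow_right₀ one_le_two (by omega)
      fin_cases x <;> simp_all⟩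
  refine ⟨T.cor j 0 '' E, ?_, ⟨by omega, hS.2.1.trans (Nat.pow_le_pow_right two_pos (by omega)), ?_⟩,
    ?_⟩
  · rintro _ ⟨w, k, rfl⟩; exact k.1 0
  · have e1 : _ ≤ (T.rect j a a).pr E := hR.pr_inter {w | ∀ i, T.cor j i w ∈ H}
      {w | (T.rect j a a).UQ univ (M.image .inl) w (2 ^ (4 * N + 4))}
    have e2 : (T.rect j a a).pr E ≤ (T.rect j a a).pr
        {w | T.posZ j 1 ![1, 0, 1, 0] w ∈ T.cor j 0 '' E} := hR.pr_mono fun w k => ⟨w, k, rfl⟩
    have e3 : (1 / 2 : ℝ) ^ (6 * N) ≤ (1 / 2) ^ (4 * N + 3) :=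
      pow_le_pow_of_le_one (by norm_num) (by norm_num) (by omega)
    have e4 := (abs_le.1 cm).2
    have e5 : (T.rect j a a).pr {w | (T.rect j a a).UQ univ (M.image .inl) w (2 ^ (4 * N + 4))}ᶜ ≤
      (1 / 2) ^ (4 * N + 4) := u
    have e6 : (1 / 2 : ℝ) ^ (4 * N + 2) =
      (1 / 2) ^ (4 * N + 3) + (1 / 2) ^ (4 * N + 4) + (1 / 2) ^ (4 * N + 4) := by ring
    change (T.rect j a a).pr _ - _ ≤ _ at e4
    linarith
  · rintro _ ⟨w, k, rfl⟩ d
    refine hT.desc (pt := fun _ => false) (β0 := 1) (β := ![0, 1, 0, 1]) (κ := 3) hj (by simp)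
      (by simp) 0 ![1, 0, 0, 0] (by simp [Fin.sum_univ_four]) (by simp [Fin.sum_univ_four])
      (by norm_num) (by simp [Fin.sum_univ_four]; norm_num) (by simp [Fin.sum_univ_four]; norm_num)
      (hF d).1 (hF d).2 k.2 hq ?_ (hr _ (k.1 0) d) (hr _ (k.1 3) d)
    have a1 : (q : ℝ) ≤ 2 ^ N := by exact_mod_cast hq'.trans (Nat.pow_le_pow_right two_pos hn)
    have a2 : (2 : ℝ) ^ n ≤ 2 ^ N := pow_le_pow_right₀ one_le_two hn
    have a3 : (3 : ℝ) ^ #M ≤ 2 ^ N * 2 ^ N := by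
      rw [← mul_pow]
      exact (pow_le_pow_left₀ (by norm_num) (by norm_num) _).trans (pow_le_pow_right₀ (by norm_num)
        ((card_le_univ M).trans (hL.trans hl)))
    calc (q : ℝ) * (3 ^ #M * 2 ^ n + 3 ^ #M * 2 ^ n) ≤
        2 ^ N * (2 ^ N * 2 ^ N * 2 ^ N + 2 ^ N * 2 ^ N * 2 ^ N) := by gcongr
      _ ≤ 2 ^ (4 * N + 4) := by
        have : (0 : ℝ) < 2 ^ N * 2 ^ N * 2 ^ N * 2 ^ N := by positivity
        rw [show (2 : ℝ) ^ (4 * N + 4) = 16 * (2 ^ N * 2 ^ N * 2 ^ N * 2 ^ N) by ring]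
        linarith

theorem pow_num (E K n : ℕ) (hn : 2 ≤ n) : (E * n) ^ K ≤ n ^ ((E + 1) * K) := by
  rw [pow_mul, pow_succ]
  exact Nat.pow_le_pow_left (Nat.mul_le_mul_right n
    (Nat.lt_two_pow_self.le.trans (Nat.pow_le_pow_left hn E))) K

/-- DESC -/
theorem desc (h0 : MONO) (h1 : CLM) (h2 : BOX) {l0 : ℕ} (h3 : UQS (l0 + 4)) : DESC l0 := by
  obtain ⟨K, hK⟩ := desc_one h0 h1 h2 h3
  refine ⟨(50 * 6 ^ l0 * (l0 + 1) + 1) * (K + 1),
    fun L C _ _ _ _ T D _ n H A0 A M q F hL hS hG _ hM hA0 hA hF hq hq' hr => ?_⟩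
  set b := n ^ ((50 * 6 ^ l0 * (l0 + 1) + 1) * (K + 1))
  have n2 := hS.1
  have hb : ∀ k ≤ l0, (50 * (6 ^ k * (n + l0))) ^ (K + 1) ≤ b := fun k e =>
    (Nat.pow_le_pow_left (by
      have : 6 ^ k * (n + l0) ≤ 6 ^ l0 * ((l0 + 1) * n) :=
        Nat.mul_le_mul (Nat.pow_le_pow_right (by norm_num) e) (by nlinarith)
      linarith) _).trans (pow_num _ _ n n2)
  have p6 : ∀ k, n + l0 ≤ 6 ^ k * (n + l0) := fun k => Nat.le_mul_of_pos_left _ (by positivity)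
  have key : ∀ s : Finset L, Disjoint s A0 → ∃ H' ⊆ H, Sz (6 ^ #s * (n + l0)) T H' ∧
      ∀ y ∈ H', ∀ d, T.Rel (A \ s) M y q (2 ^ n) (F d) := by
    intro s
    induction s using Finset.induction_on with
    | empty => exact fun _ => ⟨H, le_rfl, hS.mono (by simp), by simpa using hr⟩
    | insert j s hj ih =>
      intro d
      obtain ⟨d1, d2⟩ := disjoint_insert_left.1 d
      obtain ⟨H1, s1, z1, r1⟩ := ih d2
      have := p6 #s
      obtain ⟨H2, s2, z2, r2⟩ := hK L C T D n _ b H1 _ M j q F hL (by omega) (by omega) z1 hG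
        ((Nat.pow_le_pow_right (by omega) K.le_succ).trans (hb _ ((card_le_univ s).trans hL))) hM
        (fun m => d1 (hA0 m)) (fun d => ⟨(hF d).1.ind d1, (hF d).2⟩) hq hq' r1
      refine ⟨H2, s2.trans s1, ?_, by simpa only [sdiff_insert] using r2⟩
      rwa [card_insert_of_notMem hj, pow_succ', mul_assoc]
  obtain ⟨H', s, z, r⟩ := key (A \ A0) sdiff_disjoint
  have e : 6 ^ #(A \ A0) * (n + l0) ≤ b := by
    have := (Nat.le_self_pow K.succ_ne_zero _).trans (hb _ ((card_le_univ (A \ A0)).trans hL))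
    omega
  refine ⟨H', s, (z.mono e).2.2, fun y k d => ?_⟩
  have := r y k d
  rw [Finset.sdiff_sdiff_eq_self hA] at this
  exact this.mono (pow_le_pow_right₀ one_le_two (by have := p6 #(A \ A0); omega))
end Crest.Agent.N49.Rm
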