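import Crest.Agent.N49.Rm.Sp
import Crest.Agent.N49.Rm.Desc
/-! Row 49, block RMH (helper17): descent to the corner `0` of the rectangle shape. -/
set_option autoImplicit false
set_option linter.unusedSectionVars false
noncomputable section
namespace Crest.Agent.N49.Rm
open Finset

variable {L C : Type} [Fintype L] [DecidableEq L] [Fintype C] [DecidableEq C]
namespace TT
variable {T : TT L C} {A M : Finset L} {j : L} {ρ : Type} [Fintype ρ] [DecidableEq ρ]
  {a : ρ → ℕ} {α : ρ → ℤ}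

/-- the shear of the letter `j` on points -/
def shP (T : TT L C) (j : L) (α : ρ → ℤ) (p : T.CC j ρ ⊕ (L ⊕ ρ) → ℝ) : T.CC j ρ ⊕ (L ⊕ ρ) → ℝ
  | .inl (.inl c) => T.pos j (fun _ => false) 1 α p (.inl c)
  | .inl (.inr cx) => p (.inl (.inr cx))
  | .inr ℓ => p (.inr ℓ)

theorem p0_shP (p) : T.p0 j (T.shP j α p) = T.pos j (fun _ => false) 1 α p := by
  funext v
  rcases v with c | ℓ
  · rfl
  · simp only [p0, shP, pos, px, tv_r, mem_singleton]
    split_ifs with h k <;> simp_all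

theorem px_shP (x : ρ) (p) :
    T.px j (fun _ => false) x (T.shP j α p) = T.px j (fun _ => false) x p := by
  funext v
  rcases v with c | ℓ
  · simp only [px, shP, pos, tv_l]
    split_ifs <;> rfl
  · rfl

theorem pos_shP (p) : T.pos j (fun _ => false) 1 α (T.shP j (-α) p) = T.p0 j p := by
  funext v
  simp only [pos, p0_shP, px_shP]
  split_ifs <;> simp

theorem shZ_inl (w : T.CC j ρ → ℤ) (c : C) : T.shZ j none α w (.inl c) = T.posZ j 1 α w c := by
  simp only [shZ, posZ]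
  by_cases h : j ∈ T.ty c <;> simp [h]

theorem shZ_inr (w : T.CC j ρ → ℤ) (cx) : T.shZ j none α w (.inr cx) = w (.inr cx) := by
  simp [shZ]

theorem shZ_neg (w : T.CC j ρ → ℤ) : T.shZ j none (-α) (T.shZ j none α w) = w := by
  funext v
  rcases v with c | cx
  · simp only [shZ_inl, posZ, shZ_inr]
    split_ifs <;> simp
  · simp only [shZ_inr]

theorem pb_shP {ℓ : L} (h : ℓ ≠ j) : (T.cl j (fun _ => false) a).Pb (T.cl j (fun _ => false) a)
    (T.shP j α) (.inl ℓ) (.inl ℓ) := by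
  rintro ((c | cx) | m)
  · have := T.pb_pos j (fun _ => false) a 1 α h (.inl c)
    exact ⟨fun k => this.1 (by simpa [cl] using k), fun k => this.2 fun e =>
      k (mem_image_of_mem _ e)⟩
  · exact ⟨fun k => lin_co k, fun k => ind_co k⟩
  · exact ⟨fun k => lin_co k, fun k => ind_co k⟩

theorem pt_shP : (T.cl j (fun _ => false) a).Pt (T.cl j (fun _ => false) a)
    (T.shP j α) (upA A ρ) (upA A ρ) := by
  rintro ((c | cx) | m) s n
  · exact T.pt_pos j (fun _ => false) a 1 α (A := A) (fun _ => inl_upA.2) (fun _ => inr_upA) (.inl c)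
      (fun ℓ k => inl_upA.1 (s (mem_image_of_mem _ k))) (image_nonempty.1 n)
  · exact ty_co s n
  · exact ty_co s n

/-- pull a relation back along the shear -/
theorem Rel.shP (hT : T.Ok) (hj : j ∉ M) {R B : ℝ} {q : ℕ} (h1 : 1 ≤ R)
    (hR : 1 + ∑ x, |(α x : ℝ)| ≤ R) {w : T.CC j ρ → ℤ} {G : Fm (L ⊕ ρ) (T.CC j ρ)}
    (h : (T.cl j (fun _ => false) a).Rel (upA A ρ) (M.image .inl) (T.shZ j none α w) q B G)
    (l : ∀ ℓ ∈ M.image .inl, (T.cl j (fun _ => false) a).Lin ℓ G) :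
    (T.cl j (fun _ => false) a).Rel (upA A ρ) (M.image .inl) w q (R ^ #M * B)
      fun p => G (T.shP j α p) := by
  rw [← card_image_of_injective M (Sum.inl_injective (β := ρ))]
  refine h.pb (hT.cl j _ a) l h1 pt_shP (fun _ m => ?_) (fun p i => ?_) (fun p hp => ?_)
    fun p hp k => ?_
  · obtain ⟨ℓ, k, rfl⟩ := mem_image.1 m
    exact ⟨_, m, pb_shP fun e => hj (e ▸ k)⟩
  · rintro ((c | cx) | m)
    exacts [T.intP_pos j _ 1 α i _, i _, i _]
  · refine ⟨?_, hp.2⟩
    rintro (c | cx) d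
    · rw [shZ_inl]
      exact (T.fib_pos j _ a 1 α hj (by simp) w p hp).1 c
        ((disjoint_image Sum.inl_injective).1 d)
    · rw [shZ_inr]; exact hp.1 _ d
  · rintro (c | cx) s d
    · rw [cl_Φ_l, p0_shP]
      exact hT.cube_pos j _ a 1 α hj h1 (by simpa using hR) k c
        (fun ℓ e => inl_upA.1 (s (mem_image_of_mem _ e)))
        fun e => d ((disjoint_image Sum.inl_injective).2 e)
    · rw [cl_Φ_r, px_shP]
      exact (k _ s d).trans h1
end TT

theorem wd_rect {a1 a2 : ℕ} (h : a1 ≤ a2) (x : Fin 4) :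
    a1 ≤ ![a1, a1, a2, a2] x ∧ ![a1, a1, a2, a2] x ≤ a2 := by
  fin_cases x <;> simp [h]

theorem cv0_le (x : Fin 4) : |TT.cv 0 x| ≤ 1 := by fin_cases x <;> simp [TT.cv]

theorem dsh (h0 : SHR) {l0 : ℕ} (h1 : DESC (l0 + 4)) : DSH l0 := by
  obtain ⟨K1, h1⟩ := h1
  refine ⟨(2 * l0 + 5) * K1 + 1 + (2 * l0 + 40), ?_⟩
  intro L C _ _ _ _ T D _ n A M j q a1 a2 F S hL hn hC ha1 ha2 hG hD hM hMA hj hF hq hq' hS hV
  set K := (2 * l0 + 5) * K1 + 1 + (2 * l0 + 40) with hK
  set N := n + 2 * l0 + 3 with hN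
  clear_value K N
  obtain ⟨P, hP⟩ : ∃ P, P = N ^ K1 := ⟨_, rfl⟩
  have hX : P ≤ n ^ ((2 * l0 + 5) * K1) := hP ▸
    (Nat.pow_le_pow_left (by nlinarith) _).trans (pow_num (2 * l0 + 4) K1 n hn)
  have hc : 2 * l0 + 40 ≤ n ^ (2 * l0 + 40) :=
    Nat.lt_two_pow_self.le.trans (Nat.pow_le_pow_left hn _)
  have big : 4 * n + 2 * l0 + 2 * P + 32 ≤ n ^ K := by
    have h1 : 1 ≤ n ^ ((2 * l0 + 5) * K1) := Nat.one_le_pow _ _ (by omega)
    rw [hK, pow_add, pow_add, pow_one]
    generalize n ^ ((2 * l0 + 5) * K1) = X at *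
    calc _ ≤ X * n * (2 * l0 + 40) := by nlinarith [Nat.mul_le_mul h1 hn]
      _ ≤ _ := Nat.mul_le_mul_left _ hc
  have hb' : n ^ K ≤ (n + a2) ^ K := Nat.pow_le_pow_left (by omega) _
  have hb : a2 ≤ (n + a2) ^ K := (Nat.le_add_left _ _).trans (Nat.le_self_pow (by omega) _)
  generalize (n + a2) ^ K = b at *
  generalize n ^ K = Y at *
  have hT : T.Ok := by
    obtain ⟨g, rfl⟩ : ∃ g, b = g + 1 := ⟨b - 1, by omega⟩
    exact hG.1
  have hR : (T.rect j a1 a2).Ok := hT.cl j _ _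
  have sh : ∀ (s : ℤ) (U : Set (T.CC j (Fin 4) → ℤ)), |s| = 1 →
      (T.rect j a1 a2).pr U - (1 / 2) ^ (P + n + 1) ≤
        (T.rect j a1 a2).pr {w | T.shZ j none (s • TT.cv 0) w ∈ U} := fun s U hs => by
    have := h0 L C T (n + l0) b (P + n + 1) j 4 ![a1, a1, a2, a2] none (s • TT.cv 0) U
      (hC.trans (Nat.pow_le_pow_right (by norm_num) (by omega)))
      (hL.trans (Nat.lt_two_pow_self.le.trans (Nat.pow_le_pow_right (by norm_num) (by omega))))
      (by norm_num) (fun x => (wd_rect ha2 x).2.trans hb) (by omega)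
      (mono _ _ _ _ _ _ _ le_rfl (by omega) hG) fun x hx => ⟨nofun, by
        have e : (2 : ℤ) ^ (2 * (n + l0) + 2 * (P + n + 1) + 20) ≤ 2 ^ ![a1, a1, a2, a2] x :=
          pow_le_pow_right₀ (by norm_num) (le_trans (by omega) (wd_rect ha2 x).1)
        rw [Option.elim_none, pow_zero, mul_one]
        refine (mul_le_of_le_one_left (by positivity) ?_).trans e
        rw [Pi.smul_apply, smul_eq_mul, abs_mul, hs, one_mul]
        exact cv0_le x⟩
    linarith [(abs_le.1 this).1]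
  have hf : ∀ a b : ℕ, a ≤ b → (1 / 2 : ℝ) ^ b ≤ (1 / 2) ^ a := fun a b e =>
    pow_le_pow_of_le_one (by norm_num) (by norm_num) e
  obtain ⟨H', sub, mass, rel⟩ := h1 _ _ (T.rect j a1 a2) D N
    {w | T.shZ j none ((-1 : ℤ) • TT.cv 0) w ∈ S} (A.image .inl) (TT.upA A (Fin 4)) (M.image .inl) q
    (fun d p => F d (T.p0 j p)) (by simpa using hL)
    ⟨by omega, (card_rect hC j).trans (Nat.pow_le_pow_right (by norm_num) (by omega)), by
      have := sh (-1) S (by simp)
      have := hf (n + 1) (P + n + 1) (by omega)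
      have := hf (n + 1) N (by omega)
      linarith [pow_succ (1 / 2 : ℝ) n]⟩
    (hG.rect (ha2.trans hb) hb (by omega) j) (by omega) (hM.image _) (image_subset_image hMA)
    subset_union_left (fun d => (hF d).p0 j _ _) hq
    (hq'.trans (Nat.pow_le_pow_right (by norm_num) (by omega))) fun w hw d => by
      have := TT.Rel.shP (R := 4) hT hj (by norm_num) (by simp [TT.cv, Fin.sum_univ_four]; norm_num)
        (hV _ hw d) ((hF d).pos j _ _ 1 (TT.cv 0) hj).2
      simp only [neg_smul, one_smul, TT.pos_shP] at this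
      refine this.mono ?_
      rw [hN, pow_add, pow_add, pow_mul, mul_comm]
      have : (4 : ℝ) ^ #M ≤ 4 ^ l0 := pow_le_pow_right₀ (by norm_num) ((card_le_univ M).trans hL)
      have : (0 : ℝ) < 2 ^ n := by positivity
      norm_num
      nlinarith [show (0 : ℝ) < 4 ^ l0 by positivity]
  rw [← hP] at mass rel
  have := sh 1 H' (by simp)
  refine le_trans ?_ (hR.pr_mono (H := {w | T.shZ j none ((1 : ℤ) • TT.cv 0) w ∈ H'}) fun w hw => ?_)
  · have := hf (P + 1) (P + n + 1) (by omega)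
    have := hf (P + 1) Y (by omega)
    linarith [pow_succ (1 / 2 : ℝ) P]
  · rw [Set.mem_setOf_eq, one_smul] at hw
    refine ⟨by simpa [TT.shZ_neg] using sub hw, fun d => ?_⟩
    refine (hT.rel_down (hF d).1 (fun c _ _ _ => ?_) (rel _ hw d)).mono
      (pow_le_pow_right₀ (by norm_num) (by omega))
    rw [TT.shZ_inl]; rfl
end Crest.Agent.N49.Rm
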