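import Crest.Agent.N49.Rm.Api
import Crest.Agent.N49.Iv.Il

/-! Row 49, block RMH (helper11): integer linear combinations of forms; algebra of step S3'. -/

set_option autoImplicit false
set_option linter.unusedSectionVars false
noncomputable section
namespace Crest.Agent.N49.Rm
open Finset Matrix Crest.Agent.N49.Iv.Il

variable {L C : Type} {a b c e : Type} [Fintype a] [Fintype b] [Fintype c] [Fintype e]

/-- integer matrix acting on a vector of forms -/
def lc (K : Matrix a b ℤ) (F : b → Fm L C) : a → Fm L C := fun x p => ∑ z, (K x z : ℝ) * F z p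

theorem lc_mul (K : Matrix a b ℤ) (K' : Matrix b c ℤ) (F : c → Fm L C) :
    lc (K * K') F = lc K (lc K' F) := by
  funext x p
  simp only [lc, mul_apply, Int.cast_sum, Int.cast_mul, sum_mul, mul_sum, mul_assoc]
  exact sum_comm
theorem lc_add (K K' : Matrix a b ℤ) (F : b → Fm L C) (x : a) (p : C ⊕ L → ℝ) :
    lc (K + K') F x p = lc K F x p + lc K' F x p := by
  simp only [lc, Matrix.add_apply, Int.cast_add, add_mul, sum_add_distrib]
theorem lc_sub (K K' : Matrix a b ℤ) (F : b → Fm L C) (x : a) (p : C ⊕ L → ℝ) :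
    lc (K - K') F x p = lc K F x p - lc K' F x p := by
  simp only [lc, Matrix.sub_apply, Int.cast_sub, sub_mul, sum_sub_distrib]
theorem lc_smul (m : ℤ) (K : Matrix a b ℤ) (F : b → Fm L C) (x : a) (p : C ⊕ L → ℝ) :
    lc (m • K) F x p = m * lc K F x p := by
  simp only [lc, Matrix.smul_apply, smul_eq_mul, Int.cast_mul, mul_sum, mul_assoc]
theorem lc_zero (F : b → Fm L C) (x : a) (p : C ⊕ L → ℝ) : lc (0 : Matrix a b ℤ) F x p = 0 := by
  simp [lc]
theorem lc_one [DecidableEq a] (F : a → Fm L C) : lc (1 : Matrix a a ℤ) F = F := by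
  funext x p
  simp [lc, one_apply]
theorem lc_add' (K : Matrix a b ℤ) (F G : b → Fm L C) (x : a) (p : C ⊕ L → ℝ) :
    lc K (fun z p => F z p + G z p) x p = lc K F x p + lc K G x p := by
  simp only [lc, mul_add, sum_add_distrib]
theorem lc_sub' (K : Matrix a b ℤ) (F G : b → Fm L C) (x : a) (p : C ⊕ L → ℝ) :
    lc K (fun z p => F z p - G z p) x p = lc K F x p - lc K G x p := by
  simp only [lc, mul_sub, sum_sub_distrib]
theorem lc_neg' (K : Matrix a b ℤ) (F : b → Fm L C) (x : a) (p : C ⊕ L → ℝ) :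
    lc K (fun z p => -F z p) x p = -lc K F x p := by
  simp only [lc, mul_neg, sum_neg_distrib]

theorem bm_t {n : ℕ} {K : Matrix a b ℤ} (h : Bm n K) : Bm n Kᵀ := fun i j => h j i
theorem bm_add {n : ℕ} {K K' : Matrix a b ℤ} (h : Bm n K) (h' : Bm n K') : Bm (n + 1) (K + K') :=
  fun i j => by
    rw [Matrix.add_apply, pow_succ]; linarith [abs_add_le (K i j) (K' i j), h i j, h' i j]
theorem bm_sub {n : ℕ} {K K' : Matrix a b ℤ} (h : Bm n K) (h' : Bm n K') : Bm (n + 1) (K - K') :=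
  fun i j => by
    rw [Matrix.sub_apply, pow_succ]; linarith [abs_sub (K i j) (K' i j), h i j, h' i j]

section
variable [Fintype L] [DecidableEq L] [Fintype C] [DecidableEq C] {T : TT L C} {A M : Finset L}
  {y : C → ℤ} {q : ℕ}

/-- all components are related to `0` with error `2^n` -/
def TT.VR (T : TT L C) (A M : Finset L) (y : C → ℤ) (q n : ℕ) (F : a → Fm L C) : Prop :=
  ∀ x, T.Rel A M y q (2 ^ n) (F x)

namespace TT.VR
variable {n m k : ℕ} {F G : a → Fm L C}
theorem mono (h : T.VR A M y q n F) (e : n ≤ m) : T.VR A M y q m F :=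
  fun x => (h x).mono (pow_le_pow_right₀ one_le_two e)
theorem congr (h : T.VR A M y q n F) (e : ∀ x, ∀ p ∈ T.Fib M y, G x p = F x p) :
    T.VR A M y q n G := fun x => (h x).congr (e x)
theorem add (h : T.VR A M y q n F) (h' : T.VR A M y q n G) :
    T.VR A M y q (n + 1) fun x p => F x p + G x p :=
  fun x => ((h x).add (h' x)).mono (by rw [pow_succ]; linarith)
theorem sub (h : T.VR A M y q n F) (h' : T.VR A M y q n G) :
    T.VR A M y q (n + 1) fun x p => F x p - G x p :=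
  fun x => ((h x).sub (h' x)).mono (by rw [pow_succ]; linarith)
theorem neg (h : T.VR A M y q n F) : T.VR A M y q n fun x p => -F x p := fun x => (h x).neg
theorem dvd {q' : ℕ} (h : T.VR A M y q n F) (e : q ∣ q') (hq : 1 ≤ q') : T.VR A M y q' n F :=
  fun x => (h x).dvd e hq
theorem lc (h : T.VR A M y q n F) {K : Matrix b a ℤ} (hK : Bm m K)
    (hk : Fintype.card a ≤ 2 ^ k) : T.VR A M y q (k + (m + n)) (lc K F) := fun x => by
  refine (Rel.sum univ fun z _ => (h z).zsmul (K x z)).mono ?_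
  refine (sum_le_card_nsmul _ _ ((2 : ℝ) ^ (m + n)) fun z _ => ?_).trans ?_
  · rw [pow_add]
    exact mul_le_mul_of_nonneg_right (by exact_mod_cast hK x z) (by positivity)
  · rw [nsmul_eq_mul, pow_add 2 k]
    exact mul_le_mul_of_nonneg_right (by exact_mod_cast hk) (by positivity)
theorem nmul (h : T.VR A M y q n F) {r : ℕ} (hr : r ≤ 2 ^ m) :
    T.VR A M y q (m + n) fun x p => r * F x p := fun x =>
  (((h x).zsmul r).mono (by
    rw [pow_add, Int.cast_natCast, Nat.abs_cast]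
    exact mul_le_mul_of_nonneg_right (by exact_mod_cast hr) (by positivity))).congr
    fun _ _ => by simp
/-- division -/
theorem of_nmul {r : ℕ} (h : T.VR A M y q n fun x p => r * F x p) (hr : 1 ≤ r) :
    T.VR A M y (q * r) n F := fun x =>
  (((h x).div r).mono (div_le_self (by positivity) (by exact_mod_cast hr))).congr fun p _ => by
    have : (r : ℝ) ≠ 0 := by positivity
    field_simp
end TT.VR
end

/-! ### the projector of S3' -/

/-- the three difference matrices -/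
def kh (k : Fin 4 → Matrix a e ℤ) : Fin 3 → Matrix a e ℤ := ![k 0 + k 1, k 0 + k 2, k 0 - k 3]
def kb (k : Fin 4 → Matrix a e ℤ) : Matrix a e ℤ := k 0 + k 1 + (k 2 + k 3)

theorem bm_kh {n : ℕ} {k : Fin 4 → Matrix a e ℤ} (h : ∀ l, Bm n (k l)) (l : Fin 3) :
    Bm (n + 1) (kh k l) := by
  fin_cases l
  exacts [bm_add (h 0) (h 1), bm_add (h 0) (h 2), bm_sub (h 0) (h 3)]
theorem bm_kb {n : ℕ} {k : Fin 4 → Matrix a e ℤ} (h : ∀ l, Bm n (k l)) : Bm (n + 2) (kb k) :=
  bm_add (bm_add (h 0) (h 1)) (bm_add (h 2) (h 3))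

theorem exP [DecidableEq a] {n : ℕ} (k : Fin 4 → Matrix a e ℤ) (W : Matrix e c ℤ)
    (hk : ∀ l, Bm n (k l)) (hW : Bm n W) (ha : Fintype.card a ≤ n) (he : Fintype.card e ≤ 2 ^ n)
    (hc : Fintype.card c ≤ 2 ^ n) :
    ∃ (m : ℕ) (P : Matrix a a ℤ) (Q : Fin 3 → Matrix c a ℤ), 1 ≤ m ∧ m ≤ 2 ^ (4 * n ^ 2 + n) ∧
      Bm (4 * n ^ 2 + 5 * n + 4) P ∧ (∀ l, Bm (4 * n ^ 2 + n) (Q l)) ∧
      (∀ l, P * (kh k l * W) = 0) ∧
      (m : ℤ) • (1 : Matrix a a ℤ) = P + (kh k 0 * W * Q 0 + kh k 1 * W * Q 1 + kh k 2 * W * Q 2) := by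
  let K : Matrix a (Fin 3 × c) ℤ := of fun x z => (kh k z.1 * W) x z.2
  have hK : Bm (n + (n + 1 + n)) K := fun x z => ((bm_kh hk z.1).mul hW he) x z.2
  obtain ⟨m, D, h1, h2, h3, h4⟩ := gi' hK (Or.inl ha)
  have e0 : n * n + (n + (n + 1 + n)) * n = 4 * n ^ 2 + n := by ring
  rw [e0] at h2 h3
  have hc' : Fintype.card (Fin 3 × c) ≤ 2 ^ (n + 2) := by
    rw [Fintype.card_prod, Fintype.card_fin, pow_add]; omega
  refine ⟨m, (m : ℤ) • 1 - K * D, fun l => of fun z x => D (l, z) x, h1, h2, ?_,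
    fun l z x => h3 (l, z) x, fun l => ?_, ?_⟩
  · have := ((hK.mul h3 hc').mono (m := 4 * n ^ 2 + 5 * n + 3) (by omega)).dia
      (q := m) (h2.trans (Nat.pow_le_pow_right (by norm_num) (by omega)))
    exact this
  · have : ((m : ℤ) • 1 - K * D) * K = 0 := by
      rw [Matrix.sub_mul, h4, Matrix.smul_mul, Matrix.one_mul, sub_self]
    ext x z
    exact congrFun (congrFun this x) (l, z)
  · have : K * D = kh k 0 * W * (of fun z x => D (0, z) x) + kh k 1 * W * (of fun z x => D (1, z) x) +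
        kh k 2 * W * (of fun z x => D (2, z) x) := by
      ext x x'
      simp only [Matrix.add_apply, mul_apply (M := K), Fintype.sum_prod_type, Fin.sum_univ_three]
      rfl
    rw [← this, sub_add_cancel]

section
variable [Fintype L] [DecidableEq L] [Fintype C] [DecidableEq C] {T : TT L C} {A M : Finset L}
  {y : C → ℤ} {q : ℕ} [DecidableEq a] {n g : ℕ} {k : Fin 4 → Matrix a e ℤ} {W : Matrix e c ℤ}
  {P : Matrix a a ℤ}

/-- S3', coefficient side: `± t l ~ s k l`, `(t 0 - t l) W ~ 0` give `(∑ ± t l) V ~ 0` whenever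
`P (∑ k l) V = 0` -/
theorem s3_t {m : ℕ} {Q : Fin 3 → Matrix c a ℤ} (hm : 1 ≤ m) (hk : ∀ l, Bm n (k l)) (hW : Bm n W)
    (hQ : ∀ l, Bm g (Q l)) (ha : Fintype.card a ≤ 2 ^ n) (he : Fintype.card e ≤ 2 ^ n)
    (hc : Fintype.card c ≤ 2 ^ n)
    (hP : (m : ℤ) • (1 : Matrix a a ℤ) =
      P + (kh k 0 * W * Q 0 + kh k 1 * W * Q 1 + kh k 2 * W * Q 2))
    {t : Fin 4 → e → Fm L C} {s : a → Fm L C}
    (h0 : T.VR A M y q n fun z p => t 0 z p - lc (k 0)ᵀ s z p)
    (h1 : T.VR A M y q n fun z p => -t 1 z p - lc (k 1)ᵀ s z p)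
    (h2 : T.VR A M y q n fun z p => -t 2 z p - lc (k 2)ᵀ s z p)
    (h3 : T.VR A M y q n fun z p => t 3 z p - lc (k 3)ᵀ s z p)
    (c1 : T.VR A M y q n fun z p => lc Wᵀ (t 0) z p - lc Wᵀ (t 1) z p)
    (c2 : T.VR A M y q n fun z p => lc Wᵀ (t 0) z p - lc Wᵀ (t 2) z p)
    (c3 : T.VR A M y q n fun z p => lc Wᵀ (t 0) z p - lc Wᵀ (t 3) z p)
    {V : Matrix e b ℤ} {v : ℕ} (hV : Bm v V) (hPV : P * kb k * V = 0) (hq : 1 ≤ q) :
    T.VR A M y (q * m) (7 * n + g + v + 7) fun z p =>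
      lc Vᵀ (t 0) z p - lc Vᵀ (t 1) z p - lc Vᵀ (t 2) z p + lc Vᵀ (t 3) z p := by
  have d : ∀ l, T.VR A M y q (3 * n + 2) (lc (kh k l * W)ᵀ s) := fun l => by
    rw [transpose_mul, lc_mul]
    fin_cases l
    · refine ((c1.mono (by omega)).sub ((h0.add h1).lc (bm_t hW) he)).mono (by omega) |>.congr
        fun x p _ => ?_
      simp only [kh, lc_add', lc_sub', lc_neg', Fin.zero_eta, cons_val_zero, transpose_add]
      rw [show lc ((k 0)ᵀ + (k 1)ᵀ) s = fun z p => lc (k 0)ᵀ s z p + lc (k 1)ᵀ s z p from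
        funext₂ (lc_add _ _ _), lc_add']; ring
    · refine ((c2.mono (by omega)).sub ((h0.add h2).lc (bm_t hW) he)).mono (by omega) |>.congr
        fun x p _ => ?_
      simp only [kh, lc_add', lc_sub', lc_neg', Fin.mk_one, cons_val_one, cons_val_zero,
        transpose_add]
      rw [show lc ((k 0)ᵀ + (k 2)ᵀ) s = fun z p => lc (k 0)ᵀ s z p + lc (k 2)ᵀ s z p from
        funext₂ (lc_add _ _ _), lc_add']; ring
    · refine ((c3.mono (by omega)).sub ((h0.sub h3).lc (bm_t hW) he)).mono (by omega) |>.congr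
        fun x p _ => ?_
      simp only [kh, lc_add', lc_sub', lc_neg', Fin.reduceFinMk, Matrix.cons_val, transpose_sub]
      rw [show lc ((k 0)ᵀ - (k 3)ᵀ) s = fun z p => lc (k 0)ᵀ s z p - lc (k 3)ᵀ s z p from
        funext₂ (lc_sub _ _ _), lc_sub']; ring
  have hR : ∀ l, Bm (n + (n + (g + (n + 2)) + v)) (Q l * kb k * V)ᵀ := fun l =>
    bm_t (((hQ l).mul (bm_kb hk) ha).mul hV he)
  have d' := fun l => (d l).lc (hR l) hc
  have e1 : (m : ℤ) • (kb k * V)ᵀ = (Q 0 * kb k * V)ᵀ * (kh k 0 * W)ᵀ +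
      (Q 1 * kb k * V)ᵀ * (kh k 1 * W)ᵀ + (Q 2 * kb k * V)ᵀ * (kh k 2 * W)ᵀ := by
    have := congrArg (fun X => (X * kb k * V)ᵀ) hP
    simp only [Matrix.smul_mul, Matrix.one_mul, Matrix.add_mul, hPV, zero_add, transpose_smul,
      transpose_add] at this
    rw [this]
    simp only [← transpose_mul, Matrix.mul_assoc]
  have d2 : T.VR A M y (q * m) (7 * n + g + v + 6) (lc (kb k * V)ᵀ s) := by
    refine TT.VR.of_nmul ((((d' 0).add (d' 1)).add ((d' 2).mono (Nat.le_succ _))).mono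
      (by omega) |>.congr fun x p _ => ?_) hm
    have := lc_smul (m : ℤ) (kb k * V)ᵀ s x p
    rw [e1, lc_add, lc_add, lc_mul, lc_mul, lc_mul] at this
    rw [this]; simp
  have d3 := (((h0.add h1).add (h2.add h3)).lc (bm_t hV) he).dvd (dvd_mul_right q m)
    (Nat.mul_pos hq hm)
  refine (d2.add (d3.mono (by omega))).congr fun x p _ => ?_
  simp only [kb, lc_add', lc_sub', lc_neg', Matrix.add_mul, transpose_add, transpose_mul, lc_add,
    lc_mul]
  ring

/-- S3', bracket side -/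
theorem s3_g [DecidableEq e] {m : ℕ} (hm : m ≤ 2 ^ n) (hk : ∀ l, Bm n (k l)) (hP : Bm g P)
    (ha : Fintype.card a ≤ 2 ^ n) (he : Fintype.card e ≤ 2 ^ n) (hb : Fintype.card b ≤ 2 ^ n)
    (hPK : ∀ l, P * (kh k l * W) = 0) {W' : Matrix c e ℤ} {D : Matrix e b ℤ} {B : Matrix b e ℤ}
    (hD : Bm n D) (hB : (m : ℤ) • (1 : Matrix e e ℤ) = W * W' + D * B)
    {γ : Fin 4 → e → Fm L C} {u : b → Fm L C}
    (h0 : T.VR A M y q n fun x p =>
      lc (k 0) (γ 0) x p + lc (k 1) (γ 1) x p + (lc (k 2) (γ 2) x p + lc (k 3) (γ 3) x p))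
    (h1 : T.VR A M y q n fun z p => γ 0 z p - γ 1 z p - γ 2 z p + γ 3 z p)
    (c1 : T.VR A M y q n fun z p => lc B (γ 1) z p - u z p)
    (c2 : T.VR A M y q n fun z p => lc B (γ 2) z p - u z p)
    (c3 : T.VR A M y q n fun z p => lc B (γ 3) z p - u z p) :
    T.VR A M y q (6 * n + g + 5) (lc (P * kb k * D) u) := by
  have e1 : ∀ l, (m : ℤ) • (P * kh k l) = P * kh k l * D * B := fun l => by
    have := congrArg (fun X => P * kh k l * X) hB
    simp only [Matrix.mul_smul, Matrix.mul_one, Matrix.mul_add] at this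
    rw [this, ← Matrix.mul_assoc, Matrix.mul_assoc P _ W, hPK, Matrix.zero_mul, zero_add,
      Matrix.mul_assoc (P * kh k l)]
  have hR : ∀ l, Bm (n + (n + (g + (n + 1)) + n)) (P * kh k l * D) := fun l =>
    (hP.mul (bm_kh hk l) ha).mul hD he
  have a0 := ((h0.lc hP ha).mono (m := 4 * n + g) (by omega)).sub
    ((h1.lc (hP.mul (hk 0) ha) he).mono (by omega))
  have a1 := (a0.nmul hm).mono (m := 6 * n + g + 3) (by omega)
  have a2 := (((c1.lc (hR 0) hb).add (c2.lc (hR 1) hb)).sub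
    ((c3.lc (hR 2) hb).mono (Nat.le_succ _))).mono (m := 6 * n + g + 3) (by omega)
  refine ((a1.sub a2).mono (by omega)).congr fun x p _ => ?_
  have f : ∀ l (G : e → Fm L C), lc (P * kh k l * D) (lc B G) x p = m * lc (P * kh k l) G x p :=
    fun l G => by rw [← lc_mul, ← e1, lc_smul]; simp
  have e2 : kb k = kh k 0 + kh k 1 - kh k 2 := by simp only [kb, kh, Matrix.cons_val]; abel
  simp only [lc_add', lc_sub', f]
  rw [e2]
  simp only [kh, Matrix.cons_val, Matrix.mul_add, Matrix.mul_sub, Matrix.add_mul, Matrix.sub_mul, lc_add,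
    lc_sub, ← lc_mul]
  ring
end

end Crest.Agent.N49.Rm
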