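import Crest.Agent.N49.Rm.St
import Crest.Agent.N49.Rm.Lc
/-! Row 49, block RMH: the private part (`PRIV`) and `FREE` with brackets (`FRB`). Owner helper30. -/
set_option autoImplicit false
noncomputable section
namespace Crest.Agent.N49.Rm
open Finset

/-- the family `G` is additive on the joint fibres of the `i`-quadruples of `H` -/
def TT.Ad {L C : Type} [Fintype L] [DecidableEq L] [Fintype C] [DecidableEq C] (T : TT L C)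
    (M : Finset L) (i : L) (H : Set (C → ℤ)) (G : (C → ℤ) → Fm L C) : Prop :=
  ∀ y1 ∈ H, ∀ y2 ∈ H, ∀ y3 ∈ H, ∀ y4 ∈ H, ∀ p1 ∈ T.Fib M y1, ∀ p2 ∈ T.Fib M y2, ∀ p3 ∈ T.Fib M y3,
    ∀ p4 ∈ T.Fib M y4, (∀ v, i ∉ T.tv v → p1 v = p2 v ∧ p1 v = p3 v ∧ p1 v = p4 v) →
      (∀ v, i ∈ T.tv v → p1 v + p4 v = p2 v + p3 v) → G y1 p1 + G y4 p4 = G y2 p2 + G y3 p3

/-- `FREE` with brackets: fixed integer relations `κ` between the frequencies `γ`, and the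
coefficients `Λ` of the brackets factor through `κ` -/
def FRB (l0 : ℕ) : Prop := ∃ K : ℕ, ∀ (L C : Type) [Fintype L] [DecidableEq L] [Fintype C]
  [DecidableEq C] (T : TT L C) (D E : Type) [Fintype D] [Fintype E] (n : ℕ) (H : Set (C → ℤ))
  (A M : Finset L) (i : L) (q : ℕ) (γ : E → Fm L C) (X : D → Fm L C) (Λ : D → E → Fm L C)
  (ω : (C → ℤ) → E → ℤ), Fintype.card L ≤ l0 → Sz n T H → G (n ^ K) T → Fintype.card D ≤ n →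
  Fintype.card E ≤ n → M.Nonempty → M ⊆ A → i ∈ A → i ∉ M → (∀ e, T.Dat (A \ M) {i} (γ e)) →
  (∀ d, T.Dat A (insert i M) (X d)) → (∀ d e, T.Dat (A.erase i) M (Λ d e)) → 1 ≤ q → q ≤ 2 ^ n →
  (∀ y ∈ H, (∀ e, |γ e (TT.cf y) - ω y e| ≤ 1 / 8) ∧
    ∀ d, T.Rel A M y q (2 ^ n) fun p => X d p + ∑ e, ω y e * Λ d e p) →
  ∃ (r : ℕ) (κ : Matrix (Fin r) E ℤ) (q' : ℕ), ∃ H' ⊆ H, r ≤ Fintype.card E ∧
    (∀ a e, |κ a e| ≤ 2 ^ n ^ K) ∧ 1 ≤ q' ∧ q' ≤ 2 ^ n ^ K ∧ (1 / 2 : ℝ) ^ n ^ K ≤ T.pr H' ∧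
    ∀ y ∈ H', T.VR (A \ M) {i} y 1 (n ^ K) (lc κ γ) ∧ ∃ s : D → Fin r → Fm L C,
      (∀ d a, T.Dat (A.erase i) M (s d a)) ∧
        ∀ d, T.VR (A.erase i) M y q' (n ^ K) fun e p => Λ d e p - ∑ a, κ a e * s d a p
end Crest.Agent.N49.Rm
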