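import Crest.Agent.N49.Rm.Dn
import Crest.Agent.N49.Rm.Op
import Crest.Agent.N49.Rm.Mono

/-! Row 49, block RMH (helper11): step S3' on one rectangle and after descent. -/

set_option autoImplicit false
set_option linter.unusedSectionVars false
noncomputable section
namespace Crest.Agent.N49.Rm
open Finset Matrix Crest.Agent.N49.Iv.Il

variable {L C : Type} [Fintype L] [DecidableEq L] [Fintype C] [DecidableEq C] {T : TT L C}
  {A M : Finset L} {j : L} {a1 a2 q n : ℕ}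

namespace TT
/-- corner `l` of a point of the rectangle shape -/
abbrev cq (T : TT L C) (j : L) (l : Fin 4) (p : T.CC j (Fin 4) ⊕ (L ⊕ Fin 4) → ℝ) : C ⊕ L → ℝ :=
  T.pos j (fun _ => false) 1 (cv l) p

theorem cor_out (l : Fin 4) (w : T.CC j (Fin 4) → ℤ) {c : C} (h : j ∉ T.ty c) :
    T.cor j l w c = w (.inl c) := dif_neg h

theorem Ty.cq {F : Fm L C} (h : T.Ty (A.erase j) F) (l : Fin 4) (p) :
    F (T.cq j l p) = F (T.p0 j p) :=
  h _ _ fun _ hv _ => if_neg fun k => notMem_erase j A (hv k)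

theorem VR.cq {x : Type} [Fintype x] (hT : T.Ok) (hj : j ∉ M) (hM : #M ≤ n) {m : ℕ} (l : Fin 4)
    {w : T.CC j (Fin 4) → ℤ} {F : x → Fm L C} (h : T.VR A M (T.cor j l w) q m F)
    (hF : ∀ z, ∀ ℓ ∈ M, T.Lin ℓ (F z)) :
    (T.rect j a1 a2).VR (upA A (Fin 4)) (M.image .inl) w q (2 * n + m) fun z p => F z (T.cq j l p) :=
  fun z => (Rel.pos (R := 4) j (fun _ => false) ![a1, a1, a2, a2] 1 (cv l) hT hj (by simp) (by norm_num)
    (by fin_cases l <;> simp [cv, Fin.sum_univ_four] <;> norm_num) (h z) (hF z)).mono (by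
      rw [pow_add, pow_mul]
      refine mul_le_mul_of_nonneg_right ?_ (by positivity)
      norm_num
      exact pow_le_pow_right₀ (by norm_num) hM)
end TT

theorem TT.Dat.lc {x z : Type} [Fintype x] [Fintype z] {F : z → Fm L C} (h : ∀ e, T.Dat A M (F e))
    (K : Matrix x z ℤ) (e : x) : T.Dat A M (lc K F e) :=
  TT.Dat.sum univ fun e' _ => (h e').smul _

theorem Good.rect {b b' : ℕ} (h : G b T) (h1 : a1 ≤ b) (h2 : a2 ≤ b) (e : b' < b) (j : L) :
    G b' (T.rect j a1 a2) := by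
  obtain ⟨g, rfl⟩ : ∃ g, b = g + 1 := ⟨b - 1, by omega⟩
  exact mono _ _ _ _ _ _ _ (by omega) (by omega)
    (h.2.2.1 j 4 _ _ (by norm_num) fun x => by fin_cases x <;> assumption)

theorem card_rect (h : Fintype.card C ≤ 2 ^ n) (j : L) :
    Fintype.card (T.CC j (Fin 4)) ≤ 2 ^ (n + 3) := by
  have : Fintype.card (T.Bl j) ≤ Fintype.card C := Fintype.card_subtype_le _
  simp only [Fintype.card_sum, Fintype.card_prod, Fintype.card_fin, pow_add]
  omega

theorem pw1 {n c : ℕ} (hn : 2 ≤ n) : 2 ^ c * n ^ 2 ≤ n ^ (c + 2) := by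
  rw [pow_add]; exact Nat.mul_le_mul_right _ (Nat.pow_le_pow_left hn c)

/-- S3': the relations on many rectangles and the constant classes give a fixed matrix `u` with
`u γ ~ 0` pointwise and `t V` respected whenever `u V = 0` -/
theorem s3_core {l0 : ℕ} (hD : DESC (l0 + 4)) : ∃ K : ℕ, ∀ (L C : Type) [Fintype L] [DecidableEq L]
    [Fintype C] [DecidableEq C] (T : TT L C) (D a e c b : Type) [Fintype a] [Fintype e] [Fintype c]
    [Fintype b] [DecidableEq e] (n β : ℕ) (A1 M A2 M2 : Finset L) (j : L) (a1 a2 q m : ℕ)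
    (t : D → e → Fm L C) (γ : e → Fm L C) (τ : D → c → Fm L C) (g : b → Fm L C)
    (k : Fin 4 → Matrix a e ℤ) (W : Matrix e c ℤ) (W' : Matrix c e ℤ) (E : Matrix e b ℤ)
    (B : Matrix b e ℤ) (Ω : Set (T.CC j (Fin 4) → ℤ)),
    Fintype.card L ≤ l0 → Fintype.card L ≤ n → 2 ≤ n → Fintype.card C ≤ 2 ^ n → G β T →
    n ^ K ≤ β → a1 ≤ β → a2 ≤ β → Fintype.card a ≤ n → Fintype.card e ≤ n → Fintype.card c ≤ n →
    Fintype.card b ≤ n → j ∉ M → j ∉ M2 → M2.Nonempty → M2 ⊆ A2 → 1 ≤ q → q ≤ 2 ^ n → 1 ≤ m →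
    m ≤ 2 ^ n → (∀ l, Bm n (k l)) → Bm n W → Bm n E → Bm n B →
    (m : ℤ) • (1 : Matrix e e ℤ) = W * W' + E * B →
    (∀ d z, T.Dat A1 M (t d z)) → (∀ z, T.Dat A2 M2 (γ z)) →
    (∀ d z, T.Dat (A1.erase j) M (τ d z)) → (∀ z, T.Dat (A2.erase j) M2 (g z)) →
    (1 / 2 : ℝ) ^ n ≤ (T.rect j a1 a2).pr Ω →
    (∀ w ∈ Ω, (∀ d, ∃ s : a → Fm _ _, ∀ l : Fin 4,
        (T.rect j a1 a2).VR (TT.upA A1 (Fin 4)) (M.image .inl) w q n fun z p =>
          (![1, -1, -1, 1] l : ℝ) * t d z (T.cq j l p) - lc (k l)ᵀ s z p) ∧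
      ((T.rect j a1 a2).VR (TT.upA A2 (Fin 4)) (M2.image .inl) w q n fun x p =>
        ∑ l, lc (k l) γ x (T.cq j l p)) ∧
      (∀ z, T.RR A2 M2 j a1 a2 w q (2 ^ n) fun _ => γ z) ∧
      ∀ l, (∀ d, T.VR A1 M (T.cor j l w) q n fun z p => lc Wᵀ (t d) z p - τ d z p) ∧
        T.VR A2 M2 (T.cor j l w) q n fun z p => lc B γ z p - g z p) →
    ∃ (u : Matrix a e ℤ) (q' : ℕ), Bm (n ^ K) u ∧ 1 ≤ q' ∧ q' ≤ 2 ^ n ^ K ∧ q ∣ q' ∧ ∃ Ω' ⊆ Ω,
      (1 / 2 : ℝ) ^ n ^ K ≤ (T.rect j a1 a2).pr Ω' ∧ ∀ w ∈ Ω',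
        (∀ l, T.VR A2 M2 (T.cor j l w) q' (n ^ K) (lc u γ)) ∧
        ∀ (x : Type) [Fintype x] (V : Matrix e x ℤ) (v : ℕ), Bm v V → u * V = 0 →
          ∀ d z, T.RR A1 M j a1 a2 w q' (2 ^ (n ^ K + v)) fun _ => lc Vᵀ (t d) z := by
  obtain ⟨K, hD⟩ := hD
  refine ⟨9 * K + 10, ?_⟩
  intro L C _ _ _ _ T D a e c b _ _ _ _ _ n β A1 M A2 M2 j a1 a2 q m t γ τ g k W W' E B Ω hl hln h2
    hC hG hβ ha1 ha2 ha he hc hb hj hj2 hM2 hMA hq hq' hm hm' hk hW hE hB hI ht hγ hτ hg hΩ hw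
  classical
  have hT : T.Ok := (Good.ok_sm hG).1
  have p2 : ∀ {x : ℕ}, x ≤ n → x ≤ 2 ^ (3 * n + 1) := fun h =>
    h.trans (Nat.lt_two_pow_self.le.trans (Nat.pow_le_pow_right (by norm_num) (by omega)))
  have p3 : ∀ {x : ℕ}, x ≤ n → x ≤ 2 ^ n := fun h => h.trans Nat.lt_two_pow_self.le
  obtain ⟨m1, P, Q, hm1, hm1', hP, hQ, hPK, hPI⟩ := exP k W hk hW ha (p3 he) (p3 hc)
  have n2 : 2 * n ≤ n ^ 2 := by nlinarith
  have n9 : 128 * n ^ 2 ≤ n ^ 9 := pw1 (c := 7) h2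
  have nK : 1 ≤ (n ^ 9) ^ K := Nat.one_le_pow _ _ (by omega)
  have nT : n ^ 9 * (n ^ 9) ^ K * 2 ≤ n ^ (9 * K + 10) := by
    rw [← pow_mul, ← pow_add, show 9 * K + 10 = 9 + 9 * K + 1 by ring, pow_succ]
    exact Nat.mul_le_mul_left _ h2
  have nS : n ^ 9 + (n ^ 9) ^ K ≤ n ^ (9 * K + 10) := by nlinarith
  have hN : Bm (4 * n ^ 2 + 9 * n + 6) (P * kb k * E) :=
    ((hP.mul (bm_kb hk) (p3 ha)).mul hE (p3 he)).mono (by omega)
  have cM : ∀ S : Finset L, #S ≤ n := fun S => (card_le_univ S).trans hln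
  have k' := fun l => (hk l).mono (show n ≤ 3 * n + 1 by omega)
  have hM2' : M2 ⊆ A2.erase j := fun x h => mem_erase.2 ⟨fun e => hj2 (e ▸ h), hMA h⟩
  have dN := fun x => TT.Dat.lc hg (P * kb k * E) x
  obtain ⟨Ω', s1, s2, s3⟩ := hD _ _ (T.rect j a1 a2) a (n ^ 9) Ω ((A2.erase j).image .inl)
    (TT.upA A2 (Fin 4)) (M2.image .inl) q (fun x p => lc (P * kb k * E) g x (T.p0 j p))
    (by simpa using hl) ⟨by omega, (card_rect hC j).trans (Nat.pow_le_pow_right (by norm_num)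
      (by omega)), (half_anti (by omega)).trans hΩ⟩
    (Good.rect hG ha1 ha2 (by omega) j) (by omega) (hM2.image _)
    (image_subset_image hM2') (image_subset_iff.2 fun x h => TT.inl_upA.2 (mem_of_mem_erase h))
    (fun x => (dN x).p0 j _ _) hq (hq'.trans (Nat.pow_le_pow_right (by norm_num) (by omega)))
    (fun w h => by
      obtain ⟨-, r1, r2, r3⟩ := hw w h
      have c0 : ∀ l, (T.rect j a1 a2).VR (TT.upA A2 (Fin 4)) (M2.image .inl) w q (3 * n + 1)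
          fun z p => lc B (fun z p => γ z (T.cq j l p)) z p - g z (T.p0 j p) := fun l =>
        ((TT.VR.cq hT hj2 (cM M2) l (r3 l).2 fun z ℓ h =>
          ((TT.Dat.lc hγ B z).2 ℓ h).sub ((hg z).2 ℓ h)).mono (by omega)).congr fun z p _ => by
            rw [(hg z).1.cq l p]; rfl
      exact (s3_g (γ := fun l z p => γ z (T.cq j l p)) (hm'.trans (Nat.pow_le_pow_right
        (by norm_num) (by omega))) k' hP (p2 ha) (p2 he) (p2 hb) hPK (hE.mono (by omega)) hI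
        ((r1.mono (by omega)).congr fun x p _ => by rw [Fin.sum_univ_four, add_assoc (_ + _)]; rfl)
        (TT.VR.mono r2 (by omega)) (c0 1) (c0 2) (c0 3)).mono (by omega))
  have e1 : P * kb k * E * B = (m : ℤ) • (P * kb k) := by
    have e2 : kb k = kh k 0 + kh k 1 - kh k 2 := by simp only [kb, kh, Matrix.cons_val]; abel
    have e3 : P * kb k * W = 0 := by
      simp only [e2, Matrix.mul_assoc, Matrix.mul_add, Matrix.mul_sub, Matrix.add_mul,
        Matrix.sub_mul, hPK, add_zero, sub_zero]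
    have := congrArg (fun X => P * kb k * X) hI
    simp only [Matrix.mul_smul, Matrix.mul_one, Matrix.mul_add] at this
    rw [this, ← Matrix.mul_assoc, e3, Matrix.zero_mul, zero_add, Matrix.mul_assoc (P * kb k)]
  refine ⟨P * kb k * E * B, q * m1, (hN.mul hB (p3 hb)).mono (by omega), Nat.mul_pos hq hm1,
    (Nat.mul_le_mul hq' hm1').trans (by
      rw [← pow_add]; exact Nat.pow_le_pow_right (by norm_num) (by omega)), dvd_mul_right _ _,
    Ω', s1, (half_anti (by omega)).trans s2, fun w h => ?_⟩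
  obtain ⟨r0, -, -, r3⟩ := hw w (s1 h)
  refine ⟨fun l => ?_, fun x _ V v hV hu d => ?_⟩
  · have d1 : T.VR A2 M2 (T.cor j l w) q (n ^ 9 + (n ^ 9) ^ K - 1) (lc (P * kb k * E) g) :=
      TT.VR.mono (fun x => (hT.rel_down (dN x).1 (fun c h _ _ =>
        TT.cor_out l w fun k => notMem_erase j A2 (h k)) (s3 w h x)).monoA (erase_subset _ _))
        (by omega)
    refine (((((r3 l).2.lc hN (p3 hb)).mono (by omega)).add d1).mono (by omega)).dvd
      (dvd_mul_right _ _) (Nat.mul_pos hq hm1) |>.congr fun x p _ => ?_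
    rw [lc_sub', lc_mul (P * kb k * E)]; ring
  · obtain ⟨s, hs⟩ := r0 d
    have c0 : ∀ l, (T.rect j a1 a2).VR (TT.upA A1 (Fin 4)) (M.image .inl) w q (2 * n + n)
        fun z p => lc Wᵀ (fun z p => t d z (T.cq j l p)) z p - τ d z (T.p0 j p) := fun l =>
      (TT.VR.cq hT hj (cM M) l ((r3 l).1 d) fun z ℓ h =>
        ((TT.Dat.lc (ht d) Wᵀ z).2 ℓ h).sub ((hτ d z).2 ℓ h)).congr fun z p _ => by
          rw [(hτ d z).1.cq l p]; rfl
    have c1 := fun l => (((c0 0).sub (c0 l)).mono (m := 3 * n + 1) (by omega)).congr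
      (G := fun z p => lc Wᵀ (fun z p => t d z (T.cq j 0 p)) z p -
        lc Wᵀ (fun z p => t d z (T.cq j l p)) z p) fun _ _ _ => by ring
    have hPV : P * kb k * V = 0 := by
      rw [e1, Matrix.smul_mul] at hu
      exact (smul_eq_zero.1 hu).resolve_left (by omega)
    have s' := fun l => (hs l).mono (show n ≤ 3 * n + 1 by omega)
    exact (s3_t (t := fun l z p => t d z (T.cq j l p)) (s := s) hm1 k' (hW.mono (by omega)) hQ (p2 ha)
      (p2 he) (p2 hc) hPI ((s' 0).congr fun _ _ _ => by simp) ((s' 1).congr fun _ _ _ => by simp)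
      ((s' 2).congr fun _ _ _ => by simp) ((s' 3).congr fun _ _ _ => by simp) (c1 1) (c1 2) (c1 3)
      hV hPV hq).mono (by omega)

end Crest.Agent.N49.Rm
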