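import Crest.Agent.N49.Rm.Fb2
import Crest.Agent.N49.Rm.Kd
import Crest.Agent.N49.Rm.S3a
import Crest.Agent.N49.Rm.Desc
import Crest.Agent.N49.Rm.Mono
/-! Row 49, block RMH (helper30): `FRB`. -/
set_option autoImplicit false
set_option linter.unusedSectionVars false
noncomputable section
namespace Crest.Agent.N49.Rm
open Finset Matrix TT Fb

theorem frb {l0 : ℕ} (hb : BOX) (hu : UQS (l0 + 4)) (hd : DESC l0) : FRB l0 := by
  obtain ⟨Ku, hu⟩ := hu
  obtain ⟨Kd, hd⟩ := hd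
  refine ⟨(l0 + 1) * (13 * (Ku + Kd + 1) + 1), ?_⟩
  intro L C _ _ _ _ T D E _ _ n0 H A M i q γ X Λ ω hL hS hG hD hE hM hMA hiA hi hγ hX hΛ q1 q2 hH
  classical
  have n2 : 2 ≤ n0 := hS.1
  have e0 : n0 ≤ n0 ^ (l0 + 1) := Nat.le_self_pow (by omega) _
  have eL : Fintype.card L ≤ n0 ^ (l0 + 1) := hL.trans ((Nat.le_succ _).trans
    (Nat.lt_two_pow_self.le.trans (Nat.pow_le_pow_left n2 _)))
  rw [pow_mul] at hG ⊢
  generalize n0 ^ (l0 + 1) = n at hG e0 eL ⊢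
  replace hS := hS.mono e0
  replace hE := hE.trans e0
  replace q2 := q2.trans (Nat.pow_le_pow_right two_pos e0)
  replace hH := fun y hy => (⟨(hH y hy).1, fun d => ((hH y hy).2 d).mono (p2 e0)⟩ : _ ∧ ∀ d, _)
  obtain ⟨hn, hC, hp⟩ := hS
  have hT : T.Ok := hG.ok_sm.1
  have m1 : 1000 * n ^ 3 ≤ n ^ 13 := by
    rw [show 13 = 10 + 3 by rfl, pow_add]
    exact Nat.mul_le_mul_right _ (le_trans (by norm_num) (Nat.pow_le_pow_left hn 10))
  have n3 : n ^ 2 * 2 ≤ n ^ 3 := Nat.mul_le_mul_left _ hn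
  have n4 : n * 2 ≤ n ^ 2 := by rw [sq]; exact Nat.mul_le_mul_left _ hn
  have m2 : ∀ x k, x ≤ 1000 * n ^ 3 → k ≤ Ku + Kd + 1 → x ^ k < n ^ (13 * (Ku + Kd + 1) + 1) :=
    fun x k a b => by
      refine lt_of_le_of_lt ?_ (Nat.pow_lt_pow_right hn (Nat.lt_succ_self _))
      rw [pow_mul]
      exact (Nat.pow_le_pow_left (a.trans m1) _).trans (Nat.pow_le_pow_right (by positivity) b)
  have m3 : 1000 * n ^ 3 < n ^ (13 * (Ku + Kd + 1) + 1) := by simpa using m2 _ 1 le_rfl (by omega)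
  generalize n ^ (13 * (Ku + Kd + 1) + 1) = N at hG m2 m3 ⊢
  have gm : ∀ x g, x ≤ N → g ≤ N → Good x g L C T := fun x g a b => mono _ _ _ _ _ _ T a b hG
  let P : (Σ r : ℕ, Matrix (Fin r) E ℤ × ℕ) → (C → ℤ) → Prop := fun x y =>
    x.1 ≤ Fintype.card E ∧ (∀ a e, |x.2.1 a e| ≤ 2 ^ (100 * n)) ∧ 1 ≤ x.2.2 ∧ x.2.2 ≤ 2 ^ (100 * n) ∧
      T.VR univ {i} y 1 (100 * n) (lc x.2.1 γ) ∧ ∃ s : D → Fin x.1 → Fm L C,
        (∀ d a, T.Dat (A.erase i) M (s d a)) ∧ ∀ d, T.VR (A.erase i) M y x.2.2 (100 * n)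
          fun e p => Λ d e p - ∑ a, x.2.1 a e * s d a p
  have h5 : ∀ k, k + 5 ≤ 200 * n ^ 2 → (1 / 2 : ℝ) ^ (200 * n ^ 2) ≤ (1 / 2) ^ k / 32 := fun k e =>
    (half_anti e).trans_eq (by ring)
  have h1 : (1 / 2 : ℝ) ^ (n + 1) ≤ T.pr {y ∈ H | ∃ x, P x y} := by
    by_contra! k
    have u1 := hu L C T n (200 * n ^ 2) M (by omega) hn hC
      (gm _ _ (m2 _ _ (by omega) (by omega)).le (m2 _ _ (by omega) (by omega)).le) hM
    have u2 := ((gm (200 * n ^ 2) 0 (by omega) (by omega)).2 i).1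
    let S := ((H \ {y ∈ H | ∃ x, P x y}) \ {y | ¬ T.UQ univ M y (2 ^ (200 * n ^ 2))}) \
      {y | ¬ T.UQ univ {i} y (2 ^ (200 * n ^ 2))}
    have s : (1 / 2 : ℝ) ^ (n + 2) ≤ T.pr S := by
      have := hT.pr_diff H {y ∈ H | ∃ x, P x y}
      have := hT.pr_diff (H \ {y ∈ H | ∃ x, P x y}) {y | ¬ T.UQ univ M y (2 ^ (200 * n ^ 2))}
      have := hT.pr_diff ((H \ {y ∈ H | ∃ x, P x y}) \ {y | ¬ T.UQ univ M y (2 ^ (200 * n ^ 2))})
        {y | ¬ T.UQ univ {i} y (2 ^ (200 * n ^ 2))}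
      have := h5 n (by omega)
      have : (0 : ℝ) < (1 / 2) ^ n := by positivity
      rw [pow_succ] at k
      rw [pow_add]
      linarith
    have b := hb L C T (n + 2) (8 * n + 56) i (8 * n + 56) (8 * n + 56) S
      ⟨by omega, hC.trans (Nat.pow_le_pow_right two_pos (by omega)), s⟩
      (eL.trans ((Nat.le_add_right _ 2).trans Nat.lt_two_pow_self.le)) (by omega) le_rfl le_rfl
      (gm _ _ (by omega) (by omega))
    have u3 := hu _ _ (T.rect i (8 * n + 56) (8 * n + 56)) (n + 3) (200 * n ^ 2) (M.image .inl)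
      (by simpa using hL) (by omega) (card_rect hC i)
      (Good.rect hG (by omega) (by omega) (m2 _ _ (by omega) (by omega)) i) (hM.image _)
    have o : (T.rect i (8 * n + 56) (8 * n + 56)).Ok := hT.cl i _ _
    obtain ⟨y, hy, r, κ, q', z⟩ := core (S := S) (b := 200 * n ^ 2) hT hi
      (fun e => (hγ e).2 i (mem_singleton_self i)) hX hΛ hn eL hC hE q1 q2 le_rfl le_rfl
      (fun y hy => ⟨hH y hy.1.1.1, not_not.1 hy.1.2, not_not.1 hy.2⟩) (by
        refine lt_of_lt_of_le ?_ ((o.pr_diff {w | ∀ l, T.cor i l w ∈ S} {w | ¬ (T.rect i (8 * n + 56)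
          (8 * n + 56)).UQ univ (M.image .inl) w (2 ^ (200 * n ^ 2))}).trans
          (o.pr_mono fun w hw => ⟨hw.1, not_not.1 hw.2⟩))
        have := h5 (4 * (n + 2) + 2) (by omega)
        have : (0 : ℝ) < (1 / 2) ^ (4 * (n + 2) + 2) := by positivity
        rw [show 4 * n + 12 = 4 * (n + 2) + 2 + 2 by ring, pow_add]
        linarith)
    exact hy.1.1.2 ⟨hy.1.1.1, ⟨r, κ, q'⟩, z⟩
  have : Nonempty (Σ r : ℕ, Matrix (Fin r) E ℤ × ℕ) := ⟨⟨0, 0, 0⟩⟩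
  choose! f hf using fun y (hy : y ∈ {y ∈ H | ∃ x, P x y}) => hy.2
  let s : Finset (Σ r : ℕ, Matrix (Fin r) E ℤ × ℕ) := (range (n + 1)).sigma fun r =>
    (Fintype.piFinset fun _ : Fin r => Fintype.piFinset fun _ : E =>
      Icc (-2 ^ (100 * n) : ℤ) (2 ^ (100 * n))) ×ˢ Icc 1 (2 ^ (100 * n))
  have hs : ∀ y ∈ {y ∈ H | ∃ x, P x y}, f y ∈ s := fun y hy =>
    let ⟨a, b, c, d, _⟩ := hf y hy
    mem_sigma.2 ⟨mem_range.2 (by omega), mem_product.2 ⟨Fintype.mem_piFinset.2 fun r =>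
      Fintype.mem_piFinset.2 fun e => mem_Icc.2 (abs_le.1 (b r e)), mem_Icc.2 ⟨c, d⟩⟩⟩
  obtain ⟨y0, hy0⟩ := nonempty_of_pr (lt_of_lt_of_le (by positivity) h1)
  obtain ⟨x, -, hx⟩ := hT.pr_pigeon s ⟨_, hs y0 hy0⟩ _ f hs
  have cs : #s ≤ 2 ^ (200 * n ^ 3) := by
    rw [card_sigma]
    refine (sum_le_card_nsmul _ _ (((2 ^ (100 * n + 2)) ^ n) ^ n * 2 ^ (100 * n)) fun r hr => ?_).trans ?_
    · have : #(Icc (-2 ^ (100 * n) : ℤ) (2 ^ (100 * n))) ≤ 2 ^ (100 * n + 2) := by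
        have : (0 : ℤ) < 2 ^ (100 * n) := by positivity
        rw [Int.card_Icc, Int.toNat_le]; push_cast; rw [pow_add]; omega
      refine (card_product _ _).trans_le ?_
      rw [Fintype.card_piFinset_const, Fintype.card_piFinset, prod_const, Nat.card_Icc,
        Nat.add_sub_cancel, card_univ]
      exact Nat.mul_le_mul_right _ ((Nat.pow_le_pow_left ((Nat.pow_le_pow_left this _).trans
        (Nat.pow_le_pow_right (by positivity) hE)) _).trans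
        (Nat.pow_le_pow_right (by positivity) (Nat.lt_succ_iff.1 (mem_range.1 hr))))
    · rw [card_range, smul_eq_mul, ← pow_mul, ← pow_mul, ← pow_add]
      refine (Nat.mul_le_mul_right _ (Nat.succ_le_of_lt Nat.lt_two_pow_self)).trans ?_
      rw [← pow_add]
      exact Nat.pow_le_pow_right two_pos (by nlinarith)
  have h2 : (1 / 2 : ℝ) ^ (300 * n ^ 3) ≤ T.pr {y ∈ {y ∈ H | ∃ x, P x y} | f y = x} := by
    have c : (#s : ℝ) ≤ 2 ^ (200 * n ^ 3) := by exact_mod_cast cs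
    have := (h1.trans hx).trans (mul_le_mul_of_nonneg_right c (pr_nonneg _))
    rw [← div_le_iff₀' (by positivity), div_eq_mul_inv, ← inv_pow, ← one_div, ← pow_add] at this
    exact (half_anti (by omega)).trans this
  obtain ⟨y1, hy1⟩ := nonempty_of_pr (lt_of_lt_of_le (by positivity) h2)
  have z : ∀ y ∈ {y ∈ {y ∈ H | ∃ x, P x y} | f y = x}, P x y := fun y hy => hy.2 ▸ hf y hy.1
  obtain ⟨z1, z2, z3, z4, -⟩ := z y1 hy1
  obtain ⟨H', a, b, c⟩ := hd L C T (Fin x.1) (300 * n ^ 3) _ (A \ M) univ {i} 1 (lc x.2.1 γ) hL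
    ⟨by omega, hC.trans (Nat.pow_le_pow_right two_pos (by omega)), h2⟩
    (gm _ _ (m2 _ _ (by omega) (by omega)).le (m2 _ _ (by omega) (by omega)).le)
    (by rw [Fintype.card_fin]; omega) (singleton_nonempty i)
    (singleton_subset_iff.2 (mem_sdiff.2 ⟨hiA, hi⟩)) (subset_univ _) (Dat.lc hγ _) le_rfl
    Nat.one_le_two_pow fun y hy => (z y hy).2.2.2.2.1.mono (by omega)
  have e1 := (m2 (300 * n ^ 3) Kd (by omega) (by omega)).le
  refine ⟨x.1, x.2.1, x.2.2, H', fun y hy => (a hy).1.1, z1, fun a e => (z2 a e).trans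
    (pow_le_pow_right₀ one_le_two (by omega)), z3, z4.trans (Nat.pow_le_pow_right two_pos (by omega)),
    (half_anti e1).trans b, fun y hy => ⟨VR.mono (c y hy) e1, ?_⟩⟩
  exact (z y (a hy)).2.2.2.2.2.imp fun s h => ⟨h.1, fun d => (h.2 d).mono (by omega)⟩

end Crest.Agent.N49.Rm
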