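import Crest.Agent.N49.Rm.Fre1
/-! Row 49 (helper78): `FREE`. -/
set_option autoImplicit false
set_option linter.unusedSectionVars false
noncomputable section
namespace Crest.Agent.N49.Rm.Fre
open Finset TT Po MeasureTheory

variable {L C : Type} [Fintype L] [DecidableEq L] [Fintype C] [DecidableEq C] {T : TT L C}
  {A M : Finset L} {y y' : C → ℤ} {i : L} {q a1 a2 : ℕ} {p : C ⊕ L → ℝ}

/-- the letters to delete -/
def dl (A M : Finset L) : Finset (L ⊕ Fin 4) := (A \ M)ᶜ.image .inl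
/-- the pure rectangle tower -/
abbrev pu (T : TT L C) (A M : Finset L) (i : L) (a1 a2 : ℕ) := dels (T.rect i a1 a2) (dl A M)
/-- the underlying word -/
def wd (k : (pu T A M i a1 a2).Bl (.inr 3)) : C := Sum.elim id (fun cx => cx.1.1) k.1

theorem dl_l (c : C) : Disjoint ((T.rect i a1 a2).ty (.inl c)) (dl A M) ↔
    T.ty c ⊆ A ∧ Disjoint (T.ty c) M := by
  rw [← subset_sdiff, ← disjoint_compl_right_iff]; exact Bq.dj0 c
theorem dl_r (iA : i ∈ A) (iM : i ∉ M) (c : T.Bl i) (x : Fin 4) :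
    Disjoint ((T.rect i a1 a2).ty (.inr (c, x))) (dl A M) ↔
      T.ty c.1 ⊆ A ∧ Disjoint (T.ty c.1) M := by
  rw [← subset_sdiff, ← disjoint_compl_right_iff]; exact Bq.djx (by simp [iA, iM]) c x
theorem pu_l (c : C) : .inr 3 ∉ (pu T A M i a1 a2).ty (.inl c) := by
  simp only [dels]; split_ifs <;> simp
theorem pu_r (iA : i ∈ A) (iM : i ∉ M) (c : T.Bl i) (x : Fin 4) :
    .inr 3 ∈ (pu T A M i a1 a2).ty (.inr (c, x)) ↔
      x = 3 ∧ T.ty c.1 ⊆ A ∧ Disjoint (T.ty c.1) M := by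
  rw [← dl_r (a1 := a1) (a2 := a2) iA iM c x]
  simp only [dels]
  split_ifs with h
  · simp only [h, and_true]; simp [eq_comm]
  · simp only [h, and_false]; simp
theorem pu_ex (iA : i ∈ A) (iM : i ∉ M) (k : (pu T A M i a1 a2).Bl (.inr 3)) :
    ∃ h : i ∈ T.ty (wd k), k.1 = .inr (⟨wd k, h⟩, 3) ∧ T.ty (wd k) ⊆ A ∧
      Disjoint (T.ty (wd k)) M := by
  obtain ⟨c | ⟨c, x⟩, h⟩ := k
  · exact absurd h (pu_l c)
  · obtain ⟨rfl, h'⟩ := (pu_r iA iM c x).1 h
    exact ⟨c.2, rfl, h'⟩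
theorem wd_inj (iA : i ∈ A) (iM : i ∉ M) :
    Function.Injective (wd : (pu T A M i a1 a2).Bl (.inr 3) → C) := fun k k' e => by
  obtain ⟨h, a, -⟩ := pu_ex iA iM k
  obtain ⟨h', a', -⟩ := pu_ex iA iM k'
  exact Subtype.ext (by rw [a, a']; simp [e])
theorem wd_rg (iA : i ∈ A) (iM : i ∉ M) (c : C) :
    c ∈ Set.range (wd : (pu T A M i a1 a2).Bl (.inr 3) → C) ↔
      i ∈ T.ty c ∧ T.ty c ⊆ A ∧ Disjoint (T.ty c) M :=
  ⟨by rintro ⟨k, rfl⟩; obtain ⟨h, -, a⟩ := pu_ex iA iM k; exact ⟨h, a⟩,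
    fun h => ⟨⟨.inr (⟨c, h.1⟩, 3), (pu_r iA iM _ 3).2 ⟨rfl, h.2⟩⟩, rfl⟩⟩

theorem cor0 (iA : i ∈ A) (iM : i ∉ M) (w : T.CC i (Fin 4) → ℤ) (n) :
    T.cor i 0 ((pu T A M i a1 a2).jn (.inr 3) w n) = T.cor i 0 w := by
  funext c
  have := fun k x (e : x ≠ 3) => jn_out (T := pu T A M i a1 a2) w n
    fun m => e ((pu_r iA iM k x).1 m).1
  simp [cor, posZ, jn_out w n (pu_l c), Fin.sum_univ_four, this]

theorem cor1 (iA : i ∈ A) (iM : i ∉ M) (w : T.CC i (Fin 4) → ℤ) (n) :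
    T.Agr A M (T.cor i 1 ((pu T A M i a1 a2).jn (.inr 3) w n))
      (T.posZ i 1 ![1, 0, 0, 0] w + em wd n) := fun c a _ d => by
  have := fun k x (e : x ≠ 3) => jn_out (T := pu T A M i a1 a2) w n
    fun m => e ((pu_r iA iM k x).1 m).1
  by_cases h : i ∈ T.ty c
  · have m := (pu_r (a1 := a1) (a2 := a2) iA iM ⟨c, h⟩ 3).2 ⟨rfl, a, d⟩
    have e : em wd n c = (pu T A M i a1 a2).jn (.inr 3) w n (.inr (⟨c, h⟩, 3)) :=
      (em_wd (wd_inj iA iM) n ⟨_, m⟩).trans (congrFun (bl_jn w n) ⟨_, m⟩).symm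
    simp [cor, posZ, jn_out w n (pu_l c), Fin.sum_univ_four, this, h, e, add_assoc]
  · simp [cor, posZ, jn_out w n (pu_l c), h, em_off n fun m => h ((wd_rg iA iM c).1 m).1]

theorem qf_le (o : T.Ok) (u : (pu T A M i a1 a2).Ok) (iA : i ∈ A) (iM : i ∉ M)
    (w : T.CC i (Fin 4) → ℤ) (hp : p ∈ T.Fib (insert i M) (T.cor i 0 w))
    (hc : T.Cube A (insert i M) p) :
    qf ((pu T A M i a1 a2).Mm (.inr 3) w) (fun k => p (.inl (wd k))) ≤
      Fintype.card ((pu T A M i a1 a2).Bl (.inr 3)) * (2 ^ a2) ^ 2 := by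
  have := u.sum_sq (.inr 3) w (fun k => p (.inl (wd k))) 0
  rw [zero_smul, sub_zero] at this
  rw [← this, ← nsmul_eq_mul, ← card_univ]
  refine sum_le_card_nsmul _ _ _ fun k _ => ?_
  obtain ⟨h, e, a, d⟩ := pu_ex iA iM k
  rw [e, ← sq_abs]
  refine pow_le_pow_left₀ (abs_nonneg _) ?_ 2
  simp only [dels, (dl_r iA iM ⟨wd k, h⟩ 3).2 ⟨a, d⟩, if_true, cl_Φ_r]
  rw [o.phi_cg (p' := p), abs_mul, abs_of_pos (by positivity)]
  · exact mul_le_of_le_one_right (by positivity)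
      (hc _ a fun z => disjoint_left.1 z h (mem_insert_self _ _))
  rintro (c | ℓ) s
  · by_cases m : i ∈ T.ty c
    · have z := (pu_r (a1 := a1) (a2 := a2) iA iM ⟨c, m⟩ 3).2 ⟨rfl, s.trans a, d.mono_left s⟩
      simp only [px, dif_pos m]
      exact jr_inl (T := pu T A M i a1 a2) _ _ _ ⟨_, z⟩
    · rw [hp.1 c (disjoint_insert_right.2 ⟨m, d.mono_left s⟩)]
      simp only [px, dif_neg m]
      refine (jr_out (T := pu T A M i a1 a2) (v := .inl (.inl c)) _ _ _ (pu_l c)).trans ?_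
      simp [cor, posZ, m]
  · rw [hp.2]
    by_cases m : ℓ = i
    · simp [px, m]
    · have : ℓ ∉ M := disjoint_left.1 d (s (by simp))
      simp [px, m, jr, this]

theorem agr_tr {y'' : C → ℤ} (h : T.Agr A M y y') (k : T.Agr A M y' y'') : T.Agr A M y y'' :=
  fun c a b d => (h c a b d).trans (k c a b d)

/-- the visible part of a configuration -/
def vi (T : TT L C) (A M : Finset L) (y : C → ℤ) : C → ℤ :=
  fun c => if T.ty c ⊆ A ∧ Disjoint (T.ty c) M then y c else 0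
theorem vi_agr : T.Agr A M (vi T A M y) y := fun _ a _ d => if_pos ⟨a, d⟩

theorem vi_cor (iA : i ∈ A) (iM : i ∉ M) {w w' : T.CC i (Fin 4) → ℤ}
    (h : ∀ c, Disjoint ((T.rect i a1 a2).ty c) (dl A M) → w c = w' c) (l : Fin 4) :
    vi T A M (T.cor i l w) = vi T A M (T.cor i l w') := funext fun c => by
  simp only [vi]
  split_ifs with k
  · simp only [cor, posZ, h _ ((dl_l c).2 k)]
    split_ifs with m
    · simp only [fun x => h _ ((dl_r iA iM ⟨c, m⟩ x).2 k)]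
    · rfl
  · rfl

theorem pw_le {X : ℝ} (h : 1024 ≤ X) {c : ℝ} (hc : c ≤ 2 ^ 20) {s t : ℕ} (e : s + 2 ≤ t) :
    c * X ^ s ≤ X ^ t :=
  (mul_le_mul_of_nonneg_right (hc.trans (show _ ≤ X ^ 2 by nlinarith)) (by positivity)).trans (by
    rw [← pow_add, add_comm]; exact pow_le_pow_right₀ (by linarith) e)

set_option maxHeartbeats 1000000 in
/-- many rectangles give one good fibre -/
theorem one (hg : MG) (o : T.Ok) {D : Type} {F : D → Fm L C} (iA : i ∈ A) (iM : i ∉ M)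
    (hF : ∀ d, T.Dat A (insert i M) (F d)) {N : ℕ} (hN : 10 ≤ N) (hL : Fintype.card L ≤ N)
    (hC : Fintype.card (T.CC i (Fin 4)) ≤ 2 ^ N) (q1 : 1 ≤ q) (q2 : q ≤ 2 ^ N) (ha : a2 ≤ 12 * N)
    {H : Set (C → ℤ)} (hH : ∀ y ∈ H, T.UQ A M y (2 ^ (100 * N)) ∧ ∀ d, T.Rel A M y q (2 ^ N) (F d))
    (gd : Good (100 * N) (0 + #(dl A M)) _ _ (T.rect i a1 a2))
    (hr : (1 / 2) ^ (4 * N + 3) ≤ (T.rect i a1 a2).pr {w | (∀ l, T.cor i l w ∈ H) ∧
      (T.rect i a1 a2).UQ (upA A (Fin 4)) (M.image .inl) w (2 ^ (100 * N))}) :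
    ∃ y ∈ H, ∃ q0 ∈ Icc 1 (2 ^ (6 * N)),
      ∀ d, T.Rel A (insert i M) y (q * q0) (2 ^ (40 * N)) (F d) := by
  classical
  obtain ⟨X, hX⟩ : ∃ X : ℝ, X = 2 ^ N := ⟨_, rfl⟩
  have X1 : 1024 ≤ X := hX ▸ le_of_eq_of_le (by norm_num) (pow_le_pow_right₀ one_le_two hN)
  have X0 : 0 < X := by linarith
  have px : ∀ k, (2 : ℝ) ^ (k * N) = X ^ k := fun k => by rw [hX, mul_comm, pow_mul]
  have px' : ∀ k, (1 / 2 : ℝ) ^ (k * N) = 1 / X ^ k := fun k => by rw [one_div_pow, px]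
  have NX : (N : ℝ) ≤ X := hX ▸ by exact_mod_cast Nat.lt_two_pow_self.le
  have qX : (q : ℝ) ≤ X := hX ▸ by exact_mod_cast q2
  rw [← hX] at hH
  rw [px] at hH hr
  let Ic : (C → ℤ) → D → Fm L C := fun z d =>
    if h : T.Rel A M z q X (F d) then h.choose else 0
  have hI : ∀ z, (∃ y ∈ H, vi T A M y = z) → ∀ d, T.IntF A M z (Ic z d) ∧
      T.Sm A M z X fun p => F d p - Ic z d p / q := by
    rintro _ ⟨y, hy, rfl⟩ d
    have := vi_agr.symm.rel o (hF d).1 ((hH y hy).2 d)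
    simp only [Ic, dif_pos this]
    exact this.choose_spec
  let Ev : (C → ℤ) → (C → ℤ) → Prop := fun z z' => (∃ y ∈ H, vi T A M y = z) ∧
    (∃ y ∈ H, vi T A M y = z') ∧ ∀ d, Jf T M i (Ic z d) z = Jf T M i (Ic z' d) z' ∧
      T.Lin i (Jf T M i (Ic z d) z)
  obtain ⟨gu, hd⟩ := dels_good hg hC (by omega) _ 0 gd
  have u := gok gu
  have h1 := hd {w | Ev (vi T A M (T.cor i 0 w)) (vi T A M (T.cor i 1 w))} fun w w' e k => by
    simpa only [Set.mem_ofPred_eq, vi_cor iA iM e] using k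
  have h2 := le_trans (hr.trans ((gok gd).pr_mono
    (H' := {w | Ev (vi T A M (T.cor i 0 w)) (vi T A M (T.cor i 1 w))})
    fun w k => ⟨⟨_, k.1 0, rfl⟩, ⟨_, k.1 1, rfl⟩, fun d =>
    pex o iM (hF d) (I := fun l => Ic (vi T A M (T.cor i l w)) d) (fun _ => vi_agr)
      (fun l => (hI _ ⟨_, k.1 l, rfl⟩ d).1) (fun l => (hI _ ⟨_, k.1 l, rfl⟩ d).2) q1 k.2 (by
        have : (3 : ℝ) ^ #M ≤ X ^ 2 := by
          rw [← px, pow_mul]
          exact (pow_le_pow_left₀ (by norm_num) (by norm_num) _).trans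
            (pow_le_pow_right₀ (by norm_num) ((card_le_univ M).trans hL))
        calc _ ≤ X * (4 * (X ^ 2 * X)) := by gcongr
          _ = 4 * X ^ 4 := by ring
          _ ≤ _ := pw_le X1 (by norm_num) (by norm_num))⟩)) h1
  have h3 := u.pr_inter {w | Ev (vi T A M (T.cor i 0 w)) (vi T A M (T.cor i 1 w))}
    {w | (pu T A M i a1 a2).UQ univ {.inr 3} w (2 ^ (100 * N))}
  have h4 := (gsm gu (.inr 3)).1
  have cd : (#(dl A M) : ℝ) ≤ X := le_trans (by
    exact_mod_cast card_image_le.trans ((card_le_univ _).trans hL)) NX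
  obtain ⟨w, hw⟩ := pick u (.inr 3) (δ := 1 / X ^ 5) (lt_of_lt_of_le (by
    rw [pow_add, px', px'] at h2
    rw [px'] at h4
    have a : (#(dl A M) : ℝ) * (8 * (1 / X ^ 100)) ≤ 1 / X ^ 5 := by
      calc _ ≤ X * (8 * (1 / X ^ 100)) := by gcongr
        _ = 8 * X ^ 6 / X ^ 100 / X ^ 5 := by field_simp
        _ ≤ _ := by gcongr; exact (div_le_one (by positivity)).2 (pw_le X1 (by norm_num) (by omega))
    have b : 1 / X ^ 100 ≤ 1 / X ^ 5 :=
      one_div_le_one_div_of_le (by positivity) (pow_le_pow_right₀ (by linarith) (by omega))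
    have c : 3 * (1 / X ^ 5) < 1 / X ^ 4 * (1 / 2) ^ 3 := by
      field_simp; linarith
    have e : (pu T A M i a1 a2).pr {w | (pu T A M i a1 a2).UQ univ {.inr 3} w (2 ^ (100 * N))}ᶜ ≤
      1 / X ^ 100 := h4
    linarith) h3)
  have pd := u.Mm_pd (.inr 3) w
  have := gm_prob pd ((pu T A M i a1 a2).ce (.inr 3) w)
  have d0 : 0 < 1 / X ^ 5 := by positivity
  obtain ⟨n0, ⟨⟨y, hy, e0⟩, -, j0⟩, u0⟩ := nonempty_of_measureReal_ne_zero (d0.trans hw).ne'
  rw [cor0 iA iM] at e0 j0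
  have cb : (Fintype.card ((pu T A M i a1 a2).Bl (.inr 3)) : ℝ) ≤ X :=
    hX ▸ by exact_mod_cast (Fintype.card_subtype_le _).trans hC
  have ay : T.Agr A M y (T.cor i 0 w) := agr_tr vi_agr.symm (e0 ▸ vi_agr)
  have hJ := fun d => jf_int (y' := T.cor i 0 w) (hI _ ⟨y, hy, e0⟩ d).1 (j0 d).2
  obtain ⟨q0, q3, q4, hq⟩ := core o (F := fun d p => F d p - Jf T M i
      (Ic (vi T A M (T.cor i 0 w)) d) (vi T A M (T.cor i 0 w)) p / q) iM
    (fun d => (hF d).sub ((hJ d).1.div q)) (wd_inj iA iM) (wd_rg iA iM) (gm_qi pd _)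
    (fi_smooth pd (R := (X ^ 99) ^ 2) (by positivity) fun m m0 => by
      have := u.dual_min (by positivity) u0 m0
      rw [Mm_jn, px] at this
      have z := qf_nonneg pd.inv (zc m)
      refine le_of_mul_le_mul_left (a := X ^ 2) ?_ (by positivity)
      calc _ = (X ^ 100) ^ 2 := by ring
        _ ≤ _ := this.le.trans
          (mul_le_mul_of_nonneg_right (cb.trans (le_self_pow₀ (by linarith) (by omega))) z))
    (y := T.cor i 0 w) (b := T.posZ i 1 ![1, 0, 0, 0] w) (fun c k => by simp [cor, posZ, k])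
    d0 X0.le q1 (hw.le.trans (measureReal_mono (fun n hn d => by
      have k0 : Ev (vi T A M (T.cor i 0 ((pu T A M i a1 a2).jn (.inr 3) w n)))
        (vi T A M (T.cor i 1 ((pu T A M i a1 a2).jn (.inr 3) w n))) := hn.1
      obtain ⟨-, k1, k2⟩ := k0
      obtain ⟨i1, i2⟩ := hI _ k1 d
      have ag := agr_tr vi_agr (cor1 (a1 := a1) (a2 := a2) iA iM w n)
      refine ⟨_, kf_int i1, (ag.sm o ((hF d).1.map₂ i1.1.1 fun s t => s - t / q) i2).congr
        fun p hp => ?_⟩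
      have := (k2 d).1
      rw [cor0 iA iM] at this
      rw [this, Jf, mv_self i1.1.1 ag hp]; ring) (measure_ne_top _ _)))
    (by
      rw [Real.sqrt_sq (by positivity)]
      calc _ ≤ 100 * (12 * (X + X) ^ 3 / X ^ 99) := by gcongr; linarith
        _ = 9600 * X ^ 18 / X ^ 99 * (1 / X ^ 5) ^ 3 := by field_simp; norm_num
        _ ≤ 1 * _ := by
          gcongr; exact (div_le_one (by positivity)).2 (pw_le X1 (by norm_num) (by omega))
        _ = _ := one_mul _)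
    ((ay.uq o (hH y hy).1).monoA (erase_subset _ _))
    (by
      calc 400 * X < 401 * X := by linarith
        _ = 401 * X ^ 17 / X * (1 / X ^ 5) ^ 3 := by field_simp
        _ ≤ _ := by
          have : (0 : ℝ) < q := by positivity
          gcongr; exact pw_le X1 (by norm_num) (by omega))
    (κ := 4 * X ^ 13) fun p hp hc => by
      rw [_root_.smul_apply, NNReal.smul_def, nq_apply, smul_eq_mul]
      refine mul_le_mul (by norm_num) (Real.sqrt_le_iff.2 ⟨by positivity,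
        (qf_le o u iA iM w hp hc).trans ?_⟩) (by positivity) (by norm_num)
      have : (2 : ℝ) ^ a2 ≤ X ^ 12 := px 12 ▸ pow_le_pow_right₀ one_le_two ha
      calc _ ≤ X ^ 2 * (X ^ 12) ^ 2 := by gcongr; nlinarith
        _ = _ := by ring
  refine ⟨y, hy, q0, mem_Icc.2 ⟨q3, ?_⟩, fun d => ?_⟩
  · have : (q0 : ℝ) ≤ 2 ^ (6 * N) := by
      rw [px]; refine q4.trans ?_
      rw [div_div_eq_mul_div, div_one, pow_succ' X 5]; gcongr; linarith
    exact_mod_cast this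
  · refine Agr.rel (fun c a b e => (ay c a b (e.mono_right (subset_insert _ _))).symm) o (hF d).1
      ((((hq d).add ((Rel.of_int (q := q) (hJ d)).dvd (dvd_mul_right q q0)
        (Nat.mul_pos q1 q3))).congr fun p _ => by ring).mono ?_)
    rw [px]
    have : X ≤ X ^ 29 := le_self_pow₀ (by linarith) (by omega)
    calc _ = 2400 * X ^ 29 + 2 * X := by field_simp; ring
      _ ≤ 2402 * X ^ 29 := by linarith
      _ ≤ _ := pw_le X1 (by norm_num) (by omega)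

theorem pw (c e : ℕ) : ∃ K, ∀ n, 2 ≤ n → (c * (n + c)) ^ e + 1 ≤ n ^ K := by
  refine ⟨(2 * c + 2) * e + 1, fun n hn => ?_⟩
  have h1 : c ≤ n ^ c := Nat.lt_two_pow_self.le.trans (Nat.pow_le_pow_left hn c)
  have h0 : 1 ≤ n ^ c := Nat.one_le_pow _ _ (by omega)
  have h2 : c * (n + c) ≤ n ^ (2 * c + 2) :=
    calc _ ≤ n ^ c * (n * n * n ^ c) := Nat.mul_le_mul h1 (by
          have := Nat.mul_le_mul h0 (le_refl n)
          have := Nat.mul_le_mul (show 1 ≤ n by omega) h1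
          have := Nat.mul_le_mul hn (le_refl (n * n ^ c))
          nlinarith)
      _ = _ := by ring
  have h3 := Nat.pow_le_pow_left h2 e
  have h4 : 1 ≤ n ^ ((2 * c + 2) * e) := Nat.one_le_pow _ _ (by omega)
  rw [← pow_mul] at h3
  rw [pow_succ]; nlinarith

end Fre
open Finset TT Fre

theorem free (hm : MONO) (hg : MG) (hx : BOX) (hu : ∀ l, UQS l) (l0 : ℕ) : FREE l0 := by
  classical
  obtain ⟨K1, u1⟩ := hu l0
  obtain ⟨K2, u2⟩ := hu (l0 + 4)
  obtain ⟨K, hK⟩ := pw (l0 + 101) (K1 + K2 + 1)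
  refine ⟨K, fun L C _ _ _ _ T D _ n H A M i q F hL hS hG _ hM _ iA iM hF q1 q2 hR => ?_⟩
  obtain ⟨n2, hC, hH⟩ := hS
  obtain ⟨N, hN⟩ : ∃ N, N = n + l0 + 10 := ⟨_, rfl⟩
  obtain ⟨P, hP⟩ : ∃ P, P = (N + 100 * N) ^ (K1 + K2 + 1) := ⟨_, rfl⟩
  have P0 : P + 1 ≤ n ^ K := le_trans (Nat.add_le_add_right (hP ▸ Nat.pow_le_pow_left
    (by nlinarith) _) 1) (hK n n2)
  have P1 : ∀ k ≤ K1 + K2 + 1, (N + 100 * N) ^ k ≤ P := fun k e =>
    hP ▸ Nat.pow_le_pow_right (by omega) e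
  have P2 := P1 1 (by omega)
  rw [pow_one] at P2
  have o := gok hG
  have g1 := hm _ P _ (P + 1) _ _ T (by omega) P0 hG
  have g2 : Good P P _ _ (T.rect i (8 * N + 40) (8 * N + 40)) :=
    g1.2.2.1 i 4 _ _ (by omega) fun x => by fin_cases x <;> simp <;> omega
  have two : ∀ {s t : ℕ}, s ≤ t → (1 / 2 : ℝ) ^ t ≤ (1 / 2) ^ s := fun e =>
    pow_le_pow_of_le_one (by norm_num) (by norm_num) e
  have two' : ∀ {s t : ℕ}, s ≤ t → 2 ^ s ≤ 2 ^ t := fun e => Nat.pow_le_pow_right two_pos e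
  have hC' := hC.trans (two' (show n ≤ N by omega))
  have hC2 : Fintype.card (T.CC i (Fin 4)) ≤ 2 ^ N := by
    have : Fintype.card (T.Bl i) ≤ _ := Fintype.card_subtype_le fun c => i ∈ T.ty c
    have e := two' (show n + 3 ≤ N by omega)
    rw [pow_add] at e
    simp only [Fintype.card_sum, Fintype.card_prod, Fintype.card_fin]
    omega
  let Gd : Set (C → ℤ) := {y | ∃ q0 ∈ Icc 1 (2 ^ (6 * N)),
    ∀ d, T.Rel A (insert i M) y (q * q0) (2 ^ (40 * N)) (F d)}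
  have key : T.pr (H \ Gd) < (1 / 2) ^ (n + 1) := by
    by_contra k
    have a1 := u1 L C T N (100 * N) M hL (by omega) hC'
      (hm _ _ _ _ _ _ T (P1 K1 (by omega)) ((P1 K1 (by omega)).trans (by omega)) g1) hM
    have a2 := u2 _ _ _ N (100 * N) (M.image .inl) (by simpa using hL) (by omega) hC2
      (hm _ _ _ _ _ _ _ (P1 K2 (by omega)) (P1 K2 (by omega)) g2) (hM.image _)
    have a3 := o.pr_inter (H \ Gd) {y | T.UQ univ M y (2 ^ (100 * N))}
    have a4 := hx L C T N P i (8 * N + 40) (8 * N + 40)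
      ((H \ Gd) ∩ {y | T.UQ univ M y (2 ^ (100 * N))}) ⟨by omega, hC', by
        have b1 := two (show n + 2 ≤ 100 * N by omega)
        have b2 := two (show n + 2 ≤ N by omega)
        have b3 : T.pr {y | T.UQ univ M y (2 ^ (100 * N))}ᶜ ≤ _ := a1
        rw [pow_succ _ (n + 1)] at b1 b2
        linarith [not_lt.1 k]⟩
      (hL.trans ((show l0 ≤ N by omega).trans Nat.lt_two_pow_self.le)) le_rfl le_rfl (by omega)
      (hm _ _ _ _ _ _ T le_rfl (by omega) g1)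
    obtain ⟨y, hy, e⟩ := one hg o iA iM hF (N := N) (by omega) (by omega) hC2 q1
      (q2.trans (two' (by omega))) (a1 := 8 * N + 40) (a2 := 8 * N + 40) (by omega)
      (H := (H \ Gd) ∩ {y | T.UQ univ M y (2 ^ (100 * N))})
      (fun y hy => ⟨hy.2.monoA (subset_univ _), fun d => (hR y hy.1.1 d).mono
        (pow_le_pow_right₀ one_le_two (by omega))⟩)
      (hm _ _ _ _ _ _ _ (by omega) (by
        have := (card_image_le (f := (.inl : L → L ⊕ Fin 4))).trans (card_le_univ (A \ M)ᶜ)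
        unfold dl; omega) g2) (by
        have b1 := (gok g2).pr_diff _ _ |>.trans' (sub_le_sub a4 a2)
        have b2 := two (show 4 * N + 3 ≤ 100 * N by omega)
        refine le_trans ?_ (b1.trans ((gok g2).pr_mono fun w k =>
          ⟨k.1, (not_not.1 k.2).monoA (subset_univ _)⟩))
        rw [pow_succ _ (4 * N + 2)] at b2 ⊢
        linarith)
    exact hy.1.2 e
  let f : (C → ℤ) → ℕ := fun y => if h : y ∈ Gd then h.choose else 1
  have hf : ∀ y ∈ H ∩ Gd, f y ∈ Icc 1 (2 ^ (6 * N)) ∧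
      ∀ d, T.Rel A (insert i M) y (q * f y) (2 ^ (40 * N)) (F d) := fun y hy => by
    simp only [f, dif_pos hy.2]; exact hy.2.choose_spec
  obtain ⟨q0, h0, e⟩ := o.pr_pigeon (Icc 1 (2 ^ (6 * N))) ⟨1, by simp [Nat.one_le_two_pow]⟩
    (H ∩ Gd) f fun y hy => (hf y hy).1
  obtain ⟨q3, q4⟩ := mem_Icc.1 h0
  refine ⟨{y ∈ H ∩ Gd | f y = q0}, fun y hy => hy.1.1, q * q0, Nat.mul_pos q1 q3,
    (Nat.mul_le_mul q2 q4).trans (by rw [← pow_add]; exact two' (by omega)), ?_, fun y hy d =>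
      (hy.2 ▸ (hf y hy.1).2 d).mono (pow_le_pow_right₀ one_le_two (by omega))⟩
  have b1 := o.pr_diff H (H \ Gd)
  rw [Set.sdiff_sdiff_right_self] at b1
  simp only [Nat.card_Icc, add_tsub_cancel_right, Nat.cast_pow, Nat.cast_ofNat] at e
  refine (two (show n + 1 + 6 * N ≤ n ^ K by omega)).trans ?_
  rw [pow_add, one_div_pow 2 (6 * N), mul_one_div, div_le_iff₀' (by positivity)]
  rw [pow_succ] at key ⊢
  linarith

end Crest.Agent.N49.Rm
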