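import Crest.Agent.N49.Rm.G2
/-! Row 49, block RMH (helper57): glue, the last steps, the recursion and the top call. -/
set_option autoImplicit false
set_option linter.unusedSectionVars false
noncomputable section
namespace Crest.Agent.N49.Rm
open Finset TT Matrix Crest.Agent.N49.Iv.Il

section
variable {L C : Type} [Fintype L] [DecidableEq L] [Fintype C] [DecidableEq C] {T : TT L C}
  {H H' : Set (C → ℤ)} {A M Z J : Finset L} {i j : L} {n n' q q' k0 s k d : ℕ} {D : Type}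

theorem VH.add {F G K : D → Fm L C} (h : VH T A M H q n F) (g : VH T A M H q n G)
    (e : ∀ y x, ∀ p ∈ T.Fib M y, K x p = F x p + G x p) : VH T A M H q (n + 1) K := fun y hy x =>
  (((h y hy x).add (g y hy x)).congr (e y x)).mono (by rw [pow_succ]; linarith)

theorem VH.monoA {A' : Finset L} {F : D → Fm L C} (h : VH T A M H q n F) (e : A ⊆ A') :
    VH T A' M H q n F := fun y hy x => (h y hy x).monoA e

/-- state before the last centring -/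
def K8 (d : ℕ) (T : TT L C) (Z M : Finset L) (i : L) (H : Set (C → ℤ)) (n : ℕ) (F : D → Fm L C) :
    Prop := B0 d T Z M i H n F ∧ ∃ (G Y : D → Fm L C) (q : ℕ), K6 T Z M i H n F G Y ∧ 1 ≤ q ∧
  q ≤ 2 ^ n ∧ VH T (Z ∪ M) (insert i M) H q n Y
/-- state after the last centring -/
def K9 (a : Prop) (d : ℕ) (T : TT L C) (Z M : Finset L) (i : L) (H : Set (C → ℤ)) (n : ℕ)
    (F : D → Fm L C) : Prop := B0 d T Z M i H n F ∧ ∃ (G Y : D → Fm L C), K6 T Z M i H n F G Y ∧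
  (a → Mb T (Z.erase i) (insert i M) H n Y)
def K10 (a : Prop) (d : ℕ) (T : TT L C) (Z M : Finset L) (i : L) (H : Set (C → ℤ)) (n : ℕ)
    (F : D → Fm L C) : Prop := B0 d T Z M i H n F ∧ ∃ (G Y : D → Fm L C) (q : ℕ), 1 ≤ q ∧
  q ≤ 2 ^ n ∧ Tb T Z M H n G ∧ RP T (Z.erase i) M H n Y ∧
  VH T (Z ∪ M) M H q n (fun x p => F x p - G x p - Y x p) ∧ (a → Mb T (Z.erase i) M H n Y)
end

variable {l0 d : ℕ}
theorem st_i (hP : TBP) (hF : TBF) (hU : UPX l0) (h : KX l0) : Ar l0 (Ξ := X1)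
    (fun L _ _ D _ x C _ _ T H n F => gs6 d L D (x, ∅) C T H n F)
    fun L _ _ D _ x C _ _ T H n F => gs6 d L D (x, x.1.erase x.2.2) C T H n F := by
  refine Ar.iter' (fun _ _ x => x.1.erase x.2.2) (gs6 d) ?_
  obtain ⟨c, h⟩ := h
  obtain ⟨k0, u⟩ := Eng.prd (l0 := l0) (R := fun L _ _ D _ x C _ _ T H n F =>
    FrS T x.1 x.2.1 x.2.2 H n F) hU (c + 1) (by omega)
  refine ⟨k0, fun K' => (u K').imp fun K u L C _ _ _ _ T X D _ n H ⟨⟨⟨Z, M, i⟩, J⟩, j⟩ F l z g cD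
    ⟨hj, hJ, b, F0, Y, k, r⟩ => ?_⟩
  dsimp only at hj hJ b k r
  have m : ∀ j ∈ Z.erase i, j ∉ insert i M := fun j hj => by
    simp [ne_of_mem_erase hj, b.jM hj]
  obtain ⟨t, dY, q, q1, q2, v⟩ := id k
  obtain ⟨q', a1, a2, f⟩ := (b.2.2.2.2.2 j (mem_of_mem_erase hj)).sub hF (mem_of_mem_erase hj)
    b.2.2.1 t
  exact (u L C T X D n H _ _ j Y l z g cD (insert_nonempty _ _)
    (insert_subset b.iA subset_union_right) (B0.jA hj) (m j hj) dY (Prd.succ (fun a1' a2' e1 e2 g' =>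
      h L C T D n H _ M i j q q' a1' a2' _ Y l z e1 e2 (g'.g le_rfl) cD b.2.2.2.1 subset_union_right
        b.iA b.iM (B0.jA hj) (b.jM hj) (ne_of_mem_erase hj)
        (fun x => (b.2.2.2.2.1 x).sub (t.dat b.2.2.1 x)) dY q1 q2 a1 a2 f v) z.1)).imp le_rfl le_rfl
    fun C' _ _ T' ι H' n' k' mv _ w => ⟨mv.b0 g.ok b, _, _, mv.k6 hP g.ok b k,
      (forall_mem_insert _ _ _).2 ⟨w, fun j hj =>
        mv.frS g.ok (B0.jA (hJ hj)) (m j (hJ hj)) dY (r j hj)⟩⟩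

theorem st_j (hP : TBP) (h : RMA l0 d) : Ar l0 (Ξ := X1)
    (fun L _ _ D _ x C _ _ T H n F => gs6 d L D (x, x.1.erase x.2.2) C T H n F)
    fun _ _ _ _ _ x _ _ _ T H n F => K9 True d T x.1 x.2.1 x.2.2 H n F := by
  refine Ar.trans (Ar.det 1 le_rfl (Q := fun L _ _ D _ x C _ _ T H n F => Fintype.card D ≤ n ∧
    gs6 d L D (x, x.1.erase x.2.2) C T H n F) fun _ _ _ _ _ _ _ _ _ _ _ _ _ _ _ _ c p => by
      simpa using ⟨c, p⟩) (Ar.use h ?_)
  rintro L C _ _ _ _ T D _ n H ⟨Z, M, i⟩ F o ⟨c, b, F0, Y, k, r⟩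
  dsimp only at b k r
  refine ⟨D, _, (Z.erase i, insert i M), Y, c, ⟨b.cd, ?_⟩, fun _ _ _ _ _ _ _ _ _ _ m u =>
    ⟨m.b0 o b, _, _, m.k6 hP o b k, fun _ => u⟩⟩
  rw [RP, u_in b.2.1]
  exact ⟨disjoint_insert_right.2 ⟨notMem_erase _ _, b.dj⟩, insert_nonempty _ _, k.2.1, r⟩

theorem st_k (hA : TBA) : Ar l0 (Ξ := X1)
    (fun _ _ _ _ _ x _ _ _ T H n F => K9 True d T x.1 x.2.1 x.2.2 H n F)
    fun _ _ _ _ _ x _ _ _ T H n F => K8 d T x.1 x.2.1 x.2.2 H n F := by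
  refine Ar.det 2 (by omega) ?_
  rintro L C _ _ _ _ T D _ n H ⟨Z, M, i⟩ F l z o c ⟨b, F0, Y, ⟨t, dY, q, q1, q2, v⟩, m⟩
  obtain ⟨Γ, q', a1, a2, t', v'⟩ := m trivial
  dsimp only at b t dY v t' v'
  have e : n ≤ n ^ 2 := le_pow_self' z.1 (by omega)
  have dΓ := t'.dat (disjoint_insert_right.2 ⟨notMem_erase _ _, b.dj⟩)
  rw [u_in b.2.1] at v' dΓ
  exact ⟨b.up subset_rfl e, _, fun x p => Y x p - Γ x p, q',
    ⟨(hA L C T D Z M H n n F0 Γ 1 1 t (t'.shift (erase_subset _ _) (u_in b.2.1))).up subset_rfl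
      (by nlinarith [z.1]), fun x => (dY x).sub (dΓ x), q, q1, p2 q2 e, fun y hy x =>
        (v.up subset_rfl dvd_rfl q1 e y hy x).congr fun p _ => by ring⟩,
    a1, p2 a2 e, v'.up subset_rfl dvd_rfl a1 e⟩

theorem st_l (hP : TBP) (hF : TBF) (hY : YS) (hM : MIX l0) (h : S6 l0) : Ar l0 (Ξ := X1)
    (fun _ _ _ _ _ x _ _ _ T H n F => K8 d T x.1 x.2.1 x.2.2 H n F)
    fun _ _ _ D _ x _ _ _ T H n F => Fintype.card D ≤ n ∧ K10 False d T x.1 x.2.1 x.2.2 H n F := by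
  refine (Ar.mix hM (fun _ _ x => {x.2.2}) _ fun _ _ _ _ _ _ _ _ _ _ _ _ _ _ _ _ _ _ _ _ _ _ _
    o m ⟨b, _, _, q, k, q1, q2, v⟩ => ⟨m.b0 o b, _, _, q, m.k6 hP o b k, q1, p2 q2 m.n_le,
      m.vh o k.2.1 v⟩).trans ?_
  obtain ⟨K, h⟩ := h
  refine Ar.sub (2 * (K + 1)) ?_
  rintro L C _ _ _ _ T D _ n H ⟨Z, M, i⟩ F l z g c
    ⟨H0, s, ⟨b, G, Y, q', ⟨t, dY, q, q1, q2, v⟩, a1, a2, v'⟩, ct, yz⟩
  dsimp only at b t dY v v' ct yz
  have e : n ≤ n ^ 2 := le_pow_self' z.1 (by omega)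
  obtain ⟨e3, e4⟩ := pow_two_le (c := 2) (K := K) z.1
  have Q1 : 1 ≤ q * q' := Nat.succ_le_of_lt (by positivity)
  have dF := fun x => (b.2.2.2.2.1 x).sub (t.dat b.2.2.1 x)
  obtain ⟨H2, s2, m1, m2⟩ := h L C T D _ H0 H _ M i (q * q') _ Y l (z.mono' e)
    (Rm.mono _ _ _ _ _ _ T e3 e3 g) subset_union_right b.iA b.iM ct
    (fun y hy => ⟨s hy, yz y hy _ subset_rfl⟩) dF dY (v.up subset_rfl (dvd_mul_right _ _) Q1 e)
    (v'.up s (dvd_mul_left _ _) Q1 e)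
  obtain ⟨-, y1, -, y3⟩ := hY L C T {i} {i} g.ok_sm.1 ct subset_rfl
  have dj : Disjoint {i} M := disjoint_singleton_left.2 b.iM
  have u : (Z ∪ M) \ {i} = Z.erase i ∪ M := by rw [sdiff_singleton_eq_erase, u_er b.iM]
  refine ⟨H2, s2, _, e.trans e4, le_rfl, (half_anti e3).trans m1, c.trans (e.trans e4),
    b.up (s2.trans s) (e.trans e4), G, _, q * q', Q1, p2m q2 a2 (by nlinarith [z.1]),
    t.up (s2.trans s) (e.trans e4), ⟨b.dj, b.2.2.2.1, fun x => u ▸ y1 _ _ _ dj (dF x), fun j hj => ?_⟩,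
    VH.up m2 subset_rfl dvd_rfl Q1 e3, False.elim⟩
  obtain ⟨q3, b1, b2, f⟩ := (b.2.2.2.2.2 j (mem_of_mem_erase hj)).sub hF (mem_of_mem_erase hj)
    b.2.2.1 t
  exact FrS.mono ⟨q3, b1, b2, u ▸ y3 D _ M j H0 H q3 _ _ subset_union_right dj (B0.jA hj) (b.jM hj)
    (by simpa using ne_of_mem_erase hj) (fun y hy => yz y hy _ subset_rfl) dF f⟩ s2 (e.trans e4)

theorem st_m (hP : TBP) (h : RMA l0 d) : Ar l0 (Ξ := X1)
    (fun _ _ _ D _ x _ _ _ T H n F => Fintype.card D ≤ n ∧ K10 False d T x.1 x.2.1 x.2.2 H n F)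
    fun _ _ _ _ _ x _ _ _ T H n F => K10 True d T x.1 x.2.1 x.2.2 H n F :=
  Ar.use h fun _ _ _ _ _ _ _ D _ _ _ x _ o ⟨c, b, _, Y, q, q1, q2, t, r, v, _⟩ =>
    ⟨D, _, (x.1.erase x.2.2, x.2.1), Y, c, ⟨b.cd, r⟩, fun _ _ _ _ _ _ _ _ _ _ m u =>
      ⟨m.b0 o b, _, _, q, q1, p2 q2 m.n_le, m.tb hP o t, m.rp o r, m.vh o (fun z =>
        ((b.2.2.2.2.1 z).sub (t.dat b.2.2.1 z)).sub ((r.2.2.1 z).mono
          (union_subset_union_left (erase_subset _ _)) subset_rfl)) v, fun _ => u⟩⟩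

theorem st_n (hA : TBA) (hR : TBR) : Ar l0 (Ξ := X1)
    (fun _ _ _ _ _ x _ _ _ T H n F => K10 True d T x.1 x.2.1 x.2.2 H n F)
    fun _ _ _ _ _ x _ _ _ T H n F => Mb T x.1 x.2.1 H n F := by
  refine Ar.det 2 (by omega) ?_
  rintro L C _ _ _ _ T D _ n H ⟨Z, M, i⟩ F l z o c ⟨b, G, Y, q, q1, q2, t, r, v, m⟩
  obtain ⟨Γ, q', a1, a2, t', v'⟩ := m trivial
  dsimp only at b t r v t' v'
  have Q1 : 1 ≤ q * q' := Nat.succ_le_of_lt (by positivity)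
  have e : n + n ≤ n ^ 2 := by nlinarith [z.1]
  have t2 := hR L C T D _ M i H n Γ (notMem_erase _ _) b.iM t'
  rw [insert_erase b.2.1] at t2
  refine ⟨_, q * q', Q1, p2m q2 a2 e, (hA L C T D Z M H n n G _ 1 1 t t2).up subset_rfl e,
    ((v.up subset_rfl (dvd_mul_right _ _) Q1 le_rfl).add ((v'.up subset_rfl (dvd_mul_left _ _) Q1
      le_rfl).monoA (union_subset_union_left (erase_subset _ _))) fun y x p hp => ?_).up subset_rfl
      dvd_rfl Q1 (by have := z.1; omega)⟩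
  rw [hp.2 i, if_neg b.iM]
  ring

theorem rma_zero : RMA l0 0 := by
  refine Ar.imp ?_
  rintro L C _ _ _ _ T D _ n H ⟨Z, M⟩ F - ⟨c, -, -, f, -⟩
  obtain rfl : Z = ∅ := card_eq_zero.1 c
  refine ⟨F, 1, le_rfl, Nat.one_le_two_pow, ⟨Empty, inferInstance, inferInstance, ⟨Empty.elim, Empty.elim, fun x => x.elim,
    fun x => x.elim⟩, fun x p => F x (fg p), by simp, fun x => x.elim, fun _ _ x => x.elim,
    fun x => ((f x).mono subset_rfl (by simp)).fg fun _ => rfl, fun x p => ?_⟩,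
    fun y _ x => (TT.Rel.zero (by positivity)).congr fun p _ => sub_self _⟩
  congr 1
  funext v
  rcases v with c | ℓ <;> rfl

/-- the leaves of the block -/
structure Lv (l0 : ℕ) : Prop where
  box : BOX
  one : ONEX l0
  mix : MIX l0
  kx : KX l0
  ys : YS
  s1 : S1 l0
  s2 : S2 l0
  s3 : S3 l0
  s4 : S4 l0
  s5 : S5 l0
  s6 : S6 l0
  tp : TBP
  ta : TBA
  tr : TBR
  tf : TBF

theorem rma_succ (h : Lv l0) (r : RMA l0 d) : RMA l0 (d + 1) := by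
  have a := (st_a h.box h.one).trans <| (st_b h.s1).trans <| (st_c h.s2).trans <|
    (st_d h.s3).trans <| (st_e h.s4).trans <| (st_f h.tp r).trans <| (st_g h.tp r).trans <|
    (st_h h.tp h.mix h.s5).trans <| (st_i h.tp h.tf (upx h.one) h.kx).trans <| (st_j h.tp r).trans <|
    (st_k h.ta).trans <| (st_l h.tp h.tf h.ys h.mix h.s6).trans <| (st_m h.tp r).trans
      (st_n h.ta h.tr)
  refine a.ctx fun L C _ _ _ _ T D _ n H x F p => ?_
  obtain ⟨i, hi⟩ := card_pos.1 ((Nat.succ_pos d).trans_eq p.1.symm)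
  exact ⟨(x.1, x.2, i), ⟨p.1, hi, p.2⟩, fun _ _ _ _ _ _ _ q => q⟩

theorem rma (h : Lv l0) : ∀ d, RMA l0 d
  | 0 => rma_zero
  | d + 1 => rma_succ h (rma h d)

theorem RMA.rmhx (h : RMA l0 d) : RMHX l0 d := by
  obtain ⟨k0, h⟩ := h
  exact ⟨k0, fun K' => (h K').imp fun K h L C _ _ _ _ T X D _ n H Z M q F l c dj m z g cD f q1 q2 fr =>
    (h L C T X D n H (Z, M) F l z g cD ⟨c, dj, m, f, fun j hj => ⟨q, q1, q2, fr j hj⟩⟩).imp le_rfl
      le_rfl fun _ _ _ _ _ _ _ _ _ _ u => u.mh⟩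

/-- any number of free letters -/
theorem rma_all (h : ∀ d, RMA l0 d) : Ar l0 (Ξ := fun L => Finset L × Finset L)
    (fun _ _ _ _ _ x _ _ _ T H n F => RP T x.1 x.2 H n F)
    fun _ _ _ _ _ x _ _ _ T H n F => Mb T x.1 x.2 H n F := by
  have a : ∀ t, Ar l0 (Ξ := fun L => Finset L × Finset L)
      (fun _ _ _ _ _ x _ _ _ T H n F => x.1.card ≤ t ∧ RP T x.1 x.2 H n F)
      fun _ _ _ _ _ x _ _ _ T H n F => Mb T x.1 x.2 H n F := fun t => by
    induction t with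
    | zero => exact Ar.trans (Ar.imp fun _ _ _ _ _ _ _ _ _ _ _ _ _ _ p => ⟨by omega, p.2⟩) (h 0)
    | succ t ih =>
      refine Ar.trans (Ar.imp fun _ _ _ _ _ _ _ _ _ _ _ x _ _ p => ?_) (ih.or (h (t + 1)))
      rcases Nat.lt_or_ge t x.1.card with e | e
      exacts [.inr ⟨by omega, p.2⟩, .inl ⟨e, p.2⟩]
  exact Ar.trans (Ar.imp fun _ _ _ _ _ _ _ _ _ _ _ x _ l p => ⟨(card_le_univ _).trans l, p⟩) (a l0)

theorem topx_of (hU : UPX l0) (h : ∀ d, RMA l0 d) (c : ℕ) : TOPX l0 c := by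
  obtain ⟨k0, u⟩ := Eng.prd (l0 := l0) (R := fun L _ _ D _ x C _ _ T H n F =>
    FrS T x.1 x.2.1 x.2.2 H n F) hU (c + 1) (by omega)
  have a : ∀ t K' : ℕ, ∃ K : ℕ, 1 ≤ K ∧ ∀ (L C : Type) [Fintype L] [DecidableEq L] [Fintype C]
      [DecidableEq C] (T : TT L C) (X : Hk L C) (D : Type) [Fintype D] (n : ℕ) (H : Set (C → ℤ))
      (Z M J : Finset L) (F : D → Fm L C) (kk s : ℕ), Fintype.card L ≤ l0 → Disjoint Z M →
      M.Nonempty → Sz n T H → GG (n ^ K) T X → Fintype.card D ≤ n → (∀ e, T.Dat (Z ∪ M) M (F e)) →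
      J ⊆ Z → J.card ≤ t → t * k0 ≤ kk → n ^ K ≤ s → HerX c kk s n T X Z M H F →
      NX (t * k0) (n ^ K) K' n T H X fun _ _ _ T' ι H' n' =>
        ∀ j ∈ J, FrS T' (Z ∪ M) M j H' n' fun e p => F e (ι p) := fun t => by
    induction t with
    | zero =>
      refine fun K' => ⟨K' + 1, by omega, fun L C _ _ _ _ T X D _ n H Z M J F kk s l dj m z g cD f
        hJ ct _ _ _ => NX.here le_rfl (le_pow_self' z.1 (by omega))
          (g.mono (pow_mono' z.1 (by omega))) subset_rfl z ?_⟩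
      rw [card_eq_zero.1 (Nat.le_zero.1 ct)]
      simp
    | succ t ih =>
      intro K'
      obtain ⟨K2, u⟩ := u K'
      obtain ⟨K1, k1, ih⟩ := ih (K2 + K')
      refine ⟨K1 * (K2 + 1), by nlinarith, fun L C _ _ _ _ T X D _ n H Z M J F kk s l dj m z g cD f
        hJ ct hk hs he => ?_⟩
      obtain ⟨e3, e4⟩ := pow_two_le (c := K1) (K := K2) z.1
      rcases J.eq_empty_or_nonempty with rfl | ⟨j, hj⟩
      · obtain ⟨C', _, _, T', ι, H', n', k, a1, a2, a3, a4, a5, a6, a7, -⟩ :=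
          ih L C T X D n H Z M ∅ F kk s l dj m z (g.mono e4) cD f hJ (by simp) (by nlinarith)
            (e4.trans hs) he
        exact ⟨C', _, _, T', ι, H', n', k, a1, a2.trans e4, by nlinarith, a4.mono e4,
          a5.mono (pow_mono' a6.1 (by omega)), a6, a7, by simp⟩
      rw [add_mul, one_mul]
      refine (ih L C T X D n H Z M (J.erase j) F kk s l dj m z (g.mono e4) cD f
        ((erase_subset _ _).trans hJ) (by rw [card_erase_of_mem hj]; omega) (by nlinarith)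
        (e4.trans hs) he).bind e4 fun C' _ _ T' ι H' n' k mv g' p => ?_
      have f' := fun e => mv.ref.dat (f e)
      refine (u L C' T' _ D n' H' _ M j _ l mv.sz (g'.mono (pow_mono' mv.sz.1 (by omega)))
        (cD.trans mv.n_le) m subset_union_right (mem_union_left _ (hJ hj))
        (disjoint_left.1 dj (hJ hj)) f' (Prd.succ (fun a1 a2 b1 b2 g2 => ⟨1, le_rfl,
          Nat.one_le_two_pow, he C' T' ι k (mv.ref.mono (e4.trans hs)) (by nlinarith [mv.kle]) H' n'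
          a1 a2 j (hJ hj) mv.ov mv.n_le (by nlinarith [mv.le]) mv.sz b1 b2 g2⟩) mv.sz.1)).imp le_rfl
        ((Nat.pow_le_pow_left mv.le' _).trans e3) fun C2 _ _ T2 ι2 H2 n2 k2 m2 _ w j' hj' => ?_
      by_cases e : j' = j
      · exact e ▸ w
      · exact m2.frS g'.ok (mem_union_left _ (hJ hj')) (disjoint_left.1 dj (hJ hj')) f'
          (p j' (mem_erase.2 ⟨e, hj'⟩))
  obtain ⟨k1, r⟩ := rma_all h
  refine ⟨l0 * k0 + k1, fun K' => ?_⟩
  obtain ⟨K2, r⟩ := r K'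
  obtain ⟨K1, -, a⟩ := a l0 K2
  refine ⟨K1 * (K2 + 1), fun L C _ _ _ _ T X D _ n H Z M F l dj m z g cD f he => ?_⟩
  obtain ⟨e3, e4⟩ := pow_two_le (c := K1) (K := K2) z.1
  refine (a L C T X D n H Z M Z F _ _ l dj m z (g.mono e4) cD f subset_rfl
    ((card_le_univ _).trans l) (by omega) e4 he).bind e4 fun C' _ _ T' ι H' n' k mv g' p => ?_
  exact (r L C' T' _ D n' H' (Z, M) _ l mv.sz g' (cD.trans mv.n_le)
    ⟨dj, m, fun e => mv.ref.dat (f e), p⟩).imp le_rfl ((Nat.pow_le_pow_left mv.le' _).trans e3)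
    fun _ _ _ _ _ _ _ _ _ _ w => w.mh

theorem Lv.rmhx (h : Lv l0) (d : ℕ) : RMHX l0 d := (rma h d).rmhx
theorem Lv.topx (h : Lv l0) (c : ℕ) : TOPX l0 c := topx_of (upx h.one) (rma h) c
end Crest.Agent.N49.Rm
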