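import Crest.Agent.N49.Rm.Sp
import Crest.Agent.N49.Rm.Ar
/-! Row 49, block RMH (helper57): statements of the bracket-form kit used by the glue. -/
set_option autoImplicit false
noncomputable section
namespace Crest.Agent.N49.Rm
open Finset

theorem upx {l0 : ℕ} (h : ONEX l0) : UPX l0 := upg h

/-- pull-back along a refinement -/
def TBP : Prop := ∀ (L C C' : Type) [Fintype L] [DecidableEq L] [Fintype C] [DecidableEq C]
  [Fintype C'] [DecidableEq C'] (T : TT L C) (T' : TT L C') (ι : (C' ⊕ L → ℝ) → (C ⊕ L → ℝ))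
  (s k : ℕ) (D : Type) (Z M : Finset L) (H : Set (C → ℤ)) (H' : Set (C' → ℤ)) (n : ℕ)
  (G : D → Fm L C), T.Ok → Ref s T k C' T' ι → Ov ι H' H → Tb T Z M H n G →
  Tb T' Z M H' n fun d p => G d (ι p)
/-- linear combinations -/
def TBA : Prop := ∀ (L C : Type) [Fintype L] [DecidableEq L] [Fintype C] [DecidableEq C]
  (T : TT L C) (D : Type) (Z M : Finset L) (H : Set (C → ℤ)) (n1 n2 : ℕ) (G1 G2 : D → Fm L C)
  (a b : ℝ), Tb T Z M H n1 G1 → Tb T Z M H n2 G2 →
  Tb T Z M H (n1 + n2) fun d p => a * G1 d p + b * G2 d p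
/-- homogenise in a new letter -/
def TBR : Prop := ∀ (L C : Type) [Fintype L] [DecidableEq L] [Fintype C] [DecidableEq C]
  (T : TT L C) (D : Type) (Z M : Finset L) (i : L) (H : Set (C → ℤ)) (n : ℕ) (G : D → Fm L C),
  i ∉ Z → i ∉ M → Tb T Z M H n G → Tb T (insert i Z) M H n fun d p => p (.inr i) * G d p
/-- a bracket form is a datum, and exactly Freiman in every direction -/
def TBF : Prop := ∀ (L C : Type) [Fintype L] [DecidableEq L] [Fintype C] [DecidableEq C]
  (T : TT L C) (D : Type) (Z M : Finset L) (H : Set (C → ℤ)) (n : ℕ) (G : D → Fm L C),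
  Disjoint Z M → Tb T Z M H n G →
  (∀ d, T.Dat (Z ∪ M) M (G d)) ∧ ∀ j ∈ Z, T.Frei (Z ∪ M) M j H 1 0 G
end Crest.Agent.N49.Rm
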