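import Crest.Agent.N49.Rm.Hk
import Crest.Agent.N49.Rm.S3a
/-! Row 49, block RMH: frozen statements of STEP' (note 589). Owner helper97. -/
set_option autoImplicit false
noncomputable section
namespace Crest.Agent.N49.Rm
open Finset Matrix Crest.Agent.N49.Iv.Il

section
variable {L C : Type} [Fintype L] [DecidableEq L] [Fintype C] [DecidableEq C]
namespace TT
variable (T : TT L C)
/-- the rectangles on which the bracket relations are given by the matrices `k l` -/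
def KE {D E R : Type} [Fintype E] [Fintype R] (A M : Finset L) (i j : L) (H : Set (C → ℤ))
    (q n : ℕ) (γ : E → Fm L C) (Λ : D → E → Fm L C) (a1 a2 : ℕ) (k : Fin 4 → Matrix R E ℤ) :
    Set (T.CC j (Fin 4) → ℤ) :=
  {w | (∀ l, T.cor j l w ∈ H) ∧
    (T.rect j a1 a2).VR (upA (A \ M) (Fin 4)) (({i} : Finset L).image Sum.inl) w q n (fun x p =>
      ∑ l, lc (k l) γ x (T.cq j l p)) ∧
    ∀ d, ∃ s : R → Fm (L ⊕ Fin 4) (T.CC j (Fin 4)), ∀ l : Fin 4,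
      (T.rect j a1 a2).VR (upA (A.erase i) (Fin 4)) (M.image Sum.inl) w q n fun z p =>
        (![1, -1, -1, 1] l : ℝ) * Λ d z (T.cq j l p) - lc (k l)ᵀ s z p}
/-- `F` is a constant class along the `j`-lines of `H` -/
def Cst {D : Type} (A M : Finset L) (j : L) (H : Set (C → ℤ)) (q n : ℕ) (F : D → Fm L C) : Prop :=
  ∃ g : D → Fm L C, (∀ d, T.Dat (A.erase j) M (g d)) ∧
    ∀ y ∈ H, T.VR A M y q n fun d p => F d p - g d p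
/-- move the letters of `S` to their centres -/
def Ys (S : Finset L) (p : C ⊕ L → ℝ) : C ⊕ L → ℝ
  | .inl c => if Disjoint (T.ty c) S then p (.inl c) else 0
  | .inr ℓ => if ℓ ∈ S then 1 else p (.inr ℓ)
def Yz (S : Finset L) (y : C → ℤ) : C → ℤ := fun c => if Disjoint (T.ty c) S then y c else 0
/-- the letters of `J` are centred -/
def Ctr (J : Finset L) : Prop := ∀ j ∈ J, ∀ p c, j ∈ T.ty c → T.Φ (T.Ys {j} p) c = 0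
/-- add `∑ α x • (clone x)` to the letter `x0` (`none` = the letter `j` itself) -/
def shZ (j : L) {ρ : Type} [Fintype ρ] [DecidableEq ρ] (x0 : Option ρ) (α : ρ → ℤ)
    (w : T.CC j ρ → ℤ) : T.CC j ρ → ℤ
  | .inl c => if h : j ∈ T.ty c ∧ x0 = none then w (.inl c) + ∑ x, α x * w (.inr (⟨c, h.1⟩, x))
      else w (.inl c)
  | .inr cx => if x0 = some cx.2 then w (.inr cx) + ∑ x, α x * w (.inr (cx.1, x)) else w (.inr cx)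
end TT
/-- typed bracket forms (families with common new words) -/
def Tb {D : Type} (T : TT L C) (Z M : Finset L) (H : Set (C → ℤ)) (n : ℕ) (G : D → Fm L C) : Prop :=
  ∃ (N : Type) (_ : Fintype N) (_ : DecidableEq N) (W : Wd L C N) (Γ : D → Fm L (C ⊕ N)),
    Fintype.card N ≤ n ∧ W.Ok T Z ∧ W.Cell H ∧ (∀ d, (W.xt T).Dat (Z ∪ M) (Z ∪ M) (Γ d)) ∧
    ∀ d p, G d p = Γ d (W.lf p)
/-- `W` covers the kernel of `B` -/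
def Kr {a E : Type} [Fintype a] [Fintype E] [DecidableEq E] (n : ℕ) (B : Matrix a E ℤ)
    (W : Matrix E E ℤ) : Prop :=
  Bm n B ∧ Bm n W ∧ ∃ (m : ℕ) (Q : Matrix E a ℤ), 1 ≤ m ∧ m ≤ 2 ^ n ∧ Bm n Q ∧
    (m : ℤ) • (1 : Matrix E E ℤ) = W + Q * B
/-- state of step S1: the brackets are Freiman in the directions of `J` -/
def P1 {D : Type} (T : TT L C) (A M : Finset L) (i : L) (J : Finset L) (H : Set (C → ℤ)) (n : ℕ)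
    (F : D → Fm L C) : Prop :=
  ∃ (E : Type) (_ : Fintype E) (q : ℕ) (γ : E → Fm L C) (X : D → Fm L C) (Λ : D → E → Fm L C),
    Fintype.card E ≤ n ∧ 1 ≤ q ∧ q ≤ 2 ^ n ∧ T.Rep A M i H q (2 ^ n) F γ X Λ ∧
    ∀ j ∈ J, T.Frei (A \ M) {i} j H q (2 ^ n) γ
end

/-! ### engine with corner `0` only -/
/-- UPGRADE (`ONEX` + `FR`) -/
def UPX (l0 : ℕ) : Prop := ∃ K0 k0 : ℕ, 1 ≤ K0 ∧ ∀ K' : ℕ, ∃ K : ℕ, ∀ (L C : Type) [Fintype L]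
  [DecidableEq L] [Fintype C] [DecidableEq C] (T : TT L C) (hk : Hk L C) (D : Type) [Fintype D] (n : ℕ)
  (H : Set (C → ℤ)) (A M : Finset L) (j : L) (q : ℕ) (F : Fin 4 → D → Fm L C),
  Fintype.card L ≤ l0 → Sz n T H → GG (n ^ K) T hk → Fintype.card D ≤ n → M.Nonempty → M ⊆ A →
  j ∈ A → j ∉ M → (∀ l d, T.Dat A M (F l d)) → 1 ≤ q → q ≤ 2 ^ n →
  (1 / 2 : ℝ) ^ n ≤ T.RM0 A M j H q (2 ^ n) F (n ^ K0) (2 * n ^ K0) →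
  NX k0 (n ^ K) K' n T H hk fun _ _ _ T' ι H' n' => ∃ q' : ℕ, 1 ≤ q' ∧ q' ≤ 2 ^ n' ∧
    T'.Frei A M j H' q' (2 ^ n') fun d p => F 0 d (ι p)

/-! ### laws -/
/-- shears by narrower direction clones preserve the law of a clone shape -/
def SHR : Prop := ∀ (L C : Type) [Fintype L] [DecidableEq L] [Fintype C] [DecidableEq C]
  (T : TT L C) (n b m : ℕ) (j : L) (r : ℕ) (a : Fin r → ℕ) (x0 : Option (Fin r)) (α : Fin r → ℤ)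
  (S : Set (T.CC j (Fin r) → ℤ)), Fintype.card C ≤ 2 ^ n → Fintype.card L ≤ 2 ^ n → r ≤ 8 →
  (∀ x, a x ≤ b) → 2 * n + m + 30 ≤ b → Good b 9 L C T →
  (∀ x, α x ≠ 0 → x0 ≠ some x ∧ |α x| * 2 ^ (2 * n + 2 * m + 20) * 2 ^ (x0.elim 0 a) ≤ 2 ^ a x) →
  |(T.cl j (fun _ => false) a).pr {w | T.shZ j x0 α w ∈ S} - (T.cl j (fun _ => false) a).pr S| ≤
    (1 / 2) ^ m
/-- centre the letters of `J`; all mixed points lie over `H` (iterate `PAIR`) -/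
def MIX (l0 : ℕ) : Prop := ∃ k0 : ℕ, ∀ K' : ℕ, ∃ K : ℕ, ∀ (L C : Type) [Fintype L] [DecidableEq L]
  [Fintype C] [DecidableEq C] (T : TT L C) (hk : Hk L C) (n : ℕ) (H : Set (C → ℤ)) (J : Finset L),
  Fintype.card L ≤ l0 → Sz n T H → GG (n ^ K) T hk →
  NX k0 (n ^ K) K' n T H hk fun _ _ _ T' ι H' _ => T'.Ctr J ∧
    ∀ y ∈ H', ∀ S ⊆ J, ∃ x ∈ H, ι (TT.cf (T'.Yz S y)) = TT.cf x
/-- descent to corner `0` (shear + `DESC` + `rel_down`) -/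
def DSH (l0 : ℕ) : Prop := ∃ K : ℕ, ∀ (L C : Type) [Fintype L] [DecidableEq L] [Fintype C]
  [DecidableEq C] (T : TT L C) (D : Type) [Fintype D] (n : ℕ) (A M : Finset L) (j : L)
  (q a1 a2 : ℕ) (F : D → Fm L C) (S : Set (T.CC j (Fin 4) → ℤ)), Fintype.card L ≤ l0 → 2 ≤ n →
  Fintype.card C ≤ 2 ^ n → n ^ K ≤ a1 → a1 ≤ a2 → G ((n + a2) ^ K) T → Fintype.card D ≤ n →
  M.Nonempty → M ⊆ A → j ∉ M → (∀ d, T.Dat A M (F d)) → 1 ≤ q → q ≤ 2 ^ n →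
  (1 / 2 : ℝ) ^ n ≤ (T.rect j a1 a2).pr S →
  (∀ w ∈ S, (T.rect j a1 a2).VR (TT.upA A (Fin 4)) (M.image Sum.inl) w q n
    fun d p => F d (T.cq j 0 p)) →
  (1 / 2 : ℝ) ^ n ^ K ≤ (T.rect j a1 a2).pr {w | w ∈ S ∧ T.VR A M (T.cor j 0 w) q (n ^ K) F}
/-- CONST: `F1` at corner `0` is seen from a reference free of `t₀`, `F2` from one free of `s₀` -/
def CONST (l0 : ℕ) : Prop := ∃ K0 k0 : ℕ, 1 ≤ K0 ∧ ∀ K' : ℕ, ∃ K : ℕ, ∀ (L C : Type) [Fintype L]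
  [DecidableEq L] [Fintype C] [DecidableEq C] (T : TT L C) (hk : Hk L C) (D1 D2 : Type) (n : ℕ)
  (H : Set (C → ℤ)) (A1 M1 A2 M2 : Finset L) (j : L) (q : ℕ) (F1 : D1 → Fm L C)
  (F2 : D2 → Fm L C) (G1 : D1 → Fm (L ⊕ Fin 4) (T.CC j (Fin 4)))
  (G2 : D2 → Fm (L ⊕ Fin 4) (T.CC j (Fin 4))),
  Fintype.card L ≤ l0 → Sz n T H → GG (n ^ K) T hk → M1 ⊆ A1 → M2 ⊆ A2 → j ∈ A1 → j ∈ A2 → j ∉ M1 →
  j ∉ M2 → (∀ d, T.Dat A1 M1 (F1 d)) → (∀ d, T.Dat A2 M2 (F2 d)) →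
  (∀ d, (T.rect j (n ^ K0) (n ^ K0)).Dat ((TT.upA A1 (Fin 4)).erase (.inr 2)) (M1.image Sum.inl)
    (G1 d)) →
  (∀ d, (T.rect j (n ^ K0) (n ^ K0)).Dat ((TT.upA A2 (Fin 4)).erase (.inr 0)) (M2.image Sum.inl)
    (G2 d)) →
  (1 / 2 : ℝ) ^ n ≤ (T.rect j (n ^ K0) (n ^ K0)).pr {w | T.cor j 0 w ∈ H ∧
    (T.rect j (n ^ K0) (n ^ K0)).VR (TT.upA A1 (Fin 4)) (M1.image Sum.inl) w q n
      (fun d p => F1 d (T.cq j 0 p) - G1 d p) ∧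
    (T.rect j (n ^ K0) (n ^ K0)).VR (TT.upA A2 (Fin 4)) (M2.image Sum.inl) w q n
      fun d p => F2 d (T.cq j 0 p) - G2 d p} →
  NX k0 (n ^ K) K' n T H hk fun _ _ _ T' ι H' n' => T'.Cst A1 M1 j H' q n' (fun d p => F1 d (ι p)) ∧
    T'.Cst A2 M2 j H' q n' fun d p => F2 d (ι p)

/-! ### geometry of numbers on the `i`-fibre of the rectangle shape -/
def KQ (l0 : ℕ) : Prop := ∃ K : ℕ, ∀ (L C : Type) [Fintype L] [DecidableEq L] [Fintype C]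
  [DecidableEq C] (T : TT L C) (D E : Type) [Fintype D] [Fintype E] (n : ℕ) (H : Set (C → ℤ))
  (A M : Finset L) (i j : L) (q q1 a1 a2 : ℕ) (F X : D → Fm L C) (γ : E → Fm L C)
  (Λ : D → E → Fm L C), Fintype.card L ≤ l0 → Sz n T H → n ^ K ≤ a1 → a1 ≤ a2 →
  G ((n + a2) ^ K) T → Fintype.card D ≤ n → Fintype.card E ≤ n → M.Nonempty → M ⊆ A → i ∈ A →
  i ∉ M → j ∈ A → j ∉ M → j ≠ i → (∀ d, T.Dat A M (F d)) → 1 ≤ q → q ≤ 2 ^ n → 1 ≤ q1 →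
  q1 ≤ 2 ^ n → T.Frei A M j H q1 (2 ^ n) F → T.Rep A M i H q (2 ^ n) F γ X Λ →
  ∃ (q' : ℕ) (k : Fin 4 → Matrix (Fin 4 × E) E ℤ), 1 ≤ q' ∧ q' ≤ 2 ^ n ^ K ∧
    (∀ l, Bm (n ^ K) (k l)) ∧
    (1 / 2 : ℝ) ^ n ^ K ≤ (T.rect j a1 a2).pr (T.KE A M i j H q' (n ^ K) γ Λ a1 a2 k)
/-- the bracket-free case (`BOX`, `FRR`, `FREE` on the rectangle tower) -/
def KX (l0 : ℕ) : Prop := ∃ K : ℕ, ∀ (L C : Type) [Fintype L] [DecidableEq L] [Fintype C]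
  [DecidableEq C] (T : TT L C) (D : Type) [Fintype D] (n : ℕ) (H : Set (C → ℤ))
  (A M : Finset L) (i j : L) (q q1 a1 a2 : ℕ) (F X : D → Fm L C), Fintype.card L ≤ l0 →
  Sz n T H → n ^ K ≤ a1 → a1 ≤ a2 → G ((n + a2) ^ K) T → Fintype.card D ≤ n → M.Nonempty →
  M ⊆ A → i ∈ A → i ∉ M → j ∈ A → j ∉ M → j ≠ i → (∀ d, T.Dat A M (F d)) →
  (∀ d, T.Dat A (insert i M) (X d)) → 1 ≤ q → q ≤ 2 ^ n → 1 ≤ q1 → q1 ≤ 2 ^ n →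
  T.Frei A M j H q1 (2 ^ n) F → (∀ y ∈ H, T.VR A M y q n fun d p => F d p - X d p) →
  ∃ q' : ℕ, 1 ≤ q' ∧ q' ≤ 2 ^ n ^ K ∧
    (1 / 2 : ℝ) ^ n ^ K ≤ T.RM0 A (insert i M) j H q' (2 ^ n ^ K) (fun _ => X) a1 a2

/-! ### absorption into the part that is affine in the letter `i` -/
/-- re-bracketing: integers near `β ~ β0` are brackets of `β0` up to an `i`-affine datum -/
def RB (l0 : ℕ) : Prop := ∃ K : ℕ, ∀ (L C : Type) [Fintype L] [DecidableEq L] [Fintype C]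
  [DecidableEq C] (T : TT L C) (E : Type) [Fintype E] (n : ℕ) (H : Set (C → ℤ)) (Z : Finset L)
  (i : L) (q : ℕ) (ν : E → (C → ℤ) → ℤ) (β β0 : E → Fm L C), Fintype.card L ≤ l0 → Sz n T H →
  G (n ^ K) T → Fintype.card E ≤ n → i ∈ Z → (∀ e, T.Dat Z {i} (β e)) →
  (∀ e, T.Dat Z {i} (β0 e)) → 1 ≤ q → q ≤ 2 ^ n →
  (∀ y ∈ H, ∀ e, |(ν e y : ℝ) - β e (TT.cf y)| ≤ 2 ^ n) →
  (∀ y ∈ H, T.VR Z {i} y q n fun e p => β e p - β0 e p) →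
  ∃ H' ⊆ H, ∃ (c : E → ℝ) (β' : E → Fm L C), (1 / 2 : ℝ) ^ n ^ K ≤ T.pr H' ∧
    (∀ e, T.Dat Z {i} (β' e)) ∧ ∀ y ∈ H', ∀ e,
      |β0 e (TT.cf y) - c e - round (β0 e (TT.cf y) - c e)| ≤ 1 / 10 ∧
      (ν e y : ℝ) = round (β0 e (TT.cf y) - c e) + β' e (TT.cf y)
/-- a trivial coefficient times a bracket is `i`-affine -/
def REPL : Prop := ∀ (L C : Type) [Fintype L] [DecidableEq L] [Fintype C] [DecidableEq C]
  (T : TT L C) (H : Set (C → ℤ)) (A M : Finset L) (i : L) (q : ℕ) (B R : ℝ) (ν : (C → ℤ) → ℤ)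
  (β t : Fm L C), T.Ok → M ⊆ A → i ∈ A → i ∉ M → T.Dat (A \ M) {i} β → T.Dat (A.erase i) M t →
  0 ≤ B → (∀ y ∈ H, |(ν y : ℝ) - β (TT.cf y)| ≤ R) → (∀ y ∈ H, T.Rel (A.erase i) M y q B t) →
  ∃ X, T.Dat A (insert i M) X ∧ ∀ y ∈ H, T.Rel A M y q (R * B) fun p => ν y * t p - X p
/-- transport to the centres -/
def YS : Prop := ∀ (L C : Type) [Fintype L] [DecidableEq L] [Fintype C] [DecidableEq C]
  (T : TT L C) (J S : Finset L), T.Ok → T.Ctr J → S ⊆ J →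
  (∀ y, T.Ys S (TT.cf y) = TT.cf (T.Yz S y)) ∧
  (∀ A M F, Disjoint S M → T.Dat A M F → T.Dat (A \ S) M fun p => F (T.Ys S p)) ∧
  (∀ A M y q B F, M ⊆ A → Disjoint S M → T.Dat A M F → T.Rel A M (T.Yz S y) q B F →
    T.Rel (A \ S) M y q B fun p => F (T.Ys S p)) ∧
  ∀ (D : Type) A M j H H' q B (F : D → Fm L C), M ⊆ A → Disjoint S M → j ∈ A → j ∉ M → j ∉ S →
    (∀ y ∈ H', T.Yz S y ∈ H) → (∀ d, T.Dat A M (F d)) → T.Frei A M j H q B F →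
    T.Frei (A \ S) M j H' q B fun d p => F d (T.Ys S p)
/-- bracket forms at the centres -/
def TBY : Prop := ∀ (L C : Type) [Fintype L] [DecidableEq L] [Fintype C] [DecidableEq C]
  (T : TT L C) (D : Type) (Z M S : Finset L) (H H' : Set (C → ℤ)) (n : ℕ) (G : D → Fm L C),
  Disjoint S M → Disjoint Z M → (∀ y ∈ H', T.Yz S y ∈ H) → H'.Nonempty → Tb T Z M H n G →
  Tb T (Z \ S) M H' n fun d p => G d (T.Ys S p)
/-- sums of coefficient × bracket with disjoint types are bracket forms -/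
def TBM : Prop := ∀ (L C : Type) [Fintype L] [DecidableEq L] [Fintype C] [DecidableEq C]
  (T : TT L C) (D E : Type) [Fintype E] (Z1 Z2 M : Finset L) (i : L) (H : Set (C → ℤ)) (n1 n2 : ℕ)
  (Ξ : D × E → Fm L C) (β : E → Fm L C) (c : E → ℝ), Disjoint Z1 Z2 → i ∉ Z1 → i ∉ Z2 →
  Disjoint (insert i (Z1 ∪ Z2)) M → Tb T Z1 M H n1 Ξ → Tb T Z2 {i} H n2 β →
  (∀ y ∈ H, ∀ e, |β e (TT.cf y) - c e - round (β e (TT.cf y) - c e)| ≤ 1 / 10) →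
  ∃ G : D → Fm L C, Tb T (insert i (Z1 ∪ Z2)) M H (n1 + n2 + Fintype.card E) G ∧
    ∀ y d, ∀ p ∈ T.Fib M y, G d p = ∑ e, round (β e (TT.cf y) - c e) * Ξ (d, e) p

/-! ### the steps -/
def S1 (l0 : ℕ) : Prop := ∃ k0 : ℕ, ∀ K' : ℕ, ∃ K : ℕ, ∀ (L C : Type) [Fintype L] [DecidableEq L]
  [Fintype C] [DecidableEq C] (T : TT L C) (hk : Hk L C) (D : Type) [Fintype D] (n : ℕ) (H : Set (C → ℤ))
  (A M J : Finset L) (i j : L) (q1 : ℕ) (F : D → Fm L C), Fintype.card L ≤ l0 → Sz n T H →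
  GG (n ^ K) T hk → Fintype.card D ≤ n → M.Nonempty → M ⊆ A → i ∈ A → i ∉ M → j ∈ A → j ∉ M → j ≠ i →
  J ⊆ (A \ M).erase i → (∀ d, T.Dat A M (F d)) → 1 ≤ q1 → q1 ≤ 2 ^ n →
  T.Frei A M j H q1 (2 ^ n) F → P1 T A M i J H n F →
  NX k0 (n ^ K) K' n T H hk fun _ _ _ T' ι H' n' => P1 T' A M i (insert j J) H' n' fun d p => F d (ι p)
def S2 (l0 : ℕ) : Prop := ∃ k0 : ℕ, ∀ K' : ℕ, ∃ K : ℕ, ∀ (L C : Type) [Fintype L] [DecidableEq L]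
  [Fintype C] [DecidableEq C] (T : TT L C) (hk : Hk L C) (D E : Type) [Fintype D] [Fintype E] [DecidableEq E]
  (n : ℕ) (H : Set (C → ℤ)) (A M : Finset L) (i j : L) (q q1 : ℕ) (F X : D → Fm L C)
  (γ : E → Fm L C) (Λ : D → E → Fm L C), Fintype.card L ≤ l0 → Sz n T H → GG (n ^ K) T hk →
  Fintype.card D ≤ n → Fintype.card E ≤ n → M.Nonempty → M ⊆ A → i ∈ A → i ∉ M → j ∈ A → j ∉ M →
  j ≠ i → (∀ d, T.Dat A M (F d)) → 1 ≤ q → q ≤ 2 ^ n → 1 ≤ q1 → q1 ≤ 2 ^ n →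
  T.Frei A M j H q1 (2 ^ n) F → T.Rep A M i H q (2 ^ n) F γ X Λ →
  T.Frei (A \ M) {i} j H q (2 ^ n) γ →
  NX k0 (n ^ K) K' n T H hk fun _ _ _ T' ι H' n' => ∃ (q' : ℕ) (B : Matrix (Fin 4 × E) E ℤ)
    (W : Matrix E E ℤ), 1 ≤ q' ∧ q' ≤ 2 ^ n' ∧ Kr n' B W ∧
      T'.Cst (A.erase i) M j H' q' n' (fun (de : D × E) p => lc Wᵀ (Λ de.1) de.2 (ι p)) ∧
      T'.Cst (A \ M) {i} j H' q' n' fun x p => lc B γ x (ι p)
def S3 (l0 : ℕ) : Prop := ∃ k0 : ℕ, ∀ K' : ℕ, ∃ K : ℕ, ∀ (L C : Type) [Fintype L] [DecidableEq L]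
  [Fintype C] [DecidableEq C] (T : TT L C) (hk : Hk L C) (D E : Type) [Fintype D] [Fintype E] [DecidableEq E]
  (n : ℕ) (H : Set (C → ℤ)) (A M : Finset L) (i j : L) (q q1 q2 : ℕ) (F X : D → Fm L C)
  (γ : E → Fm L C) (Λ : D → E → Fm L C) (B : Matrix (Fin 4 × E) E ℤ) (W : Matrix E E ℤ),
  Fintype.card L ≤ l0 → Sz n T H → GG (n ^ K) T hk →
  Fintype.card D ≤ n → Fintype.card E ≤ n → M.Nonempty → M ⊆ A → i ∈ A → i ∉ M → j ∈ A → j ∉ M →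
  j ≠ i → (∀ d, T.Dat A M (F d)) → 1 ≤ q → q ≤ 2 ^ n → 1 ≤ q1 → q1 ≤ 2 ^ n → 1 ≤ q2 →
  q2 ≤ 2 ^ n → T.Frei A M j H q1 (2 ^ n) F → T.Rep A M i H q (2 ^ n) F γ X Λ →
  T.Frei (A \ M) {i} j H q (2 ^ n) γ → Kr n B W →
  T.Cst (A.erase i) M j H q2 n (fun (de : D × E) => lc Wᵀ (Λ de.1) de.2) →
  T.Cst (A \ M) {i} j H q2 n (lc B γ) →
  NX k0 (n ^ K) K' n T H hk fun _ _ _ T' ι H' n' => ∃ (q' : ℕ) (U : Matrix (Fin 4 × E) E ℤ)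
    (V : Matrix E E ℤ), 1 ≤ q' ∧ q' ≤ 2 ^ n' ∧ Kr n' U V ∧
      (∀ y ∈ H', T'.VR (A \ M) {i} y q' n' fun x p => lc U γ x (ι p)) ∧
      T'.Frei (A.erase i) M j H' q' (2 ^ n') fun (de : D × E) p => lc Vᵀ (Λ de.1) de.2 (ι p)
/-- one matrix for all directions -/
def S4 (l0 : ℕ) : Prop := ∃ K : ℕ, ∀ (L C : Type) [Fintype L] [DecidableEq L] [Fintype C]
  [DecidableEq C] (T : TT L C) (D E : Type) [Fintype E] [DecidableEq E] (n : ℕ)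
  (H : Set (C → ℤ)) (A M J : Finset L) (q : ℕ) (Λ : D → E → Fm L C)
  (U : L → Matrix (Fin 4 × E) E ℤ) (V : L → Matrix E E ℤ), Fintype.card L ≤ l0 → 2 ≤ n →
  Fintype.card E ≤ n → 1 ≤ q → q ≤ 2 ^ n → (∀ j ∈ J, Kr n (U j) (V j) ∧
    T.Frei A M j H q (2 ^ n) fun (de : D × E) => lc (V j)ᵀ (Λ de.1) de.2) →
  ∃ (q' : ℕ) (V' : Matrix E E ℤ), 1 ≤ q' ∧ q' ≤ 2 ^ n ^ K ∧
    Kr (n ^ K) (Matrix.of fun (x : J × (Fin 4 × E)) e => U x.1 x.2 e) V' ∧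
    ∀ j ∈ J, T.Frei A M j H q' (2 ^ n ^ K) fun (de : D × E) => lc V'ᵀ (Λ de.1) de.2
/-- the brackets are removed by a typed form -/
def S5 (l0 : ℕ) : Prop := ∃ K : ℕ, ∀ (L C : Type) [Fintype L] [DecidableEq L] [Fintype C]
  [DecidableEq C] (T : TT L C) (D E R : Type) [Fintype E] [DecidableEq E] [Fintype R] (n : ℕ)
  (H H' : Set (C → ℤ)) (Z M : Finset L) (i : L) (q : ℕ) (F X : D → Fm L C) (γ Γ : E → Fm L C)
  (Λ : D → E → Fm L C) (Ξ : D × E → Fm L C) (B : L → Matrix (Fin 4 × E) E ℤ)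
  (W : L → Matrix E E ℤ) (U : Matrix R E ℤ) (V : Matrix E E ℤ), Fintype.card L ≤ l0 →
  Sz n T H' → G (n ^ K) T → Fintype.card E ≤ n → Fintype.card R ≤ n → Disjoint Z M → i ∈ Z →
  1 ≤ q → q ≤ 2 ^ n → T.Ctr (Z.erase i) → (∀ y ∈ H', ∀ S ⊆ Z.erase i, T.Yz S y ∈ H) →
  T.Rep (Z ∪ M) M i H q (2 ^ n) F γ X Λ →
  (∀ j ∈ Z.erase i, Kr n (B j) (W j) ∧
    T.Cst (Z.erase i ∪ M) M j H q n (fun (de : D × E) => lc (W j)ᵀ (Λ de.1) de.2) ∧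
    T.Cst Z {i} j H q n (lc (B j) γ)) →
  Kr n U V → (∀ y ∈ H, T.VR Z {i} y q n (lc U γ)) →
  Tb T (Z.erase i) M H n Ξ →
  (∀ y ∈ H, T.VR (Z.erase i ∪ M) M y q n fun de p => lc Vᵀ (Λ de.1) de.2 p - Ξ de p) →
  Tb T (Z.erase i) {i} H n Γ → (∀ y ∈ H, T.VR Z {i} y q n fun e p => γ e p - Γ e p) →
  ∃ H'' ⊆ H', ∃ (q' : ℕ) (F0 X' : D → Fm L C), (1 / 2 : ℝ) ^ n ^ K ≤ T.pr H'' ∧ 1 ≤ q' ∧
    q' ≤ 2 ^ n ^ K ∧ Tb T Z M H'' (n ^ K) F0 ∧ (∀ d, T.Dat (Z ∪ M) (insert i M) (X' d)) ∧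
    ∀ y ∈ H'', T.VR (Z ∪ M) M y q' (n ^ K) fun d p => F d p - F0 d p - X' d p
/-- the last step: a datum whose `i`-linear part is trivial is constant along the `i`-lines -/
def S6 (l0 : ℕ) : Prop := ∃ K : ℕ, ∀ (L C : Type) [Fintype L] [DecidableEq L] [Fintype C]
  [DecidableEq C] (T : TT L C) (D : Type) (n : ℕ) (H H' : Set (C → ℤ)) (A M : Finset L) (i : L)
  (q : ℕ) (F X : D → Fm L C), Fintype.card L ≤ l0 → Sz n T H' → G (n ^ K) T → M ⊆ A → i ∈ A →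
  i ∉ M → T.Ctr {i} → (∀ y ∈ H', y ∈ H ∧ T.Yz {i} y ∈ H) → (∀ d, T.Dat A M (F d)) →
  (∀ d, T.Dat A (insert i M) (X d)) → (∀ y ∈ H, T.VR A M y q n fun d p => F d p - X d p) →
  (∀ y ∈ H', T.VR A (insert i M) y q n X) →
  ∃ H'' ⊆ H', (1 / 2 : ℝ) ^ n ^ K ≤ T.pr H'' ∧
    ∀ y ∈ H'', T.VR A M y q (n ^ K) fun d p => F d p - F d (T.Ys {i} p)
end Crest.Agent.N49.Rm
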