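import Crest.Agent.N49.Rm.Kd
import Crest.Agent.N49.Rm.Sp
import Crest.Agent.N49.Rm.S3a
import Crest.Agent.N49.Rm.Mod
/-! Row 49, block RMH (helper14): `KQ` from `FRB`, `KX` from `FREE` (rectangle tower). -/
set_option autoImplicit false
set_option linter.unusedSectionVars false
noncomputable section
namespace Crest.Agent.N49.Rm
open Finset Matrix Crest.Agent.N49.Iv.Il TT

namespace Kq
variable {L C : Type} [Fintype L] [DecidableEq L] [Fintype C] [DecidableEq C] {T : TT L C}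
  {A M : Finset L} {i j : L} {ρ : Type} [Fintype ρ] [DecidableEq ρ]

/-- the signs of the corners -/
abbrev sg : Fin 4 → ℝ := ![1, -1, -1, 1]

theorem up_sdiff : upA A ρ \ M.image .inl = upA (A \ M) ρ := by
  ext (x | x) <;> simp [upA]
theorem up_erase : (upA A ρ).erase (.inl i) = upA (A.erase i) ρ := by
  ext (x | x) <;> simp [upA]
theorem up_sub (h : M ⊆ A) : M.image .inl ⊆ upA A ρ :=
  image_subset_iff.2 fun _ k => inl_upA.2 (h k)

theorem cp_cf (l : Fin 4) (w : T.CC j (Fin 4) → ℤ) : T.cq j l (cf w) = cf (T.cor j l w) :=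
  T.pos_cf j _ _ _ (by simp) w

theorem pn (E K n : ℕ) (hn : 2 ≤ n) : (E * n) ^ K ≤ n ^ ((E + 1) * K) := by
  rw [pow_mul, pow_succ]
  exact Nat.pow_le_pow_left (Nat.mul_le_mul_right n
    (Nat.lt_two_pow_self.le.trans (Nat.pow_le_pow_left hn E))) K

theorem sz_mono {H : Set (C → ℤ)} {n n' : ℕ} (h : Sz n T H) (e : n ≤ n') : Sz n' T H :=
  ⟨h.1.trans e, h.2.1.trans (Nat.pow_le_pow_right two_pos e), (half_anti e).trans h.2.2⟩

/-- the rectangle tower and the rectangles with corners in `H` -/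
theorem setup (hB : BOX) {l0 K n a1 a2 : ℕ} {H : Set (C → ℤ)} (hl : Fintype.card L ≤ l0)
    (hS : Sz n T H) (h1 : n ^ ((8 * l0 + 41) * (K + 1) + 1) ≤ a1) (h2 : a1 ≤ a2)
    (hG : G ((n + a2) ^ ((8 * l0 + 41) * (K + 1) + 1)) T) (j : L) :
    Sz ((8 * l0 + 40) * n) (T.rect j a1 a2) {w | ∀ l, T.cor j l w ∈ H} ∧
      G (((8 * l0 + 40) * n) ^ K) (T.rect j a1 a2) ∧
      ((8 * l0 + 40) * n) ^ K ≤ n ^ ((8 * l0 + 41) * (K + 1) + 1) := by
  have n2 := hS.1
  have e1 := pn (8 * l0 + 40) (K + 1) n n2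
  have e2 : n ^ ((8 * l0 + 41) * (K + 1)) < n ^ ((8 * l0 + 41) * (K + 1) + 1) :=
    Nat.pow_lt_pow_right n2 (by omega)
  have e3 : ((8 * l0 + 40) * n) ^ K ≤ ((8 * l0 + 40) * n) ^ (K + 1) :=
    Nat.pow_le_pow_right (by positivity) (by omega)
  have e4 : (8 * l0 + 40) * n ≤ ((8 * l0 + 40) * n) ^ (K + 1) := Nat.le_self_pow (by omega) _
  have e5 : n ^ ((8 * l0 + 41) * (K + 1) + 1) ≤ (n + a2) ^ ((8 * l0 + 41) * (K + 1) + 1) :=
    Nat.pow_le_pow_left (by omega) _
  have e6 : n + a2 ≤ (n + a2) ^ ((8 * l0 + 41) * (K + 1) + 1) := Nat.le_self_pow (by omega) _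
  have e7 : 8 * (n + l0) + 40 ≤ (8 * l0 + 40) * n := by nlinarith
  have bx := hB L C T (n + l0) _ j a1 a2 H (sz_mono hS (by omega))
    (hl.trans ((by omega : l0 ≤ n + l0).trans Nat.lt_two_pow_self.le))
    (by rw [show 8 * l0 + 40 + 1 = 8 * l0 + 41 from rfl] at e1; omega) h2 (by omega : a2 ≤ _)
    (mono _ _ _ 12 _ _ _ le_rfl
      (by rw [show 8 * l0 + 40 + 1 = 8 * l0 + 41 from rfl] at e1; omega) hG)
  rw [show 8 * l0 + 40 + 1 = 8 * l0 + 41 from rfl] at e1
  exact ⟨⟨by omega, (card_rect hS.2.1 j).trans (Nat.pow_le_pow_right two_pos (by omega)),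
    (half_anti (by omega)).trans bx⟩, Good.rect hG (by omega) (by omega) (by omega) j, by omega⟩

/-- the alternating sum of the corner relations -/
theorem alt (hT : T.Ok) {l0 n a1 a2 q q1 : ℕ} (hl : Fintype.card L ≤ l0) (hj : j ∉ M) (hq : 1 ≤ q)
    (hq1 : 1 ≤ q1) {w : T.CC j (Fin 4) → ℤ} {F : Fm L C} {Y : Fin 4 → Fm L C}
    (hF : ∀ ℓ ∈ M, T.Lin ℓ F) (hY : ∀ l, ∀ ℓ ∈ M, T.Lin ℓ (Y l))
    (h1 : T.RR A M j a1 a2 w q1 (3 ^ Fintype.card L * 2 ^ n) fun _ => F)
    (h2 : ∀ l, T.Rel A M (T.cor j l w) q (2 ^ n) fun p => F p - Y l p) :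
    (T.rect j a1 a2).Rel (upA A (Fin 4)) (M.image .inl) w (q * q1) (2 ^ (2 * l0 + n + 3))
      fun p => ∑ l, sg l * Y l (T.cq j l p) := by
  have qq : 1 ≤ q * q1 := Nat.mul_pos hq hq1
  have c := fun l => (VR.cq (x := Unit) (a1 := a1) (a2 := a2) hT hj ((card_le_univ M).trans hl) l
    (F := fun _ p => F p - Y l p) (fun _ => h2 l) (fun _ ℓ m => (hF ℓ m).sub (hY l ℓ m)) ()).dvd
      (Dvd.intro _ rfl) qq
  have r := Rel.dvd h1 (Dvd.intro_left q rfl) qq
  refine ((r.sub ((((c 0).sub (c 1)).sub (c 2)).add (c 3))).congr fun p _ => ?_).mono ?_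
  · simp [Fin.sum_univ_four, sg, cq]; ring
  · have : (3 : ℝ) ^ Fintype.card L ≤ 2 ^ (2 * l0) := by
      rw [pow_mul]
      exact (pow_le_pow_left₀ (by norm_num) (by norm_num) _).trans
        (pow_le_pow_right₀ (by norm_num) hl)
    have := mul_le_mul_of_nonneg_right this (by positivity : (0 : ℝ) ≤ 2 ^ n)
    have p : (0 : ℝ) < 2 ^ (2 * l0) * 2 ^ n := by positivity
    rw [pow_add (2 : ℝ) (2 * l0 + n), pow_add (2 : ℝ) (2 * l0)]
    norm_num
    linarith

theorem dat_alt {X : Fm L C} {a1 a2 : ℕ} (hj : j ∉ M) (hji : j ≠ i) (h : T.Dat A (insert i M) X) :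
    (T.rect j a1 a2).Dat (upA A (Fin 4)) (insert (.inl i) (M.image .inl))
      fun p => ∑ l, sg l * X (T.cq j l p) := by
  rw [← image_insert]
  exact Dat.sum univ fun l _ => (h.pos j _ _ _ _ (by simp [hj, hji])).smul _
end Kq
open Kq

theorem kq {l0 : ℕ} (hB : BOX) (h : FRB (l0 + 4)) : KQ l0 := by
  obtain ⟨K, h⟩ := h
  refine ⟨(8 * l0 + 41) * (K + 1) + 1, ?_⟩
  intro L C _ _ _ _ T D E _ _ n H A M i j q q1 a1 a2 F X γ Λ hl hS h1 h2 hG hD hE hM hMA hi hiM hj
    hjM hji hF hq hq' hq1 hq1' hFr hR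
  classical
  obtain ⟨s1, s2, s3⟩ := setup hB hl hS h1 h2 hG j
  have n2 := hS.1
  have hT : T.Ok := (Good.ok_sm hG).1
  have e7 : 8 * (n + l0) + 40 ≤ (8 * l0 + 40) * n := by nlinarith
  obtain ⟨r, κ, q', H', hH, hr, hκ, g1, g2, g3, g4⟩ := h (L ⊕ Fin 4) _ (T.rect j a1 a2) D (Fin 4 × E)
    _ _ (upA A (Fin 4)) (M.image .inl) (.inl i) (q * q1) (fun x p => γ x.2 (T.cq j x.1 p))
    (fun d p => ∑ l, sg l * X d (T.cq j l p)) (fun d x p => sg x.1 * Λ d x.2 (T.cq j x.1 p))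
    (fun w x => round (γ x.2 (cf (T.cor j x.1 w)))) (by simpa using hl) s1 s2 (by omega)
    (by simp only [Fintype.card_prod, Fintype.card_fin]; omega) (hM.image _) (up_sub hMA)
    (inl_upA.2 hi) (by simpa using hiM)
    (fun x => by
      rw [up_sdiff, ← image_singleton]; exact (hR.1 _).pos j _ _ _ _ (by simpa using hji))
    (fun d => dat_alt hjM hji (hR.2.1 d))
    (fun d x => by rw [up_erase]; exact ((hR.2.2.1 d _).pos j _ _ _ _ hjM).smul _)
    (Nat.mul_pos hq hq1)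
    ((Nat.mul_le_mul hq' hq1').trans (by rw [← pow_add]; exact Nat.pow_le_pow_right two_pos (by omega)))
    fun w hw => ⟨fun x => by simpa only [cp_cf] using (hR.2.2.2 _ (hw x.1)).1 x.2, fun d => by
      refine ((alt hT hl hjM hq hq1 (hF d).2
        (Y := fun l p => X d p + ∑ e, round (γ e (cf (T.cor j l w))) * Λ d e p)
        (fun l ℓ m => ((hR.2.1 d).2 ℓ (mem_insert_of_mem m)).add
          (Lin.sum univ fun e _ => ((hR.2.2.1 d e).2 ℓ m).smul _))
        (frr L C T D A M j H q1 _ F a1 a2 w hT hMA hj hjM hF hFr hw d)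
        fun l => ((hR.2.2.2 _ (hw l)).2 d).congr fun p _ => by ring).congr fun p _ => ?_).mono
          (pow_le_pow_right₀ one_le_two (by omega))
      simp only [Fintype.sum_prod_type, mul_add, sum_add_distrib, mul_sum]
      congr 1
      exact sum_congr rfl fun l _ => sum_congr rfl fun e _ => by ring⟩
  obtain ⟨ε⟩ : Nonempty (Fin r ↪ Fin 4 × E) :=
    Function.Embedding.nonempty_of_card_le (by simpa using hr)
  refine ⟨q', fun l => Matrix.of fun x e => Function.extend ε κ 0 x (l, e), g1,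
    g2.trans (Nat.pow_le_pow_right two_pos s3), fun l x e => ?_,
    (half_anti s3).trans (g3.trans (pr_sub _ fun w hw => ?_))⟩
  · by_cases k : ∃ a, ε a = x
    · obtain ⟨a, rfl⟩ := k
      simp only [of_apply, ε.injective.extend_apply]
      exact (hκ a _).trans (pow_le_pow_right₀ one_le_two s3)
    · simp [Function.extend_apply' _ _ _ k]
  obtain ⟨v1, s, -, v2⟩ := g4 w hw
  rw [up_sdiff, ← image_singleton] at v1
  rw [up_erase] at v2
  refine ⟨hH hw, fun x => ?_, fun d => ⟨Function.extend ε (s d) 0, fun l z => ?_⟩⟩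
  · by_cases k : ∃ a, ε a = x
    · obtain ⟨a, rfl⟩ := k
      refine (((v1.mono s3).dvd (one_dvd _) g1) a).congr fun p _ => ?_
      simp only [lc, of_apply, ε.injective.extend_apply, Fintype.sum_prod_type]
    · refine (Rel.zero (by positivity)).congr fun p _ => ?_
      simp [lc, Function.extend_apply' _ _ _ k]
  · refine ((v2 d).mono s3 (l, z)).congr fun p _ => ?_
    have := Fintype.sum_of_injective ε ε.injective (fun a => (κ a (l, z) : ℝ) * s d a p)
      (fun x => (Function.extend ε κ 0 x (l, z) : ℤ) * Function.extend ε (s d) 0 x p)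
      (fun x k => by simp [Function.extend_apply' _ _ _ k])
      fun a => by simp [ε.injective.extend_apply]
    rw [this]; rfl

theorem kx {l0 : ℕ} (hB : BOX) (h : FREE (l0 + 4)) : KX l0 := by
  obtain ⟨K, h⟩ := h
  refine ⟨(8 * l0 + 41) * (K + 1) + 1, ?_⟩
  intro L C _ _ _ _ T D _ n H A M i j q q1 a1 a2 F X hl hS h1 h2 hG hD hM hMA hi hiM hj
    hjM hji hF hX hq hq' hq1 hq1' hFr hR
  obtain ⟨s1, s2, s3⟩ := setup hB hl hS h1 h2 hG j
  have n2 := hS.1
  have hT : T.Ok := (Good.ok_sm hG).1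
  have e7 : 8 * (n + l0) + 40 ≤ (8 * l0 + 40) * n := by nlinarith
  obtain ⟨H', hH, q', g1, g2, g3, g4⟩ := h (L ⊕ Fin 4) _ (T.rect j a1 a2) D
    _ _ (upA A (Fin 4)) (M.image .inl) (.inl i) (q * q1)
    (fun d p => ∑ l, sg l * X d (T.cq j l p)) (by simpa using hl) s1 s2 (by omega)
    (hM.image _) (up_sub hMA) (inl_upA.2 hi) (by simpa using hiM)
    (fun d => dat_alt hjM hji (hX d)) (Nat.mul_pos hq hq1)
    ((Nat.mul_le_mul hq' hq1').trans (by rw [← pow_add]; exact Nat.pow_le_pow_right two_pos (by omega)))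
    fun w hw d => (alt hT hl hjM hq hq1 (hF d).2 (Y := fun _ => X d)
      (fun l ℓ m => (hX d).2 ℓ (mem_insert_of_mem m))
      (frr L C T D A M j H q1 _ F a1 a2 w hT hMA hj hjM hF hFr hw d)
      fun l => hR _ (hw l) d).mono (pow_le_pow_right₀ one_le_two (by omega))
  refine ⟨q', g1, g2.trans (Nat.pow_le_pow_right two_pos s3),
    (half_anti s3).trans (g3.trans (pr_sub _ fun w hw => ⟨hH hw 0, fun d => ?_⟩))⟩
  have := (g4 w hw d).mono (pow_le_pow_right₀ one_le_two s3)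
  rw [← image_insert] at this
  exact this.congr fun p _ => by simp [Fin.sum_univ_four, sg, cq]; ring

end Crest.Agent.N49.Rm
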