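import Crest.Agent.N49.Rm.Law
import Crest.Agent.N49.Rm.Dl
import Crest.Agent.N49.Rm.Op

/-! Row 49, block RMH/B (helper82): `MG` and `CEN`. -/
set_option autoImplicit false
set_option linter.unusedSectionVars false
noncomputable section
namespace Crest.Agent.N49.Rm
open Finset Matrix Po TT

variable {L C : Type} [Fintype L] [DecidableEq L] [Fintype C] [DecidableEq C] {T : TT L C}

namespace Mg

theorem fib_le (ℓ : L) {f g : (C → ℤ) → ℝ} (sf : Summable f) (sg : Summable g)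
    (h : ∀ y, ∑' n, f (T.jn ℓ y n) ≤ ∑' n, g (T.jn ℓ y n)) : ∑' y, f y ≤ ∑' y, g y := by
  rw [tsum_fb (T := T) ℓ sf, tsum_fb (T := T) ℓ sg]
  exact (summable_fb (T := T) ℓ sf).tsum_le_tsum (fun r => h _) (summable_fb (T := T) ℓ sg)

theorem del_wt (h : T.Ok) (ℓ : L) (y : C → ℤ) (n : T.Bl ℓ → ℤ) :
    (T.del ℓ).wt (T.jn ℓ y n) = T.wr ℓ y * gs 1 (zc n - 0) := by
  rw [← h.wr_jn y n, wt, sum_split (T := T) ℓ, wr, gs, ← Real.exp_add, sub_zero]
  congr 1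
  rw [sum_congr rfl fun c a => show (T.del ℓ).Φ (cf (T.jn ℓ y n)) c ^ 2 =
    T.Φ (cf (T.jn ℓ y n)) c ^ 2 by rw [show (T.del ℓ).Φ _ c = _ from if_neg (mem_filter.1 a).2],
    sum_congr rfl fun (c : T.Bl ℓ) _ => show (T.del ℓ).Φ (cf (T.jn ℓ y n)) c.1 ^ 2 = zc n c ^ 2 by
      rw [show (T.del ℓ).Φ _ c.1 = _ from if_pos c.2]; simp [jn, c.2, zc]]
  simp [qf, dotProduct, sq, mul_add]

theorem ind_jn {ℓ : L} {E : Set (C → ℤ)} (hE : T.Rd {ℓ} E) (f : (C → ℤ) → ℝ) (y : C → ℤ) :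
    ∑' n, E.indicator f (T.jn ℓ y n) = E.indicator 1 y * ∑' n, f (T.jn ℓ y n) := by
  have e : ∀ n c, Disjoint (T.ty c) {ℓ} → T.jn ℓ y n c = y c := fun n c d =>
    jn_out _ _ (by simpa using d)
  by_cases k : y ∈ E
  · simp [k, hE y _ (fun c d => (e _ c d).symm) k]
  · simp [k, show ∀ n, T.jn ℓ y n ∉ E from fun n a => k (hE _ y (e n) a)]

theorem sm_jn {f : (C → ℤ) → ℝ} (sf : Summable f) (ℓ : L) (y : C → ℤ) :
    Summable fun n => f (T.jn ℓ y n) :=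
  sf.comp_injective fun n n' e => by rw [← bl_jn y n, e, bl_jn]

theorem half {n b : ℕ} {ℓ : L} (hn : Fintype.card C ≤ 2 ^ n) (hb : 2 * n + 10 ≤ b) (h : T.Ok)
    (s : T.SM b) {H : Set (C → ℤ)} (hH : T.Rd {ℓ} H) :
    T.pr H ≤ (T.del ℓ).pr H + 8 * (1 / 2) ^ b := by
  obtain ⟨δ, hδ⟩ : ∃ δ : ℝ, δ = (1 / 2) ^ b := ⟨_, rfl⟩
  have δ0 : 0 < δ := by rw [hδ]; positivity
  have δ1 : δ ≤ 1 / 8 := hδ ▸ (half_anti (b' := 3) (by omega)).trans (by norm_num)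
  obtain ⟨s1, s2⟩ := s ℓ
  rw [← hδ] at s1 s2 ⊢
  obtain ⟨B, hB⟩ : ∃ B, B = {y | ¬ T.UQ univ {ℓ} y (2 ^ b)} := ⟨_, rfl⟩
  have rB : T.Rd {ℓ} B := hB ▸ rd_uq ℓ _
  rw [← hB] at s1 s2
  have o := h.del ℓ
  have c0 := th_pos (PosDef.one (n := T.Bl ℓ) (R := ℝ)) 0
  obtain ⟨κ, hκ⟩ : ∃ κ, κ = dt (T.Mm ℓ 0) / th (1 : Matrix (T.Bl ℓ) (T.Bl ℓ) ℝ) 0 := ⟨_, rfl⟩
  have κ0 : 0 < κ := hκ ▸ div_pos (dt_pos (h.Mm_pd ℓ 0)) c0
  have f1 : ∀ y, κ * ∑' n, (T.del ℓ).wt (T.jn ℓ y n) = T.wr ℓ y * dt (T.Mm ℓ y) := fun y => by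
    simp only [del_wt h, tsum_mul_left]
    rw [hκ, h.dt_eq ℓ y 0]
    change _ / _ * (_ * th 1 0) = _
    field_simp
  have f2 : ∀ y ∉ B, |th (T.Mm ℓ y) (T.ce ℓ y) - dt (T.Mm ℓ y)| ≤ δ * dt (T.Mm ℓ y) :=
    fun y k => hδ ▸ h.th_Mm (by simpa [hB] using k) hn (by omega) _
  have p1 : ∀ y, 0 < T.wr ℓ y * dt (T.Mm ℓ y) := fun y => mul_pos (wr_pos _ _) (dt_pos (h.Mm_pd _ _))
  have p2 : ∀ y, 0 < T.wr ℓ y * th (T.Mm ℓ y) (T.ce ℓ y) :=
    fun y => mul_pos (wr_pos _ _) (th_pos (h.Mm_pd _ _) _)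
  have sT := h.summable
  have sD := o.summable
  have a1 : ∑' y, H.indicator T.wt y ≤
      ∑' y, ((1 + δ) * κ * H.indicator (T.del ℓ).wt y + B.indicator T.wt y) := by
    refine fib_le (T := T) ℓ (sT.indicator _) (((sD.indicator _).mul_left _).add (sT.indicator _))
      fun y => ?_
    rw [((sm_jn (sD.indicator _) ℓ y).mul_left _).tsum_add (sm_jn (sT.indicator _) ℓ y),
      tsum_mul_left, ind_jn hH, ind_jn hH, ind_jn rB, h.fib_wt, mul_assoc, mul_left_comm κ, f1]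
    have := p1 y
    have := p2 y
    by_cases k : y ∈ B
    · by_cases k' : y ∈ H <;> simp [k, k'] <;> positivity
    · have := mul_le_mul_of_nonneg_left (abs_le.1 (f2 y k)).2 (wr_pos (T := T) ℓ y).le
      by_cases k' : y ∈ H <;> simp [k, k']
      linarith
  have a2 : ∑' y, (1 - δ) * κ * (T.del ℓ).wt y ≤
      ∑' y, (T.wt y + (1 - δ) * κ * B.indicator (T.del ℓ).wt y) := by
    refine fib_le (T := T) ℓ (sD.mul_left _) (sT.add ((sD.indicator _).mul_left _)) fun y => ?_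
    rw [(sm_jn sT ℓ y).tsum_add ((sm_jn (sD.indicator _) ℓ y).mul_left _), tsum_mul_left,
      tsum_mul_left, ind_jn rB, h.fib_wt, mul_assoc, mul_assoc, mul_left_comm κ, f1]
    have := p2 y
    by_cases k : y ∈ B
    · simp [k, this.le]
    · have := mul_le_mul_of_nonneg_left (abs_le.1 (f2 y k)).1 (wr_pos (T := T) ℓ y).le
      simp [k]
      linarith
  rw [((sD.indicator _).mul_left _).tsum_add (sT.indicator _), tsum_mul_left] at a1
  rw [sT.tsum_add ((sD.indicator _).mul_left _), tsum_mul_left, tsum_mul_left] at a2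
  have z1 : 0 < ∑' y, T.wt y := h.Z_pos
  have z2 : 0 < ∑' y, (T.del ℓ).wt y := o.Z_pos
  have q0 := pr_nonneg (T := T.del ℓ) H
  have q1 := o.pr_le_one H
  have e : ∑' y, H.indicator (T.del ℓ).wt y = (T.del ℓ).pr H * ∑' y, (T.del ℓ).wt y :=
    (div_mul_cancel₀ _ z2.ne').symm
  rw [pr, div_le_iff₀ z1] at s1 ⊢
  rw [pr, div_le_iff₀ z2] at s2
  rw [e] at a1
  generalize (T.del ℓ).pr H = x at *
  generalize ∑' y, T.wt y = W at *
  generalize ∑' y, (T.del ℓ).wt y = U at *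
  have b1 : (1 - δ) * κ * ((1 - δ) * U) ≤ W := by
    have := mul_le_mul_of_nonneg_left s2 (mul_nonneg (by linarith : 0 ≤ 1 - δ) κ0.le)
    linarith
  have b2 : (1 + δ) * (κ * U) ≤ (1 + 5 * δ) * W := by
    have : (1 + δ) * (κ * U) ≤ (1 + 5 * δ) * ((1 - δ) * (1 - δ)) * (κ * U) :=
      mul_le_mul_of_nonneg_right (by nlinarith [mul_pos δ0 δ0]) (by positivity)
    nlinarith
  have b3 := mul_le_mul_of_nonneg_left b2 q0
  nlinarith [mul_le_mul_of_nonneg_left q1 (mul_pos δ0 z1).le, mul_pos δ0 z1]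

theorem ex_le (a r : ℝ) (S : ℝ) (h : r < |a|) (r0 : 0 ≤ r) :
    Real.exp (-(Real.pi * (S + a ^ 2))) ≤ Real.exp (-(Real.pi * r ^ 2)) *
      (Real.exp (-(Real.pi * (S + (a - r) ^ 2))) + Real.exp (-(Real.pi * (S + (a + r) ^ 2)))) := by
  rw [mul_add (Real.exp _), ← Real.exp_add, ← Real.exp_add]
  have := Real.pi_pos
  rcases lt_abs.1 h with k | k
  · refine le_add_of_le_of_nonneg (Real.exp_le_exp.2 ?_) (Real.exp_pos _).le
    nlinarith [mul_nonneg this.le (mul_nonneg r0 (sub_pos.2 k).le)]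
  · refine le_add_of_nonneg_of_le (Real.exp_pos _).le (Real.exp_le_exp.2 ?_)
    nlinarith [mul_nonneg this.le (mul_nonneg r0 (sub_pos.2 k).le)]

theorem sq_le {d : Type} [Fintype d] [DecidableEq d] (u : d → ℝ) (c : d) {r : ℝ} (h : r < |u c|)
    (r0 : 0 ≤ r) : Real.exp (-(Real.pi * ∑ i, u i ^ 2)) ≤ Real.exp (-(Real.pi * r ^ 2)) *
      (Real.exp (-(Real.pi * ∑ i, (u - Pi.single c r : d → ℝ) i ^ 2)) +
        Real.exp (-(Real.pi * ∑ i, (u - Pi.single c (-r) : d → ℝ) i ^ 2))) := by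
  have e : ∀ s : ℝ, ∑ i, (u - Pi.single c s : d → ℝ) i ^ 2 =
      ∑ i ∈ univ.erase c, u i ^ 2 + (u c - s) ^ 2 := fun s => by
    rw [← sum_erase_add _ _ (mem_univ c)]
    simp only [Pi.sub_apply, Pi.single_eq_same]
    exact congrArg (· + _) (sum_congr rfl fun i k => by simp [(mem_erase.1 k).1])
  rw [e, e, ← sum_erase_add _ _ (mem_univ c), sub_neg_eq_add]
  exact ex_le _ _ _ h r0

theorem live (h : T.Ok) {n b : ℕ} (hn : Fintype.card C ≤ 2 ^ n) (hb : n + 2 ≤ b) {ℓ : L}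
    (c : T.Bl ℓ) {y : C → ℤ} (u : T.UQ univ {ℓ} y (2 ^ b)) {r : ℝ} (r0 : 0 ≤ r) :
    (gm (T.Mm ℓ y) (T.ce ℓ y)).real {m | T.jn ℓ y m ∈ {y | r < |T.Φ (cf y) c.1|}} ≤
      6 * Real.exp (-(Real.pi * r ^ 2)) := by
  have pd := h.Mm_pd ℓ y
  have iu := (h.det_ne ℓ (cf y)).isUnit
  have t := fun θ => abs_le.1 (h.th_Mm (m := 1) u hn (by omega) θ)
  have d0 := dt_pos pd
  have e1 : ∀ (m : T.Bl ℓ → ℤ) (s : ℝ), gs (T.Mm ℓ y) (zc m - (T.ce ℓ y +
      (T.Nm ℓ (cf y))⁻¹ *ᵥ Pi.single c s)) = Real.exp (-(Real.pi *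
        ∑ i, (T.Nm ℓ (cf y) *ᵥ (zc m - T.ce ℓ y) - Pi.single c s : _ → ℝ) i ^ 2)) := fun m s => by
    rw [gs, Mm, qf_mul, ← sub_sub, mulVec_sub _ (_ - _), mulVec_mulVec, mul_nonsing_inv _ iu,
      one_mulVec]
  have e2 : ∀ m : T.Bl ℓ → ℤ, T.Φ (cf (T.jn ℓ y m)) c.1 =
      (T.Nm ℓ (cf y) *ᵥ (zc m - T.ce ℓ y)) c := fun m => by
    rw [cf_jn, h.phi_in, ce, sub_neg_eq_add, mulVec_add, mulVec_mulVec, mul_nonsing_inv _ iu,
      one_mulVec, one_mul]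
    rfl
  have p := th_pos pd (T.ce ℓ y)
  have s := fun s : ℝ => summable_gs pd (T.ce ℓ y + (T.Nm ℓ (cf y))⁻¹ *ᵥ Pi.single c s)
  rw [gm_real pd]
  refine ((summable_ind pd _ _).tsum_le_tsum (fun m => ?_)
    (((s r).add (s (-r))).mul_left
      (Real.exp (-(Real.pi * r ^ 2)) / th (T.Mm ℓ y) (T.ce ℓ y)))).trans ?_
  · by_cases k : r < |T.Φ (cf (T.jn ℓ y m)) c.1|
    · rw [Set.indicator_of_mem (by exact k), e1, e1, div_mul_eq_mul_div, gs, Mm, qf_mul]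
      exact div_le_div_of_nonneg_right (sq_le _ c (e2 m ▸ k) r0) p.le
    · rw [Set.indicator_of_notMem (by exact k)]
      exact mul_nonneg (by positivity) (add_pos (gs_pos _ _) (gs_pos _ _)).le
  · rw [tsum_mul_left, (s r).tsum_add (s (-r)), div_mul_eq_mul_div, div_le_iff₀ p, mul_comm 6,
      mul_assoc]
    refine mul_le_mul_of_nonneg_left ?_ (Real.exp_pos _).le
    have a1 := (t (T.ce ℓ y + (T.Nm ℓ (cf y))⁻¹ *ᵥ Pi.single c r)).2
    have a2 := (t (T.ce ℓ y + (T.Nm ℓ (cf y))⁻¹ *ᵥ Pi.single c (-r))).2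
    have a3 := (t (T.ce ℓ y)).1
    simp only [th] at a1 a2 a3 ⊢
    linarith

theorem dead (h : T.Ok) {c : C} (e : T.ty c = ∅) (r : ℕ) :
    T.pr {y | (r : ℝ) < |T.Φ (cf y) c|} ≤ 2 * Real.exp (-(Real.pi * (r : ℝ) ^ 2)) := by
  have e1 : ∀ (y : C → ℤ) (s : ℤ), T.wt (y - Pi.single c s) = Real.exp (-(Real.pi *
      ∑ i, (T.Φ (cf y) - Pi.single c (s : ℝ) : C → ℝ) i ^ 2)) := fun y s => by
    rw [wt, neg_mul]
    congr 3
    refine sum_congr rfl fun i _ => ?_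
    congr 1
    by_cases k : i = c
    · subst k
      simp [h.dead i _ e]
    · rw [Pi.sub_apply, Pi.single_eq_of_ne k, sub_zero]
      rcases (T.ty i).eq_empty_or_nonempty with x | x
      · simp [h.dead i _ x, k]
      · refine (h.dat i x).1 _ _ fun v _ ne => ?_
        cases v with
        | inr m => rfl
        | inl d =>
          have : d ≠ c := fun z => by rw [z, tv_inl, e] at ne; exact not_nonempty_empty ne
          simp [this]
  have s := fun s : ℤ => (Equiv.subRight (Pi.single c s : C → ℤ)).summable_iff.2 h.summable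
  have t := fun s : ℤ => (Equiv.subRight (Pi.single c s : C → ℤ)).tsum_eq T.wt
  simp only [Function.comp_def, Equiv.subRight_apply] at s t
  rw [pr, div_le_iff₀ (show 0 < ∑' y, T.wt y from h.Z_pos)]
  refine ((h.summable.indicator _).tsum_le_tsum (fun y => ?_)
    (((s r).add (s (-r))).mul_left (Real.exp (-(Real.pi * (r : ℝ) ^ 2))))).trans_eq ?_
  · by_cases k : (r : ℝ) < |T.Φ (cf y) c|
    · rw [Set.indicator_of_mem (by exact k), e1, e1, wt, neg_mul]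
      simpa using sq_le _ c k r.cast_nonneg
    · rw [Set.indicator_of_notMem (by exact k)]
      exact mul_nonneg (by positivity) (add_pos (wt_pos _) (wt_pos _)).le
  · rw [tsum_mul_left, (s r).tsum_add (s (-r)), t, t]
    ring

end Mg

theorem mg : MG := fun L C _ _ _ _ T n b ℓ H hn hb h s hH => by
  have r : ∀ y y' : C → ℤ, (∀ c, Disjoint (T.ty c) {ℓ} → y c = y' c) →
      ∀ c, ℓ ∉ T.ty c → y c = y' c := fun y y' e c k => e c (by simpa using k)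
  have a1 := Mg.half (ℓ := ℓ) hn hb h s (H := H) fun y y' e => hH y y' (r y y' e)
  have a2 := Mg.half (ℓ := ℓ) hn hb h s (H := Hᶜ) fun y y' e k k' =>
    k (hH y' y (fun c x => (r y y' e c x).symm) k')
  rw [h.pr_compl, (h.del ℓ).pr_compl] at a2
  exact abs_le.2 ⟨by linarith, by linarith⟩

theorem cen : CEN := fun L C _ _ _ _ T n b m hn _ hb h s => by
  have e0 : Real.exp (-(Real.pi * ((n + m + 4 : ℕ) : ℝ) ^ 2)) ≤ (1 / 2) ^ (n + m + 4) := by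
    rw [← Real.exp_log (show (0 : ℝ) < 1 / 2 by norm_num), ← Real.exp_nat_mul, Real.exp_le_exp,
      one_div, Real.log_inv]
    have a : (1 : ℝ) ≤ (n + m + 4 : ℕ) := Nat.one_le_cast.2 (by omega)
    nlinarith [Real.pi_gt_three, Real.log_two_lt_d9, mul_nonneg (sub_nonneg.2 a) (zero_le_one.trans a)]
  have e1 : (1 / 2 : ℝ) ^ b ≤ (1 / 2) ^ (n + m + 4) := half_anti (by omega)
  have p0 : (0 : ℝ) < (1 / 2) ^ (n + m + 4) := by positivity
  have k : ∀ c, T.pr {y | ((n + m + 4 : ℕ) : ℝ) < |T.Φ (cf y) c|} ≤ 8 * (1 / 2) ^ (n + m + 4) := by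
    intro c
    rcases (T.ty c).eq_empty_or_nonempty with e | ⟨ℓ, e⟩
    · linarith [Mg.dead h e (n + m + 4)]
    · by_contra x
      obtain ⟨w, a, a'⟩ := h.exists_fib ℓ (rd_uq ℓ (2 ^ b))
        (E := {y | ((n + m + 4 : ℕ) : ℝ) < |T.Φ (cf y) c|}) (δ := 6 * (1 / 2) ^ (n + m + 4))
        (by positivity) (by linarith [(s ℓ).1, not_le.1 x])
      linarith [Mg.live h hn (by omega) ⟨c, e⟩ (not_not.1 a) (n + m + 4 : ℕ).cast_nonneg]
  refine (h.pr_mono (H' := ⋃ c ∈ (univ : Finset C), {y | ((n + m + 4 : ℕ) : ℝ) < |T.Φ (cf y) c|})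
    fun y hy => ?_).trans ((h.pr_biUnion _ _).trans ((sum_le_card_nsmul _ _ _ fun c _ => k c).trans ?_))
  · obtain ⟨c, hc⟩ := not_forall.1 hy
    exact Set.mem_biUnion (mem_univ c) (by simpa using hc)
  · rw [nsmul_eq_mul, card_univ]
    calc (Fintype.card C : ℝ) * (8 * (1 / 2) ^ (n + m + 4)) ≤ 2 ^ n * (8 * (1 / 2) ^ (n + m + 4)) := by
          gcongr; exact_mod_cast hn
      _ = (1 / 2) ^ m / 2 := by rw [pow_add, pow_add, one_div, inv_pow]; field_simp; norm_num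
      _ ≤ _ := half_le_self (by positivity)

end Crest.Agent.N49.Rm
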