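import Crest.Agent.N49.Rm.Ctrx
/-! Row 49, block RMH (helper11, after helper12/72): `PAIRX` without loss in the multiplier. -/
set_option autoImplicit false
set_option linter.unusedSectionVars false
noncomputable section
namespace Crest.Agent.N49.Rm
open Finset Matrix Po

namespace Pa
variable {L C : Type} [Fintype L] [DecidableEq L] [Fintype C] [DecidableEq C] {T : TT L C}
  {j : L} {a q : ℕ}
open TT

/-- pairs on the one-clone shape -/
theorem cl_pairq (h : T.Ok) (hc : (Tc T j a).Ok) {n b : ℕ} (sm : (Tc T j a).SM b) {H : Set (C → ℤ)}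
    (hH : Sz n T H) (hq : 1 ≤ q) (hq' : q * 2 ^ n ≤ 2 ^ a) (hb : n + 6 ≤ b) :
    (1 / 2 : ℝ) ^ (2 * n + 2) ≤
      (Tc T j a).pr {w | (fun c => w (.inl c)) ∈ H ∧ T.posZ j 1 ![(q : ℤ)] w ∈ H} := by
  have ha : n ≤ a := (Nat.pow_le_pow_iff_right one_lt_two).1
    ((Nat.le_mul_of_pos_left _ hq).trans hq')
  have p1 := pd (j := j) h 0 (t := 4 ^ a) (by positivity)
  have q0 : (0 : ℝ) < q := by exact_mod_cast hq
  have dk := dt_pos (pd (j := j) h 0 (t := (q : ℝ) ^ 2 + 2 * 4 ^ a) (by positivity))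
  have bad : (Tc T j a).pr {w | (fun c => w (.inl c)) ∈ (Gd T j a)ᶜ} ≤ (1 / 2) ^ b :=
    le_trans (hc.pr_mono fun w k u => k (gd_of h hH.2.1 (by omega) u)) (sm (.inr 0)).1
  have h1 : (1 - (1 / 2) ^ b) * (Tc T j a).Z ≤ 9 / 8 * dt (((4 : ℝ) ^ a) • T.Mm j 0) * T.Z := by
    have := hc.pr_compl {w | (fun c => w (.inl c)) ∈ Gd T j a}
    refine (mul_le_mul_of_nonneg_right (show _ ≤ (Tc T j a).pr
      {w | (fun c => w (.inl c)) ∈ Gd T j a} by linarith [this.symm.trans_le bad])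
      hc.Z_pos.le).trans (hasSum_le (fun x => ?_) (mass h hc _) (h.summable.hasSum.mul_left _))
    by_cases k : x ∈ Gd T j a
    · rw [Set.indicator_of_mem k, mul_comm]
      exact mul_le_mul_of_nonneg_right (th1 h k 0) (wt_pos x).le
    · rw [Set.indicator_of_notMem k, zero_mul]
      exact (mul_pos (mul_pos (by norm_num) (dt_pos p1)) (wt_pos x)).le
  have h2 : T.pr (Gd T j a)ᶜ * T.Z * dt (((4 : ℝ) ^ a) • T.Mm j 0) ≤ (1 / 2) ^ b * (Tc T j a).Z :=
    (hasSum_le (fun x => mul_le_mul_of_nonneg_left (dt_le h x 0 (by positivity)) (ind0 _ x))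
      ((has h _).mul_right _) (mass h hc _)).trans (mul_le_mul_of_nonneg_right bad hc.Z_pos.le)
  have hr := dt_rat (T.Mm j 0) (A := 4 ^ a) (Q := (q : ℝ) ^ 2) (by positivity) (by positivity) (by
    have : Fintype.card (T.Bl j) * q ^ 2 ≤ 4 ^ a :=
      calc _ ≤ (2 ^ n) ^ 2 * q ^ 2 := by
            gcongr
            exact ((Fintype.card_subtype_le _).trans hH.2.1).trans (Nat.le_self_pow two_ne_zero _)
        _ = (q * 2 ^ n) ^ 2 := by ring
        _ ≤ (2 ^ a) ^ 2 := Nat.pow_le_pow_left hq' 2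
        _ = 4 ^ a := by rw [← pow_mul, mul_comm, pow_mul]; rfl
    exact_mod_cast this)
  have := num (δ := (1 / 2) ^ n) (by positivity) (by
      rw [show (1 / 2 : ℝ) ^ n / 64 = (1 / 2) ^ (n + 6) by ring]
      exact pow_le_pow_of_le_one (by norm_num) (by norm_num) hb)
    (pow_le_one₀ (by norm_num) (by norm_num)) h.Z_pos hc.Z_pos dk
    (dt_pos (pd h 0 (by positivity))) (dt_pos p1) (pr_nonneg _) h1 h2
    ((sub_le_sub_right hH.2.2 _).trans (h.pr_inter H _)) hr (core h hc hq H 0 (by positivity))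
  exact le_of_eq_of_le (by ring) this

end Pa

/-- centre and moved point both in `H`, any multiplier `q ≤ 2^(a-n)` -/
def PAIRQ : Prop := ∀ (L C : Type) [Fintype L] [DecidableEq L] [Fintype C] [DecidableEq C]
  (T : TT L C) (n b : ℕ) (j : L) (a q : ℕ) (H Bad : Set (C → ℤ)), Sz n T H → Fintype.card L ≤ n →
  1 ≤ q → q * 2 ^ n ≤ 2 ^ a → a ≤ b → 8 * n + 60 ≤ b →
  Good b (2 * n + 15) L C T → T.pr Bad ≤ (1 / 2) ^ b →
  ∃ z, z ∉ Bad ∧ (1 / 2 : ℝ) ^ (2 * n + 3) ≤ (T.rc j a z).pr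
    {y | (∃ x ∈ H, T.rci j q z (TT.cf y) = TT.cf x) ∧ ∃ x ∈ H, T.dn j z (TT.cf y) = TT.cf x}

theorem pairq (hC : CLM) : PAIRQ := by
  intro L C _ _ _ _ T n b j a q H Bad hH hL hq hq' hab hb G b1
  have c := (G.2.2.1 j 1 (fun _ => false) (fun _ => a) (by norm_num) fun _ => hab).ok_sm
  obtain ⟨z, z1, z2⟩ := ctrB (n := 2 * n + 2) hC
    (hH.2.1.trans (Nat.pow_le_pow_right two_pos (by omega)))
    ((hL.trans (by omega)).trans Nat.lt_two_pow_self.le) hab (by omega)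
    (mono _ _ _ _ _ _ _ le_rfl (by omega) G) b1 (fun _ _ => G.1.rc _ _ _)
    (Pa.cl_pairq (q := q) G.1 c.1 c.2 hH hq hq' (by omega))
  refine ⟨z, z1, z2.trans ((G.1.rc j a z).pr_mono fun y k => ⟨⟨_, k.2, ?_⟩, ⟨_, k.1, ?_⟩⟩)⟩
  · funext v
    rcases v with c | ℓ
    · by_cases e : j ∈ T.ty c
      · by_cases e' : T.ty c = {j} <;> simp [TT.rci, TT.dn, TT.cf, TT.posZ, TT.rcw, e, e']
      · simp [TT.rci, TT.cf, TT.posZ, TT.rcw, e]
    · rfl
  · funext v
    rcases v with c | ℓ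
    · by_cases e : j ∈ T.ty c
      · by_cases e' : T.ty c = {j} <;> simp [TT.dn, TT.cf, TT.rcw, e, e']
      · simp [TT.dn, TT.cf, TT.rcw, e]
    · simp [TT.dn, TT.cf]

end Crest.Agent.N49.Rm
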