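import Crest.Agent.N49.Rm.Ys
import Crest.Agent.N49.Rm.Fb
/-! Row 49 (helper68): re-bracketing. -/
set_option autoImplicit false
set_option linter.unusedSectionVars false
noncomputable section
namespace Crest.Agent.N49.Rm
open Finset Po

section
variable {L C : Type} [Fintype L] [DecidableEq L] [Fintype C] [DecidableEq C] {T : TT L C}
  {Z : Finset L} {i : L} {F I : Fm L C} {y y' : C → ℤ}
namespace TT
/-- the difference of two configurations on an `i`-line -/
def dfp (T : TT L C) (i : L) (y y' : C → ℤ) : C ⊕ L → ℝ :=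
  T.jr i (cf y) (zc (T.bl i y - T.bl i y')) 0

theorem dfp_int : IntP (T.dfp i y y') := by
  rintro (c | ℓ) <;> simp only [dfp, jr] <;> split_ifs
  exacts [⟨_, rfl⟩, ⟨_, rfl⟩, ⟨0, by simp⟩, ⟨1, by simp⟩]

theorem Dat.dfp (h : T.Dat Z {i} F) (a : T.Agr Z {i} y y') :
    F (T.dfp i y y') = F (cf y) - F (cf y') := by
  have := (h.2 i (mem_singleton_self i)).jr_add (cf y) (zc (T.bl i y)) (zc (T.bl i y')) 1 1 1 (-1)
  rw [← cf_jn, ← cf_jn, jn_self, h.1 (cf (T.jn i y (T.bl i y'))) (cf y') ?_] at this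
  · rw [TT.dfp, show zc (T.bl i y - T.bl i y') = (1 : ℝ) • zc (T.bl i y) + (-1 : ℝ) • zc (T.bl i y')
      from by funext c; simp [zc, sub_eq_add_neg], show (0 : ℝ) = 1 * 1 + -1 * 1 by norm_num, this]
    ring
  rintro (c | ℓ) s n
  · by_cases k : i ∈ T.ty c
    · simp [jn, k, bl]
    · simp [jn, k, a c s n (by simpa using k)]
  · rfl

/-- two central points of an `i`-line -/
theorem Sm.dfp (hT : T.Ok) {B r : ℝ} (h : T.Sm Z {i} y B F) (hF : T.Dat Z {i} F)
    (a : T.Agr Z {i} y y') (hr : 1 ≤ r) (c : T.Cen r y) (c' : T.Cen r y') :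
    |F (cf y) - F (cf y')| ≤ 2 * r * B := by
  rw [← hF.dfp a]
  refine (h.cubeR hT hF.2 (R := 2 * r) (by linarith) (jr_mem_fib i y _) fun d s m => ?_).trans_eq
    (by simp)
  · have k : i ∈ T.ty d := by simpa using m
    have := ((hT.dat d ⟨i, k⟩).mono s (singleton_subset_iff.2 k)).dfp a
    exact (congrArg abs this).trans_le ((abs_sub _ _).trans (by linarith [c d, c' d]))
end TT
end
open TT

theorem grid5 (x : ℝ) : |x - (round (5 * x) % 5 : ℤ) / 5 - round (x - (round (5 * x) % 5 : ℤ) / 5)|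
    ≤ 1 / 10 := by
  refine (round_le _ (round (5 * x) / 5)).trans ?_
  have e : (round (5 * x) : ℝ) = (round (5 * x) % 5 : ℤ) + 5 * (round (5 * x) / 5 : ℤ) := by
    exact_mod_cast (Int.emod_add_mul_ediv _ 5).symm
  have := abs_le.1 (abs_sub_round (5 * x))
  exact abs_le.2 ⟨by linarith, by linarith⟩

theorem rb (hc : CEN) (l0 : ℕ) : RB l0 := by
  classical
  refine ⟨l0 + 18, fun L C _ _ _ _ T E _ n H Z i q ν β β0 hL ⟨h2, hC, hH⟩ hG hE hi hβ hβ0 q1 q2 hν
    hR => ?_⟩
  have num := Nat.mul_le_mul_right n (ys_lin_pow h2 (l0 + 16))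
  rw [← pow_succ] at num
  generalize n ^ (l0 + 18) = N at num hG ⊢
  have num1 : (6 * n + 2 * l0 + 18) * n + (n + 1) ≤ N ∧ 2 * (n + l0) + (n + 1) + 10 ≤ N := by
    obtain ⟨n, rfl⟩ := Nat.exists_eq_add_of_le h2
    constructor <;> nlinarith [Nat.zero_le (l0 * n), Nat.zero_le (l0 * n * n), Nat.zero_le (n * n)]
  have hT : T.Ok := hG.ok_sm.1
  have c := hc L C T (n + l0) N (n + 1) (hC.trans (Nat.pow_le_pow_right two_pos (by omega)))
    (hL.trans (Nat.lt_two_pow_self.le.trans (Nat.pow_le_pow_right two_pos (by omega))))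
    num1.2 hT hG.ok_sm.2
  generalize hr : ((n + l0 : ℕ) + (n + 1 : ℕ) + 4 : ℝ) = r at c
  have r1 : 1 ≤ r := by rw [← hr]; norm_cast; omega
  have r2 : 2 * r + 4 ≤ 2 ^ (4 * n + 2 * l0 + 14) := by
    rw [← hr]; exact_mod_cast (by omega : _ ≤ 4 * n + 2 * l0 + 14).trans Nat.lt_two_pow_self.le
  set H0 := H ∩ {y | T.Cen r y}
  have p0 : (1 / 2 : ℝ) ^ (n + 1) ≤ T.pr H0 := by
    refine le_trans ?_ (hT.pr_inter _ _)
    change T.pr {y | T.Cen _ y}ᶜ ≤ _ at c
    rw [pow_succ] at c ⊢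
    linarith
  let ky : (C → ℤ) → C → ℤ := fun y => T.key Z {i} (cf y)
  let rep : (C → ℤ) → C → ℤ := fun k => if h : ∃ y ∈ H0, ky y = k then h.choose else k
  have rp : ∀ y ∈ H0, rep (ky y) ∈ H0 ∧ T.Agr Z {i} y (rep (ky y)) := fun y hy => by
    have h : ∃ y' ∈ H0, ky y' = ky y := ⟨y, hy, rfl⟩
    rw [show rep (ky y) = h.choose from dif_pos h]
    refine ⟨h.choose_spec.1, fun c a b d => (key_agr Z {i} y c a b d).trans ?_⟩
    exact (congrFun h.choose_spec.2 c).symm.trans (key_agr Z {i} _ c a b d).symm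
  let I : E → (C → ℤ) → Fm L C := fun e k =>
    if h : T.Rel Z {i} k q (2 ^ n) fun p => β e p - β0 e p then h.choose else fun _ => 0
  have dI : ∀ e k, T.Dat Z {i} (I e k) := fun e k => by
    simp only [I]; split_ifs with h; exacts [h.choose_spec.1.1, Dat.zero]
  have hI : ∀ y ∈ H0, ∀ e, T.IntF Z {i} y (I e (ky y)) ∧
      T.Sm Z {i} y (2 ^ n) fun p => β e p - β0 e p - I e (ky y) p / q := fun y hy e => by
    have a := key_agr (T := T) Z {i} y
    have r := a.rel hT ((hβ e).sub (hβ0 e)).1 (hR y hy.1 e)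
    rw [show I e (ky y) = r.choose from dif_pos r]
    exact ⟨a.symm.intF r.choose_spec.1, a.symm.sm hT
      (((hβ e).sub (hβ0 e)).sub (r.choose_spec.1.1.div q)).1 r.choose_spec.2⟩
  let g : (C → ℤ) → E → ℤ := fun y e => round (5 * β0 e (cf y)) % 5
  let t : E → (C → ℤ) → ℝ := fun e k =>
    ν e (rep k) - round (β0 e (cf (rep k))) - I e k (cf (rep k)) / q
  let s : (C → ℤ) → E → ℝ := fun y e =>
    q * (ν e y - round (β0 e (cf y) - g y e / 5) - I e (ky y) (cf y) / q - t e (ky y))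
  have q0 : (0 : ℝ) < q := by positivity
  have s1 : ∀ y ∈ H0, ∀ e, (round (s y e) : ℝ) = s y e := fun y hy e => by
    obtain ⟨m, hm⟩ := (hI y hy e).1.2 _ (jr_mem_fib i y _) (dfp_int (y' := rep (ky y)))
    have e1 := (dI e (ky y)).dfp (rp y hy).2
    have : s y e = (q * (ν e y - round (β0 e (cf y) - g y e / 5) - ν e (rep (ky y)) +
        round (β0 e (cf (rep (ky y))))) - m : ℤ) := by
      simp only [s, t]
      push_cast
      rw [← hm, show T.jr i _ _ 0 = T.dfp i y (rep (ky y)) from rfl, e1]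
      field_simp
      ring
    rw [this, round_intCast]
  let Bd : ℕ := 2 ^ (6 * n + 2 * l0 + 14)
  have s2 : ∀ y ∈ H0, ∀ e, |s y e| ≤ Bd := fun y hy e => by
    have a1 := abs_le.1 ((hI y hy e).2.dfp hT (((hβ e).sub (hβ0 e)).sub ((dI e _).div q)) (rp y hy).2
      r1 hy.2 (rp y hy).1.2)
    have a2 := abs_le.1 (hν y hy.1 e)
    have a3 := abs_le.1 (hν _ (rp y hy).1.1 e)
    have a4 := abs_le.1 (abs_sub_round (β0 e (cf y) - g y e / 5))
    have a5 := abs_le.1 (abs_sub_round (β0 e (cf (rep (ky y)))))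
    have a6 : (0 : ℝ) ≤ g y e := by exact_mod_cast Int.emod_nonneg _ (by norm_num)
    have a7 : (g y e : ℝ) < 5 := by exact_mod_cast Int.emod_lt_of_pos _ (by norm_num)
    have a8 : (1 : ℝ) ≤ 2 ^ n := one_le_pow₀ one_le_two
    have : (Bd : ℝ) = 2 ^ n * (2 ^ (4 * n + 2 * l0 + 14) * 2 ^ n) := by simp only [Bd]; push_cast; ring
    rw [this, abs_mul, abs_of_pos q0]
    refine mul_le_mul (by exact_mod_cast q2) (le_trans ?_ (mul_le_mul_of_nonneg_right r2
      (by positivity))) (abs_nonneg _) (by positivity)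
    simp only [t]
    exact abs_le.2 ⟨by linarith, by linarith⟩
  obtain ⟨v, -, hv⟩ := hT.pr_pigeon (Fintype.piFinset fun _ : E => Icc (0 : ℤ) 4 ×ˢ Icc (-Bd : ℤ) Bd)
    ⟨0, by simp⟩ H0 (fun y e => (g y e, round (s y e))) fun y hy => by
      refine Fintype.mem_piFinset.2 fun e => mem_product.2 ⟨mem_Icc.2 ?_, mem_Icc.2 (abs_le.1 ?_)⟩
      · simp only [g]; omega
      · have := s2 y hy e
        rw [← s1 y hy e] at this
        exact_mod_cast this
  refine ⟨_, fun y (hy : y ∈ {y ∈ H0 | (fun e => (g y e, round (s y e))) = v}) => hy.1.1,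
    fun e => (v e).1 / 5, fun e p => I e (T.key Z {i} p) p / q +
      (t e (T.key Z {i} p) + (v e).2 / q) * p (.inr i), ?_, fun e => ?_, fun y hy e => ?_⟩
  · have b : 5 * (2 * Bd + 1) ≤ 2 ^ (6 * n + 2 * l0 + 18) := by
      have : 1 ≤ Bd := Nat.one_le_two_pow
      rw [show 6 * n + 2 * l0 + 18 = 6 * n + 2 * l0 + 14 + 4 from rfl, pow_add]
      omega
    have b' : #(Fintype.piFinset fun _ : E => Icc (0 : ℤ) 4 ×ˢ Icc (-Bd : ℤ) Bd) ≤
        2 ^ ((6 * n + 2 * l0 + 18) * n) := by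
      rw [Fintype.card_piFinset, prod_const, card_univ, card_product, Int.card_Icc, Int.card_Icc,
        pow_mul, show ((Bd : ℤ) + 1 - -Bd).toNat = 2 * Bd + 1 by omega]
      exact (Nat.pow_le_pow_left b _).trans (Nat.pow_le_pow_right (by positivity) hE)
    refine (half_anti num1.1).trans ?_
    rw [pow_add, one_div 2, inv_pow, inv_mul_le_iff₀ (by positivity), ← one_div]
    refine p0.trans (hv.trans (mul_le_mul_of_nonneg_right ?_ (pr_nonneg _)))
    exact_mod_cast b'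
  · exact dat_key (I := fun k p => I e k p / q + (t e k + (v e).2 / q) * p (.inr i)) fun k =>
      ((dI e k).div q).add ((Dat.coord (v := .inr i) (by simpa) (by simp) (by simp)).smul _)
  · have e1 : g y e = (v e).1 := congrArg Prod.fst (congrFun hy.2 e)
    have e2 : s y e = (v e).2 := (s1 y hy.1 e).symm.trans
      (congrArg Int.cast (congrArg Prod.snd (congrFun hy.2 e)))
    simp only [← e1, ← e2]
    refine ⟨grid5 _, ?_⟩
    simp only [s, cf_inr, ky]
    field_simp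
    ring
end Crest.Agent.N49.Rm
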