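import Crest.Agent.N49.Rm.Real0
/-! Row 49, block RMH (helper18): `REAL`. -/
set_option autoImplicit false
set_option linter.unusedSectionVars false
noncomputable section
namespace Crest.Agent.N49.Rm
open Finset TT

namespace Rl
variable {L C : Type} [Fintype L] [DecidableEq L] [Fintype C] [DecidableEq C] {T : TT L C} (j : L)
  (s : ℕ) (z : C → ℤ) {r : ℕ}

/-- the letter that becomes `j` -/
def la (j : L) : (r : ℕ) → L ⊕ Fin r
  | 0 => .inl j
  | r + 1 => .inr (Fin.last r)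

structure Rq (T : TT L C) (j : L) {r : ℕ} (a : Fin r → ℕ) {C' : Type} [Fintype C'] [DecidableEq C']
    (T' : TT L C') (ι : (C' ⊕ L → ℝ) → (C ⊕ L → ℝ))
    (ψ : (C' ⊕ L → ℝ) → (T.CC j (Fin r) ⊕ (L ⊕ Fin r) → ℝ))
    (ψZ : (C' → ℤ) → T.CC j (Fin r) → ℤ) : Prop where
  pb : ∀ ℓ, ℓ ≠ j → (T.ds j a).Pb T' ψ (.inl ℓ) ℓ
  pt : ∀ A, j ∈ A → (T.ds j a).Pt T' ψ (upA A _) A
  ind : ∀ G, (T.ds j a).Ind (la j r) G → T'.Ind j fun p => G (ψ p)
  int : ∀ p, IntP p → IntP (ψ p)
  fib : ∀ M y, j ∉ M → ∀ p ∈ T'.Fib M y, ψ p ∈ (T.ds j a).Fib (M.image .inl) (ψZ y)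
  cube : ∀ A M p, j ∈ A → j ∉ M → T'.Cube A M p → (T.ds j a).Cube (upA A _) (M.image .inl) (ψ p)
  pos : ∀ p, p (.inr j) = 1 → ι p = T.pos j (fun _ => false) 1 (fun _ => 1) (ψ p)
  e1 : ∀ p, p (.inr j) = 1 → ψ p (.inr (.inl j)) = 1

theorem dj {S M : Finset L} (h : j ∉ M) : Disjoint (S.erase j) M ↔ Disjoint S M := by
  rw [disjoint_erase_comm, erase_eq_of_notMem h]

theorem sub_up {ρ : Type} [Fintype ρ] [DecidableEq ρ] {S A : Finset L}
    (h : S.image .inl ⊆ upA A ρ) : S ⊆ A := fun _ k => inl_upA.1 (h (mem_image_of_mem _ k))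

theorem sub_up' {ρ : Type} [Fintype ρ] [DecidableEq ρ] {S A : Finset L} {x : ρ} (hj : j ∈ A)
    (h : insert (.inr x) ((S.erase j).image .inl) ⊆ upA A ρ) : S ⊆ A := fun ℓ k => by
  by_cases e : ℓ = j
  · exact e ▸ hj
  · exact sub_up ((subset_insert _ _).trans h) (mem_erase.2 ⟨e, k⟩)

theorem rq0 (T : TT L C) (j : L) (a : Fin 0 → ℕ) : Rq T j a T id
    (fun p => Sum.elim (Sum.elim (fun c => p (.inl c)) fun cx => cx.2.elim0)
      (Sum.elim (fun ℓ => p (.inr ℓ)) fun x => x.elim0))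
    fun y => Sum.elim y fun cx => cx.2.elim0 where
  pb ℓ _ := by
    rintro ((c | ⟨_, ⟨_, ⟨⟩⟩⟩) | (x | ⟨_, ⟨⟩⟩)) <;>
      exact ⟨fun k => lin_co (by simpa using k), fun k => ind_co (by simpa using k)⟩
  pt A _ := by
    rintro ((c | ⟨_, ⟨_, ⟨⟩⟩⟩) | (x | ⟨_, ⟨⟩⟩)) s n
    · exact ty_co (v := .inl c) (sub_up s) (image_nonempty.1 n)
    · exact ty_co (v := .inr x) (by simpa [inl_upA] using s) (singleton_nonempty _)
  ind G h p p' e := h _ _ (by
    rintro ((c | ⟨_, ⟨_, ⟨⟩⟩⟩) | (x | ⟨_, ⟨⟩⟩)) k <;> exact e _ (by simpa [la] using k))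
  int p h := by rintro ((c | ⟨_, ⟨_, ⟨⟩⟩⟩) | (x | ⟨_, ⟨⟩⟩)) <;> exact h _
  fib M y _ p h := ⟨by
    rintro (c | ⟨_, ⟨_, ⟨⟩⟩⟩) d
    exact h.1 c (by simpa [disjoint_image Sum.inl_injective] using d), by
    rintro (x | ⟨_, ⟨⟩⟩)
    simpa using h.2 x⟩
  cube A M p _ _ h := by
    rintro (c | ⟨_, ⟨_, ⟨⟩⟩⟩) s d
    refine (congrArg (fun p => |T.Φ p c|) (funext ?_)).trans_le
      (h c (sub_up s) (by simpa [disjoint_image Sum.inl_injective] using d))
    rintro (c | x) <;> rfl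
  pos p _ := by
    funext v
    rcases v with c | x <;> simp [TT.pos, p0]
  e1 _ h := h

variable {s z} {a : Fin (r + 1) → ℕ} {a' : Fin r → ℕ}

theorem pb_fP {ℓ : L} (h : ℓ ≠ j) :
    (T.ds j a).Pb ((T.rc j s z).ds j a') (fP T j s z) (.inl ℓ) (.inl ℓ) := by
  have d := (T.pb_dn j s z h).cp ((T.rc j s z).pb_p0 j (fun _ => false) a' ℓ)
  rintro ((c | ⟨c, x⟩) | (m | x))
  · exact ⟨fun k => (d (.inl c)).1 (by simpa using k), fun k => (d (.inl c)).2 (by simpa using k)⟩
  · induction x using Fin.cases <;>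
      exact ⟨fun k => lin_co (by simpa [h, eB] using k), fun k => ind_co (by simpa [h, eB] using k)⟩
  · exact ⟨fun k => (d (.inr m)).1 (by simpa using k), fun k => (d (.inr m)).2 (by simpa using k)⟩
  · exact ⟨fun k => by simp at k, fun _ => ind_c _⟩

theorem pt_fP {A : Finset L} (h : j ∈ A) :
    (T.ds j a).Pt ((T.rc j s z).ds j a') (fP T j s z) (upA A _) (upA A _) := by
  have d := (T.pt_dn j s z A).cp ((T.rc j s z).pt_p0 j (fun _ => false) a' (A' := upA A _)
    fun _ k => inl_upA.2 (mem_of_mem_erase k))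
  rintro ((c | ⟨c, x⟩) | (m | x)) t n
  · exact d (.inl c) (sub_up t) (image_nonempty.1 n)
  · have t' := sub_up' j h t
    induction x using Fin.cases with
    | zero => exact ty_co (image_subset_iff.2 fun _ k => inl_upA.2 (t' k)) ⟨_, mem_image_of_mem _ c.2⟩
    | succ x => exact ty_co (insert_subset (inr_upA x) (image_subset_iff.2 fun _ k =>
        inl_upA.2 (t' (mem_of_mem_erase k)))) (insert_nonempty _ _)
  · exact d (.inr m) (by simpa [inl_upA] using t) (singleton_nonempty _)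
  · exact ty_c _

theorem ind_fP {G} (h : (T.ds j a).Ind (la j (r + 1)) G) :
    ((T.rc j s z).ds j a').Ind (la j r) fun p => G (fP T j s z p) := fun p p' e => h _ _ (by
  have d : T.dn j z ((T.rc j s z).p0 j p) = T.dn j z ((T.rc j s z).p0 j p') := by
    cases r with
    | zero =>
      funext v
      exact (T.ind_dn j s z fun p => p v).pb ((T.rc j s z).pb_p0 j (fun _ => false) a' j) p p' e
    | succ r =>
      funext v
      exact (T.rc j s z).ind_p0 j (fun _ => false) a' _ (fun p => T.dn j z p v) p p' e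
  rintro ((c | ⟨c, x⟩) | (m | x)) k
  · exact congrFun d (.inl c)
  · induction x using Fin.cases with
    | zero => cases r with
      | zero => simp [la] at k
      | succ r => exact e _ (by simp [la])
    | succ x => cases r with
      | zero => exact x.elim0
      | succ r => exact e _ (by simpa [la, ← Fin.succ_last] using k)
  · exact congrFun d (.inr m)
  · rfl)

theorem Rq.step (hT : T.Ok) (m : ∀ x, a 0 ≤ a x) {C' : Type} [Fintype C'] [DecidableEq C']
    {T' : TT L C'} {ι ψ ψZ} (h : Rq (T.rc j (a 0) z) j (fun x => a x.succ - a 0) T' ι ψ ψZ) :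
    Rq T j a T' (T.rci j 1 z ∘ ι) (fun p => fP T j (a 0) z (ψ p))
      fun y => fZ T j (a 0) z (ψZ y) where
  pb ℓ k := (pb_fP j k).cp (h.pb ℓ k)
  pt A k := (pt_fP j k).cp (h.pt A k)
  ind G k := h.ind _ (ind_fP j k)
  int p k := by
    have i := h.int p k
    rintro ((c | ⟨c, x⟩) | (m | x))
    · exact intP_dn (intP_p0 _ j i) (.inl c)
    · induction x using Fin.cases <;> exact i _
    · exact intP_dn (z := z) (intP_p0 _ j i) (.inr m)
    · exact ⟨1, by simp [fP]⟩
  fib M y hj p k := by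
    have f := h.fib M y hj p k
    have d := fib_dn (a := a 0) hj ((p0_rcw z fun u => ψZ y (.inl u)).symm.trans (T.p0_cf j _)) _
      ((T.rc j (a 0) z).fib_p0 j _ _ _ _ f)
    refine ⟨?_, ?_⟩
    · rintro (c | ⟨c, x⟩) e
      · exact d.1 c (by simpa [disjoint_image Sum.inl_injective] using e)
      · induction x using Fin.cases <;>
          exact f.1 _ (by simpa [disjoint_image Sum.inl_injective, eB, dj j hj] using e)
    · rintro (m | x)
      · exact (d.2 m).trans (by simp)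
      · simp [fP]
  cube A M p hA hj k := by
    have f := h.cube A M p hA hj k
    have f0 := cube_p0 f
    rintro (c | ⟨c, x⟩) t d
    · rw [cl_Φ_l, p0_fP]
      exact hT.cube_dn hj (fun c t => f0 c (t.trans (erase_subset _ _))) c (sub_up t)
        (by simpa [disjoint_image Sum.inl_injective] using d)
    · have t' := sub_up' j hA t
      induction x using Fin.cases with
      | zero =>
        have := f0 (.inl c.1) t' (by simpa [disjoint_image Sum.inl_injective, dj j hj] using d)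
        rwa [rc_Φ_l, if_pos c.2, ← px0_fP] at this
      | succ x =>
        have := f (.inr (eB T j _ z c, x)) (insert_subset (inr_upA x) (image_subset_iff.2 fun _ k =>
          inl_upA.2 (t' (mem_of_mem_erase k))))
          (by simpa [disjoint_image Sum.inl_injective, hj, eB] using d)
        rw [cl_Φ_r] at this ⊢
        simp only [eB, Equiv.coe_fn_mk, rc_Φ_l, if_pos c.2, ← mul_assoc, ← pow_add,
          Nat.sub_add_cancel (m _)] at this
        rwa [pxs_fP]
  pos p k := by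
    have e := h.e1 p k
    rw [Function.comp, h.pos p k]
    funext v
    rcases v with c | ℓ
    · by_cases t : j ∈ T.ty c
      · by_cases t' : T.ty c = {j} <;>
          simp [rci, TT.pos, p0, px, fP, dn, t, t', e, Fin.sum_univ_succ, eB]
      · simp [rci, TT.pos, p0, fP, dn, t]
    · by_cases t : j = ℓ
      · subst t; simp [rci, TT.pos, p0, px, fP, dn, e]
      · simp [rci, TT.pos, p0, fP, dn, t, Ne.symm t]
  e1 _ _ := if_pos rfl

theorem real0 (hC : CLM) : ∀ (r : ℕ) (C : Type) [Fintype C] [DecidableEq C] (T : TT L C)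
    (X : Hk L C) (n b g : ℕ) (a : Fin r → ℕ) (E : Set (T.CC j (Fin r) → ℤ)), r ≤ 8 →
    Fintype.card C ≤ 2 ^ n → Fintype.card L ≤ 2 ^ n → Monotone a → (∀ x, a x ≤ b) →
    4 * (n + r) + 40 ≤ b → 9 ≤ g → GX b (g + r) C T X → (1 / 2 : ℝ) ^ n ≤ (T.ds j a).pr E →
    ∃ (C' : Type) (_ : Fintype C') (_ : DecidableEq C') (T' : TT L C') (ι : _) (ψ : _) (ψZ : _),
      Ref b T r C' T' ι ∧ GX b g C' T' (X.push ι r) ∧ Rq T j a T' ι ψ ψZ ∧
      (1 / 2 : ℝ) ^ (n + r) ≤ T'.pr {y | ψZ y ∈ E} := by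
  intro r
  induction r with
  | zero =>
    intro C _ _ T X n b g a E _ _ _ _ _ _ _ hG hE
    refine ⟨C, _, _, T, id, _, _, .refl, by rwa [Hk.push_id], rq0 T j a, hE.trans_eq ?_⟩
    rw [← On.pr_dead (T := T) (T' := T.ds j a) (hG.ok.cl j _ _).summable Sum.inl_injective
      (fun w c => by rw [cl_Φ_l, p0_cf]; rfl) (by
        rintro w (c | ⟨_, ⟨_, ⟨⟩⟩⟩) k
        exact absurd ⟨c, rfl⟩ k)]
    refine congrArg _ (Set.ext fun w => iff_of_eq (congrArg (· ∈ E) (funext ?_)))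
    rintro (c | ⟨_, ⟨_, ⟨⟩⟩⟩)
    rfl
  | succ r ih =>
    intro C _ _ T X n b g a E r8 cC cL ma ab nb g9 hG hE
    have m : ∀ x, a 0 ≤ a x := fun x => ma (Fin.zero_le x)
    obtain ⟨z, z1, z2⟩ := step j hC (by omega) m cC cL ab (by omega)
      (mono _ _ _ _ _ _ _ le_rfl (by omega) hG.good)
      (hG.2.2 j (a 0) 1 (ab 0) le_rfl le_rfl) hE
    obtain ⟨C', _, _, T', ι, ψ, ψZ, h1, h2, h3, h4⟩ := ih _ (T.rc j (a 0) z) _ (n + 1) b g _ _
      (by omega) (by
        have : Fintype.card (T.Bl j) ≤ Fintype.card C := Fintype.card_subtype_le _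
        rw [Fintype.card_sum, pow_succ]; omega)
      (cL.trans (Nat.pow_le_pow_right two_pos n.le_succ))
      (fun x y e => Nat.sub_le_sub_right (ma (Fin.succ_le_succ_iff.2 e)) _)
      (fun x => (Nat.sub_le _ _).trans (ab _)) (by omega) g9 (not_not.1 z1) z2
    refine ⟨C', _, _, T', _, _, _, ?_, ?_, h3.step j hG.ok m, by
      rwa [show n + (r + 1) = n + 1 + r by omega]⟩
    · rw [add_comm r]
      exact (Ref.rc .refl j (a 0) 1 z le_rfl Nat.one_le_two_pow (ab 0)).trans h1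
    · rwa [Hk.push_push, add_comm 1] at h2
end Rl

theorem real (hC : CLM) : REAL := by
  intro r L C _ _ _ _ T X n b g j a E r7 cC cL ma ab nb g9 hG hE
  obtain ⟨C', _, _, T', ι, ψ, ψZ, h1, h2, h3, h4⟩ :=
    Rl.real0 j hC (r + 1) C T X n b g a E (by omega) cC cL ma ab (by omega) g9 hG hE
  exact ⟨C', _, _, T', ι, ψ, ψZ, h1, h2,
    ⟨h3.pb, h3.pt, h3.ind, h3.int, h3.fib, h3.cube, h3.pos⟩, h4⟩
end Crest.Agent.N49.Rm
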