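import Crest.Agent.N49.Rm.Sp
import Crest.Agent.N49.Rm.Ar
import Crest.Agent.N49.Rm.Clm

/-! Row 49, block RMH (helper42): step S1. -/

set_option autoImplicit false
set_option linter.unusedSectionVars false
noncomputable section
namespace Crest.Agent.N49.Rm
open Finset Matrix TT Crest.Agent.N49.Iv.Il

namespace S1a
section
variable {L C : Type} [Fintype L] [DecidableEq L] [Fintype C] [DecidableEq C] {T : TT L C}
  {A M : Finset L} {i j : L} {H : Set (C → ℤ)} {q n m k : ℕ} {a b : Type} [Fintype a] [Fintype b]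

theorem frei_lc {F : a → Fm L C} (h : T.Frei A M j H q (2 ^ n) F) {K : Matrix b a ℤ} (hK : Bm m K)
    (hk : Fintype.card a ≤ 2 ^ k) : T.Frei A M j H q (2 ^ (k + (m + n))) (lc K F) :=
  fun y1 h1 y2 h2 y3 h3 y4 h4 e x =>
    (VR.lc (h y1 h1 y2 h2 y3 h3 y4 h4 e) hK hk x).congr fun p _ => by
      simp only [lc, mul_add, mul_sub, sum_add_distrib, sum_sub_distrib]

theorem frei_sub {F : a → Fm L C} {B : ℝ} (h : T.Frei A {i} j H q B F) (e : j ≠ i) (c : a → ℝ) :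
    T.Frei A {i} j H q B fun x p => F x p - c x * p (.inr i) :=
  fun y1 h1 y2 h2 y3 h3 y4 h4 k x => (h y1 h1 y2 h2 y3 h3 y4 h4 k x).congr fun p hp => by
    have : ∀ α0 α, T.pos j (fun _ : Fin 2 => true) α0 α p (.inr i) = 0 := fun _ _ =>
      (if_neg (by simpa [tv] using e)).trans ((hp.2 (.inl i)).trans (by simp))
    simp only [this, mul_zero, sub_zero]

theorem ty_fib {F : Fm L C} (h : T.Ty (A \ M) F) {y : C → ℤ} {p : C ⊕ L → ℝ} (hp : p ∈ T.Fib M y) :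
    F p = F (cf y) := h _ _ fun v s _ => by
  have d : Disjoint (T.tv v) M := disjoint_sdiff_self_left.mono_left s
  cases v with
  | inl c => exact hp.1 c d
  | inr ℓ => exact (hp.2 ℓ).trans (if_neg (by simpa [tv] using d))
end

abbrev Cx (L : Type) := Finset L × Finset L × Finset L × L × L

/-- side conditions -/
def Sd {L : Type} [DecidableEq L] (x : Cx L) : Prop := x.2.1.Nonempty ∧ x.2.1 ⊆ x.1 ∧
  x.2.2.2.1 ∈ x.1 ∧ x.2.2.2.1 ∉ x.2.1 ∧ x.2.2.2.2 ∈ x.1 ∧ x.2.2.2.2 ∉ x.2.1 ∧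
  x.2.2.2.2 ≠ x.2.2.2.1 ∧ x.2.2.1 ⊆ (x.1 \ x.2.1).erase x.2.2.2.1

def P0 : Pf Cx := fun _ _ _ _ _ x _ _ _ T H n F => Sd x ∧ (∀ d, T.Dat x.1 x.2.1 (F d)) ∧
  FrS T x.1 x.2.1 x.2.2.2.2 H n F ∧ P1 T x.1 x.2.1 x.2.2.2.1 x.2.2.1 H n F

def Pm : Pf Cx := fun L _ _ D _ x C _ _ T H n F => Sd x ∧
  ∃ (E : Type) (_ : Fintype E) (_ : DecidableEq E) (q q2 m : ℕ) (γ : E → Fm L C) (X : D → Fm L C)
    (Λ : D → E → Fm L C) (B : Matrix (Fin 4 × E) E ℤ) (W : Matrix E E ℤ)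
    (Q : Matrix E (Fin 4 × E) ℤ), Fintype.card E ≤ n ∧ 1 ≤ q ∧ q ≤ 2 ^ n ∧ 1 ≤ q2 ∧ q2 ≤ 2 ^ n ∧
    1 ≤ m ∧ m ≤ 2 ^ n ∧ Bm n B ∧ (m : ℤ) • (1 : Matrix E E ℤ) = W + Q * B ∧
    T.Rep x.1 x.2.1 x.2.2.2.1 H q (2 ^ n) F γ X Λ ∧
    (∀ j ∈ x.2.2.1, T.Frei (x.1 \ x.2.1) {x.2.2.2.1} j H q (2 ^ n) γ) ∧
    (∀ y ∈ H, ∀ d e, T.Rel (x.1.erase x.2.2.2.1) x.2.1 y q2 (2 ^ n) (lc Wᵀ (Λ d) e)) ∧
    FrS T (x.1 \ x.2.1) {x.2.2.2.1} x.2.2.2.2 H n (lc B γ)

def P2 : Pf Cx := fun _ _ _ _ _ x _ _ _ T H n F =>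
  P1 T x.1 x.2.1 x.2.2.2.1 (insert x.2.2.2.2 x.2.2.1) H n F

theorem fin {l0 : ℕ} (hR : RB l0) (hP : REPL) : Ar l0 Pm P2 := by
  obtain ⟨K, hR⟩ := hR
  refine Ar.sub (3 * (K + 1)) ?_
  rintro L C _ _ _ _ T D _ n H ⟨A, M, J, i, j⟩ F l z g -
    ⟨⟨-, s2, s3, s4, -, -, s7, s8⟩, E, _, _, q, q2, m, γ, X, Λ, B, W, Q, cE, q0, q1, p0, p1, m0, m1,
      hB, hI, ⟨r1, r2, r3, r4⟩, fJ, hW, q3, t0, t1, fj⟩
  dsimp only at *
  have hT : T.Ok := g.ok_sm.1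
  have h2 := z.1
  have n3 : 4 * n ≤ n ^ 3 := by nlinarith [Nat.mul_le_mul h2 h2]
  have nK : (4 * n) ^ (K + 1) ≤ n ^ (3 * (K + 1)) := by
    rw [pow_mul]; exact Nat.pow_le_pow_left n3 _
  have n1 : 4 * n ≤ (4 * n) ^ (K + 1) := le_pow_self' (by omega) (by omega)
  have n2 : (4 * n) ^ K ≤ (4 * n) ^ (K + 1) := pow_mono' (by omega) (by omega)
  have cE' : Fintype.card E ≤ 2 ^ n := cE.trans Nat.lt_two_pow_self.le
  have iA : i ∈ A \ M := mem_sdiff.2 ⟨s3, s4⟩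
  have dβ := fun x => Dat.lc r1 B x
  obtain ⟨H', sub, c, β', e1, e2, e3⟩ := hR L C T (Fin 4 × E) (4 * n) H (A \ M) i 1
    (fun x y => ∑ e, B x e * round (γ e (cf y))) (lc B γ) (lc B γ) l (z.mono' (by omega))
    (mono _ _ _ _ _ _ _ (n2.trans nK) (n2.trans nK) g) (by simp; omega) iA dβ dβ le_rfl
    Nat.one_le_two_pow (fun y hy x => by
      simp only [lc, Int.cast_sum, Int.cast_mul, ← sum_sub_distrib, ← mul_sub]
      refine (abs_sum_le_sum_abs _ _).trans ((sum_le_card_nsmul _ _ ((2 : ℝ) ^ n) fun e _ => ?_).trans ?_)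
      · rw [abs_mul, abs_sub_comm]
        exact (mul_le_of_le_one_right (abs_nonneg _) (((r4 y hy).1 e).trans (by norm_num))).trans
          (by exact_mod_cast hB x e)
      · rw [nsmul_eq_mul]
        refine (mul_le_mul_of_nonneg_right (show _ ≤ (2 : ℝ) ^ n by exact_mod_cast cE')
          (by positivity)).trans ?_
        rw [← pow_add]; exact two_pow_mono (by omega))
    fun y _ x => (Rel.zero (by positivity)).congr fun _ _ => sub_self _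
  have := fun d e => hP L C T H A M i (q2 * m) (2 ^ n) 1 (fun y => round (γ e (cf y))) (γ e)
    (fun p => lc Wᵀ (Λ d) e p / m) hT s2 s3 s4 (r1 e) ((Dat.lc (r3 d) _ e).div _) (by positivity)
    (fun y hy => by rw [abs_sub_comm]; exact ((r4 y hy).1 e).trans (by norm_num)) fun y hy =>
      ((hW y hy d e).div m).mono (div_le_self (by positivity) (by exact_mod_cast m0))
  choose X1 x1 x2 using this
  have dΛ : ∀ d x, T.Dat (A.erase i) M fun p => lc Qᵀ (Λ d) x p / m := fun d x =>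
    (Dat.lc (r3 d) _ x).div _
  have qp : 1 ≤ q * (q2 * m) * q3 := Nat.mul_pos (Nat.mul_pos q0 (Nat.mul_pos p0 m0)) t0
  refine ⟨H', sub, (4 * n) ^ (K + 1), by omega, nK, (half_anti n2).trans e1, Fin 4 × E, inferInstance,
    q * (q2 * m) * q3, fun x p => lc B γ x p - c x * p (.inr i),
    fun d p => X d p + ∑ e, X1 d e p + ∑ x, β' x p * (lc Qᵀ (Λ d) x p / m),
    fun d x p => lc Qᵀ (Λ d) x p / m, by simp; omega, qp, ?_, ⟨fun x => (dβ x).sub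
      ((Dat.coord (v := .inr i) (singleton_subset_iff.2 iA) (singleton_nonempty i) subset_rfl).smul _),
      fun d => ((r2 d).add (Dat.sum _ fun e _ => x1 d e)).add (Dat.sum _ fun x _ =>
        ((e2 x).mul (dΛ d x) (by simp) disjoint_sdiff).mono
          (union_subset sdiff_subset (erase_subset _ _)) (insert_eq i M).subset), dΛ, fun y hy => ?_⟩,
    fun j' hj => ?_⟩
  · refine (Nat.mul_le_mul (Nat.mul_le_mul q1 (Nat.mul_le_mul p1 m1)) t1).trans ?_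
    simp only [← pow_add]; exact Nat.pow_le_pow_right two_pos (by omega)
  · simp only [cf_inr, mul_one]
    refine ⟨fun x => (e3 y hy x).1.trans (by norm_num), fun d => ?_⟩
    refine (((((r4 y (sub hy)).2 d).dvd ((dvd_mul_right _ _).mul_right _) qp).add
      (Rel.sum univ fun e _ => (x2 d e y (sub hy)).dvd ((dvd_mul_left _ _).mul_right _) qp)).mono
        ?_).congr fun p hp => ?_
    · rw [sum_const, nsmul_eq_mul, one_mul]
      have : (#(univ : Finset E) : ℝ) ≤ 2 ^ n := by exact_mod_cast cE'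
      have h4 : (2 : ℝ) ^ (n + n + 1) ≤ 2 ^ (4 * n) ^ (K + 1) := two_pow_mono (by omega)
      have h5 : (1 : ℝ) ≤ 2 ^ n := one_le_pow₀ one_le_two
      rw [pow_succ, pow_add] at h4
      nlinarith
    · have m' : (m : ℝ) ≠ 0 := by positivity
      have id : ∀ e, Λ d e p = lc Wᵀ (Λ d) e p / m + ∑ x, B x e * (lc Qᵀ (Λ d) x p / m) := fun e => by
        have := congrArg (fun Y => lc Yᵀ (Λ d) e p) hI
        simp only [transpose_smul, transpose_one, lc_smul, lc_one, transpose_add, lc_add,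
          transpose_mul, lc_mul] at this
        simp only [← mul_div_assoc, ← sum_div, ← add_div]
        rw [eq_div_iff m', mul_comm]
        exact this
      have id2 : ∀ x, (round (lc B γ x (cf y) - c x) : ℝ) =
          ∑ e, B x e * (round (γ e (cf y)) : ℝ) - β' x p := fun x => by
        have := (e3 y hy x).2
        push_cast at this
        rw [ty_fib (e2 x).1 hp, this]; ring
      rw [sum_congr rfl fun e _ => congrArg (_ * ·) (id e)]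
      simp only [id2, mul_add, sub_mul, sum_add_distrib, sum_sub_distrib, sum_mul, mul_sum]
      rw [sum_comm (s := (univ : Finset E))]
      simp only [mul_assoc, mul_left_comm (round (γ _ (cf y)) : ℝ)]
      ring
  · rcases mem_insert.1 hj with rfl | hj
    · exact frei_sub (fj.mono sub (dvd_mul_left _ _) qp (two_pow_mono (by omega))) s7 c
    · exact frei_sub ((frei_lc (fJ j' hj) hB cE').mono sub ((dvd_mul_right _ _).mul_right _) qp
        (two_pow_mono (by omega))) (ne_of_mem_erase (s8 hj)) c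

theorem mid {l0 : ℕ} (hK : KQ l0) (hD : DSH l0) (hU : UPX l0) : Ar l0 P0 Pm := by
  obtain ⟨Kq, hK⟩ := hK
  obtain ⟨Kd, hD⟩ := hD
  obtain ⟨K0, k0, h0, hU⟩ := hU
  refine ⟨k0, fun K' => ?_⟩
  obtain ⟨Ku, hU⟩ := hU K'
  refine ⟨(Kq + 4) * (Kd + 2) * ((K0 + 1) * (Kq + Kd + 1) + Ku), ?_⟩
  rintro L C _ _ _ _ T hk D _ n H ⟨A, M, J, i, j⟩ F l z gg cD
    ⟨⟨s1, s2, s3, s4, s5, s6, s7, s8⟩, dF, ⟨q1, a1, a2, fF⟩, E, _, q, γ, X, Λ, cE, q0, q0', rp, fJ⟩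
  dsimp only at *
  classical
  have hT : T.Ok := gg.ok
  have h2 := z.1
  rw [pow_mul, pow_mul] at gg ⊢
  obtain ⟨t, ht⟩ : ∃ t, t = n ^ Kq := ⟨_, rfl⟩
  obtain ⟨n3, h3⟩ : ∃ n3, n3 = n ^ (Kq + 4) := ⟨_, rfl⟩
  rw [← h3] at gg ⊢
  obtain ⟨n4, h4⟩ : ∃ n4, n4 = n3 ^ Kd := ⟨_, rfl⟩
  obtain ⟨n1, h1⟩ : ∃ n1, n1 = n3 ^ (Kd + 2) := ⟨_, rfl⟩
  rw [← h1] at gg ⊢
  have t1 : 1 ≤ t := ht ▸ Nat.one_le_pow _ _ (by omega)
  have u1 : 4 * (n * n * t) ≤ n3 := by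
    rw [h3, pow_add, ← ht]; nlinarith [Nat.mul_le_mul h2 h2, Nat.zero_le (n * n * t)]
  have u0 : 2 * n ≤ n * n := by nlinarith
  have u2 : n * n ≤ n * n * t := Nat.le_mul_of_pos_right _ t1
  have u3 : 2 * (n * t) ≤ n * n * t := by nlinarith
  have u4 : 2 * t ≤ n * t := Nat.mul_le_mul_right _ h2
  have t4 : 1 ≤ n4 := h4 ▸ Nat.one_le_pow _ _ (by omega)
  have u5 : n4 + 8 * n3 ≤ n1 := by
    rw [h1, pow_add, ← h4]; nlinarith [Nat.mul_le_mul (show 16 ≤ n3 by omega) (le_refl n3)]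
  have u6 : n1 ≤ n1 ^ K0 := le_pow_self' (by omega) h0
  have u7 : 3 * n1 ^ K0 ≤ n1 ^ (K0 + 1) := by rw [pow_succ]; nlinarith
  have gG : ∀ {x y : ℕ}, x ≤ n1 ^ (K0 + 1) → y ≤ Kq + Kd + 1 → G (x ^ y) T := fun hx hy =>
    gg.g ((Nat.pow_le_pow_left hx _).trans (by
      rw [← pow_mul]; exact pow_mono' (by omega) (le_add_right (Nat.mul_le_mul_left _ hy))))
  obtain ⟨q', k, b1, b2, b3, b4⟩ := hK L C T D E n H A M i j q q1 (n1 ^ K0) (2 * n1 ^ K0) F X γ Λ l z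
    (by omega) (by omega) (gG (by omega) (by omega)) cD cE s1 s2 s3 s4 s5 s6 s7 dF q0 q0' a1 a2 fF rp
  rw [← ht] at b2 b3 b4
  obtain ⟨m, Q, m0, m1, hQ, hI⟩ := gi' (b3 0) (Or.inr cE)
  have cE' : Fintype.card E ≤ 2 ^ n := cE.trans Nat.lt_two_pow_self.le
  have hW : Bm (n + 2 + (n * n + t * n + t) + 1) ((m : ℤ) • (1 : Matrix E E ℤ) - Q * k 0) :=
    (hQ.mul (b3 0) (by rw [Fintype.card_prod, Fintype.card_fin, pow_add]; omega)).dia
      (m1.trans (Nat.pow_le_pow_right two_pos (by omega)))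
  have hI' : (m : ℤ) • (1 : Matrix E E ℤ) = ((m : ℤ) • 1 - Q * k 0) + Q * k 0 := by abel
  have hO : k 0 * ((m : ℤ) • (1 : Matrix E E ℤ) - Q * k 0) = 0 := by
    rw [Matrix.mul_sub, ← Matrix.mul_assoc, hI, Matrix.mul_smul, Matrix.mul_one, sub_self]
  generalize (m : ℤ) • (1 : Matrix E E ℤ) - Q * k 0 = W at hW hO hI'
  rw [mul_comm t n] at m1 hW
  have dW : ∀ de : D × E, T.Dat (A.erase i) M (lc Wᵀ (Λ de.1) de.2) := fun de =>
    Dat.lc (rp.2.2.1 de.1) _ _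
  have d1 := hD L C T (D × E) n3 (A.erase i) M j q' (n1 ^ K0) (2 * n1 ^ K0)
    (fun de => lc Wᵀ (Λ de.1) de.2) _ l (by omega)
    (z.2.1.trans (Nat.pow_le_pow_right two_pos (by omega))) (by omega) (by omega)
    (gG (by omega) (by omega))
    (by rw [Fintype.card_prod]; exact (Nat.mul_le_mul cD cE).trans (by omega)) s1
    (fun x h => mem_erase.2 ⟨fun e => s4 (e ▸ h), s2 h⟩) s6 dW b1
    (b2.trans (Nat.pow_le_pow_right two_pos (by omega))) ((half_anti (by omega)).trans b4)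
    fun w hw de => by
      obtain ⟨s, hs⟩ := hw.2.2 de.1
      refine ((((hs 0).lc (bm_t hW) cE').mono (m := n3) (by omega)) de.2).congr fun p _ => ?_
      rw [lc_sub', ← lc_mul, ← transpose_mul, hO, transpose_zero, lc_zero]
      simp [lc]
  rw [← h4] at d1
  let H1 := {y | y ∈ H ∧ T.VR (A.erase i) M y q' n4 fun de : D × E => lc Wᵀ (Λ de.1) de.2}
  have c1 := cor_pr (T := T) (m := n4 + 1) (a1 := n1 ^ K0) (a2 := 2 * n1 ^ K0)
    (b := n1 ^ (K0 + 1)) j 0 H1 z.2.1 (by omega) (by omega) (by omega) (by omega)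
    (mono _ _ _ _ _ _ _ (pow_one _).ge (by rw [pow_one]; omega)
      (gG (y := 1) le_rfl (by omega)))
  have o : (T.rect j (n1 ^ K0) (2 * n1 ^ K0)).Ok := hT.cl j _ _
  have c2 : (1 / 2 : ℝ) ^ n1 ≤ T.pr H1 := by
    have := d1.trans (o.pr_mono (H' := {w | T.cor j 0 w ∈ H1}) fun w hw => ⟨hw.1.1 0, hw.2⟩)
    have e := half_anti (show n4 + 1 ≤ n1 by omega)
    rw [pow_succ] at c1 e
    linarith [(abs_le.1 c1).2]
  have iA : i ∈ A \ M := mem_sdiff.2 ⟨s3, s4⟩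
  have dγ := fun l x => Dat.lc rp.1 (k l) x
  have U := hU L C T hk (Fin 4 × E) n1 H1 (A \ M) {i} j q' ![lc (k 0) γ, fun x p => -lc (k 1) γ x p,
    fun x p => -lc (k 2) γ x p, lc (k 3) γ] l (z.sub (by omega) c2)
    (gg.mono (pow_mono' (by omega) (by omega))) (by simp; omega) (singleton_nonempty i)
    (singleton_subset_iff.2 iA) (mem_sdiff.2 ⟨s5, s6⟩) (by simpa using s7)
    (fun l x => by fin_cases l; exacts [dγ 0 x, (dγ 1 x).neg, (dγ 2 x).neg, dγ 3 x]) b1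
    (b2.trans (Nat.pow_le_pow_right two_pos (by omega)))
    ((half_anti (by omega)).trans (d1.trans (o.pr_mono fun w hw => ⟨⟨hw.1.1 0, hw.2⟩, fun x =>
      ((hw.1.2.1 x).mono (two_pow_mono (by omega))).congr fun p _ => by
        simp [Fin.sum_univ_four]⟩)))
  refine (U.imp le_rfl (pow_mono' (by omega) (by omega)) ?_).from (by omega) fun _ h => h.1
  rintro C' _ _ T' ι H' n' k' mv o' fj
  have e1 := mv.n_le
  have e2 : ∀ {x : ℕ}, x ≤ n1 → (2 : ℝ) ^ x ≤ 2 ^ n1 := two_pow_mono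
  have e3 : ∀ {x y : ℕ}, x ≤ 2 ^ y → y ≤ n1 → x ≤ 2 ^ n' := fun a b =>
    a.trans (Nat.pow_le_pow_right two_pos (b.trans e1))
  refine ⟨⟨s1, s2, s3, s4, s5, s6, s7, s8⟩, E, inferInstance, inferInstance, q, q', m, fun e p => γ e (ι p),
    fun d p => X d (ι p), fun d e p => Λ d e (ι p), k 0, W, Q, by omega, q0, e3 q0' (by omega), b1,
    e3 b2 (by omega), m0, e3 m1 (by omega), (b3 0).mono (by omega), hI',
    ⟨fun e => mv.ref.dat (rp.1 e), fun d => mv.ref.dat (rp.2.1 d),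
      fun d e => mv.ref.dat (rp.2.2.1 d e), fun y' hy => ?_⟩, fun j' hj => ?_, fun y' hy d e => ?_, fj⟩
  · obtain ⟨y, hy, e⟩ := mv.ov y' hy
    simp only [e]
    exact ⟨(rp.2.2.2 y hy.1).1, fun d => mv.rel hT e (fun ℓ h => (((dF d).2 ℓ h).sub
      ((rp.2.1 d).2 ℓ (mem_insert_of_mem h))).sub (Lin.sum _ fun e _ => ((rp.2.2.1 d e).2 ℓ h).smul _))
      (((rp.2.2.2 y hy.1).2 d).mono (e2 (by omega)))⟩
  · exact mv.frei hT (mem_of_mem_erase (s8 hj)) (by simpa using ne_of_mem_erase (s8 hj)) rp.1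
      ((fJ j' hj).mono (fun _ h => h.1) dvd_rfl q0 (e2 (by omega)))
  · obtain ⟨y, hy, e'⟩ := mv.ov y' hy
    exact mv.rel hT e' (dW (d, e)).2 ((hy.2 (d, e)).mono (e2 (by omega)))

end S1a

theorem s1 {l0 : ℕ} (hK : KQ l0) (hD : DSH l0) (hU : UPX l0) (hR : RB l0) (hP : REPL) : S1 l0 := by
  obtain ⟨k0, h⟩ := (S1a.mid hK hD hU).trans (S1a.fin hR hP)
  refine ⟨k0, fun K' => ?_⟩
  obtain ⟨K, h⟩ := h K'
  exact ⟨K, fun L C _ _ _ _ T hk D _ n H A M J i j q1 F l z g d s1 s2 s3 s4 s5 s6 s7 s8 f a b c p =>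
    h L C T hk D n H (A, M, J, i, j) F l z g d ⟨⟨s1, s2, s3, s4, s5, s6, s7, s8⟩, f, ⟨q1, a, b, c⟩, p⟩⟩

end Crest.Agent.N49.Rm
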