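import Crest.Agent.N49.Rm.Sp
/-! Row 49, block RMH (helper97): step S2. -/
set_option autoImplicit false
set_option linter.unusedSectionVars false
noncomputable section
namespace Crest.Agent.N49.Rm
open Finset Matrix Crest.Agent.N49.Iv.Il TT

section
variable {L C : Type} [Fintype L] [DecidableEq L] [Fintype C] [DecidableEq C] {T : TT L C}
  {A M : Finset L} {j : L}

theorem TT.pt_pos0 (T : TT L C) (j : L) {ρ : Type} [Fintype ρ] [DecidableEq ρ] (pt : ρ → Bool)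
    (a : ρ → ℕ) (α0 : ℤ) (α : ρ → ℤ) {A' : Finset (L ⊕ ρ)} (h : ∀ ℓ ∈ A, .inl ℓ ∈ A')
    (hx : ∀ x, α x ≠ 0 → .inr x ∈ A') : T.Pt (T.cl j pt a) (T.pos j pt α0 α) A A' :=
  fun v s n p p' e => by
  have h0 := T.pt_p0 j pt a h v s n p p' e
  have h1 : ∀ x, (α x : ℝ) * T.px j pt x p v = α x * T.px j pt x p' v := fun x => by
    by_cases k : α x = 0
    · simp [k]
    · exact congrArg _ (T.pt_px j pt a x (fun ℓ m _ => h ℓ m) (fun _ => hx x k) v s n p p' e)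
  simp only [pos] at h0 ⊢
  simp only [h0, h1]

theorem TT.Dat.cq0 {F : Fm L C} (h : T.Dat A M F) (hj : j ∉ M) (a1 a2 : ℕ) (l x : Fin 4)
    (e : cv l x = 0) : (T.rect j a1 a2).Dat ((upA A (Fin 4)).erase (.inr x)) (M.image .inl)
      fun p => F (T.cq j l p) :=
  ⟨h.1.pb (T.pt_pos0 j _ _ _ _ (fun ℓ m => by simp [upA, m]) fun x' k => by
    have : x' ≠ x := fun r => k (r ▸ e)
    simp [upA, this]), (TT.Dat.pos _ (fun _ => false) ![a1, a1, a2, a2] 1 (cv l) hj h).2⟩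

theorem sz_up {H : Set (C → ℤ)} {n N : ℕ} (h : Sz n T H) (e : n ≤ N) : Sz N T H :=
  ⟨h.1.trans e, h.2.1.trans (Nat.pow_le_pow_right two_pos e),
    (pow_le_pow_of_le_one (by norm_num) (by norm_num) e).trans h.2.2⟩

theorem nx_wk {k0 s s' K' n N : ℕ} {H : Set (C → ℤ)} {X : Hk L C} {P Q : Out L C}
    (h : NX k0 s K' N T H X P) (e : n ≤ N) (e' : s ≤ s')
    (f : ∀ (C' : Type) [Fintype C'] [DecidableEq C'] (T' : TT L C') ι H' n', N ≤ n' →
      P C' T' ι H' n' → Q C' T' ι H' n') : NX k0 s' K' n T H X Q := by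
  obtain ⟨C', _, _, T', ι, H', n', k, h1, h2, h3, h4, h5, h6, h7, h8⟩ := h
  exact ⟨C', _, _, T', ι, H', n', k, by omega, h2.trans e', h3, h4.mono e', h5, h6, h7,
    f _ _ _ _ _ (by omega) h8⟩

theorem Kr.mono {a E : Type} [Fintype a] [Fintype E] [DecidableEq E] {n n' : ℕ} {B : Matrix a E ℤ}
    {W : Matrix E E ℤ} (h : Kr n B W) (e : n ≤ n') : Kr n' B W := by
  obtain ⟨h1, h2, m, Q, h3, h4, h5, h6⟩ := h
  exact ⟨h1.mono e, h2.mono e, m, Q, h3, h4.trans (Nat.pow_le_pow_right two_pos e), h5.mono e, h6⟩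

/-- a bounded kernel matrix -/
theorem exists_kr {a E : Type} [Fintype a] [Fintype E] [DecidableEq E] {n : ℕ} {B : Matrix a E ℤ}
    (h : Bm n B) (hE : Fintype.card E ≤ n) (ha : Fintype.card a ≤ 2 ^ n) :
    ∃ W, Kr (2 * n ^ 2 + 2 * n + 1) B W ∧ B * W = 0 := by
  obtain ⟨m, Q, h1, h2, h3, h4⟩ := gi' h (Or.inr hE)
  have e : n * n + n * n = 2 * n ^ 2 := by ring
  rw [e] at h2 h3
  refine ⟨(m : ℤ) • 1 - Q * B, ⟨h.mono (by omega), ?_, m, Q, h1,
    h2.trans (Nat.pow_le_pow_right two_pos (by omega)), h3.mono (by omega), by simp⟩, ?_⟩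
  · exact (((h3.mul h ha).dia (h2.trans (Nat.pow_le_pow_right two_pos (by omega)))).mono
      (by omega))
  · rw [Matrix.mul_sub, ← Matrix.mul_assoc, h4, Matrix.mul_smul, Matrix.mul_one, sub_self]
end

theorem pw_big {n c l0 : ℕ} (hn : 2 ≤ n) :
    n ^ c ≤ n ^ (c + l0 + 2) ∧ n ≤ n ^ (c + l0 + 2) ∧ 2 * l0 + 4 ≤ n ^ (c + l0 + 2) := by
  refine ⟨Nat.pow_le_pow_right (by omega) (by omega), le_self_pow₀ (by omega) (by omega), ?_⟩
  have h1 : l0 < 2 ^ l0 := Nat.lt_two_pow_self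
  have h2 : 2 ^ (l0 + 2) ≤ n ^ (l0 + 2) := Nat.pow_le_pow_left hn _
  have h3 : n ^ (l0 + 2) ≤ n ^ (c + l0 + 2) := Nat.pow_le_pow_right (by omega) (by omega)
  rw [pow_add] at h2
  omega

theorem add_pw {n c K : ℕ} (hn : 2 ≤ n) (hc : 1 ≤ c) : (n + n ^ c) ^ K ≤ n ^ ((c + 1) * K) := by
  rw [pow_mul]
  refine Nat.pow_le_pow_left ?_ _
  have : n ≤ n ^ c := le_self_pow₀ (by omega) (by omega)
  rw [pow_succ]; nlinarith

theorem s2 {l0 : ℕ} (hq : KQ l0) (hc : CONST l0) (hr : FRR) : S2 l0 := by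
  obtain ⟨Kq, hq⟩ := hq
  obtain ⟨K0, k0, hK0, hc⟩ := hc
  refine ⟨k0, fun K' => ?_⟩
  obtain ⟨K1, hc⟩ := hc K'
  refine ⟨(Kq + l0 + 3) * 3 * K1 + ((Kq + l0 + 3) * 3 * K0 + 1) * Kq, ?_⟩
  intro L C _ _ _ _ T hk D E _ _ _ n H A M i j q q1 F X γ Λ hL hS hG hD hE hM hA hi hi' hj hj' hji hF
    q1' q2' r1 r2 hFr hR hγ
  have hn := hS.1
  have hT := hG.ok
  obtain ⟨m, hm⟩ : ∃ m, m = n ^ (Kq + l0 + 3) := ⟨_, rfl⟩
  have e0 : Kq + l0 + 3 = Kq + (l0 + 1) + 2 := by ring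
  obtain ⟨b1, b2, b3⟩ : n ^ Kq ≤ m ∧ n ≤ m ∧ 2 * (l0 + 1) + 4 ≤ m := by
    rw [hm, e0]; exact pw_big hn
  have hN : m ^ 3 = n ^ ((Kq + l0 + 3) * 3) := by rw [hm, ← pow_mul]
  have b4 : 2 * m ^ 2 + 12 * m + 10 ≤ m ^ 3 := by
    have : 6 ≤ m := by omega
    nlinarith [Nat.mul_le_mul this this, Nat.mul_le_mul_right (m ^ 2) this]
  have b5 : m ^ 3 ≤ (m ^ 3) ^ K0 := le_self_pow₀ (by omega) (by omega)
  obtain ⟨q', k, c1, c2, c3, c4⟩ := hq L C T D E n H A M i j q q1 ((m ^ 3) ^ K0) ((m ^ 3) ^ K0)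
    F X γ Λ hL hS (by omega) le_rfl (hG.g (by
      rw [hN, ← pow_mul]
      exact (add_pw hn (by nlinarith)).trans (Nat.pow_le_pow_right (by omega) (by omega))))
    hD hE hM hA hi hi' hj hj' hji hF q1' q2' r1 r2 hFr hR
  have c3' : ∀ l, Bm m (k l) := fun l => (c3 l).mono b1
  have p1 : m < 2 ^ m := Nat.lt_two_pow_self
  have hE' : Fintype.card E ≤ 2 ^ m := by omega
  obtain ⟨W, w1, w2⟩ := exists_kr (bm_add (c3' 0) (c3' 1)) (by omega) (by
    have : n < 2 ^ n := Nat.lt_two_pow_self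
    have h2 : 2 ^ n * 2 ^ 2 ≤ 2 ^ (m + 1) := by
      rw [← pow_add]; exact Nat.pow_le_pow_right two_pos (by
        have : n ^ 2 ≤ m := by rw [hm]; exact Nat.pow_le_pow_right (by omega) (by omega)
        nlinarith)
    simp only [Fintype.card_prod, Fintype.card_fin]; omega)
  have dΛ : ∀ d e, T.Dat (A.erase i) M (lc Wᵀ (Λ d) e) := fun d e =>
    Dat.lc (hR.2.2.1 d) _ e
  have hi1 : j ∉ ({i} : Finset L) := by simpa using hji
  have hiA : ({i} : Finset L) ⊆ A \ M := by simp [hi, hi']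
  have hjA : j ∈ A \ M := by simp [hj, hj']
  have := hc L C T hk (D × E) (Fin 4 × E) (m ^ 3) H (A.erase i) M (A \ M) {i} j (q' * q)
    (fun de => lc Wᵀ (Λ de.1) de.2) (lc (k 0 + k 1) γ)
    (fun de p => lc Wᵀ (Λ de.1) de.2 (T.cq j 1 p))
    (fun x p => -(lc (k 2 - k 1) γ x (T.cq j 2 p) + lc (k 3 + k 1) γ x (T.cq j 3 p)))
    hL (sz_up hS (by omega)) (hG.mono (by
      rw [hN, ← pow_mul]; exact Nat.pow_le_pow_right (by omega) (by omega)))
    (fun x hx => mem_erase.2 ⟨fun e => hi' (e ▸ hx), hA hx⟩) hiA (by simp [hj, hji]) hjA hj' hi1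
    (fun de => dΛ _ _) (Dat.lc hR.1 _) (fun de => (dΛ _ _).cq0 hj' _ _ 1 2 rfl)
    (fun x => (((Dat.lc hR.1 _ x).cq0 hi1 _ _ 2 0 rfl).add
      ((Dat.lc hR.1 _ x).cq0 hi1 _ _ 3 0 rfl)).neg) ?_
  · refine nx_wk this (by omega) (by
      rw [hN, ← pow_mul]; exact Nat.pow_le_pow_right (by omega) (by omega)) ?_
    intro C' _ _ T' ι H' n' e h
    refine ⟨q' * q, k 0 + k 1, W, Nat.mul_pos c1 q1', ?_, w1.mono (by nlinarith), h.1, h.2⟩
    calc q' * q ≤ 2 ^ m * 2 ^ m := Nat.mul_le_mul (c2.trans (Nat.pow_le_pow_right two_pos b1))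
          (q2'.trans (Nat.pow_le_pow_right two_pos b2))
      _ ≤ 2 ^ n' := by rw [← pow_add]; exact Nat.pow_le_pow_right two_pos (by omega)
  refine ((pow_le_pow_of_le_one (by norm_num) (by norm_num) (by omega)).trans c4).trans
    (TT.pr_sub _ ?_)
  rintro w ⟨d1, d2, d3⟩
  have hq0 : 1 ≤ q' * q := Nat.mul_pos c1 q1'
  refine ⟨d1 0, fun de => ?_, ?_⟩
  · obtain ⟨s, hs⟩ := d3 de.1
    have := ((((hs 0).add (hs 1)).mono (Nat.add_le_add_right b1 1)).lc (bm_t w1.2.1) hE').dvd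
      (Dvd.intro _ rfl : q' ∣ q' * q) hq0
    refine ((this.mono (by nlinarith)) de.2).congr fun p _ => ?_
    have e : lc Wᵀ (lc (k 0 + k 1)ᵀ s) de.2 p = 0 := by
      rw [← lc_mul, ← transpose_mul, w2, transpose_zero, lc_zero]
    simp only [lc, Matrix.transpose_add, Matrix.add_apply, Int.cast_add, add_mul,
      sum_add_distrib] at e ⊢
    rw [← sum_sub_distrib, ← sub_zero (∑ _, _), ← e, ← sum_sub_distrib]
    exact sum_congr rfl fun z _ => by simp; ring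
  · have r0 : (T.rect j ((m ^ 3) ^ K0) ((m ^ 3) ^ K0)).VR (upA (A \ M) (Fin 4))
        (({i} : Finset L).image .inl) w q (2 * m) fun z p => γ z (T.cq j 0 p) - γ z (T.cq j 1 p) -
          γ z (T.cq j 2 p) + γ z (T.cq j 3 p) := fun z => by
      refine (hr L C T E (A \ M) {i} j H q _ γ _ _ w hT hiA hjA hi1 hR.1 hγ d1 z).mono ?_
      calc (3 : ℝ) ^ Fintype.card L * 2 ^ n ≤ (2 ^ 2) ^ l0 * 2 ^ n := by
            gcongr
            exact (pow_le_pow_right₀ (by norm_num) hL).trans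
              (pow_le_pow_left₀ (by norm_num) (by norm_num) _)
        _ ≤ 2 ^ (2 * m) := by
            rw [← pow_mul, ← pow_add]; exact pow_le_pow_right₀ (by norm_num) (by omega)
    have := ((d2.dvd (Dvd.intro _ rfl : q' ∣ q' * q) hq0).mono (m := m + (m + 2 * m))
      (by omega)).add ((r0.lc (c3' 1) hE').dvd (Dvd.intro_left _ rfl : q ∣ q' * q) hq0)
    refine (this.mono (by omega)).congr fun x p _ => ?_
    simp only [Fin.sum_univ_four, lc, Matrix.add_apply, Matrix.sub_apply, Int.cast_add,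
      Int.cast_sub, add_mul, sub_mul, mul_add, mul_sub, sum_add_distrib, sum_sub_distrib]
    ring
end Crest.Agent.N49.Rm
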