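import Crest.Agent.N49.Rm.S2
import Crest.Agent.N49.Rm.Ar

/-! Row 49, block RMH (helper11): step S3'. -/

set_option autoImplicit false
set_option linter.unusedSectionVars false
noncomputable section
namespace Crest.Agent.N49.Rm
open Finset Matrix Crest.Agent.N49.Iv.Il

section
variable {L C : Type} [Fintype L] [DecidableEq L] [Fintype C] [DecidableEq C] {T : TT L C}

/-- the marginal of corner `0` of the rectangle shape -/
theorem cor0_mass (hC : CLM) {n m b a1 a2 : ℕ} {j : L} {H : Set (C → ℤ)}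
    (h1 : Fintype.card C ≤ 2 ^ n) (h2 : Fintype.card L ≤ 2 ^ n) (g : G b T)
    (ha : 2 * n + m + 31 ≤ a1) (ha' : a1 ≤ a2) (hb : a2 ≤ b)
    (h : (1 / 2 : ℝ) ^ m ≤ (T.rect j a1 a2).pr {w | T.cor j 0 w ∈ H}) :
    (1 / 2 : ℝ) ^ (m + 1) ≤ T.pr H := by
  have := (hC L C T n b (m + 1) j 4 (fun _ => false) ![a1, a1, a2, a2] H h1 h2 (by norm_num)
    (fun x => by fin_cases x <;> simp <;> omega) (by omega)
    (mono _ _ _ _ _ _ T le_rfl (by omega) g)).1 ![1, 0, 1, 0] fun x _ => ⟨rfl, by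
      have : (2 : ℤ) ^ (2 * n + (m + 1) + 10) ≤ 2 ^ a1 := pow_le_pow_right₀ one_le_two (by omega)
      have : (2 : ℤ) ^ a1 ≤ 2 ^ a2 := pow_le_pow_right₀ one_le_two ha'
      fin_cases x <;> simp <;> omega⟩
  have h' : (1 / 2 : ℝ) ^ m ≤ (T.cl j (fun _ => false) ![a1, a1, a2, a2]).pr
    {w | T.posZ j 1 ![1, 0, 1, 0] w ∈ H} := h
  rw [pow_succ] at this ⊢
  linarith [(abs_le.1 this).2]

end

theorem s3_num {n : ℕ} (h2 : 2 ≤ n) (a l : ℕ) : n ^ a + 2 * l + 8 * n ≤ n ^ (a + 2 * l + 5) := by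
  have a1 : 1 ≤ n ^ a := Nat.one_le_pow _ _ (by omega)
  have a2 : 2 * l + 1 ≤ n ^ (2 * l) := Nat.lt_two_pow_self.trans_le (Nat.pow_le_pow_left h2 _)
  have a3 : 16 * n ≤ n ^ 5 := by
    rw [pow_succ]; exact Nat.mul_le_mul_right _ (Nat.pow_le_pow_left h2 4)
  have a4 : n ^ a + 2 * l ≤ n ^ a * n ^ (2 * l) := by nlinarith
  rw [pow_add, pow_add]
  nlinarith

theorem four_pw {n : ℕ} (h2 : 2 ≤ n) (a : ℕ) : 4 * n ^ a ≤ n ^ (a + 2) := by
  rw [pow_add, mul_comm]; exact Nat.mul_le_mul_left _ (Nat.pow_le_pow_left h2 2)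

set_option maxHeartbeats 1600000 in
theorem s3 {l0 : ℕ} (hQ : KQ l0) (hD : DESC (l0 + 4)) (hU : UPX l0) (hR : FRR) (hC : CLM) :
    S3 l0 := by
  obtain ⟨KQ, hQ⟩ := hQ
  obtain ⟨K3, hD⟩ := s3_core hD
  obtain ⟨K0, k0, h0, hU⟩ := hU
  refine ⟨k0, fun K' => ?_⟩
  obtain ⟨KU, hU⟩ := hU (2 * K')
  refine ⟨(KQ + 2 * l0 + 5) * (K3 + 1) * 3 * ((K0 + 2) * (KQ + 1) + KU * 2), ?_⟩
  intro L C _ _ _ _ T X D E _ _ _ n H A M i j q q1 q2 F Y γ Λ B W hl hz hG hd he m1 m2 i1 i2 j1 j2 ji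
    hF p1 p2 p3 p4 p5 p6 fF hRep fγ ⟨kB, kW, m, Q, k1, k2, k3, k4⟩ ⟨τ, t1, t2⟩ ⟨g, g1, g2⟩
  have hT : T.Ok := hG.ok
  have h2 := hz.1
  simp only [pow_mul] at hG ⊢
  obtain ⟨n2, e2⟩ : ∃ x, x = n ^ (KQ + 2 * l0 + 5) := ⟨_, rfl⟩
  obtain ⟨n3, e3⟩ : ∃ x, x = n2 ^ (K3 + 1) := ⟨_, rfl⟩
  obtain ⟨n4, e4⟩ : ∃ x, x = n3 ^ 3 := ⟨_, rfl⟩
  rw [← e2, ← e3, ← e4] at hG ⊢
  have b2 : n ^ KQ + 2 * l0 + 8 * n ≤ n2 := e2 ▸ s3_num h2 _ _
  have b3 : n2 ^ K3 ≤ n3 ∧ n2 ≤ n3 :=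
    ⟨e3 ▸ pow_mono' (by omega) (by omega), e3 ▸ le_pow_self' (by omega) (by omega)⟩
  have b4 : 16 * (n3 * n3) ≤ n4 := by
    rw [e4, pow_succ, sq, mul_comm]; exact Nat.mul_le_mul_left _ (by omega)
  have b5 : 16 * n3 ≤ n3 * n3 := Nat.mul_le_mul_right _ (by omega)
  have b6 : n4 ≤ n4 ^ K0 := le_pow_self' (by omega) h0
  have b7 : 4 * n4 ^ K0 ≤ n4 ^ (K0 + 2) := four_pw (by omega) _
  have b9 : (K0 + 2) * (KQ + 1) = (K0 + 2) * KQ + (K0 + 2) := by ring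
  have b8 : n4 ^ (K0 + 2) ≤ n4 ^ ((K0 + 2) * (KQ + 1) + KU * 2) := pow_mono' (by omega) (by omega)
  have b10 : n * n ≤ n3 * n3 := Nat.mul_le_mul (by omega) (by omega)
  have b11 : n3 ^ 2 = n3 * n3 := sq _
  clear e2 e3 e4
  obtain ⟨q', k, r1, r2, r3, r4⟩ := hQ L C T D E n H A M i j q q1 (n4 ^ K0) (2 * n4 ^ K0) F Y γ Λ hl
    hz (by omega) (by omega) (hG.g ((Nat.pow_le_pow_left (by omega : _ ≤ n4 ^ (K0 + 2)) _).trans
      (by rw [← pow_mul]; exact pow_mono' (by omega) (by omega)))) hd he m1 m2 i1 i2 j1 j2 ji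
    hF p1 p2 p3 p4 fF hRep
  have q0 : 1 ≤ q' * q * q2 := Nat.mul_pos (Nat.mul_pos r1 p1) p5
  have c4 : Fintype.card (Fin 4 × E) ≤ n2 := by
    rw [Fintype.card_prod, Fintype.card_fin]; omega
  have iA : ({i} : Finset L) ⊆ A \ M := by simp [i1, i2]
  have ji' : j ∉ ({i} : Finset L) := by simpa using ji
  obtain ⟨u, q3, u1, u2, u3, -, Ω, o1, o2, o3⟩ := hD L C T D (Fin 4 × E) E E (Fin 4 × E) n2 _
    (A.erase i) M (A \ M) {i} j (n4 ^ K0) (2 * n4 ^ K0) (q' * q * q2) m Λ γ (fun d z => τ (d, z)) g k W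
    1 Q B (T.KE A M i j H q' (n ^ KQ) γ Λ (n4 ^ K0) (2 * n4 ^ K0) k) hl (by omega) (by omega)
    (hz.2.1.trans (Nat.pow_le_pow_right two_pos (by omega))) (hG.g le_rfl) (by omega) (by omega)
    (by omega) c4 (by omega) (by omega) c4 j2 ji' (singleton_nonempty _) iA q0
    ((Nat.mul_le_mul (Nat.mul_le_mul r2 p2) p6).trans (by
      rw [← pow_add, ← pow_add]; exact Nat.pow_le_pow_right two_pos (by omega)))
    k1 (k2.trans (Nat.pow_le_pow_right two_pos (by omega))) (fun l => (r3 l).mono (by omega))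
    (kW.mono (by omega)) (k3.mono (by omega)) (kB.mono (by omega)) (by rw [Matrix.mul_one, k4])
    hRep.2.2.1 hRep.1 (fun d z => t1 _) g1 ((half_anti (by omega)).trans r4)
    fun w ⟨w1, w2, w3⟩ => ⟨fun d => (w3 d).imp fun s hs l =>
        ((hs l).mono (by omega)).dvd ⟨q * q2, by ring⟩ q0,
      (w2.mono (by omega)).dvd ⟨q * q2, by ring⟩ q0,
      fun z => TT.Rel.mono (TT.Rel.dvd (hR L C T E (A \ M) {i} j H q _ γ _ _ w hT iA
        (by simp [j1, j2]) ji' hRep.1 fγ w1 z) ⟨q' * q2, by ring⟩ q0) (by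
          refine le_trans (mul_le_mul_of_nonneg_right ?_ (by positivity))
            ((pow_add _ _ _).symm.trans_le (two_pow_mono (show 2 * l0 + n ≤ n2 by omega)))
          rw [pow_mul]
          exact (pow_le_pow_left₀ (by norm_num) (by norm_num) _).trans
            (pow_le_pow_right₀ (by norm_num) hl)),
      fun l => ⟨fun d z => ((((t2 _ (w1 l)).mono (by omega)).dvd (dvd_mul_left _ _) q0) (d, z)),
        ((g2 _ (w1 l)).mono (by omega)).dvd (dvd_mul_left _ _) q0⟩⟩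
  obtain ⟨V, v2, v1⟩ := exists_kr (u1.mono b3.1) (by omega)
    ((c4.trans b3.2).trans Nat.lt_two_pow_self.le)
  have hΩ : ∀ w ∈ Ω, T.cor j 0 w ∈ {y ∈ H | T.VR (A \ M) {i} y q3 n4 (lc u γ)} :=
    fun w h => ⟨(o1 h).1 0, ((o3 w h).1 0).mono (by omega)⟩
  have z1 : Sz n4 T {y ∈ H | T.VR (A \ M) {i} y q3 n4 (lc u γ)} :=
    hz.sub (by omega) ((half_anti (by omega)).trans (cor0_mass hC (n := n2) (m := n3)
      (hz.2.1.trans (Nat.pow_le_pow_right two_pos (by omega)))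
      (le_trans (by omega) Nat.lt_two_pow_self.le) (hG.g le_rfl) (by omega)
      (by omega : n4 ^ K0 ≤ 2 * n4 ^ K0) (by omega)
      ((half_anti b3.1).trans (o2.trans (TT.pr_sub _ hΩ)))))
  have dΛ : ∀ de : D × E, T.Dat (A.erase i) M (lc Vᵀ (Λ de.1) de.2) :=
    fun de => TT.Dat.lc (hRep.2.2.1 de.1) _ _
  refine (((hU L C T X (D × E) n4 _ (A.erase i) M j q3 (fun _ de => lc Vᵀ (Λ de.1) de.2) hl z1
    (hG.mono (pow_mono' (by omega) (by omega))) (by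
      have := Nat.mul_le_mul hd he
      rw [Fintype.card_prod]; omega) m1
    (fun x h => mem_erase.2 ⟨fun e => i2 (e ▸ h), m2 h⟩) (mem_erase.2 ⟨ji, j1⟩) j2 (fun _ => dΛ) u2
    (u3.trans (Nat.pow_le_pow_right two_pos (by omega)))
    ((half_anti (by omega)).trans (o2.trans (TT.pr_sub _ fun w h => ⟨hΩ w h, fun de =>
      TT.Rel.mono ((o3 w h).2 E V _ v2.2.1 v1 de.1 de.2) (two_pow_mono (by omega))⟩)))).bump
    (c := 2) (by norm_num) ?_).from (by omega) fun _ h => h.1).imp le_rfl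
    (by rw [← pow_mul]; exact pow_mono' (by omega) (by omega)) fun _ _ _ _ _ _ _ _ _ _ r => r
  rintro C' _ _ T' ι H' n' kk mv - ⟨q4, s1, s2, s3⟩
  have n1 := mv.n_le
  have n5 : 2 * n' ≤ n' ^ 2 := sq n' ▸ Nat.mul_le_mul_right _ mv.sz.1
  have q5 : 1 ≤ q4 * q3 := Nat.mul_pos s1 u2
  refine ⟨q4 * q3, u, V, q5, (Nat.mul_le_mul s2 u3).trans (by
    rw [← pow_add]; exact Nat.pow_le_pow_right two_pos (by omega)), v2.mono (by omega),
    fun y hy => ?_, s3.mono subset_rfl (dvd_mul_right _ _) q5 (two_pow_mono (by omega))⟩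
  obtain ⟨x, ⟨-, x2⟩, x3⟩ := mv.ov y hy
  exact (TT.VR.mono (fun z => mv.rel hT x3 (TT.Dat.lc hRep.1 u z).2 (x2 z)) (by omega)).dvd
    (dvd_mul_left _ _) q5

end Crest.Agent.N49.Rm
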