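import Crest.Agent.N49.Rm.S2
/-! Row 49, block RMH (helper14): step S4. -/
set_option autoImplicit false
set_option linter.unusedSectionVars false
noncomputable section
namespace Crest.Agent.N49.Rm
open Finset Matrix Crest.Agent.N49.Iv.Il TT

theorem s4_pn (E K n : ℕ) (hn : 2 ≤ n) : (E * n) ^ K ≤ n ^ ((E + 1) * K) := by
  rw [pow_mul, pow_succ]
  exact Nat.pow_le_pow_left (Nat.mul_le_mul_right n
    (Nat.lt_two_pow_self.le.trans (Nat.pow_le_pow_left hn E))) K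

theorem s4 {l0 : ℕ} : S4 l0 := by
  refine ⟨(3 * (4 * l0 + 1) + 1) * 2, ?_⟩
  intro L C _ _ _ _ T D E _ _ n H A M J q Λ U V hL hn hE q1 q2 h
  obtain ⟨N, hN⟩ : ∃ N, N = (4 * l0 + 1) * n := ⟨_, rfl⟩
  have b0 : (3 * N) ^ 2 ≤ n ^ ((3 * (4 * l0 + 1) + 1) * 2) := by
    rw [hN, ← mul_assoc]; exact s4_pn _ _ _ hn
  have b1 : n + 4 * (l0 * n) = N := by rw [hN]; ring
  have b2 : N ≤ N ^ 2 := le_self_pow₀ (by omega) (by omega)
  have b3 : (3 * N) ^ 2 = 9 * N ^ 2 := by ring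
  have hJ : J.card ≤ l0 := (card_le_univ J).trans hL
  obtain ⟨V', w1, w2⟩ := exists_kr (n := N)
    (B := Matrix.of fun (x : J × (Fin 4 × E)) e => U x.1 x.2 e)
    (fun x e => ((h x.1 x.1.2).1.1.mono (by omega)) x.2 e) (by omega) (by
      have : N < 2 ^ N := Nat.lt_two_pow_self
      have h2 : J.card * (4 * Fintype.card E) ≤ l0 * (4 * n) := Nat.mul_le_mul hJ (by omega)
      have h3 : l0 * (4 * n) = 4 * (l0 * n) := by ring
      simp only [Fintype.card_prod, Fintype.card_fin, Fintype.card_coe]; omega)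
  have hm : ∀ j, ∃ m : ℕ, 1 ≤ m ∧ m ≤ 2 ^ n ∧ (j ∈ J → (m : ℤ) • V'ᵀ = V'ᵀ * (V j)ᵀ) := fun j => by
    by_cases k : j ∈ J
    · obtain ⟨-, -, m, Q, a1, a2, -, a3⟩ := (h j k).1
      refine ⟨m, a1, a2, fun _ => ?_⟩
      have z : U j * V' = 0 := by
        ext x e
        exact congrFun (congrFun w2 (⟨j, k⟩, x)) e
      have := congrArg (fun X => (X * V')ᵀ) a3
      simpa only [Matrix.smul_mul, Matrix.one_mul, Matrix.add_mul, Matrix.mul_assoc, z,
        Matrix.mul_zero, add_zero, transpose_smul, transpose_mul] using this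
    · exact ⟨1, le_rfl, Nat.one_le_two_pow, fun k' => absurd k' k⟩
  choose m m1 m2 m3 using hm
  have p1 : 1 ≤ q * ∏ j, m j := Nat.mul_pos q1 (prod_pos fun j _ => m1 j)
  have hLn : Fintype.card L * n ≤ l0 * n := Nat.mul_le_mul_right _ hL
  refine ⟨q * ∏ j, m j, V', p1, ?_, w1.mono (by omega), ?_⟩
  · refine (Nat.mul_le_mul q2 (prod_le m2 univ)).trans ?_
    rw [← pow_add]; exact Nat.pow_le_pow_right two_pos (by omega)
  intro j hj y1 a1 y2 a2 y3 a3 y4 a4 hQ de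
  have hE' : Fintype.card E ≤ 2 ^ n := hE.trans Nat.lt_two_pow_self.le
  have r := (VR.lc (n := n) (fun e => (h j hj).2 y1 a1 y2 a2 y3 a3 y4 a4 hQ (de.1, e))
    (bm_t w1.2.1) hE').mono (m := n ^ ((3 * (4 * l0 + 1) + 1) * 2)) (by omega)
  have f : ∀ x p, lc V'ᵀ (lc (V j)ᵀ (Λ de.1)) x p = m j * lc V'ᵀ (Λ de.1) x p := fun x p => by
    rw [← lc_mul, ← m3 j hj, lc_smul]; simp
  refine ((VR.of_nmul (F := fun x p =>
      lc V'ᵀ (Λ de.1) x (T.pos j (fun _ : Fin 2 => true) 1 ![0, 0] p) -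
        lc V'ᵀ (Λ de.1) x (T.pos j (fun _ => true) 0 ![1, 0] p) -
        lc V'ᵀ (Λ de.1) x (T.pos j (fun _ => true) 0 ![0, 1] p) +
        lc V'ᵀ (Λ de.1) x (T.pos j (fun _ => true) (-1) ![1, 1] p))
    (r.congr fun x p _ => ?_) (m1 j)).dvd
    (Nat.mul_dvd_mul_left q (dvd_prod_of_mem m (mem_univ j))) p1) de.2
  simp only [mul_add, mul_sub, ← f]
  simp only [lc, mul_add, mul_sub, sum_add_distrib, sum_sub_distrib]
end Crest.Agent.N49.Rm
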