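import Crest.Agent.N49.Rm.Lc
/-! Row 49, block RMH (helper14): the integer linear algebra of step S5. -/
set_option autoImplicit false
set_option linter.unusedSectionVars false
noncomputable section
namespace Crest.Agent.N49.Rm
open Finset Matrix Crest.Agent.N49.Iv.Il

theorem la5 {L E a R : Type} [Fintype L] [DecidableEq L] [Fintype E] [DecidableEq E] [Fintype a]
    [Fintype R] {n m0 : ℕ} (B : L → Matrix a E ℤ) (U : Matrix R E ℤ) (V : Matrix E E ℤ)
    (Q : Matrix E R ℤ) (P : Finset L) (hB : ∀ j ∈ P, Bm n (B j)) (hV : Bm n V) (hQ : Bm n Q)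
    (hm : m0 ≤ 2 ^ n) (e : (m0 : ℤ) • (1 : Matrix E E ℤ) = V + Q * U) (hL : Fintype.card L ≤ n)
    (hE : Fintype.card E ≤ n) (ha : Fintype.card a ≤ n) (hn : 2 ≤ n) :
    ∃ (mm : ℕ) (Gm : Matrix E E ℤ) (N Cc : L → Matrix E E ℤ) (a1 : L → Matrix E a ℤ)
      (b1 : L → Matrix E R ℤ), 1 ≤ mm ∧ mm ≤ 2 ^ n ^ 8 ∧ Bm (n ^ 8) Gm ∧
      (∀ j ∈ P, Bm (n ^ 8) (N j) ∧ Bm (n ^ 8) (Cc j) ∧ Bm (n ^ 8) (a1 j) ∧ Bm (n ^ 8) (b1 j) ∧
        B j * V * N j = 0 ∧ Gm = a1 j * B j + b1 j * U) ∧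
      (mm : ℤ) • (1 : Matrix E E ℤ) = Gm + ∑ j ∈ P, N j * Cc j := by
  have h2 : n ≤ 2 ^ n := Nat.lt_two_pow_self.le
  have hE' := hE.trans h2
  have ha' := ha.trans h2
  obtain ⟨s, hs⟩ : ∃ s, s = n * n := ⟨_, rfl⟩
  obtain ⟨t, ht⟩ : ∃ t, t = s * n := ⟨_, rfl⟩
  have c1 : 2 * n ≤ s := hs ▸ Nat.mul_le_mul_right n hn
  have c2 : 2 * s ≤ t := by rw [ht, mul_comm 2]; exact Nat.mul_le_mul_left s hn
  have c3 : 32 * t ≤ n ^ 8 := by
    rw [ht, hs, show n ^ 8 = n ^ 5 * (n * n * n) by ring]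
    exact Nat.mul_le_mul_right _ (Nat.pow_le_pow_left hn 5)
  have up : ∀ {x y : ℕ}, x ≤ y → 2 ^ x ≤ 2 ^ y := Nat.pow_le_pow_right two_pos
  let X : L → Matrix a E ℤ := fun j => if j ∈ P then B j * V else 0
  have hX : ∀ j, Bm (n + (n + n)) (X j) := fun j => by
    simp only [X]
    split_ifs with k
    exacts [(hB j k).mul hV hE', fun _ _ => by simp]
  choose m C m1 m2 hC eC using fun j => gi' (hX j) (Or.inr hE)
  rw [show n * n + (n + (n + n)) * n = 4 * s by rw [hs]; ring] at m2 hC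
  let N : L → Matrix E E ℤ := fun j => (m j : ℤ) • 1 - C j * X j
  have hN : ∀ j, Bm (4 * s + 4 * n + 1) (N j) := fun j =>
    (((hC j).mul (hX j) ha').mono (by omega)).dia ((m2 j).trans (up (by omega)))
  let S : Matrix E (L × E) ℤ := of fun c x => if x.1 ∈ P then N x.1 c x.2 else 0
  have hS : Bm (4 * s + 4 * n + 1) S := fun c x => by
    simp only [S, of_apply]
    split_ifs
    exacts [hN _ _ _, by simp]
  obtain ⟨m', C', n1, n2, hC', e'⟩ := gi' hS (Or.inl hE)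
  rw [show n * n + (4 * s + 4 * n + 1) * n = 4 * t + 5 * s + n by rw [ht, hs]; ring] at n2 hC'
  have cS : Fintype.card (L × E) ≤ 2 ^ (n + n) := by
    rw [Fintype.card_prod, pow_add]
    exact Nat.mul_le_mul (hL.trans h2) hE'
  obtain ⟨E0, hE0⟩ : ∃ E0 : Matrix E E ℤ, E0 = (m' : ℤ) • 1 - S * C' := ⟨_, rfl⟩
  have bE : Bm (4 * t + 9 * s + 7 * n + 2) E0 := hE0 ▸ ((hS.mul hC' cS).mono (by omega)).dia
    (n2.trans (up (by omega)))
  have ES : E0 * S = 0 := by
    rw [hE0, Matrix.sub_mul, e', Matrix.smul_mul, Matrix.one_mul, sub_self]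
  have pm : ∀ s' : Finset L, ∏ i ∈ s', m i ≤ 2 ^ (4 * t) := fun s' => (prod_le m2 s').trans (up
    ((Nat.mul_le_mul_right _ hL).trans (le_of_eq (by rw [ht]; ring))))
  refine ⟨(∏ i, m i) * m', ((∏ i, m i : ℕ) : ℤ) • E0, N,
    fun j => ((∏ i, m i : ℕ) : ℤ) • of fun x y => C' (j, x) y,
    fun j => ((∏ i ∈ univ.erase j, m i : ℕ) : ℤ) • (m0 : ℤ) • (E0 * C j),
    fun j => -(((∏ i ∈ univ.erase j, m i : ℕ) : ℤ) • (E0 * C j * B j * Q)),
    Nat.mul_pos (prod_pos fun j _ => m1 j) n1, ?_, (bE.smul (pm _)).mono (by omega),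
    fun j hj => ⟨(hN j).mono (by omega),
      (Bm.smul (fun x y => hC' (j, x) y) (pm _)).mono (by omega),
      (((bE.mul (hC j) hE').smul hm).smul (pm _)).mono (by omega), fun x y => ?_, ?_, ?_⟩, ?_⟩
  · refine (Nat.mul_le_mul (pm _) n2).trans ?_
    rw [← pow_add]; exact up (by omega)
  · beta_reduce
    rw [Matrix.neg_apply, abs_neg]
    exact (((((bE.mul (hC j) hE').mul (hB j hj) ha').mul hQ hE').smul (pm _)).mono (by omega)) x y
  · have := eC j
    simp only [N, X, if_pos hj] at this ⊢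
    rw [Matrix.mul_sub, ← Matrix.mul_assoc, this, Matrix.mul_smul, Matrix.mul_one, sub_self]
  · have z : E0 * N j = 0 := by
      ext x y
      have := congrFun (congrFun ES x) (j, y)
      simpa only [S, mul_apply, of_apply, if_pos hj, Matrix.zero_apply] using this
    simp only [N, X, if_pos hj, Matrix.mul_sub, Matrix.mul_smul, Matrix.mul_one, sub_eq_zero] at z
    rw [eq_sub_of_add_eq e.symm] at z
    rw [← mul_prod_erase univ m (mem_univ j), Nat.cast_mul, mul_comm, mul_smul, z]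
    simp only [Matrix.mul_smul, Matrix.mul_one, Matrix.smul_mul, Matrix.neg_mul,
      Matrix.mul_assoc, sub_eq_add_neg, Matrix.mul_add, Matrix.mul_neg, smul_add, smul_neg]
  · have : S * C' = ∑ j ∈ P, N j * of fun x y => C' (j, x) y := by
      ext x y
      simp only [mul_apply, Matrix.sum_apply, Fintype.sum_prod_type, S, of_apply, ite_mul, zero_mul]
      rw [← sum_filter_add_sum_filter_not univ (· ∈ P), filter_mem_eq_inter, univ_inter,
        sum_eq_zero (s := filter _ _) fun j k => by simp [(mem_filter.1 k).2], add_zero]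
      exact sum_congr rfl fun j k => by simp only [if_pos k]
    simp only [Matrix.mul_smul]
    rw [← smul_sum, ← this, ← smul_add, hE0, sub_add_cancel, Nat.cast_mul, mul_smul]
end Crest.Agent.N49.Rm
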