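import Crest.Agent.N49.Rm.S5b
import Crest.Agent.N49.Rm.La5
/-! Row 49, block RMH (helper97): step S5. -/
set_option autoImplicit false
set_option linter.unusedSectionVars false
noncomputable section
namespace Crest.Agent.N49.Rm
open Finset Matrix Crest.Agent.N49.Iv.Il TT S5k

theorem S5k.num {n g : ℕ} (hn : 4 ≤ n) (hg : g = n ^ 8) :
    20 * n ≤ g ∧ n * n * (3 * n) ≤ g ∧ 20 * g ≤ g * g ∧ n + n * n + n * g + n ≤ g * g := by
  have h1 : n * n * n * 16 ≤ g := by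
    have : 4 ^ 2 ≤ n ^ 2 := Nat.pow_le_pow_left hn 2
    have h2 : n ^ 5 ≥ n ^ 2 := Nat.pow_le_pow_right (by omega) (by omega)
    rw [hg, show n ^ 8 = n * n * n * n ^ 5 by ring]
    exact Nat.mul_le_mul_left _ (by omega)
  have h2 : 16 * n ≤ n * n * n := by nlinarith
  have h3 : n * n ≤ n * n * n := Nat.le_mul_of_pos_right _ (by omega)
  refine ⟨by omega, by nlinarith, Nat.mul_le_mul_right _ (by omega), ?_⟩
  have : 2 * n * g ≤ g * g := Nat.mul_le_mul_right _ (by omega)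
  nlinarith

theorem s5_core (h1 : TBY) (h2 : TBM) (h3 : TBR) (h4 : TBA) (h5 : TBF) {l0 : ℕ} (hb : RB l0) :
    ∃ K : ℕ, ∀ (L C : Type) [Fintype L] [DecidableEq L] [Fintype C]
  [DecidableEq C] (T : TT L C) (D E R : Type) [Fintype E] [DecidableEq E] [Fintype R] (n : ℕ)
  (H H' : Set (C → ℤ)) (Z M : Finset L) (i : L) (q : ℕ) (F X : D → Fm L C) (γ Γ : E → Fm L C)
  (Λ : D → E → Fm L C) (Ξ : D × E → Fm L C) (B : L → Matrix (Fin 4 × E) E ℤ)
  (W : L → Matrix E E ℤ) (U : Matrix R E ℤ) (V : Matrix E E ℤ), Fintype.card L ≤ l0 →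
  2 ^ l0 ≤ n → 4 ≤ n → Fintype.card (Fin 4 × E) ≤ n →
  Sz n T H' → G ((n ^ 16) ^ K) T → T.Ok → Fintype.card E ≤ n → Fintype.card R ≤ n → Disjoint Z M →
  i ∈ Z → 1 ≤ q → q ≤ 2 ^ n → T.Ctr (Z.erase i) → (∀ y ∈ H', ∀ S ⊆ Z.erase i, T.Yz S y ∈ H) →
  T.Rep (Z ∪ M) M i H q (2 ^ n) F γ X Λ →
  (∀ j ∈ Z.erase i, Kr n (B j) (W j) ∧
    T.Cst (Z.erase i ∪ M) M j H q n (fun (de : D × E) => lc (W j)ᵀ (Λ de.1) de.2) ∧
    T.Cst Z {i} j H q n (lc (B j) γ)) →
  Kr n U V → (∀ y ∈ H, T.VR Z {i} y q n (lc U γ)) →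
  Tb T (Z.erase i) M H n Ξ →
  (∀ y ∈ H, T.VR (Z.erase i ∪ M) M y q n fun de p => lc Vᵀ (Λ de.1) de.2 p - Ξ de p) →
  Tb T (Z.erase i) {i} H n Γ → (∀ y ∈ H, T.VR Z {i} y q n fun e p => γ e p - Γ e p) →
  ∃ H'' ⊆ H', ∃ (q' : ℕ) (F0 X' : D → Fm L C), (1 / 2 : ℝ) ^ (n ^ 16) ^ K ≤ T.pr H'' ∧ 1 ≤ q' ∧
    q' ≤ 2 ^ n ^ 16 ∧ Tb T Z M H'' (n ^ 16) F0 ∧ (∀ d, T.Dat (Z ∪ M) (insert i M) (X' d)) ∧
    ∀ y ∈ H'', T.VR (Z ∪ M) M y q' (n ^ 16) fun d p => F d p - F0 d p - X' d p := by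
  obtain ⟨K, hb⟩ := hb
  refine ⟨K, ?_⟩
  intro L C _ _ _ _ T D E R _ _ _ n H H' Z M i q F X γ Γ Λ Ξ B W U V hL hl hn ha hS hG hT hE hR dZ hi
    q1 q2 hC mix hRep hB hK hU tΞ hΞ tΓ hΓ
  obtain ⟨g, hg⟩ : ∃ g, g = n ^ 8 := ⟨_, rfl⟩
  have hN : n ^ 16 = g * g := by rw [hg]; ring
  obtain ⟨n1, n2, n3, n4⟩ := S5k.num hn hg
  rw [hN] at hG ⊢
  have hL2 : 2 ^ Fintype.card L ≤ n := (Nat.pow_le_pow_right two_pos hL).trans hl
  have hL1 : Fintype.card L ≤ n := Nat.lt_two_pow_self.le.trans hL2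
  have cP : ∀ P : Finset L, #P ≤ n := fun P => (card_le_univ P).trans hL1
  have cQ : ∀ P : Finset L, #P.powerset ≤ n := fun P => by
    rw [card_powerset]; exact (Nat.pow_le_pow_right two_pos (card_le_univ P)).trans hL2
  have iM : i ∉ M := disjoint_left.1 dZ hi
  have dz : Disjoint (Z.erase i) M := dZ.mono_left (erase_subset _ _)
  have e1 : (Z ∪ M) \ M = Z := union_sdiff_cancel_right dZ
  have e2 : (Z ∪ M).erase i = Z.erase i ∪ M := by rw [erase_union_distrib, erase_eq_of_notMem iM]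
  have e3 : Z.erase i ∪ {i} = Z := by rw [union_comm, ← insert_eq, insert_erase hi]
  obtain ⟨dγ, dX, dΛ, hRep⟩ := hRep
  rw [e1] at dγ
  rw [e2] at dΛ
  have dΞ := (h5 L C T _ _ _ _ _ _ dz tΞ).1
  have dΓ := (h5 L C T _ _ _ _ _ _ (by simp) tΓ).1
  rw [e3] at dΓ
  have x1 : Cx T (Z.erase i) M H H' := ⟨hT, hC, mix, dz⟩
  have x2 : Cx T (Z.erase i) {i} H H' := ⟨hT, hC, mix, by simp⟩
  have sub : ∀ y ∈ H', y ∈ H := fun y hy => by simpa [yz_empty] using mix y hy ∅ (empty_subset _)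
  obtain ⟨bU, bV, m0, Q0, m01, m02, bQ, eV⟩ := hK
  choose! m Q m1 m2 _ eW using fun j hj => (hB j hj).1.2.2
  choose! τ dτ hτ using fun j hj => (hB j hj).2.1
  have sP : ∀ P : (Z.erase i).powerset, P.1 ⊆ Z.erase i := fun P => mem_powerset.1 P.2
  choose mm Gm N Cc a1 b1 mm1 mm2 bG hla eG using fun P : (Z.erase i).powerset =>
    la5 B U V Q0 P.1 (fun j hj => (hB j (sP P hj)).1.1) bV bQ m02 eV hL1 hE ha (by omega)
  rw [← hg] at mm2 bG hla
  -- the brackets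
  let nn : (C → ℤ) → E → ℤ := fun y e => round (γ e (cf y))
  obtain ⟨H'', s1, c, β', p1, dβ, hβ⟩ := hb L C T (((Z.erase i).powerset × E) ⊕ R) (g * g) H' Z i q
    (Sum.elim (fun x y => ∑ e, Gm x.1 x.2 e * nn y e) fun x y => ∑ e, U x e * nn y e)
    (Sum.elim (fun x => lc (Gm x.1) γ x.2) (lc U γ))
    (Sum.elim (fun x p => lc (Gm x.1) Γ x.2 (T.Ys x.1 p)) fun _ _ => 0) hL (sz_up hS (by omega)) hG
    (by
      simp only [Fintype.card_sum, Fintype.card_prod, Fintype.card_coe]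
      have := Nat.mul_le_mul (cQ (Z.erase i)) hE
      nlinarith) hi
    (fun x => by rcases x with x | x <;> exact Dat.lc dγ _ _)
    (fun x => by
      rcases x with x | x
      · exact ((Dat.lc dΓ _ _).ys (x2.dis.mono_left (sP x.1))).mono sdiff_subset Subset.rfl
      · exact Dat.zero) q1 (q2.trans (Nat.pow_le_pow_right two_pos (by omega)))
    (fun y hy x => by
      rcases x with x | x
      · exact (near (bG x.1) hE (hRep y (sub y hy)).1 x.2).trans (two_pow_mono (by omega))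
      · exact (near bU hE (hRep y (sub y hy)).1 x).trans (two_pow_mono (by omega)))
    (fun y hy x => by
      rcases x with x | x
      · exact (brk x2 dΓ (sP x.1) hE ha hR (cP _) (bG x.1) (fun j hj =>
          ⟨(hla x.1 j hj).2.2.1, (hla x.1 j hj).2.2.2.1, (hla x.1 j hj).2.2.2.2.2,
            (hB j (sP _ hj)).2.2⟩) hU hΓ hy x.2).mono (two_pow_mono (by omega))
      · exact ((hU y (sub y hy) x).mono (two_pow_mono (by omega))).congr fun p _ => by simp)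
  have ne : H''.Nonempty := nonempty_of_pr (lt_of_lt_of_le (by positivity) p1)
  choose Gt tG eGt using fun (P : (Z.erase i).powerset) (U' : P.1.powerset) =>
    tb_term h1 h2 h3 (c := fun e => c (.inl (P, e))) dZ hi (mem_powerset.1 U'.2) (sP P) hE
      (fun y hy => mix y (s1 hy)) ne tΞ (tb_lc tΓ (Gm P)) fun y hy e => by
        have := (hβ y hy (.inl (P, e))).1
        exact this
  -- the coefficients
  obtain ⟨μ, hμ⟩ : ∃ μ, μ = ∏ j ∈ Z.erase i, m j := ⟨_, rfl⟩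
  obtain ⟨ν, hν⟩ : ∃ ν, ν = ∏ P, mm P := ⟨_, rfl⟩
  have μ1 : 1 ≤ μ := hμ ▸ one_le_prod' m1
  have ν1 : 1 ≤ ν := hν ▸ one_le_prod' fun P _ => mm1 P
  have Q1 : 1 ≤ q * μ * ν := Nat.mul_pos (Nat.mul_pos q1 μ1) ν1
  let Xp : (Z.erase i).powerset → D → E → Fm L C := fun P d =>
    pt T (Z.erase i) P.1 fun z => Ξ (d, z)
  have dXp : ∀ P d e, T.Dat (Z.erase i ∪ M) M (Xp P d e) := fun P d => pt_dat (fun z => dΞ _) dz
  let t : D → E → Fm L C := fun d e p =>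
    lc Vᵀ (Λ d) e p - ∑ P, lc (Gm P)ᵀ (Xp P d) e p / mm P
  have ht : ∀ d e, ∀ y ∈ H', T.Rel (Z.erase i ∪ M) M y (q * μ * ν) (2 ^ (8 * g)) (t d e) := by
    intro d e y hy
    have co : ∀ P : (Z.erase i).powerset, ∀ j ∈ P.1, ∀ z, Co T (Z.erase i ∪ M) M j H (q * μ)
        (2 ^ (4 * n + g + 1)) (lc (N P j)ᵀ (fun z => Ξ (d, z)) z) := fun P j hj z => by
      have hj' := sP P hj
      obtain ⟨u, u1, u2⟩ := co_coef (Λ := Λ d) (Ξ := fun z => Ξ (d, z)) (τ := fun z => τ j (d, z))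
        (H := H) (q := q) hE (m1 j hj') (m2 j hj') (eW j hj') bV
        (hla P j hj).1 (hla P j hj).2.2.2.2.1 (fun z => dτ j hj' (d, z))
        (fun y hy z => hτ j hj' y hy (d, z)) (fun y hy z => hΞ y hy (d, z)) z
      have dv : m j ∣ μ := by rw [hμ]; exact dvd_prod_of_mem _ hj'
      exact ⟨u, u1, fun y hy => (u2 y hy).dvd (Nat.mul_dvd_mul_left _ dv) (Nat.mul_pos q1 μ1)⟩
    have r : ∀ P : (Z.erase i).powerset, T.Rel (Z.erase i ∪ M) M y (q * μ * ν)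
        (2 ^ (3 * n + g + (4 * n + g + 1))) fun p =>
          Xp P d e p - lc (Gm P)ᵀ (Xp P d) e p / mm P := fun P => by
      have dv : mm P ∣ ν := by rw [hν]; exact dvd_prod_of_mem _ (mem_univ P)
      exact (coef x1 (fun z => dΞ (d, z)) (sP P) hE (cP _) (mm1 P) (fun j hj => (hla P j hj).2.1)
        (eG P) (co P) hy e).dvd (Nat.mul_dvd_mul_left _ dv) Q1
    have r0 := (hΞ y (sub y hy) (d, e)).dvd (q' := q * μ * ν) ⟨μ * ν, by ring⟩ Q1
    refine ((r0.add (Rel.sum univ fun P _ => r P)).mono ?_).congr fun p _ => ?_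
    · rw [sum_const, card_univ, Fintype.card_coe, nsmul_eq_mul]
      have a1 : (#(Z.erase i).powerset : ℝ) ≤ 2 ^ n := by exact_mod_cast lt2 (cQ _)
      calc _ ≤ (2 : ℝ) ^ (7 * g) + 2 ^ n * 2 ^ (3 * n + g + (4 * n + g + 1)) := by
            gcongr
            · norm_num
            · omega
        _ ≤ 2 ^ (7 * g) + 2 ^ (7 * g) := by
            rw [← pow_add]; gcongr
            · norm_num
            · omega
        _ ≤ _ := by rw [← two_mul, ← pow_succ']; exact two_pow_mono (by omega)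
    · have := sum_ie (Z.erase i) fun U' => Ξ (d, e) (T.Ys (Z.erase i \ U') p)
      rw [← sum_coe_sort, sdiff_self, bot_eq_empty, ys_empty] at this
      simp only [t, sum_sub_distrib]
      rw [← this]
      simp only [Xp, pt]
      ring
  have dt : ∀ d e, T.Dat (Z.erase i ∪ M) M (t d e) := fun d e =>
    (Dat.lc (dΛ d) _ e).sub (Dat.sum _ fun P _ => (Dat.lc (dXp P d) _ e).div _)
  choose X1 dX1 hX1 using fun d e => repl L C T H' (Z ∪ M) M i (q * μ * ν) (2 ^ (8 * g)) (1 / 8)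
    (fun y => nn y e) (γ e) (t d e) hT subset_union_right (mem_union_left _ hi) iM (e1.symm ▸ dγ e)
    (e2.symm ▸ dt d e) (by positivity)
    (fun y hy => by rw [abs_sub_comm]; exact (hRep y (sub y hy)).1 e) (e2.symm ▸ ht d e)
  refine ⟨H'', s1, q * μ * ν * m0,
    fun d p => ∑ P, (1 / (mm P * m0) : ℝ) * ∑ U' : P.1.powerset, sn P.1 U'.1 * Gt P U' d p,
    fun d p => X d p + (∑ e, X1 d e p + ∑ P, (∑ e, β' (.inl (P, e)) p * Xp P d e p) / mm P +
      ∑ x, (round (0 - c (.inr x)) * p (.inr i) + β' (.inr x) p) * lc Q0ᵀ (Λ d) x p) / m0,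
    p1, Nat.mul_pos Q1 m01, ?_, ?_, fun d => ?_, fun y hy d => ?_⟩
  · have a1 : μ ≤ 2 ^ (n * n) := hμ ▸ (prod_le_pow_card _ _ _ m2).trans (by
      rw [← pow_mul]; exact Nat.pow_le_pow_right two_pos (Nat.mul_le_mul_left _ (cP _)))
    have a2 : ν ≤ 2 ^ (n * g) := hν ▸ (Iv.Il.prod_le mm2 univ).trans (Nat.pow_le_pow_right two_pos
      (Nat.mul_le_mul_right _ (by rw [Fintype.card_coe]; exact cQ (Z.erase i))))
    calc _ ≤ 2 ^ n * 2 ^ (n * n) * 2 ^ (n * g) * 2 ^ n := by gcongr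
      _ ≤ _ := by simp only [← pow_add]; exact Nat.pow_le_pow_right two_pos n4
  · refine tb_mono (tb_sum h4 univ _ (n := n * (3 * n)) fun P _ => tb_mono
      (tb_sum h4 univ (fun U' : P.1.powerset => (sn P.1 U'.1 : ℝ)) fun U' _ => tG P U')
      Set.Subset.rfl (Nat.mul_le_mul_right _ (by simpa using cQ P.1))) Set.Subset.rfl ?_
    have : #(univ : Finset (Z.erase i).powerset) ≤ n := by simpa using cQ (Z.erase i)
    nlinarith [Nat.mul_le_mul_right (n * (3 * n)) this]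
  · refine (dX d).add ((((Dat.sum _ fun e _ => dX1 d e).add (Dat.sum _ fun P _ =>
      (Dat.sum _ fun e _ => dat_mul (dβ _) (dXp P d e) dZ hi).div _)).add
      (Dat.sum _ fun x _ => dat_mul (Dat.add (Dat.smul ?_ _) (dβ _)) (Dat.lc (dΛ d) _ x) dZ hi)).div _)
    exact Dat.coord (v := .inr i) (by simpa [tv] using hi) (by simp [tv]) (by simp [tv])
  · have hy' := s1 hy
    have r1 := ((hRep y (sub y hy')).2 d).dvd (q' := q * μ * ν * m0) ⟨μ * ν * m0, by ring⟩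
      (Nat.mul_pos Q1 m01)
    have r2 := (Rel.sum univ fun e _ => hX1 d e y hy').div m0
    refine ((r1.add r2).mono ?_).congr fun p hp => ?_
    · rw [sum_const, card_univ, nsmul_eq_mul]
      have a1 : (Fintype.card E : ℝ) ≤ 2 ^ n := by exact_mod_cast lt2 hE
      have a2 : (1 : ℝ) ≤ m0 := by exact_mod_cast m01
      calc _ ≤ (2 : ℝ) ^ (n + 8 * g) + 2 ^ n * (1 * 2 ^ (8 * g)) / 1 := by
            gcongr
            · norm_num
            · omega
            · norm_num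
        _ = 2 ^ (n + 8 * g + 1) := by ring
        _ ≤ _ := two_pow_mono (by omega)
    have a0 : (m0 : ℝ) ≠ 0 := by positivity
    have I1 : m0 * ∑ e, (nn y e : ℝ) * Λ d e p = ∑ e, (nn y e : ℝ) * lc Vᵀ (Λ d) e p +
        ∑ x, (round (0 - c (.inr x)) * p (.inr i) + β' (.inr x) p) * lc Q0ᵀ (Λ d) x p := by
      have b1 := bil U (lc Q0ᵀ (Λ d)) (nn y) p
      have b2 : ∀ x, ((∑ e, U x e * nn y e : ℤ) : ℝ) =
          round (0 - c (.inr x)) * p (.inr i) + β' (.inr x) p := fun x => by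
        rw [fib_ty (dβ _).1 dZ hp, hp.2, if_neg iM, mul_one]; exact (hβ y hy (.inr x)).2
      simp only [b2] at b1
      rw [← b1, ← lc_mul, ← transpose_mul, ← sum_add_distrib, mul_sum]
      refine sum_congr rfl fun e _ => ?_
      rw [← mul_add, ← lc_add, ← transpose_add, ← eV, transpose_smul, transpose_one, lc_smul, lc_one]
      push_cast; ring
    have I2 : ∀ P : (Z.erase i).powerset, ∑ e, (nn y e : ℝ) * lc (Gm P)ᵀ (Xp P d) e p =
        ∑ U' : P.1.powerset, sn P.1 U'.1 * Gt P U' d p +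
          ∑ e, β' (.inl (P, e)) p * Xp P d e p := fun P => by
      rw [bil]
      simp only [eGt P _ y d p hp, mul_sum]
      rw [sum_comm, ← sum_add_distrib]
      refine sum_congr rfl fun e _ => ?_
      have := (hβ y hy (.inl (P, e))).2
      simp only [Sum.elim_inl] at this
      rw [this, fib_ty (dβ _).1 dZ hp, add_mul]
      congr 1
      simp only [Xp, pt, ie]
      rw [← sum_coe_sort P.1.powerset, mul_sum]
      exact sum_congr rfl fun _ _ => by simp only [lc]; ring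
    have I3 : ∑ e, (nn y e : ℝ) * t d e p = ∑ e, (nn y e : ℝ) * lc Vᵀ (Λ d) e p -
        ∑ P, (∑ e, (nn y e : ℝ) * lc (Gm P)ᵀ (Xp P d) e p) / mm P := by
      simp only [t, mul_sub, sum_sub_distrib, mul_sum, sum_div, mul_div_assoc]
      rw [sum_comm]
    have I4 : ∑ P, (1 / (mm P * m0) : ℝ) * ∑ U' : P.1.powerset, sn P.1 U'.1 * Gt P U' d p =
        (∑ P, (∑ U' : P.1.powerset, sn P.1 U'.1 * Gt P U' d p) / mm P) / m0 := by
      rw [sum_div]; exact sum_congr rfl fun P _ => by ring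
    simp only [I2, add_div, sum_add_distrib] at I3
    beta_reduce
    rw [sum_sub_distrib, I3, I4]
    have I5 : ∑ e, (round (γ e (cf y)) : ℝ) * Λ d e p = _ := (eq_div_iff a0).2 ((mul_comm _ _).trans I1)
    rw [I5]
    ring

theorem s5 (h1 : TBY) (h2 : TBM) (h3 : TBR) (h4 : TBA) (h5 : TBF) {l0 : ℕ} (hb : RB l0) :
    S5 l0 := by
  obtain ⟨K, h⟩ := s5_core h1 h2 h3 h4 h5 hb
  refine ⟨(l0 + 3) * 16 * (K + 1), ?_⟩
  intro L C _ _ _ _ T D E R _ _ _ n H H' Z M i q F X γ Γ Λ Ξ B W U V hL hS hG hE hR dZ hi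
    q1 q2 hC mix hRep hB hK hU tΞ hΞ tΓ hΓ
  have hn := hS.1
  obtain ⟨m, hm⟩ : ∃ m, m = n ^ (l0 + 3) := ⟨_, rfl⟩
  have a1 : 2 ^ l0 * (4 * n) ≤ m := by
    rw [hm, pow_add]
    exact Nat.mul_le_mul (Nat.pow_le_pow_left hn _) (by nlinarith [Nat.mul_le_mul hn hn])
  have a0 : 1 ≤ 2 ^ l0 := Nat.one_le_two_pow
  have a2 : 4 * n ≤ m := by nlinarith
  have b := two_pow_mono (show n ≤ m by omega)
  have e1 : (m ^ 16) ^ K ≤ n ^ ((l0 + 3) * 16 * (K + 1)) := by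
    rw [hm, ← pow_mul, ← pow_mul]; exact pow_mono' hn (by nlinarith)
  have e2 : m ^ 16 ≤ n ^ ((l0 + 3) * 16 * (K + 1)) := by
    rw [hm, ← pow_mul]; exact pow_mono' hn (by nlinarith)
  obtain ⟨H'', s, q', F0, X', c1, c2, c3, c4, c5, c6⟩ := h L C T D E R m H H' Z M i q F X γ Γ Λ Ξ
    B W U V hL (by nlinarith) (by omega) (by simp only [Fintype.card_prod, Fintype.card_fin]; omega)
    (sz_up hS (by omega)) (Rm.mono _ _ _ _ _ _ T e1 e1 hG) hG.ok_sm.1 (by omega) (by omega) dZ hi q1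
    (q2.trans (Nat.pow_le_pow_right two_pos (by omega))) hC mix
    ⟨hRep.1, hRep.2.1, hRep.2.2.1, fun y hy => ⟨(hRep.2.2.2 y hy).1,
      fun d => ((hRep.2.2.2 y hy).2 d).mono b⟩⟩
    (fun j hj => ⟨(hB j hj).1.mono (by omega),
      (hB j hj).2.1.imp fun _ h => ⟨h.1, fun y hy x => (h.2 y hy x).mono b⟩,
      (hB j hj).2.2.imp fun _ h => ⟨h.1, fun y hy x => (h.2 y hy x).mono b⟩⟩)
    (hK.mono (by omega)) (fun y hy x => (hU y hy x).mono b) (tb_mono tΞ Set.Subset.rfl (by omega))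
    (fun y hy x => (hΞ y hy x).mono b) (tb_mono tΓ Set.Subset.rfl (by omega))
    fun y hy x => (hΓ y hy x).mono b
  exact ⟨H'', s, q', F0, X', (pow_le_pow_of_le_one (by norm_num) (by norm_num) e1).trans c1, c2,
    c3.trans (Nat.pow_le_pow_right two_pos e2), tb_mono c4 Set.Subset.rfl e2, c5,
    fun y hy x => (c6 y hy x).mono (two_pow_mono e2)⟩
end Crest.Agent.N49.Rm
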