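import Crest.Agent.N49.Rm.Law
import Crest.Agent.N49.Rm.Op
import Crest.Agent.N49.Rm.Mono
import Crest.Agent.N49.Rm.Sp
import Crest.Agent.N49.On.Mom
/-! Row 49 (helper68): shears by narrower clones preserve the law of a clone shape. -/
set_option autoImplicit false
set_option linter.unusedSectionVars false
noncomputable section
namespace Crest.Agent.N49.Rm
open Finset Matrix Po MeasureTheory

variable {L C : Type} [Fintype L] [DecidableEq L] [Fintype C] [DecidableEq C]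
namespace TT
/-- the size of the errors of the block of `j` -/
def nb (T : TT L C) (j : L) (p : C ⊕ L → ℝ) : ℝ := √(∑ c : T.Bl j, T.Φ p c.1 ^ 2)

variable {T : TT L C} {j : L}

theorem abs_min {t : ℝ} (h : 0 ≤ t) : |min 1 t| ≤ 1 := by
  rw [abs_of_nonneg (le_min zero_le_one h)]; exact min_le_left _ _

/-- shifting the block of `j` by a vector that depends only on the rest -/
theorem Ok.shift (h : T.Ok) (z : (C → ℤ) → T.Bl j → ℤ) (hz : ∀ w n, z (T.jn j w n) = z w)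
    (S : Set (C → ℤ)) : |T.pr {w | T.jn j w (T.bl j w + z w) ∈ S} - T.pr S| ≤
      T.Ex fun w => min 1 (4 * T.nb j (T.jr j (cf w) (zc (z w)) 0)) := by
  have b : ∀ (y : C → ℤ) (X : Set (T.Bl j → ℤ)), 0 ≤ (T.bm j y).real X ∧ (T.bm j y).real X ≤ 1 :=
    fun y X => have := h.bm_prob j y; ⟨measureReal_nonneg, measureReal_le_one⟩
  have b' : ∀ (X : (C → ℤ) → Set (T.Bl j → ℤ)) y, |(T.bm j y).real (X y)| ≤ 1 := fun X y => by
    rw [abs_of_nonneg (b y _).1]; exact (b y _).2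
  have e0 : ∀ w, |min 1 (4 * T.nb j (T.jr j (cf w) (zc (z w)) 0))| ≤ 1 := fun w =>
    abs_min (mul_nonneg (by norm_num) (Real.sqrt_nonneg _))
  have key : ∀ y, |(T.bm j y).real {n | T.jn j y (n + z y) ∈ S} - (T.bm j y).real {n | T.jn j y n ∈ S}|
      ≤ min 1 (4 * T.nb j (T.jr j (cf y) (zc (z y)) 0)) := fun y => by
    have q1 := gm_qi (h.Mm_pd j y) (T.ce j y) {n | T.jn j y (n + z y) ∈ S} (z y)
    have q2 := gm_qi (h.Mm_pd j y) (T.ce j y) {n | T.jn j y n ∈ S} (-z y)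
    rw [Set.image_add_right] at q1 q2
    simp only [Set.preimage_ofPred_eq, neg_add_cancel_right, neg_neg, map_neg, map_neg_eq_map,
      _root_.smul_apply, nq_apply, NNReal.smul_def, smul_eq_mul, NNReal.coe_ofNat,
      ← zc_eq_ci] at q1 q2
    rw [nb, h.sum_sq, zero_smul, sub_zero]
    refine le_min (abs_le.2 ⟨?_, ?_⟩) (abs_le.2 ⟨?_, ?_⟩)
    · linarith [(b y {n | T.jn j y (n + z y) ∈ S}).1, (b y {n | T.jn j y n ∈ S}).2]
    · linarith [(b y {n | T.jn j y (n + z y) ∈ S}).2, (b y {n | T.jn j y n ∈ S}).1]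
    · unfold bm; linarith
    · unfold bm; linarith
  have two : ∀ {f g : (C → ℤ) → ℝ}, (∀ y, |f y| ≤ 1) → (∀ y, |g y| ≤ 1) → ∀ y, |f y + g y| ≤ 2 :=
    fun a c y => (abs_add_le _ _).trans (by linarith [a y, c y])
  rw [h.pr_res j, h.pr_res j S]
  simp only [Set.mem_ofPred_eq, jn_jn, bl_jn, hz]
  have a1 := h.Ex_mono (b' fun y => {n | T.jn j y (n + z y) ∈ S})
    (two (b' fun y => {n | T.jn j y n ∈ S}) e0) fun y => by linarith [(abs_le.1 (key y)).2]
  have a2 := h.Ex_mono (b' fun y => {n | T.jn j y n ∈ S})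
    (two (b' fun y => {n | T.jn j y (n + z y) ∈ S}) e0) fun y => by linarith [(abs_le.1 (key y)).1]
  rw [h.Ex_add (b' _) e0] at a1 a2
  exact abs_le.2 ⟨by linarith, by linarith⟩

/-- first moment of the block of a direction -/
theorem Ok.mom_nb (h : T.Ok) (h0 : ∀ p, T.of j p = 0) {τ : ℝ} (hτ : 0 ≤ τ) :
    (T.Ex fun w => min 1 (τ * T.nb j (cf w))) ≤ τ * (Fintype.card (T.Bl j) + 2) := by
  have e0 : ∀ w, |min 1 (τ * T.nb j (cf w))| ≤ 1 := fun w =>
    abs_min (mul_nonneg hτ (Real.sqrt_nonneg _))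
  rw [h.Ex_res j e0]
  refine h.Ex_le (B := 1) (fun y => abs_integral_gm_le (h.Mm_pd j y) _ fun n => e0 _) fun y => ?_
  have c0 : T.ce j y = 0 := by simp [ce, h0]
  have i1 := integrable_nq4 (h.Mm_pd j y) 0
  have i2 := int_nq (h.Mm_pd j y) 0
  rw [pow_zero, one_smul] at i1 i2
  rw [pow_zero, div_one] at i2
  simp only [c0]
  refine (integral_mono_of_nonneg (.of_forall fun n => le_min zero_le_one
    (mul_nonneg hτ (Real.sqrt_nonneg _))) (i1.const_mul τ) (.of_forall fun n => ?_)).trans ?_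
  · refine (min_le_right _ _).trans_eq ?_
    simp only [cf_jn, h.sum_sq, c0, smul_zero, sub_zero, nq_apply, zc_eq_ci]
  · rw [integral_const_mul]; exact mul_le_mul_of_nonneg_left i2 hτ

theorem Ok.Ex_sum (h : T.Ok) {ι : Type} (s : Finset ι) {g : ι → (C → ℤ) → ℝ} {B : ℝ}
    (a : ∀ i y, |g i y| ≤ B) : (T.Ex fun y => ∑ i ∈ s, g i y) = ∑ i ∈ s, T.Ex (g i) := by
  rw [← h.integral_eq (integrable_finsetSum s fun i _ => h.integrable (a i)),
    integral_finsetSum s fun i _ => h.integrable (a i)]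
  exact sum_congr rfl fun i _ => h.integral_eq (h.integrable (a i))

theorem sqrt_tri {d ι : Type} [Fintype d] [DecidableEq d] [Fintype ι] (β : ι → ℝ) (φ : ι → d → ℝ) :
    √(∑ c, (∑ x, β x * φ x c) ^ 2) ≤ ∑ x, |β x| * √(∑ c, φ x c ^ 2) := by
  have e : ∀ v : d → ℝ, √(∑ c, v c ^ 2) = nq (M := 1) PosDef.one v := fun v => by
    simp [nq_apply, qf, dotProduct, sq]
  simp only [e]
  rw [show (fun c => ∑ x, β x * φ x c) = ∑ x, β x • φ x from by funext c; simp]
  refine (le_sum_of_subadditive _ (map_zero _).le (map_add_le_add _) _ _).trans_eq ?_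
  exact sum_congr rfl fun x _ => map_smul_eq_mul _ _ _

theorem min_sum {ι : Type} (s : Finset ι) {t : ι → ℝ} (h : ∀ i, 0 ≤ t i) :
    min 1 (∑ i ∈ s, t i) ≤ ∑ i ∈ s, min 1 (t i) := by
  classical
  induction s using Finset.induction_on with
  | empty => simp
  | insert i s k ih =>
    rw [sum_insert k, sum_insert k]
    have := sum_nonneg fun i (_ : i ∈ s) => h i
    have := h i
    simp only [min_def] at ih ⊢
    split_ifs at ih ⊢ <;> linarith

section cl
variable {ρ : Type} [Fintype ρ] [DecidableEq ρ] {pt : ρ → Bool} {a : ρ → ℕ}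
/-- the letter of the clone shape that belongs to `x0` -/
def lt0 (j : L) (x0 : Option ρ) : L ⊕ ρ := x0.elim (.inl j) .inr
/-- the words of its block -/
def wd0 (T : TT L C) (j : L) (x0 : Option ρ) (c : T.Bl j) : T.CC j ρ :=
  x0.elim (.inl c.1) fun x => .inr (c, x)

theorem mem_wd0 {x0 : Option ρ} {v : T.CC j ρ} :
    lt0 j x0 ∈ (T.cl j pt a).ty v ↔ ∃ c, T.wd0 j x0 c = v := by
  rcases x0 with _ | x <;> rcases v with c | ⟨c, x'⟩ <;> simp [lt0, wd0]
theorem wd0_bij (x0 : Option ρ) : Function.Bijective fun c =>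
    (⟨T.wd0 j x0 c, mem_wd0.2 ⟨c, rfl⟩⟩ : (T.cl j pt a).Bl (lt0 j x0)) :=
  ⟨fun c c' e => by
    rcases x0 with _ | x <;> simpa [wd0, Subtype.ext_iff] using e,
    fun v => let ⟨c, e⟩ := mem_wd0.1 v.2; ⟨c, Subtype.ext e⟩⟩
theorem nb_cl (x0 : Option ρ) (p) : (T.cl j pt a).nb (lt0 j x0) p =
    √(∑ c, (T.cl j pt a).Φ p (T.wd0 j x0 c) ^ 2) := by
  rw [nb, ← (wd0_bij (pt := pt) (a := a) x0).sum_comp]

theorem shZ_wd0 (x0 : Option ρ) (α : ρ → ℤ) (w : T.CC j ρ → ℤ) (c : T.Bl j) :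
    T.shZ j x0 α w (T.wd0 j x0 c) = w (T.wd0 j x0 c) + ∑ x, α x * w (.inr (c, x)) := by
  rcases x0 with _ | x <;> simp [shZ, wd0, c.2]
theorem shZ_out (x0 : Option ρ) (α : ρ → ℤ) (w : T.CC j ρ → ℤ) {v : T.CC j ρ}
    (h : lt0 j x0 ∉ (T.cl j pt a).ty v) : T.shZ j x0 α w v = w v := by
  rcases x0 with _ | x <;> rcases v with c | ⟨c, x'⟩ <;> simp_all [shZ, lt0]

/-- the exact shear estimate -/
theorem Ok.shear (h : T.Ok) (j : L) (a : ρ → ℕ) (x0 : Option ρ) (α : ρ → ℤ)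
    (hα : ∀ x, α x ≠ 0 → x0 ≠ some x) (S : Set (T.CC j ρ → ℤ)) :
    |(T.cl j (fun _ => false) a).pr {w | T.shZ j x0 α w ∈ S} - (T.cl j (fun _ => false) a).pr S| ≤
      ∑ x, 4 * (|(α x : ℝ)| * 2 ^ x0.elim 0 a / 2 ^ a x) * (Fintype.card C + 2) := by
  set U := T.cl j (fun _ => false) a with hU
  have o : U.Ok := h.cl j _ a
  let z : (T.CC j ρ → ℤ) → U.Bl (lt0 j x0) → ℤ := fun w v => T.shZ j x0 α w v.1 - w v.1
  have z1 : ∀ w c, z w ⟨T.wd0 j x0 c, mem_wd0.2 ⟨c, rfl⟩⟩ = ∑ x, α x * w (.inr (c, x)) :=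
    fun w c => by simp [z, shZ_wd0]
  have z2 : ∀ w n, z (U.jn (lt0 j x0) w n) = z w := fun w n => funext fun v => by
    obtain ⟨c, rfl⟩ := (wd0_bij x0).2 v
    rw [z1, z1]
    refine sum_congr rfl fun x _ => ?_
    by_cases k : α x = 0
    · simp [k]
    · rw [jn_out]
      have := hα x k
      rcases x0 with _ | x' <;> simp_all [lt0]
  have z3 : ∀ w, U.jn (lt0 j x0) w (U.bl (lt0 j x0) w + z w) = T.shZ j x0 α w := fun w =>
    funext fun v => by
      by_cases k : lt0 j x0 ∈ U.ty v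
      · simp [jn, k, bl, z]
      · rw [jn_out _ _ k, shZ_out x0 α w k]
  have z4 : ∀ w c, U.Φ (U.jr (lt0 j x0) (cf w) (zc (z w)) 0) (T.wd0 j x0 c) =
      ∑ x, (α x * 2 ^ x0.elim 0 a / 2 ^ a x) * U.Φ (cf w) (T.wd0 j (some x) c) := fun w c => by
    have e := h.Φ_pos j (fun _ => false) 0 α (cf w) c.2
    have e' : U.Φ (U.jr (lt0 j x0) (cf w) (zc (z w)) 0) (T.wd0 j x0 c) =
        2 ^ x0.elim 0 a * T.Φ (T.pos j (fun _ => false) 0 α (cf w)) c.1 := by
      have u : ∀ d : T.Bl j, U.jr (lt0 j x0) (cf w) (zc (z w)) 0 (.inl (T.wd0 j x0 d)) =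
          ∑ x, (α x : ℝ) * w (.inr (d, x)) := fun d =>
        (jr_inl _ _ _ ⟨_, mem_wd0.2 ⟨d, rfl⟩⟩).trans (by simp [zc, z1])
      rcases x0 with _ | x
      · simp only [wd0, Option.elim, pow_zero, one_mul, hU, cl_Φ_l]
        congr 1
        funext v
        rcases v with d | ℓ
        · by_cases k : j ∈ T.ty d
          · simpa [pos, p0, px, k, wd0] using u ⟨d, k⟩
          · simp [pos, p0, k, jr, lt0, hU]
        · by_cases k : j = ℓ <;> simp [pos, p0, px, k, jr, lt0, eq_comm (a := ℓ)]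
      · simp only [wd0, Option.elim, hU, cl_Φ_r]
        congr 2
        funext v
        rcases v with d | ℓ
        · by_cases k : j ∈ T.ty d
          · simpa [pos, p0, px, k, wd0] using u ⟨d, k⟩
          · simp [pos, p0, px, k, jr, lt0, hU]
        · by_cases k : j = ℓ <;> simp [pos, p0, px, k, jr, lt0, eq_comm (a := ℓ)]
    rw [e', e, Int.cast_zero, zero_mul, zero_add, mul_sum]
    refine sum_congr rfl fun x _ => ?_
    simp only [wd0, Option.elim, hU, cl_Φ_r]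
    field_simp
  have n0 : ∀ x w, 0 ≤ 4 * (|(α x : ℝ)| * 2 ^ x0.elim 0 a / 2 ^ a x) * U.nb (lt0 j (some x)) (cf w) :=
    fun x w => mul_nonneg (by positivity) (Real.sqrt_nonneg _)
  have s := o.shift z z2 S
  simp only [z3] at s
  refine s.trans ((o.Ex_mono (fun w => abs_min (mul_nonneg (by norm_num) (Real.sqrt_nonneg _)))
    (B' := Fintype.card ρ) (g' := fun w => ∑ x, min 1 (4 * (|(α x : ℝ)| * 2 ^ x0.elim 0 a / 2 ^ a x) *
      U.nb (lt0 j (some x)) (cf w))) (fun w => (abs_sum_le_sum_abs _ _).trans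
        ((sum_le_card_nsmul _ _ 1 fun x _ => abs_min (n0 x w)).trans (by simp)))
      fun w => le_trans (min_le_min_left _ ?_) (min_sum _ fun x => n0 x w)).trans ?_)
  · change 4 * U.nb _ _ ≤ _
    rw [nb_cl]
    simp only [hU, nb_cl, mul_assoc, ← mul_sum]
    simp only [← hU, z4]
    refine mul_le_mul_of_nonneg_left ((sqrt_tri _ _).trans_eq (sum_congr rfl fun x _ => ?_))
      (by norm_num)
    rw [abs_div, abs_mul, abs_of_pos (by positivity : (0 : ℝ) < 2 ^ _),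
      abs_of_pos (by positivity : (0 : ℝ) < 2 ^ _)]
  · rw [o.Ex_sum _ fun x w => abs_min (n0 x w)]
    refine sum_le_sum fun x _ => (o.mom_nb (fun p => funext fun v => ?_) (by positivity)).trans ?_
    · obtain ⟨c, rfl⟩ := (wd0_bij (some x)).2 v
      simp only [TT.of, wd0, Option.elim, hU, cl_Φ_r, Pi.zero_apply]
      rw [(h.lin c.2).eq_zero, mul_zero]
      rintro (d | ℓ) k
      · simp [px, show j ∈ T.ty d from k, jr, lt0, hU]
      · simp [px, show ℓ = j from (mem_singleton.1 k).symm]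
    · rw [← Fintype.card_of_bijective (wd0_bij (some x))]
      gcongr
      exact Fintype.card_subtype_le _
end cl
end TT

theorem shr : SHR := by
  intro L C _ _ _ _ T n b m j r a x0 α S hC _ hr _ _ hG hα
  refine (hG.ok_sm.1.shear j a x0 α (fun x k => (hα x k).1) S).trans
    ((sum_le_card_nsmul _ _ ((1 / 2) ^ m / 8) fun x _ => ?_).trans ?_)
  · have c1 : (Fintype.card C : ℝ) ≤ 2 ^ n := by exact_mod_cast hC
    have c2 : (1 : ℝ) ≤ 2 ^ n := one_le_pow₀ one_le_two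
    have c3 : (1 : ℝ) ≤ 2 ^ m := one_le_pow₀ one_le_two
    have c4 : |(α x : ℝ)| * 2 ^ x0.elim 0 a / 2 ^ a x ≤ 1 / 2 ^ (2 * n + 2 * m + 20) := by
      by_cases k : α x = 0
      · simp [k]
      · rw [div_le_div_iff₀ (by positivity) (by positivity), one_mul, mul_right_comm]
        exact_mod_cast (hα x k).2
    calc _ ≤ 4 * (1 / 2 ^ (2 * n + 2 * m + 20)) * (3 * 2 ^ n : ℝ) := by gcongr; linarith
      _ ≤ _ := by
        rw [pow_add, pow_add, two_mul, two_mul, pow_add, pow_add, one_div 2, inv_pow]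
        field_simp
        nlinarith [mul_le_mul c2 c3 zero_le_one (zero_le_one.trans c2)]
  · have : (r : ℝ) ≤ 8 := by exact_mod_cast hr
    have p : (0 : ℝ) < (1 / 2) ^ m := by positivity
    rw [card_univ, Fintype.card_fin, nsmul_eq_mul]
    nlinarith
end Crest.Agent.N49.Rm
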