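import Crest.Agent.N49.Rm.Gp
import Crest.Agent.N49.Rm.Kit
/-! Row 49, block RMH (helper79): linear combinations and homogenisation of bracket forms. -/
set_option autoImplicit false
noncomputable section
namespace Crest.Agent.N49.Rm
open Finset TT

section
variable {L C C' : Type} [Fintype L] [DecidableEq L] [Fintype C] [DecidableEq C] [Fintype C']
  [DecidableEq C'] {T : TT L C} {T' : TT L C'}

/-- data pull back along a type-preserving map of coordinates -/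
theorem TT.Dat.rn (f : C → C') (h : ∀ c, T'.ty (f c) = T.ty c) {A M : Finset L} {F : Fm L C}
    (k : T.Dat A M F) : T'.Dat A M fun p => F (p ∘ Sum.map f id) := by
  have e : ∀ v, T'.tv (Sum.map f id v) = T.tv v := by rintro (c | ℓ); exacts [h c, rfl]
  exact k.pb (fun v s n => ty_co (e v ▸ s) (e v ▸ n)) fun ℓ m =>
    ⟨ℓ, m, fun v => ⟨fun a => lin_co (e v ▸ a), fun a => ind_co (e v ▸ a)⟩⟩
end

theorem tba : TBA := by
  rintro L C _ _ _ _ T D Z M H n1 n2 G1 G2 a b ⟨N1, _, _, W1, Γ1, c1, o1, e1, d1, g1⟩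
    ⟨N2, _, _, W2, Γ2, c2, o2, e2, d2, g2⟩
  let f1 : C ⊕ N1 → C ⊕ (N1 ⊕ N2) := Sum.map id .inl
  let f2 : C ⊕ N2 → C ⊕ (N1 ⊕ N2) := Sum.map id .inr
  let W : Wd L C (N1 ⊕ N2) := ⟨Sum.elim W1.tn W2.tn, Sum.elim W1.rk W2.rk,
    Sum.elim (fun n p => W1.Θ n (p ∘ Sum.map f1 id)) fun n p => W2.Θ n (p ∘ Sum.map f2 id),
    Sum.elim W1.ω W2.ω⟩
  have t1 : ∀ c, (W.xt T).ty (f1 c) = (W1.xt T).ty c := by rintro (c | n) <;> rfl
  have t2 : ∀ c, (W.xt T).ty (f2 c) = (W2.xt T).ty c := by rintro (c | n) <;> rfl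
  have l1 : ∀ p, W.lf p ∘ Sum.map f1 id = W1.lf p := fun p => by
    funext v; rcases v with (c | n) | ℓ <;> rfl
  have l2 : ∀ p, W.lf p ∘ Sum.map f2 id = W2.lf p := fun p => by
    funext v; rcases v with (c | n) | ℓ <;> rfl
  refine ⟨N1 ⊕ N2, inferInstance, inferInstance, W, fun d p => a * Γ1 d (p ∘ Sum.map f1 id) +
    b * Γ2 d (p ∘ Sum.map f2 id), by rw [Fintype.card_sum]; omega, ?_, ?_, fun d =>
    (((d1 d).rn f1 t1).smul a).add (((d2 d).rn f2 t2).smul b), fun d p => by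
      simp only [l1, l2, g1, g2]⟩
  · rintro (n | n)
    · obtain ⟨a1, a2, a3, a4, a5⟩ := o1 n
      exact ⟨a1, a2, a3.rn f1 t1, a4, fun p p' b1 b2 b3 =>
        a5 _ _ b1 b2 fun m hm => b3 (.inl m) hm⟩
    · obtain ⟨a1, a2, a3, a4, a5⟩ := o2 n
      exact ⟨a1, a2, a3.rn f2 t2, a4, fun p p' b1 b2 b3 =>
        a5 _ _ b1 b2 fun m hm => b3 (.inr m) hm⟩
  · rintro y hy (n | n)
    · exact (l1 _ ▸ e1 y hy n :)
    · exact (l2 _ ▸ e2 y hy n :)

theorem tbr : TBR := by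
  rintro L C _ _ _ _ T D Z M i H n G hZ hM ⟨N, _, _, W, Γ, c, o, e, d, g⟩
  refine ⟨N, inferInstance, inferInstance, W, fun k p => p (.inr i) * Γ k p, c, fun m =>
    ⟨(o m).1, (o m).2.1.trans (subset_insert _ _), (o m).2.2⟩, e, fun k => ?_, fun k p =>
      congrArg (p (.inr i) * ·) (g k p)⟩
  have hi : i ∉ Z ∪ M := by simp [hZ, hM]
  rw [insert_union, insert_eq]
  exact (Dat.coord (T := W.xt T) (v := .inr i) (A := {i}) (M := {i}) Subset.rfl
    (singleton_nonempty i) Subset.rfl).mul (d k) (disjoint_singleton_left.2 hi)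
    (disjoint_singleton_right.2 hi)

end Crest.Agent.N49.Rm
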