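import Crest.Agent.N49.Rm.Gp
import Crest.Agent.N49.Rm.Kit
/-! Row 49, block RMH (helper79): bracket forms are data and exactly Freiman. -/
set_option autoImplicit false
noncomputable section
namespace Crest.Agent.N49.Rm
open Finset TT

section
variable {L C N : Type} [Fintype L] [DecidableEq L] [Fintype C] [DecidableEq C] [Fintype N]
  [DecidableEq N] {T : TT L C} {W : Wd L C N} {Z : Finset L} {H : Set (C → ℤ)} {j : L}

/-- the new words are additive on the quadruples of a cell -/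
theorem Wd.q4 (hW : W.Ok T Z) (hc : W.Cell H) {y1 y2 y3 y4 : C → ℤ} (h1 : y1 ∈ H) (h2 : y2 ∈ H)
    (h3 : y3 ∈ H) (h4 : y4 ∈ H) (q : Q4 T Z j (cf y1) (cf y2) (cf y3) (cf y4)) (n : N) :
    if j ∈ W.tn n then (W.ω n (cf y1) : ℝ) + W.ω n (cf y4) = W.ω n (cf y2) + W.ω n (cf y3)
    else (W.ω n (cf y1) : ℝ) = W.ω n (cf y2) ∧ (W.ω n (cf y1) : ℝ) = W.ω n (cf y3) ∧
      (W.ω n (cf y1) : ℝ) = W.ω n (cf y4) := by
  induction hr : W.rk n using Nat.strong_induction_on generalizing n with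
  | _ r ih =>
  obtain ⟨-, a2, a3, a4, a5⟩ := hW n
  split_ifs with hj
  swap
  · exact (q.mono a2).eq a4 hj
  let z : (C → ℤ) → (C ⊕ N) ⊕ L → ℝ := fun y => Sum.elim (Sum.elim (fun c => (y c : ℝ))
    fun m => if W.rk m < r then (W.ω m (cf y) : ℝ) else 0) fun _ => 1
  have e : ∀ y, W.Θ n (W.lf (cf y)) = W.Θ n (z y) := fun y =>
    a5 _ _ (fun _ => rfl) (fun _ => rfl) fun m hm => (if_pos (hr ▸ hm)).symm
  have q' : Q4 (W.xt T) (W.tn n) j (z y1) (z y2) (z y3) (z y4) := by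
    rintro ((c | m) | ℓ) a b
    · exact q (.inl c) (Subset.trans a a2) b
    · by_cases k : W.rk m < r
      · simp only [z, Sum.elim_inl, Sum.elim_inr, if_pos k]; exact ih _ k m rfl
      · simp [z, k]
    · simp [z]
  have := q'.alt a3.1 (a3.2 j hj)
  have c1 := abs_le.1 (hc y1 h1 n)
  have c2 := abs_le.1 (hc y2 h2 n)
  have c3 := abs_le.1 (hc y3 h3 n)
  have c4 := abs_le.1 (hc y4 h4 n)
  rw [e] at c1 c2 c3 c4
  have : |W.ω n (cf y1) + W.ω n (cf y4) - (W.ω n (cf y2) + W.ω n (cf y3))| < 1 := by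
    rw [← Int.cast_lt (R := ℝ), Int.cast_abs, abs_lt]; push_cast; constructor <;> linarith
  exact_mod_cast sub_eq_zero.1 (Int.abs_lt_one_iff.1 this)
end

theorem tbf : TBF := by
  rintro L C _ _ _ _ T D Z M H n G hZM ⟨N, _, _, W, Γ, -, hW, hc, hΓ, hG⟩
  obtain rfl : G = fun d p => Γ d (W.lf p) := funext fun d => funext (hG d)
  refine ⟨fun d => hW.dat hZM ((hΓ d).mono Subset.rfl subset_union_right), fun j hj y1 h1 y2 h2 y3 h3 y4 h4 hq d =>
    Rel.of_sm fun p hp _ => ?_⟩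
  have hjM : j ∉ M := disjoint_left.1 hZM hj
  have q := Wd.q4 hW hc h1 h2 h3 h4 (Q4.of_quad hq subset_union_left hZM)
  have e : ∀ (α0 : ℤ) (α : Fin 2 → ℤ) (y : C → ℤ), α0 + (α 0 + α 1) = 1 →
      (∀ c, T.ty c ⊆ Z → (T.ty c).Nonempty → y c = if j ∈ T.ty c then
        α0 * y1 c + (α 0 * y2 c + α 1 * y3 c) else y1 c) →
      ∀ m, (W.ω m (T.pos j (fun _ => true) α0 α p) : ℝ) = W.ω m (cf y) := fun α0 α y a b m => by
    have f := T.fib_pos j (fun _ : Fin 2 => true) (fun _ => 0) α0 α hjM (by simpa using a) _ p hp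
    refine (hW m).2.2.2.1 _ _ ?_
    rintro (c | ℓ) s k
    · have s' : T.ty c ⊆ Z := Subset.trans s (hW m).2.1
      rw [f.1 c (hZM.mono_left s'), cf_inl, b c s' k, posZ]
      split_ifs <;> simp [gl]
    · rw [f.2, if_neg (disjoint_left.1 hZM ((hW m).2.1 (s (mem_singleton_self _)))), cf_inr]
  have hq' := fun c (a : T.ty c ⊆ Z) b => hq c (a.trans subset_union_left) b (hZM.mono_left a)
  have e1 := e 1 ![0, 0] y1 (by simp) fun c _ _ => by simp
  have e2 := e 0 ![1, 0] y2 (by simp) fun c a b => by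
    have := hq' c a b
    split_ifs at this ⊢
    · simp
    · exact this.1.symm
  have e3 := e 0 ![0, 1] y3 (by simp) fun c a b => by
    have := hq' c a b
    split_ifs at this ⊢
    · simp
    · exact this.2.1.symm
  have e4 := e (-1) ![1, 1] y4 (by simp) fun c a b => by
    have := hq' c a b
    split_ifs at this ⊢
    · simp; omega
    · exact this.2.2.symm
  have o : ∀ v, if j ∈ T.tv v then T.pos j (fun _ => true) 1 ![0, 0] p v +
      T.pos j (fun _ => true) (-1) ![1, 1] p v = T.pos j (fun _ => true) 0 ![1, 0] p v +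
      T.pos j (fun _ => true) 0 ![0, 1] p v else T.pos j (fun _ => true) 1 ![0, 0] p v =
      T.pos j (fun _ => true) 0 ![1, 0] p v ∧ T.pos j (fun _ => true) 1 ![0, 0] p v =
      T.pos j (fun _ => true) 0 ![0, 1] p v ∧ T.pos j (fun _ => true) 1 ![0, 0] p v =
      T.pos j (fun _ => true) (-1) ![1, 1] p v := fun v => by
    split_ifs with k <;> simp [pos, k]
  have q' : Q4 (W.xt T) (Z ∪ M) j (W.lf (T.pos j (fun _ => true) 1 ![0, 0] p))
      (W.lf (T.pos j (fun _ => true) 0 ![1, 0] p)) (W.lf (T.pos j (fun _ => true) 0 ![0, 1] p))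
      (W.lf (T.pos j (fun _ => true) (-1) ![1, 1] p)) := by
    rintro ((c | m) | ℓ) - -
    · exact o (.inl c)
    · simp only [Wd.lf, e1, e2, e3, e4]; exact q m
    · exact o (.inr ℓ)
  have := q'.alt (hΓ d).1 ((hΓ d).2 j (mem_union_left _ hj))
  rw [abs_nonpos_iff]
  linarith

end Crest.Agent.N49.Rm
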