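import Crest.Agent.N49.Rm.Sp
import Crest.Agent.N49.Rm.Op
/-! Row 49, block RMH (helper73): bracket forms at the centres; coefficient × bracket. -/
set_option autoImplicit false
set_option linter.unusedSectionVars false
noncomputable section
namespace Crest.Agent.N49.Rm
open Finset TT

namespace Tby
variable {L C N : Type} [Fintype L] [DecidableEq L] [Fintype C] [DecidableEq C]
  [Fintype N] [DecidableEq N] (T : TT L C) (W : Wd L C N) (S : Finset L)

/-- the surviving words -/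
abbrev Nw := {n : N // ¬ W.tn n ⊆ S}

/-- move to the centres, extended coordinates -/
def yx (p : (C ⊕ Nw W S) ⊕ L → ℝ) : (C ⊕ N) ⊕ L → ℝ
  | .inl (.inl c) => if Disjoint (T.ty c) S then p (.inl (.inl c)) else 0
  | .inl (.inr n) => if h : W.tn n ⊆ S then W.ω n (T.Ys S 0) else p (.inl (.inr ⟨n, h⟩))
  | .inr ℓ => if ℓ ∈ S then 1 else p (.inr ℓ)

/-- the words at the centres -/
def wy : Wd L C (Nw W S) where
  tn n := W.tn n.1 \ S
  rk n := W.rk n.1
  Θ n p := W.Θ n.1 (yx T W S p)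
  ω n p := W.ω n.1 (T.Ys S p)

theorem pt_ys (A : Finset L) : T.Pt T (T.Ys S) A (A \ S) := by
  rintro (c | x) s n <;> simp only [TT.Ys] <;> split_ifs with k
  · exact ty_co (v := .inl c) (subset_sdiff.2 ⟨s, k⟩) n
  · exact ty_c _
  · exact ty_c _
  · exact ty_co (v := .inr x) (subset_sdiff.2 ⟨s, disjoint_singleton_left.2 k⟩) n

theorem pt_yx (A : Finset L) : (W.xt T).Pt ((wy T W S).xt T) (yx T W S) A (A \ S) := by
  rintro ((c | n) | x) s ne <;> simp only [yx] <;> split_ifs with k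
  · exact ty_co (T := (wy T W S).xt T) (v := .inl (.inl c)) (subset_sdiff.2 ⟨s, k⟩) ne
  · exact ty_c _
  · exact ty_c _
  · exact ty_co (T := (wy T W S).xt T) (v := .inl (.inr ⟨n, k⟩)) (sdiff_subset_sdiff s le_rfl) (sdiff_nonempty.2 k)
  · exact ty_c _
  · exact ty_co (T := (wy T W S).xt T) (v := .inr x) (subset_sdiff.2 ⟨s, disjoint_singleton_left.2 k⟩) ne

theorem pb_yx {ℓ : L} (h : ℓ ∉ S) : (W.xt T).Pb ((wy T W S).xt T) (yx T W S) ℓ ℓ := by
  rintro ((c | n) | x) <;> simp only [yx] <;> split_ifs with k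
  · exact ⟨fun m => lin_co (T := (wy T W S).xt T) (v := .inl (.inl c)) m, fun m => ind_co (T := (wy T W S).xt T) (v := .inl (.inl c)) m⟩
  · exact ⟨fun _ => lin_0, fun _ => ind_c _⟩
  · exact ⟨fun m => absurd (k m) h, fun _ => ind_c _⟩
  · exact ⟨fun m => lin_co (T := (wy T W S).xt T) (v := .inl (.inr ⟨n, k⟩)) (mem_sdiff.2 ⟨m, h⟩),
      fun m => ind_co (T := (wy T W S).xt T) (v := .inl (.inr ⟨n, k⟩)) fun m' => m (mem_sdiff.1 m').1⟩
  · exact ⟨fun m => absurd ((mem_singleton.1 m) ▸ k) h, fun _ => ind_c _⟩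
  · exact ⟨fun m => lin_co (T := (wy T W S).xt T) (v := .inr x) m, fun m => ind_co (T := (wy T W S).xt T) (v := .inr x) m⟩

theorem dat_yx {A : Finset L} {F : Fm L (C ⊕ N)} (h : (W.xt T).Dat A A F) :
    ((wy T W S).xt T).Dat (A \ S) (A \ S) fun p => F (yx T W S p) :=
  h.pb (pt_yx T W S A) fun ℓ m => ⟨ℓ, (mem_sdiff.1 m).1, pb_yx T W S (mem_sdiff.1 m).2⟩

variable {T W} {Z : Finset L}

theorem yx_lf (h : W.Ok T Z) (p : C ⊕ L → ℝ) :
    yx T W S ((wy T W S).lf p) = W.lf (T.Ys S p) := by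
  funext v
  rcases v with (c | n) | x
  · rfl
  · simp only [yx, Wd.lf]
    split_ifs with k
    · have := ((h n).2.2.2.1.pb (pt_ys T S _)) 0 p fun v s ne => by
        rw [sdiff_eq_empty_iff_subset.2 k, subset_empty] at s
        exact absurd s ne.ne_empty
      exact this
    · rfl
  · rfl

theorem wy_ok (h : W.Ok T Z) : (wy T W S).Ok T (Z \ S) := fun n =>
  ⟨sdiff_nonempty.2 n.2, sdiff_subset_sdiff (h n.1).2.1 le_rfl, dat_yx T W S (h n.1).2.2.1,
    (h n.1).2.2.2.1.pb (pt_ys T S _), fun p p' a b c => (h n.1).2.2.2.2 _ _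
      (fun x => by simp only [yx, a]) (fun x => by simp only [yx, b]) fun n' k => by
        simp only [yx]
        split_ifs with m
        exacts [rfl, c ⟨n', m⟩ k]⟩

theorem ys_cf (y : C → ℤ) : T.Ys S (cf y) = cf (T.Yz S y) := by
  funext v
  rcases v with c | x <;> simp only [TT.Ys, TT.Yz, cf_inl, cf_inr] <;> split_ifs <;> simp

end Tby

open Tby in
theorem tby : TBY := by
  rintro L C _ _ _ _ T D Z M S H H' n G d1 - hy - ⟨N, _, _, W, Γ, c, o, ce, g, e⟩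
  refine ⟨Nw W S, inferInstance, inferInstance, wy T W S, fun d p => Γ d (yx T W S p),
    (Fintype.card_subtype_le _).trans c, wy_ok S o, fun y m x => ?_, fun d => ?_, fun d p => ?_⟩
  · have := ce _ (hy y m) x.1
    rw [← ys_cf, ← yx_lf S o] at this
    exact this
  · have := dat_yx T W S (g d)
    rwa [union_sdiff_distrib, sdiff_eq_self_of_disjoint d1.symm] at this
  · simp only [e, yx_lf S o]

namespace Tbm
variable {L C N1 N2 E : Type} [Fintype L] [DecidableEq L] [Fintype C] [DecidableEq C]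
  [Fintype N1] [DecidableEq N1] [Fintype N2] [DecidableEq N2] [Fintype E] [DecidableEq E]

/-- forget new words -/
def pj {N N' : Type} (f : N → N') (p : (C ⊕ N') ⊕ L → ℝ) : (C ⊕ N) ⊕ L → ℝ
  | .inl (.inl c) => p (.inl (.inl c))
  | .inl (.inr n) => p (.inl (.inr (f n)))
  | .inr ℓ => p (.inr ℓ)

theorem dat_pj {N N' : Type} [Fintype N] [DecidableEq N] [Fintype N'] [DecidableEq N']
    (T : TT L C) {W : Wd L C N} (W' : Wd L C N') (f : N → N') (h : ∀ n, W'.tn (f n) = W.tn n)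
    {A M : Finset L} {F : Fm L (C ⊕ N)} (g : (W.xt T).Dat A M F) :
    (W'.xt T).Dat A M fun p => F (pj f p) := by
  refine g.pb ?_ fun ℓ m => ⟨ℓ, m, ?_⟩
  · rintro ((c | n) | x) s ne
    exacts [ty_co (T := W'.xt T) (v := .inl (.inl c)) s ne,
      ty_co (T := W'.xt T) (v := .inl (.inr (f n))) ((h n).le.trans s) (ne.mono (h n).ge), ty_co (T := W'.xt T) (v := .inr x) s ne]
  · rintro ((c | n) | x)
    exacts [⟨fun k => lin_co (T := W'.xt T) (v := .inl (.inl c)) k, fun k => ind_co (T := W'.xt T) (v := .inl (.inl c)) k⟩,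
      ⟨fun k => lin_co (T := W'.xt T) (v := .inl (.inr (f n))) ((h n).ge k),
        fun k => ind_co (T := W'.xt T) (v := .inl (.inr (f n))) fun k' => k ((h n).le k')⟩,
      ⟨fun k => lin_co (T := W'.xt T) (v := .inr x) k, fun k => ind_co (T := W'.xt T) (v := .inr x) k⟩]

theorem dat_prod (T : TT L C) (A : Finset L) : T.Dat A A fun p => ∏ ℓ ∈ A, p (.inr ℓ) := by
  refine ⟨fun p p' e => prod_congr rfl fun ℓ m => e (.inr ℓ) (by simpa using m) (by simp),
    fun ℓ m => ?_⟩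
  simp only [← mul_prod_erase A _ m]
  exact (lin_co (v := .inr ℓ) (by simp)).mul_ind fun p p' e => prod_congr rfl fun x k =>
    e (.inr x) (by simpa using (ne_of_mem_erase k).symm)

/-- the words of a sum of products -/
def wm (W1 : Wd L C N1) (W2 : Wd L C N2) (B : Finset L) (Γ : E → Fm L (C ⊕ N2)) (c : E → ℝ) :
    Wd L C ((N1 ⊕ N2) ⊕ E) where
  tn := Sum.elim (Sum.elim W1.tn W2.tn) fun _ => B
  rk := Sum.elim (Sum.elim W1.rk W2.rk) fun _ => univ.sup W2.rk + 1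
  Θ := Sum.elim (Sum.elim (fun n p => W1.Θ n (pj (fun n => .inl (.inl n)) p))
    fun n p => W2.Θ n (pj (fun n => .inl (.inr n)) p))
    fun e p => Γ e (pj (fun n => .inl (.inr n)) p) - c e * ∏ ℓ ∈ B, p (.inr ℓ)
  ω := Sum.elim (Sum.elim W1.ω W2.ω) fun e p => round (Γ e (W2.lf p) - c e)

variable (W1 : Wd L C N1) (W2 : Wd L C N2) (B : Finset L) (Γ : E → Fm L (C ⊕ N2)) (c : E → ℝ)

theorem pj1 (p : C ⊕ L → ℝ) : pj (fun n => .inl (.inl n)) ((wm W1 W2 B Γ c).lf p) = W1.lf p := by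
  funext v; rcases v with (_ | _) | _ <;> rfl

theorem pj2 (p : C ⊕ L → ℝ) : pj (fun n => .inl (.inr n)) ((wm W1 W2 B Γ c).lf p) = W2.lf p := by
  funext v; rcases v with (_ | _) | _ <;> rfl

theorem ty_lf {T : TT L C} {Z A : Finset L} (h : W2.Ok T Z) {F : Fm L (C ⊕ N2)}
    (g : (W2.xt T).Ty A F) : T.Ty A fun p => F (W2.lf p) :=
  (h.dat (M := ∅) (disjoint_empty_right _) ⟨g, fun _ m => absurd m (notMem_empty _)⟩).1

theorem wm_ok {T : TT L C} {Z1 Z2 Z : Finset L} (h1 : W1.Ok T Z1) (h2 : W2.Ok T Z2) (s1 : Z1 ⊆ Z)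
    (s2 : Z2 ⊆ Z) (n : B.Nonempty) (s : B ⊆ Z) (g : ∀ e, (W2.xt T).Dat B B (Γ e)) :
    (wm W1 W2 B Γ c).Ok T Z := by
  rintro ((x | x) | e)
  · exact ⟨(h1 x).1, (h1 x).2.1.trans s1, dat_pj T (wm W1 W2 B Γ c) (fun n => .inl (.inl n)) (fun _ => rfl) (h1 x).2.2.1,
      (h1 x).2.2.2.1, fun p p' a b k => (h1 x).2.2.2.2 _ _ a b fun n' m => k (.inl (.inl n')) m⟩
  · exact ⟨(h2 x).1, (h2 x).2.1.trans s2, dat_pj T (wm W1 W2 B Γ c) (fun n => .inl (.inr n)) (fun _ => rfl) (h2 x).2.2.1,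
      (h2 x).2.2.2.1, fun p p' a b k => (h2 x).2.2.2.2 _ _ a b fun n' m => k (.inl (.inr n')) m⟩
  · refine ⟨n, s, (dat_pj T (wm W1 W2 B Γ c) (fun n => .inl (.inr n)) (fun _ => rfl) (g e)).sub
      ((dat_prod ((wm W1 W2 B Γ c).xt T) B).smul (c e)),
      (ty_lf W2 h2 (g e).1).map fun t => (round (t - c e) : ℝ), fun p p' a b k => ?_⟩
    have : pj (fun n => Sum.inl (Sum.inr n)) p = pj (fun n => .inl (.inr n)) p' := by
      funext v
      rcases v with (x | x) | x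
      exacts [a x, k (.inl (.inr x)) (Nat.lt_succ_of_le (le_sup (mem_univ x))), b x]
    simp only [wm, Sum.elim_inr, this, b]

end Tbm

open Tbm in
theorem tbm : TBM := by
  rintro L C _ _ _ _ T D E _ Z1 Z2 M i H n1 n2 Ξ β c d12 i1 i2 dM
    ⟨N1, _, _, W1, Γ1, c1, o1, ce1, g1, e1⟩ ⟨N2, _, _, W2, Γ2, c2, o2, ce2, g2, e2⟩ hc
  classical
  have sB : Z2 ∪ {i} ⊆ insert i (Z1 ∪ Z2) := fun x => by simp; tauto
  have dB : Disjoint (Z2 ∪ {i}) (Z1 ∪ M) := by
    refine disjoint_union_right.2 ⟨?_, dM.mono_left sB⟩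
    exact disjoint_union_left.2 ⟨d12.symm, disjoint_singleton_left.2 i1⟩
  refine ⟨fun d p => ∑ e, round (β e p - c e) * Ξ (d, e) p, ⟨(N1 ⊕ N2) ⊕ E, inferInstance,
    inferInstance, wm W1 W2 (Z2 ∪ {i}) Γ2 c,
    fun d P => ∑ e, P (.inl (.inr (.inr e))) * Γ1 (d, e) (pj (fun n => .inl (.inl n)) P),
    by simp only [Fintype.card_sum]; omega,
    wm_ok W1 W2 _ Γ2 c o1 o2 (subset_union_left.trans (subset_insert _ _))
      (subset_union_right.trans (subset_insert _ _)) (by simp) sB g2, ?_, fun d => ?_,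
    fun d p => ?_⟩, fun y d p m => ?_⟩
  · rintro y m ((x | x) | e)
    · exact (congrArg (fun t => |W1.Θ x t - _|) (pj1 W1 W2 _ Γ2 c _)).le.trans (ce1 y m x)
    · exact (congrArg (fun t => |W2.Θ x t - _|) (pj2 W1 W2 _ Γ2 c _)).le.trans (ce2 y m x)
    · have := hc y m e
      rw [e2] at this
      change |Γ2 e (pj (fun n => .inl (.inr n)) ((wm W1 W2 (Z2 ∪ {i}) Γ2 c).lf (cf y))) -
        c e * ∏ _ℓ ∈ Z2 ∪ {i}, (1 : ℝ) - round (Γ2 e (W2.lf (cf y)) - c e)| ≤ _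
      rwa [pj2, prod_const_one, mul_one]
  · refine Dat.sum _ fun e _ => ?_
    have := (Dat.coord (T := (wm W1 W2 (Z2 ∪ {i}) Γ2 c).xt T) (v := .inl (.inr (.inr e)))
      (A := Z2 ∪ {i}) (M := Z2 ∪ {i}) le_rfl (by simp [Wd.xt, wm]) le_rfl).mul
      (dat_pj T (wm W1 W2 (Z2 ∪ {i}) Γ2 c) (fun n => .inl (.inl n)) (fun _ => rfl) (g1 (d, e)))
      dB dB.symm
    have u : Z2 ∪ {i} ∪ (Z1 ∪ M) = insert i (Z1 ∪ Z2) ∪ M := by ext x; simp; tauto
    rwa [u] at this
  · simp only [pj1, e1, e2]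
    rfl
  · refine sum_congr rfl fun e _ => ?_
    have : β e p = β e (cf y) := by
      rw [e2, e2]
      refine ty_lf W2 o2 (g2 e).1 _ _ ?_
      rintro (x | x) s -
      · exact m.1 x ((dM.mono_left sB).mono_left s)
      · rw [m.2, if_neg (disjoint_left.1 (dM.mono_left sB) (s (mem_singleton_self x)))]
        rfl
    rw [this]

end Crest.Agent.N49.Rm
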