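import Crest.Agent.N49.Rm.Cn0
import Crest.Agent.N49.Rm.Box
import Crest.Agent.N49.On.Mg
/-! Row 49, block RMH (helper89): two rectangles with the same corner `0`. -/
set_option autoImplicit false
set_option linter.unusedSectionVars false
noncomputable section
namespace Crest.Agent.N49.Rm
open Finset TT

namespace Tw2
variable {L C : Type} [Fintype L] [DecidableEq L] [Fintype C] [DecidableEq C] (T : TT L C) (j : L)

/-- the last clone -/
def d5 : Fin 6 → ℤ := ![0, 0, 0, 0, 0, 1]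
/-- the first four clones -/
def i4 : Fin 4 → Fin 6 := Fin.castLE (by norm_num)
/-- the sheared rectangle -/
def fS (w : T.CC j (Fin 6) → ℤ) : T.CC j (Fin 4) → ℤ :=
  On.res T j i4 (T.shZ j (some 0) d5 (T.shZ j (some 2) (-d5) w))

/-- the two narrow clones are split off -/
def e6 : ((C → ℤ) × (Fin 4 → T.Bl j → ℤ)) × (T.Bl j → ℤ) × (T.Bl j → ℤ) ≃
    (T.CC j (Fin 6) → ℤ) where
  toFun z := Bx.mk T j z.1.1 ![z.1.2 0, z.1.2 1, z.1.2 2, z.1.2 3, z.2.2, z.2.1]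
  invFun w := ((fun c => w (.inl c), fun i c => w (.inr (c, i4 i))), fun c => w (.inr (c, 5)),
    fun c => w (.inr (c, 4)))
  left_inv z := by
    refine Prod.ext (Prod.ext rfl (funext fun i => ?_)) rfl
    fin_cases i <;> rfl
  right_inv w := by
    funext c
    rcases c with c | ⟨c, x⟩
    · rfl
    · fin_cases x <;> rfl

theorem fS_e6 (x) (b b' : T.Bl j → ℤ) : fS T j (e6 T j (x, b, b')) = fS T j (e6 T j (x, b, b)) ∧
    fS T j (On.mv T j 5 4 (e6 T j (x, b, b'))) = fS T j (e6 T j (x, b', b')) := by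
  constructor <;> funext c <;> rcases c with c | ⟨c, x⟩
  · simp [fS, On.res, shZ, e6, Bx.mk]
  · fin_cases x <;> simp [fS, On.res, shZ, i4, d5, e6, Bx.mk, Fin.sum_univ_succ]
  · simp [fS, On.res, On.mv, shZ, e6, Bx.mk]
  · fin_cases x <;> simp [fS, On.res, On.mv, shZ, i4, d5, e6, Bx.mk, Fin.sum_univ_succ]

theorem mZ_eq (w : T.CC j (Fin 6) → ℤ) :
    T.mZ j c0 c1 w = fS T j (On.mv T j 5 4 (T.shZ j (some 2) d5 (T.shZ j none c0 w))) ∧
    T.mZ j c0 c2 w = fS T j (T.shZ j (some 2) d5 (T.shZ j none c0 w)) := by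
  constructor <;> funext c <;> rcases c with c | ⟨⟨c, h⟩, x⟩
  · by_cases h : j ∈ T.ty c <;> simp [fS, On.res, On.mv, shZ, mZ, posZ, h]
  · fin_cases x <;>
      simp [fS, On.res, On.mv, shZ, mZ, posZ, i4, d5, c1, h, Fin.sum_univ_succ]
    ring
  · by_cases h : j ∈ T.ty c <;> simp [fS, On.res, shZ, mZ, posZ, h]
  · fin_cases x <;> simp [fS, On.res, shZ, mZ, posZ, i4, d5, c2, h, Fin.sum_univ_succ]

variable {T}

theorem cs (hT : T.Ok) (a a' : ℕ) (E : Set (T.CC j (Fin 4) → ℤ)) :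
    (T.ds j ![a, a, a, a, a', a']).pr {w | fS T j w ∈ E} ^ 2 ≤
      (T.ds j ![a, a, a, a, a', a']).pr {w | fS T j (On.mv T j 5 4 w) ∈ E ∧ fS T j w ∈ E} := by
  have h := hT.cl j (fun _ : Fin 6 => false) ![a, a, a, a, a', a']
  rw [pr_eq, pr_eq]
  refine Bx.cs_e (e6 T j) (u := fun x => T.wt x.1 * ∏ i, Bx.gk T j false a x.1 (x.2 i))
    (g := fun x => Bx.gk T j false a' x.1)
    (φ := fun x b => E.indicator 1 (fS T j (e6 T j (x, b, b))))
    (fun x => mul_pos (wt_pos _) (prod_pos fun _ _ => Bx.gk_pos ..)) (fun _ _ => Bx.gk_pos ..)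
    h.summable h.Z_pos (fun z => ?_) (fun _ _ => abs_ind _ _) (fun z => ?_) fun z => ?_
  · refine (Bx.wt_mk T j _ _ _ _).trans ?_
    simp [Bx.W2, Fin.prod_univ_succ]
    ring
  · rw [← (fS_e6 T j z.1 z.2.1 z.2.2).1]
    rfl
  · rw [← (fS_e6 T j z.1 z.2.1 z.2.2).1, ← (fS_e6 T j z.1 z.2.1 z.2.2).2]
    by_cases a : fS T j (e6 T j z) ∈ E <;> by_cases b : fS T j (On.mv T j 5 4 (e6 T j z)) ∈ E <;>
      simp [a, b]

end Tw2

open Tw2 in
theorem two (hS : SHR) (hM : MG) : TWO := by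
  intro L C _ _ _ _ T n b j a a' E hC hL ha ha' hb hG hE
  have hw : ∀ x, (![a, a, a, a, a', a'] : Fin 6 → ℕ) x ≤ b := fun x => by
    fin_cases x <;> simp <;> omega
  have s := fun x0 α S => hS L C T n b (2 * n + 6) j 6 ![a, a, a, a, a', a'] x0 α S hC hL
    (by norm_num) hw (by omega) (Rm.mono _ _ _ _ _ _ T le_rfl (by norm_num) hG)
  have p : ∀ (x0 : Option (Fin 6)) (α : Fin 6 → ℤ), (∀ x, α x ≠ 0 → x0 ≠ some x ∧ |α x| = 1 ∧
      x0.elim 0 ![a, a, a, a, a', a'] + (8 * n + 60) ≤ ![a, a, a, a, a', a'] x) → ∀ S,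
      (T.ds j ![a, a, a, a, a', a']).pr S - (1 / 2) ^ (2 * n + 6) ≤
        (T.ds j ![a, a, a, a, a', a']).pr {w | T.shZ j x0 α w ∈ S} := fun x0 α h S => by
    have := (abs_le.1 (s x0 α S fun x k => ⟨(h x k).1, by
      rw [(h x k).2.1, one_mul, ← pow_add]
      exact pow_le_pow_right₀ one_le_two (by have := (h x k).2.2; omega)⟩)).1
    linarith
  have s0 := p (some 0) d5 (fun x => by fin_cases x <;> simp [d5]; omega)
    {w | On.res T j i4 w ∈ E}
  have s1 := p (some 2) (-d5) (fun x => by fin_cases x <;> simp [d5]; omega)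
    {w | T.shZ j (some 0) d5 w ∈ {w | On.res T j i4 w ∈ E}}
  have s2 := p (some 2) d5 (fun x => by fin_cases x <;> simp [d5]; omega)
    {w | fS T j (On.mv T j 5 4 w) ∈ E ∧ fS T j w ∈ E}
  have s3 := p none c0 (fun x => by fin_cases x <;> simp [c0] <;> omega)
    {w | T.shZ j (some 2) d5 w ∈ {w | fS T j (On.mv T j 5 4 w) ∈ E ∧ fS T j w ∈ E}}
  have m := (abs_le.1 (On.marg T j hM hC (by omega) (by norm_num) (by norm_num) hG
    (ι := i4) (Fin.castLE_injective _) (fun _ => false) _ hw E)).1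
  have e : (![a, a, a, a, a', a'] : Fin 6 → ℕ) ∘ i4 = ![a, a, a, a] := by
    funext x
    fin_cases x <;> rfl
  rw [e] at m
  have c := cs j hG.ok_sm.1 a a' E
  simp only [mZ_eq]
  refine le_trans ?_ s3
  obtain ⟨d, hd⟩ : ∃ d : ℝ, d = (1 / 2) ^ n := ⟨_, rfl⟩
  have d0 : 0 < d := by rw [hd]; positivity
  have d1 : d ≤ 1 := by rw [hd]; exact pow_le_one₀ (by norm_num) (by norm_num)
  have e1 : ∀ k, (1 / 2 : ℝ) ^ (2 * n + k) = d ^ 2 * (1 / 2) ^ k := fun k => by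
    rw [hd, pow_add, mul_comm 2, pow_mul]
  have e2 : (1 / 2 : ℝ) ^ b ≤ d ^ 2 * (1 / 2) ^ 12 := e1 12 ▸ half_anti (by omega)
  rw [e1] at s0 s1 s2 ⊢
  rw [e1]
  rw [← hd] at hE
  have f : d / 2 ≤ (T.ds j ![a, a, a, a, a', a']).pr {w | fS T j w ∈ E} := by
    refine le_trans ?_ s1
    change _ ≤ (T.ds j ![a, a, a, a, a', a']).pr {w | On.res T j i4 w ∈ E} -
      (T.rect j a a).pr E at m
    have : d ^ 2 ≤ d := by nlinarith
    linarith
  have := pow_le_pow_left₀ (by positivity) f 2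
  nlinarith

end Crest.Agent.N49.Rm
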