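import Crest.Agent.N49.Rm.Sp
import Crest.Agent.N49.Rm.Mod
import Crest.Agent.N49.Rm.Trf
import Crest.Agent.N49.Rm.Mono
import Crest.Agent.N49.Rm.Pr
/-! Row 49 (helper21): the leaves `YS`, `REPL`, `S6`. -/
set_option autoImplicit false
set_option linter.unusedSectionVars false
noncomputable section
namespace Crest.Agent.N49.Rm
open Finset

namespace TT
variable {L C : Type} [Fintype L] [DecidableEq L] [Fintype C] [DecidableEq C] {T : TT L C}
  {A M S J : Finset L} {F : Fm L C} {i j : L}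

theorem ys_cf (S : Finset L) (y : C → ℤ) : T.Ys S (cf y) = cf (T.Yz S y) := by
  funext v
  rcases v with c | ℓ
  · by_cases k : Disjoint (T.ty c) S <;> simp [Ys, Yz, cf, k]
  · simp [Ys, cf]
theorem ys_out (p) {v : C ⊕ L} (h : Disjoint (T.tv v) S) : T.Ys S p v = p v := by
  rcases v with c | ℓ
  exacts [if_pos h, if_neg (by simpa using h)]
theorem pt_ys (S A : Finset L) : T.Pt T (T.Ys S) A (A \ S) := by
  rintro (c | ℓ) s n <;> simp only [Ys] <;> split_ifs with k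
  exacts [ty_co (subset_sdiff.2 ⟨s, k⟩) n, ty_c _, ty_c _,
    ty_co (subset_sdiff.2 ⟨s, by simpa using k⟩) n]
theorem pb_ys {ℓ : L} (h : ℓ ∉ S) : T.Pb T (T.Ys S) ℓ ℓ := by
  rintro (c | x) <;> simp only [Ys] <;> split_ifs with k
  exacts [⟨fun k => lin_co k, fun k => ind_co k⟩, ⟨fun _ => lin_0, fun _ => ind_c _⟩,
    ⟨fun m => absurd (mem_singleton.1 m ▸ k) h, fun _ => ind_c _⟩,
    ⟨fun k => lin_co k, fun k => ind_co k⟩]
theorem intP_ys {p : C ⊕ L → ℝ} (h : IntP p) : IntP (T.Ys S p) := by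
  rintro (c | ℓ) <;> simp only [Ys] <;> split_ifs
  exacts [h _, ⟨0, by simp⟩, ⟨1, by simp⟩, h _]
theorem fib_ys (d : Disjoint S M) (y : C → ℤ) : ∀ p ∈ T.Fib M y, T.Ys S p ∈ T.Fib M (T.Yz S y) := by
  refine fun p hp => ⟨fun c k => ?_, fun ℓ => ?_⟩
  · by_cases m : Disjoint (T.ty c) S <;> simp [Ys, Yz, m, hp.1 c k]
  · by_cases m : ℓ ∈ S
    · simp [Ys, m, disjoint_left.1 d m]
    · simp [Ys, m, hp.2 ℓ]
theorem Ctr.phi (h : T.Ctr J) (s : S ⊆ J) (p) {c : C} (k : ¬ Disjoint (T.ty c) S) :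
    T.Φ (T.Ys S p) c = 0 := by
  obtain ⟨x, m, m'⟩ := not_disjoint_iff.1 k
  rw [← h x (s m') (T.Ys S p) c m]
  congr 1
  funext v
  rcases v with c | ℓ <;> simp only [Ys, disjoint_singleton_right, mem_singleton]
  · by_cases a : x ∈ T.ty c
    · rw [if_neg (not_disjoint_iff.2 ⟨x, a, m'⟩), if_neg (not_not.2 a)]
    · rw [if_pos a]
  · by_cases a : ℓ = x <;> simp [a, m']
theorem Ok.phi_ys (hT : T.Ok) (p) {c : C} (n : (T.ty c).Nonempty) (k : Disjoint (T.ty c) S) :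
    T.Φ (T.Ys S p) c = T.Φ p c := (hT.dat c n).1 _ _ fun _ s _ => ys_out p (k.mono_left s)
theorem Ok.cube_ys (hT : T.Ok) (h : T.Ctr J) (s : S ⊆ J) {p} (k : T.CubeR (A \ S) M 1 p) :
    T.CubeR A M 1 (T.Ys S p) := fun c a d => by
  by_cases m : Disjoint (T.ty c) S
  · rw [hT.phi_ys p (let ⟨x, m, _⟩ := not_disjoint_iff.1 d; ⟨x, m⟩) m]
    exact k c (subset_sdiff.2 ⟨a, m⟩) d
  · simp [h.phi s p m]
theorem Dat.ys (h : T.Dat A M F) (d : Disjoint S M) : T.Dat (A \ S) M fun p => F (T.Ys S p) :=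
  h.pb (pt_ys S A) fun ℓ m => ⟨ℓ, m, pb_ys (disjoint_right.1 d m)⟩
theorem Rel.ys (hT : T.Ok) (hc : T.Ctr J) (s : S ⊆ J) (d : Disjoint S M) {y : C → ℤ} {q : ℕ}
    {B : ℝ} (l : ∀ ℓ ∈ M, T.Lin ℓ F) (h : T.Rel A M (T.Yz S y) q B F) :
    T.Rel (A \ S) M y q B fun p => F (T.Ys S p) := by
  simpa using h.pb hT l le_rfl (pt_ys S A) (fun ℓ m => ⟨ℓ, m, pb_ys (disjoint_right.1 d m)⟩)
    (fun _ => intP_ys) (fib_ys d y) fun _ _ k => hT.cube_ys hc s k

theorem Quad.ys {y1 y2 y3 y4 : C → ℤ} (h : T.Quad (A \ S) M j y1 y2 y3 y4) :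
    T.Quad A M j (T.Yz S y1) (T.Yz S y2) (T.Yz S y3) (T.Yz S y4) := fun c s n d => by
  by_cases k : Disjoint (T.ty c) S
  · simpa only [Yz, k, if_true] using h c (subset_sdiff.2 ⟨s, k⟩) n d
  · simp [Yz, k]

theorem Resp.ys (hT : T.Ok) (hc : T.Ctr J) (s : S ⊆ J) (d : Disjoint S M) (hA : j ∈ A) (hM : j ∉ M)
    (hj : j ∉ S) {y1 y2 y3 : C → ℤ} {q : ℕ} {B : ℝ} {F : Fin 4 → Fm L C}
    (hF : ∀ l, T.Dat A M (F l)) (h : T.Resp A M j (T.Yz S y1) (T.Yz S y2) (T.Yz S y3) q B F) :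
    T.Resp (A \ S) M j y1 y2 y3 q B fun l p => F l (T.Ys S p) := by
  have pb : T.Pb T (T.Ys S) j j := pb_ys hj
  have := Rel.jt (T' := T.cl j (fun _ : Fin 2 => true) fun _ => 0)
    (A' := upA (A \ S) (Fin 2)) (M' := M.image .inl) (y' := T.gl j y1 ![y2, y3])
    (ι0 := fun p => T.Ys S (T.p0 j p)) (ι := fun x p => T.Ys S (T.px j (fun _ => true) x p))
    hT hA hM h (resp_lin hM hF) le_rfl (fun p x v k => (((pb v).2 k).px _ x p).symm)
    ((pt_ys S A).cp (T.pt_p0 j _ _ fun _ => inl_upA.2))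
    (fun x => (pt_ys S A).cp (T.pt_px j _ _ x (fun _ m _ => inl_upA.2 m) fun _ => inr_upA x)) ?_
    (fun p k => ⟨intP_ys (intP_p0 _ j k), fun x => intP_ys (intP_px _ j _ x k)⟩) ?_
    fun p _ k => ⟨hT.cube_ys hc s (cube_p0 k), fun x => hT.cube_ys hc s (hT.cube_px hM k x)⟩
  · simp only [one_pow, one_mul, pb.pos_jt] at this
    exact this
  · intro ℓ' m
    obtain ⟨ℓ, k, rfl⟩ := mem_image.1 m
    have b : T.Pb T (T.Ys S) ℓ ℓ := pb_ys (disjoint_right.1 d k)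
    exact ⟨ℓ, k, b.cp (pb_p0 _ j _ _ ℓ), fun x => b.cp (pb_px _ j _ _ x fun e => hM (e ▸ k))⟩
  · intro p k
    refine ⟨fib_ys d _ _ (fib_p0 _ j _ _ _ p k), fun x => ⟨?_, fun c m e => ?_⟩⟩
    · simp [Ys, px, hj, k.2]
    · have u := k.1 (.inr (⟨c, m⟩, x)) (by
        simpa [disjoint_image Sum.inl_injective] using e.mono_left (erase_subset _ _))
      by_cases r : Disjoint (T.ty c) S <;> fin_cases x <;> simp [Ys, Yz, px, m, r, gl] at u ⊢ <;>
        exact u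

/-- the words inside `A` that miss `M`, rounded -/
def key (T : TT L C) (A M : Finset L) (p : C ⊕ L → ℝ) : C → ℤ := fun c =>
  if T.ty c ⊆ A ∧ (T.ty c).Nonempty ∧ Disjoint (T.ty c) M then round (p (.inl c)) else 0
theorem key_congr {p p' : C ⊕ L → ℝ} (h : ∀ v, T.tv v ⊆ A \ M → (T.tv v).Nonempty → p v = p' v) :
    T.key A M p = T.key A M p' := by
  funext c
  simp only [key]
  split_ifs with k
  exacts [by rw [h (.inl c) (subset_sdiff.2 ⟨k.1, k.2.2⟩) k.2.1], rfl]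
theorem key_agr (A M : Finset L) (y : C → ℤ) : T.Agr A M y (T.key A M (cf y)) :=
  fun c a b d => by simp [key, a, b, d]
theorem fib_sd {y : C → ℤ} {p} (hp : p ∈ T.Fib M y) (v : C ⊕ L) (h : T.tv v ⊆ A \ M) :
    p v = cf y v := by
  rcases v with c | ℓ
  · exact hp.1 c (subset_sdiff.1 h).2
  · exact (hp.2 ℓ).trans (if_neg (by simpa using (subset_sdiff.1 h).2))
/-- a family of `M`-data indexed by the words that miss `M` is an `M`-datum -/
theorem dat_key {I : (C → ℤ) → Fm L C} (h : ∀ k, T.Dat A M (I k)) :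
    T.Dat A M fun p => I (T.key A M p) p := by
  refine ⟨fun p p' e => ?_, fun ℓ m a b p p' e => ?_⟩
  · simp only [key_congr (p := p) (p' := p') fun v s => e v (s.trans sdiff_subset)]
    exact (h _).1 p p' e
  · have o : ∀ v, T.tv v ⊆ A \ M → ℓ ∉ T.tv v := fun v s k => (mem_sdiff.1 (s k)).2 m
    have e1 : T.key A M (T.cmb ℓ a b p p') = T.key A M p := key_congr fun v s _ => if_neg (o v s)
    have e2 : T.key A M p' = T.key A M p := key_congr fun v s _ => (e v (o v s)).symm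
    simp only [e1, e2]
    exact (h _).2 ℓ m a b p p' e

/-- turn the letter `i` into a direction -/
def dr (i : L) (p : C ⊕ L → ℝ) : C ⊕ L → ℝ := Function.update p (.inr i) 0
theorem dr_out (p : C ⊕ L → ℝ) {v : C ⊕ L} (h : i ∉ T.tv v) : dr i p v = p v :=
  Function.update_of_ne (fun e => h (by simp [e])) _ _
theorem Lin.dr (h : T.Lin i F) {p : C ⊕ L → ℝ} (e : p (.inr i) = 1) :
    F p = F (T.Ys {i} p) + F (dr i p) := by
  have := h 1 1 (T.Ys {i} p) (TT.dr i p) fun v k => (ys_out p (by simpa using k)).trans (dr_out p k).symm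
  rw [one_mul, one_mul] at this
  rw [← this]
  congr 1
  funext v
  rcases v with c | ℓ
  · by_cases k : i ∈ T.ty c <;> simp [cmb, Ys, TT.dr, k]
  · by_cases k : i = ℓ
    · subst k; simp [cmb, Ys, TT.dr, e]
    · simp [cmb, Ys, k, Ne.symm k]
theorem Rel.dr (hT : T.Ok) (hc : T.Ctr {i}) (hi : i ∉ M) {y : C → ℤ} {q : ℕ} {B R : ℝ} (hR : 1 ≤ R)
    (hy : T.Cen R y) (l : ∀ ℓ ∈ insert i M, T.Lin ℓ F) (h : T.Rel A (insert i M) y q B F) :
    T.Rel A M y q (R ^ #(insert i M) * B) fun p => F p - F (T.Ys {i} p) := by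
  have e : ∀ p ∈ T.Fib M y, p (.inr i) = 1 := fun p hp => (hp.2 i).trans (if_neg hi)
  refine (h.pb (ι := TT.dr i) (A' := A) (M' := M) hT l hR (fun v s n => ?_)
    (fun ℓ m => ⟨ℓ, mem_insert_of_mem m, fun v => ?_⟩) (fun p k v => ?_)
    (fun p hp => ⟨fun c d => ?_, fun ℓ => ?_⟩) fun p hp k c s d => ?_).congr fun p hp => ?_
  · by_cases k : v = .inr i
    · simpa [TT.dr, k] using ty_c 0
    · simpa [TT.dr, k] using ty_co s n
  · by_cases k : v = .inr i
    · simpa [TT.dr, k] using ⟨fun _ => lin_0, fun _ => ind_c 0⟩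
    · simp only [TT.dr, Function.update_of_ne k]
      exact ⟨fun k => lin_co k, fun k => ind_co k⟩
  · by_cases m : v = .inr i
    · exact ⟨0, by simp [TT.dr, m]⟩
    · simpa [TT.dr, m] using k v
  · simpa [TT.dr] using hp.1 c (d.mono_right (subset_insert _ _))
  · by_cases m : ℓ = i
    · simp [TT.dr, m]
    · simp [TT.dr, m, hp.2 ℓ]
  · have n : (T.ty c).Nonempty := let ⟨x, m, _⟩ := not_disjoint_iff.1 d; ⟨x, m⟩
    have u : T.Φ (TT.dr i p) c = T.Φ p c := by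
      by_cases m : i ∈ T.ty c
      · have := ((hT.dat c n).2 i m).dr (e p hp)
        simpa [hc i (mem_singleton_self i) p c m] using this.symm
      · exact hT.ind m _ _ fun _ => dr_out p
    rw [u]
    by_cases m : Disjoint (T.ty c) M
    · exact (congrArg abs ((hT.dat c n).1 p (cf y) fun v a _ =>
        fib_sd (A := T.ty c) hp v (subset_sdiff.2 ⟨a, m.mono_left a⟩))).trans_le (hy c)
    · exact (k c s m).trans hR
  · rw [(l i (mem_insert_self _ _)).dr (e p hp)]; ring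
end TT
open TT

theorem ys : YS := by
  intro L C _ _ _ _ T J S hT hc s
  exact ⟨ys_cf S, fun A M F d h => h.ys d, fun A M y q B F _ d hF h => h.ys hT hc s d hF.2,
    fun D A M j H H' q B F _ d hA hM hj ov hF h y1 m1 y2 m2 y3 m3 y4 m4 k e =>
      (h _ (ov _ m1) _ (ov _ m2) _ (ov _ m3) _ (ov _ m4) k.ys e).ys hT hc s d hA hM hj fun _ => hF e⟩

theorem repl : REPL := by
  classical
  intro L C _ _ _ _ T H A M i q B R ν β t hT hM hA hi hβ ht _ hν h
  let I : (C → ℤ) → Fm L C := fun k =>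
    if h : T.Rel (A.erase i) M k q B t then h.choose else fun _ => 0
  have d : ∀ k, T.Dat (A.erase i) M (I k) := fun k => by
    simp only [I]; split_ifs with h; exacts [h.choose_spec.1.1, Dat.zero]
  have d1 := ht.sub ((dat_key d).div q)
  refine ⟨fun p => β p * (t p - I (T.key (A.erase i) M p) p / q),
    (hβ.mul d1 (by simp) disjoint_sdiff).mono
      (union_subset sdiff_subset (erase_subset _ _)) (by intro x; simp), fun y hy => ?_⟩
  have a := key_agr (T := T) (A.erase i) M y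
  have r := a.rel hT ht.1 (h y hy)
  have e : I (T.key (A.erase i) M (cf y)) = r.choose := dif_pos r
  obtain ⟨r1, r2⟩ := r.choose_spec
  refine ⟨fun p => ν y * r.choose p, ((a.symm.intF r1).mono (erase_subset _ _)).zsmul _,
    ((((a.symm.sm hT (ht.sub (r1.1.div q)).1 r2).monoA (erase_subset _ _)).smul
      (ν y - β (cf y))).mono (mul_le_mul_of_nonneg_right (hν y hy) ‹_›)).congr fun p hp => ?_⟩
  have e1 : T.key (A.erase i) M p = T.key (A.erase i) M (cf y) :=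
    key_congr fun v s _ => fib_sd hp v s
  have e2 : β p = β (cf y) := hβ.1 p (cf y) fun v s _ => fib_sd hp v s
  simp only [e1, e, e2]
  ring

theorem ys_lin_pow {n : ℕ} (h : 2 ≤ n) (E : ℕ) : E * n ≤ n ^ (E + 1) :=
  (Nat.mul_le_mul_right n (Nat.lt_two_pow_self.le.trans (Nat.pow_le_pow_left h E))).trans_eq
    (pow_succ n E).symm

theorem s6 (hc : CEN) (l0 : ℕ) : S6 l0 := by
  refine ⟨(l0 + 4) ^ 2 + 1, fun L C _ _ _ _ T D n H H' A M i q F X hL ⟨h2, hC, hH⟩ hG hM hA hi hz hy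
    hF hX h1 h3 => ?_⟩
  have num := ys_lin_pow h2 ((l0 + 4) ^ 2)
  generalize n ^ ((l0 + 4) ^ 2 + 1) = N at num hG ⊢
  have num1 : (2 * n + l0 + 5) * l0 + n + 2 ≤ N ∧ 2 * (n + l0) + (n + 1) + 10 ≤ N := by
    obtain ⟨n, rfl⟩ := Nat.exists_eq_add_of_le h2
    constructor <;> nlinarith [Nat.zero_le (l0 * n), Nat.zero_le (l0 * l0 * n), Nat.zero_le (l0 * l0)]
  have hT : T.Ok := hG.ok_sm.1
  have c := hc L C T (n + l0) N (n + 1) (hC.trans (Nat.pow_le_pow_right two_pos (by omega)))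
    (hL.trans (Nat.lt_two_pow_self.le.trans (Nat.pow_le_pow_right two_pos (by omega))))
    num1.2 hT hG.ok_sm.2
  refine ⟨H' ∩ {y | T.Cen ((n + l0 : ℕ) + (n + 1 : ℕ) + 4) y}, Set.inter_subset_left, ?_,
    fun y ⟨m, k⟩ d => ?_⟩
  · refine le_trans ?_ (hT.pr_inter _ _)
    have : (1 / 2 : ℝ) ^ N ≤ (1 / 2) ^ (n + 1) :=
      pow_le_pow_of_le_one (by norm_num) (by norm_num) (by omega)
    change T.pr {y | T.Cen _ y}ᶜ ≤ _ at c
    rw [pow_succ] at this c
    linarith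
  have r1 := h1 y (hy y m).1 d
  have r2 := ((h1 _ (hy y m).2 d).ys hT hz le_rfl (by simpa)
    ((hF d).sub ((hX d).mono le_rfl (subset_insert _ _))).2).monoA sdiff_subset
  have r3 := (h3 y m d).dr hT hz hi (by norm_cast; omega) k (hX d).2
  refine (((r1.sub r2).add r3).congr fun p _ => by ring).mono ?_
  have a : #(insert i M) ≤ l0 := (card_le_univ _).trans hL
  have b : (((n + l0 : ℕ) + (n + 1 : ℕ) + 4 : ℝ)) ^ #(insert i M) ≤ 2 ^ ((2 * n + l0 + 5) * l0) := by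
    rw [pow_mul]
    refine (pow_le_pow_left₀ (by positivity) ?_ _).trans
      (pow_le_pow_right₀ (one_le_pow₀ one_le_two) a)
    exact_mod_cast (by omega : n + l0 + (n + 1) + 4 ≤ 2 * n + l0 + 5).trans Nat.lt_two_pow_self.le
  have g : (1 : ℝ) ≤ 2 ^ ((2 * n + l0 + 5) * l0) := one_le_pow₀ one_le_two
  calc _ ≤ (2 : ℝ) ^ ((2 * n + l0 + 5) * l0 + n + 2) := by
        rw [pow_add, pow_add]
        nlinarith [pow_pos (two_pos (α := ℝ)) n]
    _ ≤ _ := pow_le_pow_right₀ one_le_two num1.1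
end Crest.Agent.N49.Rm
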