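import Crest.Agent.N49.Rm.Bb
import Crest.Agent.N49.Rm.Box
import Crest.Agent.N49.Rm.Clm
import Crest.Agent.N49.Rm.Const
import Crest.Agent.N49.Rm.Ctrx
import Crest.Agent.N49.Rm.Desc
import Crest.Agent.N49.Rm.Dsh
import Crest.Agent.N49.Rm.Fr
import Crest.Agent.N49.Rm.Free
import Crest.Agent.N49.Rm.G3
import Crest.Agent.N49.Rm.Gp
import Crest.Agent.N49.Rm.Kit
import Crest.Agent.N49.Rm.Kq
import Crest.Agent.N49.Rm.Frb
import Crest.Agent.N49.Rm.Mgn
import Crest.Agent.N49.Rm.Mix2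
import Crest.Agent.N49.Rm.S5
import Crest.Agent.N49.Rm.Mod
import Crest.Agent.N49.Rm.Pairq
import Crest.Agent.N49.Rm.Rb
import Crest.Agent.N49.Rm.Real
import Crest.Agent.N49.Rm.S1
import Crest.Agent.N49.Rm.S2
import Crest.Agent.N49.Rm.S3
import Crest.Agent.N49.Rm.S4
import Crest.Agent.N49.Rm.Shr
import Crest.Agent.N49.Rm.Tba
import Crest.Agent.N49.Rm.Tbf
import Crest.Agent.N49.Rm.Tbp
import Crest.Agent.N49.Rm.Tby
import Crest.Agent.N49.Rm.Two
import Crest.Agent.N49.Rm.Uqs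
import Crest.Agent.N49.Rm.Ys
import Crest.Agent.N49.On.Cyc
import Crest.Agent.N49.On.Dis
import Crest.Agent.N49.On.Fib
import Crest.Agent.N49.On.Glue
import Crest.Agent.N49.On.Mass
import Crest.Agent.N49.On.Ngm

/-! Row 49, block RMH (helper12): the leaves, assembled. -/
set_option autoImplicit false
namespace Crest.Agent.N49.Rm.Al

theorem box : BOX := Rm.box mono clm0
theorem ctrx : CTRX := Rm.ctrx clm0
theorem pairx : PAIRX := Rm.pairx clm0
theorem pairq : PAIRQ := Rm.pairq clm0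
theorem mix (l0 : ℕ) : MIX l0 := mix2 pairx l0
theorem fib : On.FIB := On.fib On.cyc
theorem real : REAL := Rm.real clm0

theorem uqs (l0 : ℕ) : UQS l0 := Rm.uqs clm0 cen l0
theorem desc (l0 : ℕ) : DESC l0 := Rm.desc mono clm0 box (uqs _)
theorem dsh (l0 : ℕ) : DSH l0 := Rm.dsh shr (desc _)
theorem const (l0 : ℕ) : CONST l0 := Rm.const real (two shr mg)
theorem free (l0 : ℕ) : FREE l0 := Rm.free mono mg box uqs l0
theorem bb (l0 : ℕ) : BB l0 := Rm.bb mono (free l0)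
theorem kx (l0 : ℕ) : KX l0 := Rm.kx box (free _)
theorem dis : On.DIS := On.dis mg
theorem onex (l0 : ℕ) : ONEX l0 :=
  On.one_of (On.mass dis fib clm0 (On.ngm dis (uqs _))) ctrx
theorem upx (l0 : ℕ) : UPX l0 := Rm.upx (onex l0)
theorem frb (l0 : ℕ) : FRB l0 := Rm.frb box (uqs _) (desc l0)
theorem kq (l0 : ℕ) : KQ l0 := Rm.kq box (frb _)
theorem rb (l0 : ℕ) : RB l0 := Rm.rb cen l0
theorem s1 (l0 : ℕ) : S1 l0 := Rm.s1 (kq l0) (dsh l0) (upx l0) (rb l0) repl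
theorem s2 (l0 : ℕ) : S2 l0 := Rm.s2 (kq l0) (const l0) frr
theorem s3 (l0 : ℕ) : S3 l0 := Rm.s3 (kq l0) (desc _) (upx l0) frr clm0
theorem s5 (l0 : ℕ) : S5 l0 := Rm.s5 tby tbm tbr tba tbf (rb l0)
theorem s6 (l0 : ℕ) : S6 l0 := Rm.s6 cen l0

theorem lv (l0 : ℕ) : Lv l0 :=
  ⟨box, onex l0, mix l0, kx l0, ys, s1 l0, s2 l0, s3 l0, s4, s5 l0, s6 l0, tbp, tba, tbr, tbf⟩
/-- **the relative multi-homomorphism theorem** -/
theorem rmhx (l0 d : ℕ) : RMHX l0 d := (lv l0).rmhx d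
/-- **the form consumed by the step** -/
theorem topx (l0 c : ℕ) : TOPX l0 c := (lv l0).topx c

end Crest.Agent.N49.Rm.Al
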