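import Crest.Agent.N49.Rm.St
import Crest.Agent.N49.Rm.Api

/-! Row 49, block RMH/B (helper79): `B(d)` from `FREE`, one letter at a time. -/

set_option autoImplicit false
noncomputable section
namespace Crest.Agent.N49.Rm
open Finset

/-- with all the letters of `A` marked, the relation does not depend on the configuration -/
theorem TT.Rel.top {L C : Type} [Fintype L] [DecidableEq L] [Fintype C] [DecidableEq C]
    {T : TT L C} (hT : T.Ok) {A : Finset L} {y : C → ℤ} {q : ℕ} {B : ℝ} {F : Fm L C}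
    (hF : T.Ty A F) (h : T.Rel A A y q B F) (y' : C → ℤ) : T.Rel A A y' q B F := by
  obtain ⟨I, hI, hs⟩ := h
  let r : (C ⊕ L → ℝ) → C ⊕ L → ℝ := fun p =>
    Sum.elim (fun c => if Disjoint (T.ty c) A then (y c : ℝ) else p (.inl c)) fun ℓ => p (.inr ℓ)
  have r1 : ∀ p ∈ T.Fib A y', r p ∈ T.Fib A y := fun p hp =>
    ⟨fun c hc => if_pos hc, fun ℓ => hp.2 ℓ⟩
  have r2 : ∀ (S : Finset L), S ⊆ A → ∀ p v, T.tv v ⊆ S → (T.tv v).Nonempty → p v = r p v := by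
    rintro S hS p (c | ℓ) h1 ⟨x, hx⟩
    · exact (if_neg fun e => disjoint_left.1 e hx (hS (h1 hx))).symm
    · rfl
  refine ⟨I, ⟨hI.1, fun p hp hi => ?_⟩, fun p hp hc => ?_⟩
  · rw [hI.1.1 p (r p) (r2 A Subset.rfl p)]
    refine hI.2 _ (r1 p hp) ?_
    rintro (c | ℓ)
    · by_cases e : Disjoint (T.ty c) A
      · exact ⟨y c, if_pos e⟩
      · exact (hi (.inl c)).imp fun n hn => (if_neg e).trans hn
    · exact hi _
  · show |F p - I p / q| ≤ B
    rw [hI.1.1 p (r p) (r2 A Subset.rfl p), hF p (r p) (r2 A Subset.rfl p)]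
    refine hs _ (r1 p hp) fun c h1 h2 => ?_
    have hn : (T.ty c).Nonempty := by
      rw [nonempty_iff_ne_empty]; rintro e; exact h2 (e ▸ disjoint_empty_left _)
    have := (hT.dat c hn).1 p (r p) (r2 _ h1 p)
    simp only at this
    rw [← this]; exact hc c h1 h2

theorem bb_aux (hm : MONO) {l0 : ℕ} (hf : FREE l0) (r : ℕ) : ∃ K : ℕ, 1 ≤ K ∧
    ∀ (L C : Type) [Fintype L] [DecidableEq L] [Fintype C]
    [DecidableEq C] (T : TT L C) (D : Type) [Fintype D] (n : ℕ) (H : Set (C → ℤ)) (A M : Finset L)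
    (q : ℕ) (F : D → Fm L C), #(A \ M) ≤ r → Fintype.card L ≤ l0 → Sz n T H → G (n ^ K) T →
    Fintype.card D ≤ n → M.Nonempty → M ⊆ A → (∀ d, T.Dat A A (F d)) →
    1 ≤ q → q ≤ 2 ^ n → (∀ y ∈ H, ∀ d, T.Rel A M y q (2 ^ n) (F d)) →
    ∃ q' y, 1 ≤ q' ∧ q' ≤ 2 ^ n ^ K ∧ ∀ d, T.Rel A A y q' (2 ^ n ^ K) (F d) := by
  induction r with
  | zero =>
    refine ⟨1, le_rfl, fun L C _ _ _ _ T D _ n H A M q F hr _ hS _ _ _ hM _ h1 h2 h3 => ?_⟩
    obtain rfl : M = A := hM.antisymm (sdiff_eq_empty_iff_subset.1 (card_eq_zero.1 (by omega)))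
    obtain ⟨y, hy⟩ : H.Nonempty := by
      rw [Set.nonempty_iff_ne_empty]; rintro rfl
      have := hS.2.2
      simp only [TT.pr, Set.indicator_empty, tsum_zero, zero_div] at this
      exact absurd this (not_le.2 (by positivity))
    exact ⟨q, y, h1, by simpa using h2, by simpa using h3 y hy⟩
  | succ r ih =>
    obtain ⟨K1, h1⟩ := hf
    obtain ⟨K2, k2, h2⟩ := ih
    refine ⟨(K1 + 1) * K2, by nlinarith, ?_⟩
    intro L C _ _ _ _ T D _ n H A M q F hr hl hS hG hD hM hMA hF q1 q2 hR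
    have n1 : 1 ≤ n := hS.1.trans' (by norm_num)
    have e1 : n ≤ n ^ (K1 + 1) := Nat.le_self_pow (by omega) _
    have e2 : n ^ K1 ≤ n ^ (K1 + 1) := Nat.pow_le_pow_right n1 (by omega)
    have e3 : n ^ K1 ≤ n ^ ((K1 + 1) * K2) := Nat.pow_le_pow_right n1 (by nlinarith)
    have p2 : ∀ {a b : ℕ}, a ≤ b → 2 ^ a ≤ 2 ^ b := fun h => Nat.pow_le_pow_right two_pos h
    have p3 : ∀ {a b : ℕ}, a ≤ b → (2 : ℝ) ^ a ≤ 2 ^ b := fun h => pow_le_pow_right₀ one_le_two h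
    have p4 : ∀ {a b : ℕ}, a ≤ b → (1 / 2 : ℝ) ^ b ≤ (1 / 2) ^ a := fun h =>
      pow_le_pow_of_le_one (by norm_num) (by norm_num) h
    rw [pow_mul] at hG ⊢
    rcases (A \ M).eq_empty_or_nonempty with e | ⟨i, hi⟩
    · exact h2 L C T D _ H A M q F (by simp [e]) hl
        ⟨hS.1.trans e1, hS.2.1.trans (p2 e1), (p4 e1).trans hS.2.2⟩ hG (hD.trans e1) hM hMA hF q1
        (q2.trans (p2 e1)) fun y hy d => (hR y hy d).mono (p3 e1)
    · rw [mem_sdiff] at hi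
      obtain ⟨H', -, q', a1, a2, a3, a4⟩ := h1 L C T D n H A M i q F hl hS
        (hm _ _ _ _ L C T (pow_mul n _ _ ▸ e3) (pow_mul n _ _ ▸ e3) hG) hD hM hMA hi.1 hi.2
        (fun d => (hF d).mono Subset.rfl (insert_subset hi.1 hMA)) q1 q2 hR
      refine h2 L C T D _ H' A (insert i M) q' F ?_ hl
        ⟨hS.1.trans e1, hS.2.1.trans (p2 e1), (p4 e2).trans a3⟩ hG (hD.trans e1)
        (insert_nonempty _ _) (insert_subset hi.1 hMA) hF a1 (a2.trans (p2 e2))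
        fun y hy d => (a4 y hy d).mono (p3 e2)
      rw [sdiff_insert, card_erase_of_mem (mem_sdiff.2 hi)]; omega

theorem bb (hm : MONO) {l0 : ℕ} (hf : FREE l0) : BB l0 := by
  obtain ⟨K, -, h⟩ := bb_aux hm hf l0
  refine ⟨K, fun L C _ _ _ _ T D _ n H A M q F hl hS hG hD hM hMA hF q1 q2 hR => ?_⟩
  obtain ⟨q', y, a1, a2, a3⟩ := h L C T D n H A M q F ((card_le_univ _).trans hl) hl hS hG hD hM
    hMA hF q1 q2 hR
  have hT : T.Ok := (hm _ _ _ 0 L C T le_rfl (Nat.zero_le _) hG).1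
  exact ⟨q', a1, a2, fun y' d => (a3 d).top hT (hF d).1 y'⟩

end Crest.Agent.N49.Rm
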