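import Crest.Agent.N49.Rm.Mono
import Crest.Agent.N49.Rm.Pr
import Crest.Agent.N49.Rm.Fb
import Crest.Agent.N49.Bq.Alg
import Crest.Agent.N49.Po.Sb

/-! Row 49, block RMH/B (helper98): small integer `M`-forms vanish for most configurations. -/

set_option autoImplicit false
set_option linter.unusedSectionVars false
noncomputable section
namespace Crest.Agent.N49.Rm
open Finset Matrix Po MeasureTheory

section
variable {L C : Type} [Fintype L] [DecidableEq L] [Fintype C] [DecidableEq C] {T : TT L C}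

/-- a set that is small on every fibre of a letter is small -/
theorem TT.Ok.pr_le_uq (h : T.Ok) (j : L) {E : Set (C → ℤ)} {δ : ℝ}
    (hE : ∀ y, (gm (T.Mm j y) (T.ce j y)).real {n | T.jn j y n ∈ E} ≤ δ) : T.pr E ≤ δ := by
  rw [TT.pr, div_le_iff₀ (show 0 < ∑' y, T.wt y from h.Z_pos), TT.tsum_fb (T := T) j h.summable,
    TT.tsum_fb (T := T) j (h.summable.indicator E), ← tsum_mul_left]
  refine (TT.summable_fb j (h.summable.indicator E)).tsum_le_tsum (fun r => ?_)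
    ((TT.summable_fb j h.summable).mul_left δ)
  have p := th_pos (h.Mm_pd j (T.rp j r)) (T.ce j (T.rp j r))
  have a := hE (T.rp j r)
  rw [gm_real (h.Mm_pd j _)] at a
  have e : ∑' n, E.indicator T.wt (T.jn j (T.rp j r) n) = T.wr j (T.rp j r) *
      th (T.Mm j (T.rp j r)) (T.ce j (T.rp j r)) * ∑' n, {n | T.jn j (T.rp j r) n ∈ E}.indicator
        (fun n => gs (T.Mm j (T.rp j r)) (zc n - T.ce j (T.rp j r)) /
          th (T.Mm j (T.rp j r)) (T.ce j (T.rp j r))) n := by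
    rw [← tsum_mul_left]
    refine tsum_congr fun n => ?_
    by_cases m : T.jn j (T.rp j r) n ∈ E
    · rw [Set.indicator_of_mem m, Set.indicator_of_mem (by exact m), h.wt_jn]; field_simp
    · rw [Set.indicator_of_notMem m, Set.indicator_of_notMem (by exact m), mul_zero]
  simp only [h.wt_jn, tsum_mul_left]
  rw [e, mul_comm δ]
  exact mul_le_mul_of_nonneg_left a (mul_pos (TT.wr_pos _ _) p).le

/-- on a smooth fibre a hyperplane is small -/
theorem TT.Ok.hyp_lt (h : T.Ok) {j : L} {y : C → ℤ} {n m g : ℕ} (hC : Fintype.card C ≤ 2 ^ n)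
    (hn : 1 ≤ n) (hg : 4 * n + 2 * m + 10 ≤ g) (u : T.UQ univ {j} y (2 ^ g)) {V : Type}
    [AddCommGroup V] [Module ℝ V] (ξ : (T.Bl j → ℤ) →+ V) (hξ : ξ ≠ 0) (c : V) :
    (gm (T.Mm j y) (T.ce j y)).real {k | ξ k = c} < (1 / 2) ^ m := by
  have hM := h.Mm_pd j y
  have := gm_prob hM (T.ce j y)
  have c1 : (Fintype.card (T.Bl j) : ℝ) ≤ 2 ^ n := by
    exact_mod_cast (Fintype.card_subtype_le _).trans hC
  have c2 : (2 : ℝ) ≤ 2 ^ n := le_self_pow₀ one_le_two (by omega)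
  set t := 3 * n + 2 * m + 10
  have F := fi_smooth hM (R := (2 ^ t) ^ 2) (by positivity) fun k k0 => by
    have a := (h.dual_min (by positivity) u k0).le.trans
      (mul_le_mul_of_nonneg_right c1 (qf_nonneg hM.inv _))
    have b : (2 : ℝ) ^ n * (2 ^ t) ^ 2 ≤ (2 ^ g) ^ 2 := by
      rw [← pow_mul, ← pow_mul, ← pow_add]; exact pow_le_pow_right₀ one_le_two (by omega)
    exact le_of_mul_le_mul_left (b.trans a) (by positivity)
  refine mass_lt (gm_qi hM _) F ξ hξ c (by positivity) ?_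
  rw [Real.sqrt_sq (by positivity), ← mul_div_assoc, div_le_iff₀ (by positivity)]
  have e : ((1 / 2 : ℝ) ^ m) ^ 2 * 2 ^ t = 2 ^ 7 * (2 * 2 ^ n) ^ 3 := by
    rw [show t = 3 * n + 2 * m + 10 from rfl, one_div, inv_pow]; field_simp; ring
  rw [e]
  have := pow_le_pow_left₀ (by positivity) (show (Fintype.card (T.Bl j) : ℝ) + 2 ≤ 2 * 2 ^ n by
    linarith) 3
  nlinarith [pow_pos (show (0 : ℝ) < 2 * 2 ^ n by positivity) 3]

/-- one direction clone -/
abbrev TT.dc (T : TT L C) (x : L) := T.cl x (fun _ : Fin 1 => false) fun _ => 0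

theorem uq_core (h : T.Ok) {x : L} (o : (T.dc x).Ok) {M : Finset L} (hx : x ∉ M) {y : C → ℤ} {R r : ℝ} (r1 : 1 ≤ r)
    (hy : ¬ T.UQ univ (insert x M) y R) : ∃ f : (T.Bl x → ℝ) →ₗ[ℝ] ℝ, f ≠ 0 ∧
      ∀ w : T.CC x (Fin 1) → ℤ, w ∘ .inl = y → (T.dc x).Cen r w →
        (T.dc x).UQ univ (M.image .inl) w (R * r ^ #(insert x M)) →
        f (fun c => w (.inr (c, 0))) = 0 := by
  classical
  simp only [TT.UQ, not_forall] at hy
  obtain ⟨I, hI, hS, p0, hp, ne⟩ := hy
  let f := (hI.1.2 x (mem_insert_self _ _)).lm p0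
  let π : (T.Bl x → ℝ) →ₗ[ℝ] (T.Bl x → ℝ) :=
    LinearMap.pi fun c => if Disjoint (T.ty c.1) M then LinearMap.proj c else 0
  have hπ : ∀ u c, π u c = if Disjoint (T.ty c.1) M then u c else 0 := fun u c => by
    by_cases d : Disjoint (T.ty c.1) M <;> simp [π, d]
  have f0 : f (fun c => p0 (.inl c.1)) ≠ 0 := by
    have := TT.jr_self (T := T) x p0
    rw [hp.2 x, if_pos (mem_insert_self _ _)] at this
    exact fun e => ne (this ▸ e)
  have key : ∀ w : T.CC x (Fin 1) → ℤ, w ∘ .inl = y → (T.dc x).Cen r w →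
      (T.dc x).UQ univ (M.image .inl) w (R * r ^ #(insert x M)) → ∀ μ : T.Bl x → ℝ,
      f (π (fun c => w (.inr (c, 0))) + (μ - π μ)) = 0 := fun w e1 e2 e3 μ => by
    let P : T.CC x (Fin 1) ⊕ (L ⊕ Fin 1) → ℝ := Sum.elim (Sum.elim
      (fun c => if Disjoint (T.ty c) M then (w (.inl c) : ℝ) else p0 (.inl c))
      fun cx => if Disjoint (T.ty cx.1.1) M then (w (.inr cx) : ℝ) else μ cx.1)
      fun l => if l ∈ M.image Sum.inl then 0 else 1
    have hP : P ∈ (T.dc x).Fib (M.image .inl) w := by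
      refine ⟨?_, fun _ => rfl⟩
      rintro (c | ⟨c, i⟩) d
      · exact if_pos ((Bq.dj0 c).1 d)
      · exact if_pos ((Bq.djx hx c i).1 d)
    have fb : ∀ Q ∈ (T.dc x).Fib (M.image .inl) w,
        T.pos x (fun _ : Fin 1 => false) 0 (fun _ => 1) Q ∈ T.Fib (insert x M) y :=
      fun Q hQ => e1 ▸ Bq.pos_fib0 hx (by simp) hQ
    have z := e3 (fun Q => I (T.pos x (fun _ : Fin 1 => false) 0 (fun _ => 1) Q))
      ⟨(Bq.pos_dat (hI.1.mono Subset.rfl (subset_insert _ _)) hx).mono (subset_univ _) Subset.rfl,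
        fun Q hQ i => hI.2 _ (fb Q hQ) (Bq.pos_int i)⟩
      (fun Q hQ cu => Bq.sm_scale h hI.1.2 hS (fb Q hQ) r1 fun c _ d => by
        by_cases k : x ∈ T.ty c
        · rw [Bq.phi_pos_in (a := fun _ => 0) h k]
          simp only [Int.cast_zero, zero_mul, zero_add, univ_unique, sum_singleton, Int.cast_one,
            pow_zero, div_one, one_mul]
          by_cases d' : Disjoint (T.ty c) M
          · have d2 := (Bq.djx (pt := fun _ : Fin 1 => false) (a := fun _ => 0) hx ⟨c, k⟩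
              default).2 d'
            rw [o.phi_cg (p' := TT.cf w) fun v s => ?_]
            · exact e2 _
            · rcases v with v | l
              · exact hQ.1 v (d2.mono_left s)
              · rw [hQ.2 l, if_neg (disjoint_left.1 d2 (s (mem_singleton_self l)))]; rfl
          · exact (cu _ (subset_univ _) fun a => d' ((Bq.djx hx ⟨c, k⟩ _).1 a)).trans r1
        · rw [Bq.phi_pos_out (a := fun _ => 0) h k]
          exact (cu _ (subset_univ _) fun a => d
            (disjoint_insert_right.2 ⟨k, (Bq.dj0 c).1 a⟩)).trans r1) P hP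
    refine Eq.trans (congrArg I (funext fun v => ?_)) z
    rcases v with c | l
    · by_cases k : x ∈ T.ty c
      · rw [TT.jr_inl p0 _ 0 ⟨c, k⟩]
        by_cases d : Disjoint (T.ty c) M <;> simp [TT.pos, TT.px, k, P, hπ, d]
      · rw [TT.jr_out (v := .inl c) _ _ _ k, Bq.pos_out (v := .inl c) k]
        by_cases d : Disjoint (T.ty c) M
        · rw [hp.1 c (disjoint_insert_right.2 ⟨k, d⟩), ← e1]; exact (if_pos d).symm
        · exact (if_neg d).symm
    · rw [(fb P hP).2 l, ← hp.2 l]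
      by_cases k : l = x
      · rw [k, TT.jr_inr, hp.2, if_pos (mem_insert_self _ _)]
      · exact if_neg k
  by_cases z : f ∘ₗ π = 0
  · refine ⟨f, fun e => f0 (by rw [e]; rfl), fun w e1 e2 e3 => absurd ?_ f0⟩
    have a := key w e1 e2 e3 fun c => p0 (.inl c.1)
    have b : ∀ u, f (π u) = 0 := fun u => LinearMap.congr_fun z u
    rwa [map_add, map_sub, b, b, zero_add, sub_zero] at a
  · exact ⟨_, z, fun w e1 e2 e3 => by simpa using key w e1 e2 e3 0⟩

/-- the induction step -/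
theorem uq_step (hc : CLM) (he : CEN) {x : L} {M : Finset L} (hx : x ∉ M) {n b b' g : ℕ}
    (hn : 2 ≤ n) (hC : Fintype.card C ≤ 2 ^ n) (hL : Fintype.card L ≤ 2 ^ n)
    (hg : 4 * n + 2 * b + 40 ≤ g) (hT : G g T) (hb : b + 3 + #(insert x M) * (n + b + 8) ≤ b')
    (ih : (T.dc x).pr {w | ¬ (T.dc x).UQ univ (M.image .inl) w (2 ^ b')} ≤ (1 / 2) ^ b') :
    T.pr {y | ¬ T.UQ univ (insert x M) y (2 ^ b)} ≤ (1 / 2) ^ b := by
  obtain ⟨g, rfl⟩ : ∃ k, g = k + 1 := ⟨g - 1, by omega⟩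
  have h := hT.ok_sm.1
  obtain ⟨o, sm⟩ := (hT.2.2.1 x 1 (fun _ => false) (fun _ => 0) (by norm_num)
    fun _ => Nat.zero_le _).ok_sm
  have c1 : Fintype.card (T.CC x (Fin 1)) ≤ 2 ^ (n + 1) := by
    have : Fintype.card (T.Bl x) ≤ 2 ^ n := (Fintype.card_subtype_le _).trans hC
    simp only [Fintype.card_sum, Fintype.card_prod, Fintype.card_fin, mul_one, pow_succ]; omega
  have c2 : Fintype.card (L ⊕ Fin 1) ≤ 2 ^ (n + 1) := by
    have := Nat.one_le_two_pow (n := n)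
    simp only [Fintype.card_sum, Fintype.card_fin, pow_succ]; omega
  set Bad := {y | ¬ T.UQ univ (insert x M) y (2 ^ b)}
  have a1 := (abs_le.1 ((hc L C T n (g + 1) (b + 3) x 1 (fun _ => false) (fun _ => 0) Bad hC hL
    (by norm_num) (fun _ => Nat.zero_le _) (by omega)
    (mono _ _ _ _ L C T le_rfl (by omega) hT)).1 0 fun _ e => absurd rfl e)).1
  have a2 := he _ _ (T.dc x) (n + 1) (g + 1) (b + 3) c1 c2 (by omega) o sm
  have a3 := (sm (.inr 0)).1.trans (half_anti (show b + 3 ≤ g + 1 by omega))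
  have a4 := ih.trans (half_anti (show b + 3 ≤ b' by omega))
  set r : ℝ := ((n + 1 : ℕ) : ℝ) + (b + 3 : ℕ) + 4 with hr
  have r1 : 1 ≤ r := by rw [hr]; push_cast; linarith [(Nat.cast_nonneg n : (0 : ℝ) ≤ _), (Nat.cast_nonneg b : (0 : ℝ) ≤ _)]
  have r2 : 2 ^ b * r ^ #(insert x M) ≤ 2 ^ b' := by
    have : r ≤ 2 ^ (n + b + 8) := by
      have := (Nat.cast_le (α := ℝ)).2 (Nat.lt_two_pow_self (n := n + b + 8)).le
      rw [hr]; push_cast at this ⊢; linarith
    refine (mul_le_mul_of_nonneg_left (pow_le_pow_left₀ (by linarith) this _) (by positivity)).trans ?_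
    rw [← pow_mul, ← pow_add]
    exact pow_le_pow_right₀ one_le_two (by rw [mul_comm]; omega)
  set E := {w : T.CC x (Fin 1) → ℤ | w ∘ .inl ∈ Bad ∧ (T.dc x).Cen r w ∧
    (T.dc x).UQ univ (M.image .inl) w (2 ^ b') ∧ (T.dc x).UQ univ {.inr 0} w (2 ^ (g + 1))}
  have a5 : (T.dc x).pr E ≤ (1 / 2) ^ (b + 3) := o.pr_le_uq (.inr 0) fun w0 => by
    rcases Set.eq_empty_or_nonempty {k | (T.dc x).jn (.inr 0) w0 k ∈ E} with z | ⟨k1, z⟩
    · rw [z, measureReal_empty]; positivity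
    have e0 : ∀ k, (T.dc x).jn (.inr 0) w0 k ∘ .inl = w0 ∘ .inl := fun k => funext fun c =>
      TT.jn_out _ _ (by simp [TT.cl])
    have mi : ∀ c : T.Bl x, (.inr 0 : L ⊕ Fin 1) ∈ (T.dc x).ty (.inr (c, 0)) := fun c => by
      simp [TT.cl]
    obtain ⟨f, f0, hf⟩ := uq_core h o hx r1 (e0 k1 ▸ z.1 : w0 ∘ .inl ∈ Bad)
    let ξ : ((T.dc x).Bl (.inr 0) → ℤ) →+ ℝ := AddMonoidHom.mk'
      (fun k => f fun c => k ⟨.inr (c, 0), mi c⟩) fun k k' => by
        rw [← map_add]; congr 1; funext c; simp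
    have ξ0 : ξ ≠ 0 := fun e => f0 (LinearMap.pi_ext' fun c => LinearMap.ext_ring ?_)
    · have lt := o.hyp_lt c1 (by omega) (m := b + 3) (by omega) z.2.2.2 ξ ξ0 0
      rw [TT.Mm_jn, TT.ce_jn] at lt
      have := gm_prob (o.Mm_pd (.inr 0) w0) ((T.dc x).ce (.inr 0) w0)
      refine le_trans (measureReal_mono (fun k m => ?_) (measure_ne_top _ _)) lt.le
      refine Eq.trans ?_ (hf _ (e0 k) m.2.1 (m.2.2.1.mono r2))
      exact congrArg f (funext fun c => congrArg Int.cast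
        (congrFun (TT.bl_jn w0 k) ⟨.inr (c, 0), mi c⟩).symm)
    · have := DFunLike.congr_fun e (Pi.single ⟨.inr (c, 0), mi c⟩ 1)
      refine Eq.trans (congrArg f (funext fun c' => ?_)) this
      by_cases k : c' = c <;> simp [k]
  have s : {w : T.CC x (Fin 1) → ℤ | T.posZ x 1 0 w ∈ Bad} ⊆ ((E ∪ {w | ¬ (T.dc x).Cen r w}) ∪
      {w | ¬ (T.dc x).UQ univ (M.image .inl) w (2 ^ b')}) ∪
      {w | ¬ (T.dc x).UQ univ {.inr 0} w (2 ^ (g + 1))} := fun w m => by
    have : T.posZ x 1 0 w = w ∘ .inl := funext fun c => by simp [TT.posZ]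
    rw [Set.mem_ofPred_eq, this] at m
    simp only [E, Set.mem_union, Set.mem_ofPred_eq]; tauto
  have b1 := (o.pr_mono s).trans ((o.pr_union _ _).trans (add_le_add_left
    ((o.pr_union _ _).trans (add_le_add_left (o.pr_union _ _) _)) _))
  have : (1 / 2 : ℝ) ^ b = 8 * (1 / 2) ^ (b + 3) := by ring
  have : (0 : ℝ) < (1 / 2) ^ (b + 3) := by positivity
  linarith
end

theorem uq_ind (hc : CLM) (he : CEN) (m : ℕ) : ∃ K : ℕ, ∀ (L C : Type) [Fintype L] [DecidableEq L]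
    [Fintype C] [DecidableEq C] (T : TT L C) (n b : ℕ) (M : Finset L), #M ≤ m + 1 → 2 ≤ n →
    Fintype.card L ≤ 2 ^ n → Fintype.card C ≤ 2 ^ n → G ((n + b) ^ K) T → M.Nonempty →
    T.pr {y | ¬ T.UQ univ M y (2 ^ b)} ≤ (1 / 2) ^ b := by
  have base : ∀ (K : ℕ) (L C : Type) [Fintype L] [DecidableEq L] [Fintype C] [DecidableEq C]
      (T : TT L C) (n b : ℕ) (x : L), 2 ≤ n → G ((n + b) ^ (K + 1)) T →
      T.pr {y | ¬ T.UQ univ {x} y (2 ^ b)} ≤ (1 / 2) ^ b := fun K L C _ _ _ _ T n b x hn hT =>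
    (hT.ok_sm.2.anti ((Nat.le_add_left b n).trans (Nat.le_self_pow K.succ_ne_zero _)) x).1
  induction m with
  | zero =>
    refine ⟨1, fun L C _ _ _ _ T n b M hM hn _ _ hT ⟨x, hx⟩ => ?_⟩
    obtain rfl : M = {x} := eq_singleton_iff_unique_mem.2 ⟨hx, fun y hy => card_le_one.1 hM y hy x hx⟩
    exact base 0 L C T n b x hn hT
  | succ m ih =>
    obtain ⟨K, ih⟩ := ih
    refine ⟨(5 * m + 14) * K + 5 + 1, fun L C _ _ _ _ T n b M hM hn hL hC hT ⟨x, hx0⟩ => ?_⟩
    obtain ⟨M, hx, rfl⟩ : ∃ M', x ∉ M' ∧ M = insert x M' :=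
      ⟨M.erase x, notMem_erase _ _, (insert_erase hx0).symm⟩
    rcases M.eq_empty_or_nonempty with rfl | ne
    · exact base _ L C T n b x hn hT
    set s := n + b with hs
    have s2 : 2 ≤ s := by omega
    have p1 : n + 1 + (b + 3 + (m + 2) * (s + 8)) ≤ s ^ (5 * m + 14) := by
      have a : 5 * m + 13 ≤ s ^ (5 * m + 13) :=
        Nat.lt_two_pow_self.le.trans (Nat.pow_le_pow_left s2 _)
      rw [pow_succ]; nlinarith [Nat.mul_le_mul_right s a, Nat.mul_le_mul_left m s2]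
    have p2 := Nat.pow_le_pow_left p1 K
    rw [← pow_mul] at p2
    have p3 : 1 ≤ s ^ ((5 * m + 14) * K) := Nat.one_le_pow _ _ (by omega)
    have p4 : 32 * (s ^ ((5 * m + 14) * K) * s) ≤ s ^ ((5 * m + 14) * K + 5 + 1) := by
      have := Nat.pow_le_pow_left s2 5
      rw [pow_succ, pow_add]; nlinarith [Nat.mul_le_mul_right (s ^ ((5 * m + 14) * K) * s) this]
    have p5 : s ^ ((5 * m + 14) * K) * 2 ≤ s ^ ((5 * m + 14) * K) * s := Nat.mul_le_mul_left _ s2
    have p6 : 1 * s ≤ s ^ ((5 * m + 14) * K) * s := Nat.mul_le_mul_right _ p3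
    generalize s ^ ((5 * m + 14) * K + 5 + 1) = g at hT p4
    refine uq_step hc he hx (b' := b + 3 + (m + 2) * (s + 8)) hn hC hL (by omega) hT
      (Nat.add_le_add_left (Nat.mul_le_mul_right _ hM) _) ?_
    obtain ⟨g, rfl⟩ : ∃ k, g = k + 1 := ⟨g - 1, by omega⟩
    refine ih _ _ _ (n + 1) _ _ ?_ (by omega) ?_ ?_ (mono _ _ _ _ _ _ _ (by omega) (by omega)
      (hT.2.2.1 x 1 (fun _ => false) (fun _ => 0) (by norm_num) fun _ => Nat.zero_le _))
      (ne.image _)
    · rw [card_insert_of_notMem hx] at hM; exact card_image_le.trans (by omega)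
    · have := Nat.one_le_two_pow (n := n)
      simp only [Fintype.card_sum, Fintype.card_fin, pow_succ]; omega
    · have : Fintype.card (T.Bl x) ≤ 2 ^ n := (Fintype.card_subtype_le _).trans hC
      simp only [Fintype.card_sum, Fintype.card_prod, Fintype.card_fin, mul_one, pow_succ]; omega

theorem uqs (hc : CLM) (he : CEN) (l0 : ℕ) : UQS l0 := by
  obtain ⟨K, h⟩ := uq_ind hc he l0
  refine ⟨(l0 + 1) * K, fun L C _ _ _ _ T n b M hL hn hC hT ne => ?_⟩
  have p : (n + l0 + b) ^ K ≤ (n + b) ^ ((l0 + 1) * K) := by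
    rw [pow_mul]
    refine Nat.pow_le_pow_left ?_ K
    have a : l0 + 1 ≤ (n + b) ^ l0 :=
      Nat.lt_two_pow_self.trans_le (Nat.pow_le_pow_left (by omega) _)
    rw [pow_succ]; nlinarith [Nat.mul_le_mul_right (n + b) a]
  exact h L C T (n + l0) b M ((card_le_univ M).trans (by omega)) (by omega)
    (hL.trans (Nat.lt_two_pow_self.le.trans (Nat.pow_le_pow_right two_pos (by omega))))
    (hC.trans (Nat.pow_le_pow_right two_pos (by omega))) (mono _ _ _ _ L C T p p hT) ne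

end Crest.Agent.N49.Rm
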