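import Crest.Agent.N49.Rm.Sp
/-! Row 49, block RMH (helper18): the two halves of `CONST`. -/
set_option autoImplicit false
noncomputable section
namespace Crest.Agent.N49.Rm
open Finset

section
variable {L C : Type} [Fintype L] [DecidableEq L] [Fintype C] [DecidableEq C]
namespace TT
variable (T : TT L C)
/-- matrix map of direction shapes: base `↦ base + ∑ β0 • clones`, clone `x ↦ ∑ β x • clones` -/
def mp (j : L) {ρ ρ' : Type} [Fintype ρ'] (β0 : ρ' → ℤ) (β : ρ → ρ' → ℤ)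
    (p : T.CC j ρ' ⊕ (L ⊕ ρ') → ℝ) : T.CC j ρ ⊕ (L ⊕ ρ) → ℝ
  | .inl (.inl c) => T.pos j (fun _ => false) 1 β0 p (.inl c)
  | .inl (.inr cx) => T.pos j (fun _ => false) 0 (β cx.2) p (.inl cx.1.1)
  | .inr (.inl ℓ) => p (.inr (.inl ℓ))
  | .inr (.inr _) => 1
def mZ (j : L) {ρ ρ' : Type} [Fintype ρ'] (β0 : ρ' → ℤ) (β : ρ → ρ' → ℤ) (w : T.CC j ρ' → ℤ) :
    T.CC j ρ → ℤ := Sum.elim (T.posZ j 1 β0 w) fun cx => T.posZ j 0 (β cx.2) w cx.1.1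
/-- direction shape -/
abbrev ds (j : L) {r : ℕ} (a : Fin r → ℕ) := T.cl j (fun _ : Fin r => false) a

/-- the refinement `(T', ι)` realises the direction shape: the last clone is the new letter `j`,
the base and the other clones are centres -/
structure Rz (j : L) {r : ℕ} (a : Fin (r + 1) → ℕ) {C' : Type} [Fintype C'] [DecidableEq C']
    (T' : TT L C') (ι : (C' ⊕ L → ℝ) → (C ⊕ L → ℝ))
    (ψ : (C' ⊕ L → ℝ) → (T.CC j (Fin (r + 1)) ⊕ (L ⊕ Fin (r + 1)) → ℝ))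
    (ψZ : (C' → ℤ) → T.CC j (Fin (r + 1)) → ℤ) : Prop where
  pb : ∀ ℓ, ℓ ≠ j → (T.ds j a).Pb T' ψ (.inl ℓ) ℓ
  pt : ∀ A, j ∈ A → (T.ds j a).Pt T' ψ (upA A _) A
  ind : ∀ G, (T.ds j a).Ind (.inr (Fin.last r)) G → T'.Ind j fun p => G (ψ p)
  int : ∀ p, IntP p → IntP (ψ p)
  fib : ∀ M y, j ∉ M → ∀ p ∈ T'.Fib M y, ψ p ∈ (T.ds j a).Fib (M.image .inl) (ψZ y)
  cube : ∀ A M p, j ∈ A → j ∉ M → T'.Cube A M p → (T.ds j a).Cube (upA A _) (M.image .inl) (ψ p)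
  pos : ∀ p, p (.inr j) = 1 → ι p = T.pos j (fun _ => false) 1 (fun _ => 1) (ψ p)
end TT
end

/-- an event on a direction shape is realised by a chain of recentrings -/
def REAL : Prop := ∀ (r : ℕ) (L C : Type) [Fintype L] [DecidableEq L] [Fintype C] [DecidableEq C]
  (T : TT L C) (X : Hk L C) (n b g : ℕ) (j : L) (a : Fin (r + 1) → ℕ)
  (E : Set (T.CC j (Fin (r + 1)) → ℤ)), r ≤ 7 → Fintype.card C ≤ 2 ^ n → Fintype.card L ≤ 2 ^ n →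
  Monotone a → (∀ x, a x ≤ b) → 4 * (n + r) + 50 ≤ b → 9 ≤ g → GX b (g + (r + 1)) C T X →
  (1 / 2 : ℝ) ^ n ≤ (T.ds j a).pr E →
  ∃ (C' : Type) (_ : Fintype C') (_ : DecidableEq C') (T' : TT L C') (ι : _) (ψ : _) (ψZ : _),
    Ref b T (r + 1) C' T' ι ∧ GX b g C' T' (X.push ι (r + 1)) ∧ T.Rz j a T' ι ψ ψZ ∧
    (1 / 2 : ℝ) ^ (n + (r + 1)) ≤ T'.pr {y | ψZ y ∈ E}

def c0 : Fin 6 → ℤ := ![0, 1, 0, 1, 1, 0]
def c1 : Fin 4 → Fin 6 → ℤ :=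
  ![![1, 0, 0, 0, 1, 0], ![0, 1, 0, 0, 0, 0], ![0, 0, 1, 0, -1, 1], ![0, 0, 0, 1, 0, 0]]
def c2 : Fin 4 → Fin 6 → ℤ :=
  ![![1, 0, 0, 0, 0, 1], ![0, 1, 0, 0, 0, 0], ![0, 0, 1, 0, 0, 0], ![0, 0, 0, 1, 0, 0]]
/-- two rectangles with the same corner `0` -/
def TWO : Prop := ∀ (L C : Type) [Fintype L] [DecidableEq L] [Fintype C] [DecidableEq C]
  (T : TT L C) (n b : ℕ) (j : L) (a a' : ℕ) (E : Set (T.CC j (Fin 4) → ℤ)),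
  Fintype.card C ≤ 2 ^ n → Fintype.card L ≤ 2 ^ n → 8 * n + 60 ≤ a → a + 8 * n + 60 ≤ a' →
  a' ≤ b → Good b 12 L C T → (1 / 2 : ℝ) ^ n ≤ (T.rect j a a).pr E →
  (1 / 2 : ℝ) ^ (2 * n + 3) ≤
    (T.ds j ![a, a, a, a, a', a']).pr {w | T.mZ j c0 c1 w ∈ E ∧ T.mZ j c0 c2 w ∈ E}
end Crest.Agent.N49.Rm
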