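import Mathlib
/-! Row 49, block RMH/B (note 579): typed towers, semantic forms. Owner helper35. -/
set_option autoImplicit false
noncomputable section
namespace Crest.Agent.N49.Rm
open Finset

/-- Typed tower: letters `L`, coordinates `C`; points `p : C ⊕ L → ℝ` (`inr ℓ` = homogenising
coordinate `e ℓ` of type `{ℓ}`); `Φ p c` = normalised deviation; law `∝ exp(-π Σ Φ²)` at `e = 1`.
Coordinates of empty type are dead (independent noise). -/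
structure TT (L C : Type) where
  ty : C → Finset L
  Φ : (C ⊕ L → ℝ) → C → ℝ

/-- forms / data -/
abbrev Fm (L C : Type) := (C ⊕ L → ℝ) → ℝ

section
variable {L C : Type} [Fintype L] [DecidableEq L] [Fintype C] [DecidableEq C]
namespace TT
variable (T : TT L C)

def tv : C ⊕ L → Finset L := Sum.elim T.ty fun ℓ => {ℓ}
/-- `F` depends only on live coordinates of type inside `A` -/
def Ty (A : Finset L) (F : Fm L C) : Prop :=
  ∀ p p', (∀ v, T.tv v ⊆ A → (T.tv v).Nonempty → p v = p' v) → F p = F p'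
def cmb (ℓ : L) (a b : ℝ) (p p' : C ⊕ L → ℝ) : C ⊕ L → ℝ :=
  fun v => if ℓ ∈ T.tv v then a * p v + b * p' v else p v
/-- `F` is linear in the block of the letter `ℓ` -/
def Lin (ℓ : L) (F : Fm L C) : Prop :=
  ∀ (a b : ℝ) p p', (∀ v, ℓ ∉ T.tv v → p v = p' v) → F (T.cmb ℓ a b p p') = a * F p + b * F p'
/-- datum: typed in `A`, linear in the blocks of `M` -/
def Dat (A M : Finset L) (F : Fm L C) : Prop := T.Ty A F ∧ ∀ ℓ ∈ M, T.Lin ℓ F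

structure Ok : Prop where
  dat : ∀ c, (T.ty c).Nonempty → T.Dat (T.ty c) (T.ty c) fun p => T.Φ p c
  dead : ∀ c p, T.ty c = ∅ → T.Φ p c = p (.inl c)
  inj : ∀ (S : Finset L) p p', (∀ ℓ, p (.inr ℓ) = p' (.inr ℓ)) →
    (∀ c, T.ty c ≠ S → p (.inl c) = p' (.inl c)) → (∀ c, T.ty c = S → T.Φ p c = T.Φ p' c) → p = p'

def cf (y : C → ℤ) : C ⊕ L → ℝ := Sum.elim (fun c => (y c : ℝ)) fun _ => 1
def wt (y : C → ℤ) : ℝ := Real.exp (-Real.pi * ∑ c, T.Φ (cf y) c ^ 2)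
def pr (H : Set (C → ℤ)) : ℝ := (∑' y, H.indicator T.wt y) / ∑' y, T.wt y
def IntP (p : C ⊕ L → ℝ) : Prop := ∀ v, ∃ n : ℤ, p v = n
/-- the `M`-fibre over the configuration `y` (marked letters are directions: `e = 0`) -/
def Fib (M : Finset L) (y : C → ℤ) : Set (C ⊕ L → ℝ) :=
  {p | (∀ c, Disjoint (T.ty c) M → p (.inl c) = y c) ∧ ∀ ℓ, p (.inr ℓ) = if ℓ ∈ M then 0 else 1}
def Cube (A M : Finset L) (p : C ⊕ L → ℝ) : Prop :=
  ∀ c, T.ty c ⊆ A → ¬ Disjoint (T.ty c) M → |T.Φ p c| ≤ 1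
def IntF (A M : Finset L) (y : C → ℤ) (I : Fm L C) : Prop :=
  T.Dat A M I ∧ ∀ p ∈ T.Fib M y, IntP p → ∃ n : ℤ, I p = n
def Sm (A M : Finset L) (y : C → ℤ) (B : ℝ) (F : Fm L C) : Prop :=
  ∀ p ∈ T.Fib M y, T.Cube A M p → |F p| ≤ B
/-- `F ~(q,B) 0` as an `M`-form over `y` -/
def Rel (A M : Finset L) (y : C → ℤ) (q : ℕ) (B : ℝ) (F : Fm L C) : Prop :=
  ∃ I, T.IntF A M y I ∧ T.Sm A M y B fun p => F p - I p / q
def UQ (A M : Finset L) (y : C → ℤ) (R : ℝ) : Prop :=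
  ∀ I, T.IntF A M y I → T.Sm A M y R I → ∀ p ∈ T.Fib M y, I p = 0
/-- central configurations -/
def Cen (r : ℝ) (y : C → ℤ) : Prop := ∀ c, |T.Φ (cf y) c| ≤ r
/-- the typed multi-affine form `F` is globally an integer form up to `B` -/
def GRel (S : Finset L) (B : ℝ) (F : Fm L C) : Prop :=
  ∃ Y, T.Dat S S Y ∧ (∀ p, IntP p → ∃ n : ℤ, Y p = n) ∧ ∀ p, (∀ ℓ, |p (.inr ℓ)| ≤ 1) →
    (∀ c, T.ty c ⊆ S → (T.ty c).Nonempty → |T.Φ p c| ≤ 1) → |F p - Y p| ≤ B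

/-! ### operations -/
/-- delete a letter (its words become dead) -/
def del (ℓ : L) : TT L C where
  ty c := if ℓ ∈ T.ty c then ∅ else T.ty c
  Φ p c := if ℓ ∈ T.ty c then p (.inl c) else T.Φ p c

abbrev Bl (j : L) := {c : C // j ∈ T.ty c}
abbrev CC (j : L) (ρ : Type) := C ⊕ (T.Bl j × ρ)
def p0 (j : L) {ρ : Type} (p : T.CC j ρ ⊕ (L ⊕ ρ) → ℝ) : C ⊕ L → ℝ
  | .inl c => p (.inl (.inl c))
  | .inr ℓ => p (.inr (.inl ℓ))
def px (j : L) {ρ : Type} (pt : ρ → Bool) (x : ρ) (p : T.CC j ρ ⊕ (L ⊕ ρ) → ℝ) : C ⊕ L → ℝ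
  | .inl c => if h : j ∈ T.ty c then p (.inl (.inr (⟨c, h⟩, x))) else p (.inl (.inl c))
  | .inr ℓ => if ℓ = j then (if pt x then p (.inr (.inr x)) else 0) else p (.inr (.inl ℓ))
/-- add clones `x : ρ` of the letter `j` (points or directions, width `2^-(a x)`) -/
def cl (j : L) {ρ : Type} [DecidableEq ρ] (pt : ρ → Bool) (a : ρ → ℕ) : TT (L ⊕ ρ) (T.CC j ρ) where
  ty := Sum.elim (fun c => (T.ty c).image Sum.inl)
    fun cx => insert (Sum.inr cx.2) (((T.ty cx.1.1).erase j).image Sum.inl)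
  Φ p := Sum.elim (fun c => T.Φ (T.p0 j p) c) fun cx => 2 ^ a cx.2 * T.Φ (T.px j pt cx.2 p) cx.1.1
/-- integer combination of the clones in block `j` -/
def pos (j : L) {ρ : Type} [Fintype ρ] (pt : ρ → Bool) (α0 : ℤ) (α : ρ → ℤ)
    (p : T.CC j ρ ⊕ (L ⊕ ρ) → ℝ) : C ⊕ L → ℝ :=
  fun v => if j ∈ T.tv v then α0 * T.p0 j p v + ∑ x, α x * T.px j pt x p v else T.p0 j p v
def posZ (j : L) {ρ : Type} [Fintype ρ] (α0 : ℤ) (α : ρ → ℤ) (w : T.CC j ρ → ℤ) : C → ℤ :=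
  fun c => if h : j ∈ T.ty c then α0 * w (.inl c) + ∑ x, α x * w (.inr (⟨c, h⟩, x)) else w (.inl c)
def gl (j : L) {ρ : Type} (y0 : C → ℤ) (y : ρ → C → ℤ) : T.CC j ρ → ℤ :=
  Sum.elim y0 fun cx => y cx.2 cx.1.1
def upA (A : Finset L) (ρ : Type) [Fintype ρ] [DecidableEq ρ] : Finset (L ⊕ ρ) :=
  A.image Sum.inl ∪ univ.image Sum.inr

abbrev CR (j : L) := C ⊕ T.Bl j
def up (j : L) (p : T.CR j ⊕ L → ℝ) : C ⊕ L → ℝ
  | .inl c => p (.inl (.inl c))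
  | .inr ℓ => if ℓ = j then 0 else p (.inr ℓ)
/-- the centre (`ι₀`) -/
def dn (j : L) (z : C → ℤ) (p : T.CR j ⊕ L → ℝ) : C ⊕ L → ℝ
  | .inl c => if h : j ∈ T.ty c then (if T.ty c = {j} then z c else p (.inl (.inr ⟨c, h⟩)))
      else p (.inl (.inl c))
  | .inr ℓ => if ℓ = j then 1 else p (.inr ℓ)
/-- recentre `j = centre + q j''`: `j''` has width `2^-a`, the pure words of the centre are `z`,
its mixed words become tangent words -/
def rc (j : L) (a : ℕ) (z : C → ℤ) : TT L (T.CR j) where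
  ty := Sum.elim T.ty fun c => (T.ty c.1).erase j
  Φ p := Sum.elim (fun c => (if j ∈ T.ty c then 2 ^ a else 1) * T.Φ (T.up j p) c)
    fun c => if T.ty c.1 = {j} then p (.inl (.inr c)) else T.Φ (T.dn j z p) c.1
def rci (j : L) (q : ℕ) (z : C → ℤ) (p : T.CR j ⊕ L → ℝ) : C ⊕ L → ℝ
  | .inl c => if j ∈ T.ty c then p (.inr j) * T.dn j z p (.inl c) + q * p (.inl (.inl c))
      else p (.inl (.inl c))
  | .inr ℓ => p (.inr ℓ)

def fg {N : Type} (p : (C ⊕ N) ⊕ L → ℝ) : C ⊕ L → ℝ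
  | .inl c => p (.inl (.inl c))
  | .inr ℓ => p (.inr ℓ)
/-- new words on top -/
def ext {N : Type} [Fintype N] (tn : N → Finset L) (A : Matrix N N ℝ) (Θ : N → Fm L C) :
    TT L (C ⊕ N) where
  ty := Sum.elim T.ty tn
  Φ p := Sum.elim (T.Φ (fg p)) fun n => ∑ n', A n n' * p (.inl (.inr n')) - Θ n (fg p)

def SM (b : ℕ) : Prop := ∀ ℓ, T.pr {y | ¬ T.UQ univ {ℓ} y (2 ^ b)} ≤ (1 / 2) ^ b ∧
  (T.del ℓ).pr {y | ¬ T.UQ univ {ℓ} y (2 ^ b)} ≤ (1 / 2) ^ b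
end TT
end

/-- semantic regularity: smooth fibres off `2^-b`, closed `g` times under clone / delete /
recentre (for most centres) -/
def Good (b : ℕ) : (g : ℕ) → (L C : Type) → [Fintype L] → [DecidableEq L] → [Fintype C] →
    [DecidableEq C] → TT L C → Prop
  | 0, _, _, _, _, _, _, T => T.Ok ∧ T.SM b
  | g + 1, L, C, _, _, _, _, T => T.Ok ∧ T.SM b ∧
      (∀ (j : L) (r : ℕ) (pt : Fin r → Bool) (a : Fin r → ℕ), r ≤ 8 → (∀ x, a x ≤ b) →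
        Good b g (L ⊕ Fin r) (T.CC j (Fin r)) (T.cl j pt a)) ∧
      (∀ ℓ, Good b g L C (T.del ℓ)) ∧
      ∀ (j : L) (a : ℕ), a ≤ b → T.pr {z | ¬ Good b g L (T.CR j) (T.rc j a z)} ≤ (1 / 2) ^ b

section
variable {L : Type} [Fintype L] [DecidableEq L]
/-- refinements: `k` operations with parameters of size `≤ s`; `ι` maps points of `T'` to `T` -/
inductive Ref (s : ℕ) {C : Type} [Fintype C] [DecidableEq C] (T : TT L C) :
    ℕ → (C' : Type) → [Fintype C'] → [DecidableEq C'] → TT L C' →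
      ((C' ⊕ L → ℝ) → (C ⊕ L → ℝ)) → Prop
  | refl : Ref s T 0 C T id
  | rc {k : ℕ} {C' : Type} [Fintype C'] [DecidableEq C'] {T' : TT L C'} {ι} (h : Ref s T k C' T' ι)
      (j : L) (a q : ℕ) (z : C' → ℤ) (hq : 1 ≤ q) (hqa : q ≤ 2 ^ a) (ha : a ≤ s) :
      Ref s T (k + 1) (T'.CR j) (T'.rc j a z) (ι ∘ T'.rci j q z)

variable {C : Type} [Fintype C] [DecidableEq C]
abbrev G (b : ℕ) (T : TT L C) : Prop := Good b b L C T
def Ov {C' : Type} (ι : (C' ⊕ L → ℝ) → (C ⊕ L → ℝ)) (H' : Set (C' → ℤ)) (H : Set (C → ℤ)) : Prop :=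
  ∀ y' ∈ H', ∃ y ∈ H, ι (TT.cf y') = TT.cf y
/-- size convention: tower of size `n`, `H` of density `2^-n` -/
def Sz (n : ℕ) (T : TT L C) (H : Set (C → ℤ)) : Prop :=
  2 ≤ n ∧ Fintype.card C ≤ 2 ^ n ∧ (1 / 2 : ℝ) ^ n ≤ T.pr H
/-- output package: a refinement `T'` of cost `s`, size `n' ∈ [n,s]`, good at level `n'^K'`,
a dense `H'` over `H`, with property `P` -/
def Nx (s K' n : ℕ) (T : TT L C) (H : Set (C → ℤ))
    (P : (C' : Type) → [Fintype C'] → [DecidableEq C'] → TT L C' →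
      ((C' ⊕ L → ℝ) → (C ⊕ L → ℝ)) → Set (C' → ℤ) → ℕ → Prop) : Prop :=
  ∃ (C' : Type) (_ : Fintype C') (_ : DecidableEq C') (T' : TT L C') (ι : _) (H' : Set (C' → ℤ))
    (n' k : ℕ), n ≤ n' ∧ n' ≤ s ∧ k ≤ n' ∧ Ref s T k C' T' ι ∧ G (n' ^ K') T' ∧ Sz n' T' H' ∧
      Ov ι H' H ∧ P C' T' ι H' n'

namespace TT
variable (T : TT L C)
/-- additive quadruple on a `j`-line (only the words inside `A` that miss `M` are seen) -/
def Quad (A M : Finset L) (j : L) (y1 y2 y3 y4 : C → ℤ) : Prop :=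
  ∀ c, T.ty c ⊆ A → (T.ty c).Nonempty → Disjoint (T.ty c) M →
    if j ∈ T.ty c then y1 c + y4 c = y2 c + y3 c else y1 c = y2 c ∧ y1 c = y3 c ∧ y1 c = y4 c
/-- the quadruple `(y1,y2,y3,y2+y3-y1)` is respected on the joint shape -/
def Resp (A M : Finset L) (j : L) (y1 y2 y3 : C → ℤ) (q : ℕ) (B : ℝ) (F : Fin 4 → Fm L C) : Prop :=
  (T.cl j (fun _ : Fin 2 => true) fun _ => 0).Rel (upA A (Fin 2)) (M.image Sum.inl)
    (T.gl j y1 ![y2, y3]) q B fun p =>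
      F 0 (T.pos j (fun _ => true) 1 ![0, 0] p) - F 1 (T.pos j (fun _ => true) 0 ![1, 0] p) -
        F 2 (T.pos j (fun _ => true) 0 ![0, 1] p) + F 3 (T.pos j (fun _ => true) (-1) ![1, 1] p)
def Frei {D : Type} (A M : Finset L) (j : L) (H : Set (C → ℤ)) (q : ℕ) (B : ℝ) (F : D → Fm L C) :
    Prop := ∀ y1 ∈ H, ∀ y2 ∈ H, ∀ y3 ∈ H, ∀ y4 ∈ H, T.Quad A M j y1 y2 y3 y4 →
      ∀ d, T.Resp A M j y1 y2 y3 q B fun _ => F d
/-- rectangle shape `x + s_α + t_β` -/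
abbrev rect (j : L) (a1 a2 : ℕ) := T.cl j (fun _ : Fin 4 => false) ![a1, a1, a2, a2]
def cor (j : L) (i : Fin 4) (w : T.CC j (Fin 4) → ℤ) : C → ℤ :=
  T.posZ j 1 (![![1, 0, 1, 0], ![1, 0, 0, 1], ![0, 1, 1, 0], ![0, 1, 0, 1]] i) w
/-- mass of the respected rectangles with all corners in `H` -/
def RM {D : Type} (A M : Finset L) (j : L) (H : Set (C → ℤ)) (q : ℕ) (B : ℝ)
    (F : Fin 4 → D → Fm L C) (a1 a2 : ℕ) : ℝ :=
  (T.rect j a1 a2).pr {w | (∀ i, T.cor j i w ∈ H) ∧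
    ∀ d, T.Resp A M j (T.cor j 0 w) (T.cor j 1 w) (T.cor j 2 w) q B fun l => F l d}
/-- representation along the letter `i` with brackets `γ` -/
def Rep {D E : Type} [Fintype E] (A M : Finset L) (i : L) (H : Set (C → ℤ)) (q : ℕ) (B : ℝ)
    (F : D → Fm L C) (γ : E → Fm L C) (X : D → Fm L C) (Λ : D → E → Fm L C) : Prop :=
  (∀ e, T.Dat (A \ M) {i} (γ e)) ∧ (∀ d, T.Dat A (insert i M) (X d)) ∧
    (∀ d e, T.Dat (A.erase i) M (Λ d e)) ∧ ∀ y ∈ H, (∀ e, |γ e (cf y) - round (γ e (cf y))| ≤ 1 / 8) ∧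
      ∀ d, T.Rel A M y q B fun p => F d p - X d p - ∑ e, round (γ e (cf y)) * Λ d e p
end TT

/-- new words as FUNCTIONS (note 589): `ω n ≈ Θ n` (DAG over the old words, rank `rk`) -/
structure Wd (L C N : Type) where
  tn : N → Finset L
  rk : N → ℕ
  Θ : N → Fm L (C ⊕ N)
  ω : N → (C ⊕ L → ℝ) → ℤ
namespace Wd
variable {N : Type} (W : Wd L C N)
def lf (p : C ⊕ L → ℝ) : (C ⊕ N) ⊕ L → ℝ
  | .inl (.inl c) => p (.inl c)
  | .inl (.inr n) => W.ω n p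
  | .inr ℓ => p (.inr ℓ)
/-- the extended coordinate system (only its types matter inside this block) -/
def xt (T : TT L C) : TT L (C ⊕ N) where
  ty := Sum.elim T.ty W.tn
  Φ p := Sum.elim (T.Φ (TT.fg p)) fun n => p (.inl (.inr n)) - W.Θ n p
def Ok (T : TT L C) (Z : Finset L) : Prop := ∀ n, (W.tn n).Nonempty ∧ W.tn n ⊆ Z ∧
  (W.xt T).Dat (W.tn n) (W.tn n) (W.Θ n) ∧ T.Ty (W.tn n) (fun p => (W.ω n p : ℝ)) ∧
  ∀ p p' : (C ⊕ N) ⊕ L → ℝ, (∀ c, p (.inl (.inl c)) = p' (.inl (.inl c))) →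
    (∀ ℓ, p (.inr ℓ) = p' (.inr ℓ)) →
    (∀ n', W.rk n' < W.rk n → p (.inl (.inr n')) = p' (.inl (.inr n'))) → W.Θ n p = W.Θ n p'
def Cell (H : Set (C → ℤ)) : Prop :=
  ∀ y ∈ H, ∀ n, |W.Θ n (W.lf (TT.cf y)) - W.ω n (TT.cf y)| ≤ 1 / 10
end Wd
/-- conclusion of RMH on `T`: the datum is a typed multi-affine form in old and new words -/
def Mh {D : Type} (T : TT L C) (Z M : Finset L) (H : Set (C → ℤ)) (n : ℕ) (F : D → Fm L C) : Prop :=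
  ∃ (N : Type) (_ : Fintype N) (_ : DecidableEq N) (W : Wd L C N) (q : ℕ) (Γ : D → Fm L (C ⊕ N)),
    Fintype.card N ≤ n ∧ W.Ok T Z ∧ W.Cell H ∧ 1 ≤ q ∧ q ≤ 2 ^ n ∧
    (∀ d, (W.xt T).Dat (Z ∪ M) (Z ∪ M) (Γ d)) ∧
    ∀ y ∈ H, ∀ d, T.Rel (Z ∪ M) M y q (2 ^ n) fun p => F d p - Γ d (W.lf p)
end
end Crest.Agent.N49.Rm
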