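import Crest.Agent.N49.Rm.Lc

/-! Row 49, block RMH (helper11): relations on a clone shape typed in old letters descend. -/

set_option autoImplicit false
set_option linter.unusedSectionVars false
noncomputable section
namespace Crest.Agent.N49.Rm.TT
open Finset

variable {L C : Type} [Fintype L] [DecidableEq L] [Fintype C] [DecidableEq C] {T : TT L C}
  {j : L} {ρ : Type} [Fintype ρ] [DecidableEq ρ] {pt : ρ → Bool} {a : ρ → ℕ} {A M : Finset L}

open Classical in
/-- lift of a point of `T` to the clone shape over the configuration `w` -/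
def lft (T : TT L C) (j : L) (A M : Finset L) (w : T.CC j ρ → ℤ) (p : C ⊕ L → ℝ) :
    T.CC j ρ ⊕ (L ⊕ ρ) → ℝ
  | .inl (.inl c) => if T.ty c ⊆ A ∧ (T.ty c).Nonempty then p (.inl c) else w (.inl c)
  | .inl (.inr cx) => w (.inr cx)
  | .inr (.inl ℓ) => if ℓ ∈ A then p (.inr ℓ) else if ℓ ∈ M then 0 else 1
  | .inr (.inr _) => 1

theorem lft_congr {w : T.CC j ρ → ℤ} {p p' : C ⊕ L → ℝ} {v : T.CC j ρ ⊕ (L ⊕ ρ)}
    (e : ∀ u, T.tv u ⊆ A → (T.tv u).Nonempty → (T.cl j pt a).tv v = (T.tv u).image Sum.inl →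
      p u = p' u) : T.lft j A M w p v = T.lft j A M w p' v := by
  rcases v with (c | c) | (ℓ | x)
  · simp only [lft]
    split_ifs with h
    exacts [e (.inl c) h.1 h.2 rfl, rfl]
  · rfl
  · simp only [lft]
    split_ifs with h
    exacts [e (.inr ℓ) (by simpa using h) (by simp) (by simp), rfl, rfl]
  · rfl

theorem p0_lft {w : T.CC j ρ → ℤ} {p : C ⊕ L → ℝ} {u : C ⊕ L} (h : T.tv u ⊆ A)
    (n : (T.tv u).Nonempty) : T.p0 j (T.lft j A M w p) u = p u := by
  cases u with
  | inl c => exact if_pos ⟨h, n⟩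
  | inr ℓ => exact if_pos (by simpa using h)

theorem tv_cl_sub {v : T.CC j ρ ⊕ (L ⊕ ρ)} (h : (T.cl j pt a).tv v ⊆ A.image Sum.inl) :
    ∃ u, (T.cl j pt a).tv v = (T.tv u).image Sum.inl ∧ T.tv u ⊆ A ∧
      ∀ p, p v = T.p0 j p u := by
  rcases v with (c | c) | (ℓ | x)
  · exact ⟨.inl c, rfl, (image_subset_image_iff Sum.inl_injective).1 h, fun _ => rfl⟩
  · simpa using h (mem_insert_self _ _)
  · exact ⟨.inr ℓ, by simp, by simpa using h, fun _ => rfl⟩
  · simp at h

theorem Dat.lft {I : Fm (L ⊕ ρ) (T.CC j ρ)} (w : T.CC j ρ → ℤ)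
    (h : (T.cl j pt a).Dat (A.image Sum.inl) (M.image Sum.inl) I) :
    T.Dat A M fun p => I (T.lft j A M w p) := by
  refine ⟨fun p p' e => congrArg I (funext fun v =>
    lft_congr (pt := pt) (a := a) fun u b c _ => e u b c), fun ℓ hl x y p p' e => ?_⟩
  rw [← h.2 (.inl ℓ) (mem_image_of_mem _ hl) x y _ _ fun v hv =>
    lft_congr (pt := pt) (a := a) fun u _ _ d => e u fun k => hv (d ▸ mem_image_of_mem _ k)]
  refine h.1 _ _ fun v hv hn => ?_
  obtain ⟨u, e1, e2, e3⟩ := tv_cl_sub hv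
  have n : (T.tv u).Nonempty := by rwa [e1, image_nonempty] at hn
  have e4 : ∀ p, T.lft j A M w p v = p u := fun p => (e3 _).trans (p0_lft e2 n)
  rw [e4]
  by_cases k : ℓ ∈ T.tv u
  · rw [cmb_in k, cmb_in (e1 ▸ mem_image_of_mem _ k), e4, e4]
  · rw [cmb_out k, cmb_out (by rw [e1]; simpa using k), e4]

theorem lft_fib {w : T.CC j ρ → ℤ} {y : C → ℤ} {p : C ⊕ L → ℝ}
    (e : ∀ c, T.ty c ⊆ A → (T.ty c).Nonempty → Disjoint (T.ty c) M → y c = w (.inl c))
    (hp : p ∈ T.Fib M y) : T.lft j A M w p ∈ (T.cl j pt a).Fib (M.image Sum.inl) w := by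
  refine ⟨fun c hc => ?_, fun ℓ => ?_⟩
  · rcases c with c | c
    · have d : Disjoint (T.ty c) M := (disjoint_image Sum.inl_injective).1 hc
      simp only [lft]
      split_ifs with h
      exacts [by rw [hp.1 c d, e c h.1 h.2 d], rfl]
    · rfl
  · rcases ℓ with ℓ | x
    · simp only [lft, hp.2, ite_self, mem_image, Sum.inl.injEq, exists_eq_right]
    · simp [lft]

/-- a relation on the clone shape that is typed in old letters is a relation on `T` -/
theorem Ok.rel_down (h : T.Ok) {w : T.CC j ρ → ℤ} {y : C → ℤ} {q : ℕ} {B : ℝ} {F : Fm L C}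
    (hF : T.Ty A F)
    (e : ∀ c, T.ty c ⊆ A → (T.ty c).Nonempty → Disjoint (T.ty c) M → y c = w (.inl c))
    (r : (T.cl j pt a).Rel (A.image Sum.inl) (M.image Sum.inl) w q B fun p => F (T.p0 j p)) :
    T.Rel A M y q B F := by
  obtain ⟨I, hI, hS⟩ := r
  refine ⟨fun p => I (T.lft j A M w p), ⟨hI.1.lft w, fun p hp ip => hI.2 _ (lft_fib e hp) ?_⟩,
    fun p hp hc => ?_⟩
  · rintro ((c | c) | (ℓ | x))
    · simp only [lft]
      split_ifs
      exacts [ip _, ⟨_, rfl⟩]
    · exact ⟨_, rfl⟩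
    · simp only [lft]
      split_ifs
      exacts [ip _, ⟨0, by simp⟩, ⟨1, by simp⟩]
    · exact ⟨1, by simp [lft]⟩
  · have := hS _ (lft_fib e hp) fun c b d => by
      rcases c with c | c
      · have b' : T.ty c ⊆ A := (image_subset_image_iff Sum.inl_injective).1 b
        have d' : ¬ Disjoint (T.ty c) M := fun k => d ((disjoint_image Sum.inl_injective).2 k)
        have n : (T.ty c).Nonempty := nonempty_iff_ne_empty.2 fun z => d' (by simp [z])
        have : T.Φ (T.p0 j (T.lft j A M w p)) c = T.Φ p c :=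
          (h.dat c n).1 _ _ fun u x z => p0_lft (x.trans b') z
        exact this ▸ hc c b' d'
      · simpa using b (mem_insert_self _ _)
    have e1 : F (T.p0 j (T.lft j A M w p)) = F p := hF _ _ fun u x z => p0_lft x z
    simpa only [e1] using this

end Crest.Agent.N49.Rm.TT
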