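import Crest.Agent.N49.Rm.Fr1
import Crest.Agent.N49.Rm.Fs
import Crest.Agent.N49.Rm.Trf
import Crest.Agent.N49.Rm.Law
import Crest.Agent.N49.Rm.Lc
import Crest.Agent.N49.Ag.Brk
/-! Row 49, block RMH (helper30): geometry of numbers on one `i`-fibre, for `FRB`. -/
set_option autoImplicit false
set_option linter.unusedSectionVars false
noncomputable section
namespace Crest.Agent.N49.Rm.Fb
open Finset Matrix TT Po MeasureTheory

variable {L C : Type} [Fintype L] [DecidableEq L] [Fintype C] [DecidableEq C] {T : TT L C}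
  {A M : Finset L} {i : L} {F : Fm L C} {y : C → ℤ}

/-- the `i`-free form obtained by fixing the unmixed words of `i` -/
def Y (T : TT L C) (i : L) (M : Finset L) (F : Fm L C) (n : T.Bl i → ℝ) (e : ℝ) : Fm L C :=
  fun p => F (T.mz i M (T.jr i p n e))

theorem Y_dat (hi : i ∉ M) (h : T.Dat A M F) (n : T.Bl i → ℝ) (e : ℝ) :
    T.Dat (A.erase i) M (Y T i M F n e) := by
  have c : ∀ v, i ∈ T.tv v → (fun p => T.mz i M (T.jr i p n e) v) =
      fun _ => T.mz i M (T.jr i 0 n e) v := fun v k => funext fun p => by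
    have := jr_in p 0 n e k
    rcases v with c | ℓ <;> simp only [mz, this]
  have o : ∀ v, i ∉ T.tv v → (fun p => T.mz i M (T.jr i p n e) v) = fun p => p v :=
    fun v k => funext fun p => by rw [mz_off _ _ k, jr_out _ _ _ k]
  refine h.pb (ι := fun p => T.mz i M (T.jr i p n e)) (fun v a b => ?_) fun ℓ m => ⟨ℓ, m, fun v => ?_⟩
  · by_cases k : i ∈ T.tv v
    · rw [c v k]; exact ty_c _
    · rw [o v k]; exact ty_co (subset_erase.2 ⟨a, k⟩) b
  · by_cases k : i ∈ T.tv v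
    · rw [c v k]
      refine ⟨fun x => ?_, fun _ => ind_c _⟩
      rcases v with c | z
      · rw [show T.mz i M (T.jr i 0 n e) (.inl c) = 0 from
          if_pos ⟨k, not_disjoint_iff.2 ⟨ℓ, x, m⟩⟩]
        exact lin_0
      · exact absurd ((mem_singleton.1 k).trans (mem_singleton.1 x).symm ▸ m) hi
    · rw [o v k]; exact ⟨lin_co, ind_co⟩

theorem Y_add (h : T.Dat A (insert i M) F) (n n' : T.Bl i → ℝ) (e e' : ℝ) (p : C ⊕ L → ℝ) :
    Y T i M F (n + n') (e + e') p = Y T i M F n e p + Y T i M F n' e' p := by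
  simpa [Y] using ((h.mz i M).2 i (mem_insert_self _ _)).jr_add p n n' e e' 1 1

theorem Y_fib (hi : i ∉ M) {n : T.Bl i → ℤ} {p : C ⊕ L → ℝ} (h : p ∈ T.Fib M (T.jn i y n)) :
    T.mz i M (T.jr i p (zc n) 1) = T.mz i M p := by
  funext v
  by_cases k : i ∈ T.tv v
  · rcases v with c | ℓ
    · by_cases d : Disjoint (T.ty c) M
      · have k' : i ∈ T.ty c := k
        simp [mz, d, h.1 c d, jr, jn, k', zc]
      · exact (if_pos ⟨k, d⟩).trans (if_pos ⟨k, d⟩).symm
    · obtain rfl : i = ℓ := mem_singleton.1 k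
      simp [mz, jr, h.2, hi]
  · rw [mz_off _ _ k, mz_off _ _ k, jr_out _ _ _ k]

/-- remove the private part and the mixed words -/
theorem loc (hT : T.Ok) (hi : i ∉ M) {X G I : Fm L C} {q : ℕ} {B : ℝ} {n : T.Bl i → ℤ}
    (hG : T.Dat (A.erase i) M G) (hI : T.IntF A M (T.jn i y n) I)
    (hS : T.Sm A M (T.jn i y n) B fun p => X p + G p - I p / q)
    (hF : T.Dat A M fun p => X p - T.Jf i M (T.jn i y n) I p / q) :
    T.Rel (A.erase i) M y q B fun p => Y T i M
      (T.Pj (Mx i M) fun p => X p - T.Jf i M (T.jn i y n) I p / q) (zc n) 1 p + G p := by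
  have u0 := not_mx_empty i M
  have kD : T.Dat (A.erase i) M fun p => I (T.mv M (T.jn i y n) (T.mz i M p)) := by
    have := Y_dat hi ((hI.1.mv (T.jn i y n)).mz i M) 0 0
    rwa [show Y T i M (fun p => I (T.mv M (T.jn i y n) (T.mz i M p))) 0 0 = _ from
      funext fun p => congrArg I (mv_mz (p' := p) fun v k => by
        rw [mz_off _ _ k, jr_out p 0 0 k])] at this
  refine Agr.rel (y := T.jn i y n) (fun c a _ _ => jn_out _ _ (subset_erase.1 a).2) hT
    ((Y_dat hi (hT.pj_dat u0 hF) _ _).add hG).1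
    ⟨_, ⟨kD, fun p _ k => hI.2 _ (mv_fib _) (mv_int (mz_int k))⟩, fun p a b => ?_⟩
  have := hT.pj_sm u0 (fun S s => s.2) (fun S S' s e => ⟨e s.1, fun d => s.2 (d.mono_left e)⟩)
    (F := fun p => X p - T.Jf i M (T.jn i y n) I p / q +
      (G p - I (T.mv M (T.jn i y n) (T.mz i M p)) / q))
    (hS.congr fun p a => by simp only [Jf, mv_self a]; ring) a
    fun c s d k => b c (subset_erase.2 ⟨s, fun m => k ⟨m, d⟩⟩) d
  have e1 := (hG.sub (kD.div q)).1 (T.sol (Mx i M) p) p fun v s _ =>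
    sol_off p fun c e k => (subset_erase.1 s).2 (e ▸ k.1)
  have e2 := hT.pj_fr u0 (fun p => X p - T.Jf i M (T.jn i y n) I p / q) (T.mz i M p) p fun v k => by
    rcases v with c | ℓ
    exacts [if_neg (k c rfl), rfl]
  simp only [Pj] at this e1 e2
  simp only [Y, Y_fib hi a, Pj, e2, add_sub_assoc]
  rwa [e1] at this

theorem p2 {a b : ℕ} (h : a ≤ b) : (2 : ℝ) ^ a ≤ 2 ^ b := pow_le_pow_right₀ one_le_two h

theorem alg (hT : T.Ok) (hi : i ∉ M) {D E : Type} [Fintype D] [Fintype E] {γ : E → Fm L C}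
    (hγ : ∀ e, T.Lin i (γ e)) {F : D → Fm L C} (hF : ∀ d, T.Dat A (insert i M) (F d))
    {Λ : D → E → Fm L C} (hΛ : ∀ d e, T.Dat (A.erase i) M (Λ d e)) {n q a b : ℕ} (hn : 2 ≤ n)
    (hC : Fintype.card C ≤ 2 ^ n) (hE : Fintype.card E ≤ n) (q1 : 1 ≤ q) (q2 : q ≤ 2 ^ n)
    (ha : a ≤ 8 * n + 56) (hb : 200 * n ^ 2 ≤ b) (u1 : T.UQ univ M y (2 ^ b))
    (u2 : T.UQ univ {i} y (2 ^ b)) (β : T.Bl i → ℤ)
    (hS : (1 / 2 : ℝ) ^ (4 * n + 12) ≤ (gm ((4 : ℝ) ^ a • T.Mm i y) 0).real {u | ∃ w : E → ℤ,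
      (∀ e, |γ e (cf (T.jn i y (β + u))) - w e| ≤ 1 / 8) ∧ ∀ d, T.Rel (A.erase i) M y q (2 ^ n)
        fun p => Y T i M (F d) (zc (β + u)) 1 p + ∑ e, w e * Λ d e p}) :
    ∃ (r : ℕ) (κ : Matrix (Fin r) E ℤ) (q' : ℕ), r ≤ Fintype.card E ∧
      (∀ a e, |κ a e| ≤ 2 ^ (100 * n)) ∧ 1 ≤ q' ∧ q' ≤ 2 ^ (100 * n) ∧
      T.VR univ {i} y 1 (100 * n) (lc κ γ) ∧ ∃ s : D → Fin r → Fm L C,
        (∀ d a, T.Dat (A.erase i) M (s d a)) ∧
          ∀ d, T.VR (A.erase i) M y q' (100 * n) fun e p => Λ d e p - ∑ a, κ a e * s d a p := by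
  classical
  have hY := fun d n e => Y_dat hi ((hF d).mono Subset.rfl (subset_insert _ _)) n e
  let mf := hT.mf (A.erase i) M y
  let yf : (T.Bl i → ℝ) → ℝ → D → FV hT (A.erase i) M y := fun n e d => mf ⟨_, hY d n e⟩
  have ya : ∀ n n' e e', yf (n + n') (e + e') = yf n e + yf n' e' := fun n n' e e' =>
    funext fun d => (congrArg mf (Subtype.ext (funext (Y_add (hF d) n n' e e')))).trans
      (map_add mf ⟨_, hY d n e⟩ ⟨_, hY d n' e'⟩)
  let ξ : (T.Bl i → ℤ) →+ (D → FV hT (A.erase i) M y) :=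
    .mk' (fun u => yf (zc u) 0) fun u u' => by rw [zc_add, ← ya, add_zero]
  let t : (E → ℤ) →+ (D → FV hT (A.erase i) M y) :=
    .mk' (fun w d => ∑ e, (w e : ℝ) • mf ⟨_, hΛ d e⟩) fun w w' => by
      funext d; simp [add_smul, sum_add_distrib]
  let g : Matrix E (T.Bl i) ℝ := .of fun e c => γ e (T.jr i (cf y) (Pi.single c 1) 0)
  have hg : ∀ e n, γ e (T.jr i (cf y) n 0) = (g *ᵥ n) e := fun e n => by
    rw [(hγ e).expand]; simp [g, mulVec, dotProduct]
  have hQ : ((4 : ℝ) ^ a • T.Mm i y).PosDef := (hT.Mm_pd i y).smul (by positivity)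
  have hB : (Fintype.card (T.Bl i) : ℝ) ≤ 2 ^ n := by
    exact_mod_cast (Fintype.card_subtype_le _).trans hC
  have hE1 : (Fintype.card E : ℝ) + 1 ≤ 2 ^ n := by
    exact_mod_cast Nat.succ_le_of_lt (hE.trans_lt Nat.lt_two_pow_self)
  have q0 : (0 : ℝ) < q := by positivity
  have q3 : (q : ℝ) ≤ 2 ^ n := by exact_mod_cast q2
  have x1 : (4 : ℝ) ≤ 2 ^ n := le_of_eq_of_le (by norm_num) (p2 hn)
  have pm := gm_prob hQ 0
  obtain ⟨r, K0, K1, hr, k0, k1, q', q1', q2', I0, I1, E', -, hI1, hbd⟩ := Ag.ags hQ 0 g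
    (fun e => γ e (T.jr i (cf y) (zc β) 1)) (To.Sz.norm _) (hT.ZD (A.erase i) M y D q)
    (s0 := 2 ^ b / q) (fun v m c k e => hT.zd_sep (u1.monoA (subset_univ _)) q1 v m (lt_of_le_of_lt e k))
    (yf (zc β) 1) ξ t (δ := (1 / 2) ^ (4 * n + 12)) (δ' := (1 / 2) ^ (10 * n + 12)) (ε := 2 ^ n)
    (T := (2 ^ (33 * n + 53)) ^ 2) (X := 2 ^ (34 * n + 53)) (by positivity) (by positivity)
    (by positivity) (by
      rw [le_div_iff₀ (by positivity)]
      calc _ ≤ (1 / 2 : ℝ) ^ (10 * n + 12) * 64 ^ n := by gcongr; norm_num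
        _ = _ := by
          rw [show (64 : ℝ) = 2 ^ 6 by norm_num, ← pow_mul, one_div, inv_pow, inv_pow]
          field_simp; ring)
    (hS.trans (measureReal_mono fun u ⟨w, w1, w2⟩ => ⟨w, fun e => by
      have := (hγ e).jr_add (cf y) (zc β) (zc u) 1 0 1 1
      simp only [one_smul, mul_one, mul_zero, add_zero, one_mul, hg] at this
      have h := w1 e
      rw [cf_jn, zc_add, this, abs_le] at h
      rw [abs_le]; constructor <;> linarith [h.1, h.2], by
      have := (hT.nr_fam (A.erase i) M y q (by positivity) fun d => ⟨_, (hY d (zc (β + u)) 1).add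
        (Dat.sum univ fun e _ => (hΛ d e).smul (w e))⟩).2 w2
      rwa [show (fun d => _) = yf (zc β) 1 + ξ u + t w from funext fun d => ?_] at this
      have e := congrFun (ya (zc β) (zc u) 1 0) d
      rw [← zc_add, add_zero] at e
      change _ = (yf (zc β) 1 + yf (zc u) 0) d + ∑ e, (w e : ℝ) • mf ⟨_, hΛ d e⟩
      simp only [← e, yf, ← map_smul, ← map_sum, ← map_add]
      exact congrArg mf (Subtype.ext (funext fun p => by simp))⟩))
    (by
      rw [Real.sqrt_sq (by positivity), one_div, inv_pow, inv_pow, ← one_div, ← mul_div_assoc,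
        div_le_div_iff₀ (by positivity) (by positivity)]
      calc _ ≤ 2 ^ 7 * (2 ^ 4 * (4 * (2 : ℝ) ^ n) ^ 3) * (2 ^ (10 * n + 12)) ^ 3 := by
            gcongr <;> linarith
        _ = _ := by ring)
    (by
      rw [one_div, inv_pow, inv_pow, ← div_eq_mul_inv, div_div, lt_div_iff₀ (by positivity)]
      calc _ < 2 ^ 9 * 2 ^ n * (2 ^ n * ((2 : ℝ) ^ (10 * n + 12)) ^ 3) := by
            refine mul_lt_mul (by gcongr; norm_num) (by gcongr) (by positivity) (by positivity)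
        _ = 2 ^ (32 * n + 45) := by ring
        _ ≤ _ := p2 (by nlinarith))
    (one_le_pow₀ one_le_two) (by
      calc _ ≤ ((2 : ℝ) ^ n * 2 ^ n) * (2 ^ (33 * n + 53)) ^ 2 := by gcongr; nlinarith
        _ = _ := by ring)
    fun m m0 => lt_of_lt_of_le (by
      calc _ ≤ ((2 : ℝ) ^ n * (2 ^ n * 2 ^ (34 * n + 53)) ^ n) ^ 2 * (2 ^ (34 * n + 53)) ^ 2 := by
            have : (1 : ℝ) ≤ 2 ^ n * 2 ^ (34 * n + 53) := by rw [← pow_add]; exact one_le_pow₀ one_le_two
            gcongr ?_ ^ 2 * _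
            exact mul_le_mul hE1 ((pow_le_pow_left₀ (by positivity) (by gcongr) _).trans
              (pow_le_pow_right₀ this hE)) (by positivity) (by positivity)
        _ = 2 ^ (70 * n ^ 2 + 176 * n + 106) := by
            simp only [← pow_mul, ← pow_add]; congr 1; ring
        _ < _ := pow_lt_pow_right₀ one_lt_two (Nat.lt_succ_self _))
      (hT.dual_ge u2 hC hQ (s := a) (fun x => (qf_smul _ _ _).le) (by nlinarith) m0)
  refine ⟨r, K1, q * q', hr, fun a e => ?_, Nat.mul_pos q1 q1', ?_, fun x => ?_,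
    fun d a p => (hT.sec _ _ _ (E' (Pi.single a 1) d)).1 p / q',
    fun d a => (hT.sec _ _ _ (E' (Pi.single a 1) d)).2.div _, fun d => VR.of_nmul (fun e => ?_) q1'⟩
  · exact_mod_cast (k1 a e).trans (p2 (show _ ≤ 100 * n by omega))
  · have : ((q * q' : ℕ) : ℝ) ≤ 2 ^ (100 * n) := by
      rw [one_div, inv_pow, div_inv_eq_mul] at q2'
      calc _ ≤ (2 : ℝ) ^ n * (4 * 2 ^ (10 * n + 12)) := by
            rw [Nat.cast_mul]; gcongr; linarith [show (0 : ℝ) < 2 ^ (10 * n + 12) by positivity]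
        _ = 2 ^ (11 * n + 14) := by ring
        _ ≤ _ := p2 (by omega)
    exact_mod_cast this
  · refine ⟨fun p => -∑ c : T.Bl i, (K0 x c : ℝ) * p (.inl c.1), (IntF.sum univ fun (c : T.Bl i) _ =>
      IntF.zsmul ⟨Dat.coord (v := .inl c.1) (subset_univ _) ⟨i, c.2⟩ (singleton_subset_iff.2 c.2),
        fun p _ k => k _⟩ _).neg, fun p m k => ?_⟩
    have e := eq_jr_of_fib m
    generalize (fun c : T.Bl i => p (.inl c.1)) = v at e
    subst e
    have s := hT.sum_sq i y v 0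
    have s' : ∑ c : T.Bl i, T.Φ (T.jr i (cf y) v 0) c.1 ^ 2 ≤ 2 ^ n := le_trans (by
      simpa using sum_le_card_nsmul univ _ 1 fun (c : T.Bl i) _ => (sq_le_one_iff_abs_le_one _).2
        (k c.1 (subset_univ _) (by simpa using c.2))) hB
    have z := dual_sq_le hQ v (zc (K0 x) + zc (K1 x) ᵥ* g)
    rw [qf_smul, add_dotProduct, ← dotProduct_mulVec] at z
    rw [zero_smul, sub_zero] at s
    simp only [lc, hg, jr_inl, Nat.cast_one, div_one, sub_neg_eq_add]
    refine abs_le_of_sq_le_sq ?_ (by positivity)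
    rw [add_comm]
    refine le_trans z ?_
    calc _ ≤ ((2 : ℝ) ^ (34 * n + 53)) ^ 2 * (4 ^ (8 * n + 56) * 2 ^ n) := by
          rw [← s]
          exact mul_le_mul (k0 x) (by gcongr; norm_num) (by positivity) (by positivity)
      _ = 2 ^ (85 * n + 218) := by
          rw [show (4 : ℝ) = 2 ^ 2 by norm_num]; simp only [← pow_mul, ← pow_add]; congr 1; ring
      _ ≤ 2 ^ (100 * n * 2) := p2 (by omega)
      _ = _ := pow_mul _ _ _
  · have q0' : (q' : ℝ) ≠ 0 := by positivity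
    have z := (norm_le_pi_norm _ d).trans (hbd 0 (Pi.single e 1))
    refine (hT.nr_mf (A.erase i) M y q _ ⟨_, ((hΛ d e).sub (Dat.sum univ fun a _ =>
      ((hT.sec _ _ _ (E' (Pi.single a 1) d)).2.div q').smul (K1 a e))).smul q'⟩).1
      ⟨_, hI1 (Pi.single e 1) d trivial, le_of_eq_of_le (congrArg _ ?_) (z.trans ?_)⟩
    · have e1 : E' (K1 *ᵥ Pi.single e 1) = ∑ a, (K1 a e : ℝ) • E' (Pi.single a 1) := by
        conv_lhs => rw [← univ_sum_single (K1 *ᵥ Pi.single e 1), map_sum]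
        refine sum_congr rfl fun a _ => ?_
        rw [Int.cast_smul_eq_zsmul, ← map_zsmul, ← Pi.single_smul]; simp
      have e2 : t (Pi.single e 1) d = mf ⟨_, hΛ d e⟩ := by
        simp [t, Pi.single_apply, ite_smul]
      simp only [map_zero, mulVec_zero, zero_add, sub_zero, Pi.sub_apply, Pi.smul_apply, e1, e2,
        Finset.sum_apply]
      rw [sub_right_comm]
      congr 1
      rw [show ∑ a, (K1 a e : ℝ) • E' (Pi.single a 1) d =
        mf (∑ a, (K1 a e : ℝ) • hT.sec _ _ _ (E' (Pi.single a 1) d)) by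
          simp only [mf, map_sum, map_smul, hT.mf_sec], ← map_smul, ← map_sub]
      refine congrArg _ (Subtype.ext (funext fun p => ?_))
      simp [mul_sub, mul_sum]
      exact sum_congr rfl fun a _ => by field_simp
    · have : ∑ j, (((Pi.single e 1 : E → ℤ) j : ℝ)) ^ 2 = 1 := by simp [Pi.single_apply]
      simp only [zc_zero, mulVec_zero, Pi.zero_apply, sub_zero, this, qf, dotProduct_zero, zero_add,
        Real.sqrt_one, mul_one, one_div, inv_pow, div_inv_eq_mul]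
      calc _ ≤ 2 ^ 12 * 2 ^ n * ((2 : ℝ) ^ (10 * n + 12)) ^ 3 := by gcongr; norm_num
        _ = 2 ^ (31 * n + 48) := by ring
        _ ≤ _ := p2 (by omega)

end Crest.Agent.N49.Rm.Fb
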