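import Crest.Agent.N49.Rm.Fb1
/-! Row 49, block RMH (helper30): one good line of rectangles, for `FRB`. -/
set_option autoImplicit false
set_option linter.unusedSectionVars false
noncomputable section
namespace Crest.Agent.N49.Rm.Fb
open Finset Matrix TT Po MeasureTheory

theorem pr_le_prod {Ω X d : Type} [Fintype d] [DecidableEq d] (e : X × (d → ℤ) ≃ Ω) {w : Ω → ℝ}
    (hs : Summable w) {u : X → ℝ} (hu : ∀ x, 0 ≤ u x) {Q : X → Matrix d d ℝ}
    (hQ : ∀ x, (Q x).PosDef) (hw : ∀ x m, w (e (x, m)) = u x * gs (Q x) (zc m - 0)) {E : Set Ω}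
    {δ : ℝ} (k : ∀ x, (gm (Q x) 0).real {m | e (x, m) ∈ E} ≤ δ) :
    ∑' y, E.indicator w y ≤ δ * ∑' y, w y := by
  have s1 : Summable fun z => w (e z) := (e.summable_iff (f := w)).2 hs
  have s2 : Summable fun z => E.indicator w (e z) :=
    (e.summable_iff (f := E.indicator w)).2 (hs.indicator E)
  rw [← e.tsum_eq, ← e.tsum_eq w, s1.tsum_prod, s2.tsum_prod, ← tsum_mul_left]
  refine s2.prod.tsum_le_tsum (fun x => ?_) (s1.prod.mul_left δ)
  have p := th_pos (hQ x) 0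
  have a := k x
  rw [gm_real (hQ x)] at a
  have e1 : ∑' m, w (e (x, m)) = u x * th (Q x) 0 := by simp only [hw, tsum_mul_left]; rfl
  rw [e1, mul_comm δ]
  refine le_of_eq_of_le ?_ (mul_le_mul_of_nonneg_left a (mul_nonneg (hu x) p.le))
  rw [← tsum_mul_left]
  refine tsum_congr fun n => ?_
  by_cases h : e (x, n) ∈ E
  · rw [Set.indicator_of_mem h, Set.indicator_of_mem (by exact h), hw]
    field_simp
  · rw [Set.indicator_of_notMem h, Set.indicator_of_notMem (by exact h), mul_zero]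

variable {L C : Type} [Fintype L] [DecidableEq L] [Fintype C] [DecidableEq C] {T : TT L C}
  {A M : Finset L} {i : L}

theorem pick4 (hT : T.Ok) (a1 a2 : ℕ) {E : Set (T.CC i (Fin 4) → ℤ)} {δ : ℝ}
    (h : δ < (T.rect i a1 a2).pr E) : ∃ (y : C → ℤ) (n : Fin 3 → T.Bl i → ℤ),
      δ < (gm ((4 : ℝ) ^ a1 • T.Mm i y) 0).real {m | T.clE i (Fin 4) (y, Fin.cons m n) ∈ E} := by
  by_contra k
  push Not at k
  have o : (T.rect i a1 a2).Ok := hT.cl i _ _
  refine h.not_ge ((div_le_iff₀ o.Z_pos).2 (pr_le_prod ((Equiv.prodAssoc _ _ _).trans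
    (((Equiv.refl _).prodCongr ((Equiv.prodComm _ _).trans (Fin.consEquiv fun _ => T.Bl i → ℤ))).trans
      (T.clE i (Fin 4)))) o.summable
    (u := fun z => T.wt z.1 * ∏ x : Fin 3, gs (T.cM i ![a1, a1, a2, a2] z.1 x.succ) (zc (z.2 x) - 0))
    (fun z => mul_nonneg (wt_pos _).le (prod_nonneg fun _ _ => (gs_pos _ _).le))
    (fun z => (hT.Mm_pd i z.1).smul (by positivity)) (fun z m => ?_) fun z => k z.1 z.2))
  refine (hT.cl_wt i _ _ z.1 (Fin.cons m z.2)).trans ?_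
  rw [Fin.prod_univ_succ, mul_comm (gs _ _), ← mul_assoc]
  rfl

theorem alt0 (hT : T.Ok) (hi : i ∉ M) {q a1 a2 : ℕ} {B R : ℝ} {w : T.CC i (Fin 4) → ℤ}
    {G K : Fin 4 → Fm L C} (l : ∀ l, ∀ ℓ ∈ M, T.Lin ℓ (G l)) (z : ∀ P, T.alt i G P = 0)
    (h : ∀ l, T.IntF A M (T.cor i l w) (K l))
    (s : ∀ l, T.Sm A M (T.cor i l w) B fun p => G l p - K l p / q)
    (u : (T.rect i a1 a2).UQ (upA A (Fin 4)) (M.image .inl) w R) (hq : 1 ≤ q)
    (e : q * (4 * (3 ^ #M * B)) ≤ R) :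
    ∀ P ∈ (T.rect i a1 a2).Fib (M.image .inl) w, T.alt i K P = 0 := by
  refine u.sm (F := fun _ => 0) (B' := 0) (alt_int hi h) ((alt_sm (a1 := a1) (a2 := a2) hT hi
    (fun x ℓ m => (l x ℓ m).sub (((h x).1.2 ℓ m).div q)) s).congr fun P _ => ?_)
    (Sm.zero le_rfl) hq (by simpa using e)
  have := z P
  simp only [alt] at this ⊢
  linear_combination -this

theorem core (hT : T.Ok) (hi : i ∉ M) {D E : Type} [Fintype D] [Fintype E] {γ : E → Fm L C}
    (hγ : ∀ e, T.Lin i (γ e)) {X : D → Fm L C} (hX : ∀ d, T.Dat A (insert i M) (X d))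
    {Λ : D → E → Fm L C} (hΛ : ∀ d e, T.Dat (A.erase i) M (Λ d e)) {n q a b : ℕ} (hn : 2 ≤ n)
    (hL : Fintype.card L ≤ n) (hC : Fintype.card C ≤ 2 ^ n) (hE : Fintype.card E ≤ n) (q1 : 1 ≤ q)
    (q2 : q ≤ 2 ^ n) (ha : a ≤ 8 * n + 56) (hb : 200 * n ^ 2 ≤ b) {ω : (C → ℤ) → E → ℤ}
    {S : Set (C → ℤ)} (hS : ∀ y ∈ S, ((∀ e, |γ e (cf y) - ω y e| ≤ 1 / 8) ∧
      ∀ d, T.Rel A M y q (2 ^ n) fun p => X d p + ∑ e, ω y e * Λ d e p) ∧
        T.UQ univ M y (2 ^ b) ∧ T.UQ univ {i} y (2 ^ b))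
    (hp : (1 / 2 : ℝ) ^ (4 * n + 12) < (T.rect i a a).pr {w | (∀ l, T.cor i l w ∈ S) ∧
      (T.rect i a a).UQ univ (M.image .inl) w (2 ^ b)}) :
    ∃ y ∈ S, ∃ (r : ℕ) (κ : Matrix (Fin r) E ℤ) (q' : ℕ), r ≤ Fintype.card E ∧
      (∀ a e, |κ a e| ≤ 2 ^ (100 * n)) ∧ 1 ≤ q' ∧ q' ≤ 2 ^ (100 * n) ∧
      T.VR univ {i} y 1 (100 * n) (lc κ γ) ∧ ∃ s : D → Fin r → Fm L C,
        (∀ d a, T.Dat (A.erase i) M (s d a)) ∧
          ∀ d, T.VR (A.erase i) M y q' (100 * n) fun e p => Λ d e p - ∑ a, κ a e * s d a p := by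
  choose! I hI hm using fun y hy d => (hS y hy).1.2 d
  obtain ⟨y, v, hp⟩ := pick4 hT a a hp
  have hG : ∀ y d, T.Dat (A.erase i) M fun p => ∑ e, ω y e * Λ d e p := fun y d =>
    Dat.sum univ fun e _ => (hΛ d e).smul _
  have px : ∀ w, (∀ l, T.cor i l w ∈ S) → (T.rect i a a).UQ univ (M.image .inl) w (2 ^ b) → ∀ d,
      T.Jf i M (T.cor i 2 w) (I (T.cor i 2 w) d) = T.Jf i M (T.cor i 0 w) (I (T.cor i 0 w) d) ∧
        T.Lin i (T.Jf i M (T.cor i 0 w) (I (T.cor i 0 w) d)) := fun w c u d => by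
    have z : ∀ e, (ω (T.cor i 0 w) e : ℝ) - ω (T.cor i 1 w) e - ω (T.cor i 2 w) e +
        ω (T.cor i 3 w) e = 0 := fun e => by
      have h := alt_lin (hγ e) (cf w)
      simp only [alt, fun l => T.pos_cf i (fun _ => false) 1 (cv l) (by simp) w] at h
      have k := fun l => abs_le.1 ((hS _ (c l)).1.1 e)
      have : |ω (T.cor i 0 w) e - ω (T.cor i 1 w) e - ω (T.cor i 2 w) e + ω (T.cor i 3 w) e| < 1 := by
        rw [← Int.cast_lt (R := ℝ)]
        push_cast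
        change γ e (cf (T.cor i 0 w)) - γ e (cf (T.cor i 1 w)) - γ e (cf (T.cor i 2 w)) +
          γ e (cf (T.cor i 3 w)) = 0 at h
        rw [abs_lt]
        constructor <;> linarith [k 0, k 1, k 2, k 3]
      exact_mod_cast Int.abs_lt_one_iff.1 this
    have := pex (K := fun l => I (T.cor i l w) d) hi (hI _ (c 0) d).1.2 (alt0 hT hi
      (G := fun l p => X d p + ∑ e, ω (T.cor i l w) e * Λ d e p)
      (fun l ℓ m => ((hX d).2 ℓ (mem_insert_of_mem m)).add ((hG _ d).2 ℓ m)) (fun P => by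
        have h := alt_lin ((hX d).2 i (mem_insert_self _ _)) P
        have k := sum_eq_zero (s := univ) fun e _ => mul_eq_zero_of_left (z e) (Λ d e (T.p0 i P))
        have j : ∀ e l, Λ d e (T.pos i (fun _ => false) 1 (cv l) P) = Λ d e (T.p0 i P) :=
          fun e l => ((hΛ d e).1.ind (notMem_erase i A)).pos _ _ _ _
        simp only [alt, j] at h ⊢
        simp only [add_mul, sub_mul, sum_add_distrib, sum_sub_distrib] at k
        linarith)
      (fun l => hI _ (c l) d) (fun l => hm _ (c l) d) (u.monoA (subset_univ _)) q1 (by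
        have : (q : ℝ) ≤ 2 ^ n := by exact_mod_cast q2
        calc _ ≤ (2 : ℝ) ^ n * (4 * (4 ^ n * 2 ^ n)) := by
              gcongr
              exact (pow_le_pow_left₀ (by norm_num) (by norm_num) _).trans
                (pow_le_pow_right₀ (by norm_num) ((card_le_univ M).trans hL))
          _ = 2 ^ (4 * n + 2) := by
              rw [show (4 : ℝ) = 2 ^ 2 by norm_num]; simp only [← pow_mul, ← pow_add]; congr 1; ring
          _ ≤ _ := p2 (by nlinarith)))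
    exact ⟨this.1 2, this.2⟩
  have c2 : ∀ m, T.cor i 2 (T.clE i (Fin 4) (y, Fin.cons m v)) =
      T.jn i y (T.bl i y + v 0 + v 1) := fun m => (posZ_clE _ _ _ _).trans (by
    congr 1; simp [Fin.sum_univ_succ, add_assoc])
  have c0 : ∀ m, T.cor i 0 (T.clE i (Fin 4) (y, Fin.cons m v)) =
      T.jn i (T.jn i y (T.bl i y + v 0 + v 1)) (T.bl i y + v 1 + m) := fun m =>
    (posZ_clE _ _ _ _).trans (by rw [jn_jn]; congr 1; simp [Fin.sum_univ_succ]; abel)
  rw [← Mm_jn y (T.bl i y + v 0 + v 1)] at hp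
  generalize T.jn i y (T.bl i y + v 0 + v 1) = x at hp c0 c2
  obtain ⟨m0, k0, k1⟩ := nonempty_of_measureReal_ne_zero
    ((show (0 : ℝ) < _ by positivity).trans hp).ne'
  have xS : x ∈ S := c2 m0 ▸ k0 2
  have hF : ∀ d, T.Dat A (insert i M) fun p => X d p - T.Jf i M x (I x d) p / q := fun d => by
    have := px _ k0 k1 d
    rw [← this.1, c2] at this
    exact (hX d).sub (((hI x xS d).jf this.2 x).1.div q)
  have := gm_prob (M := (4 : ℝ) ^ a • T.Mm i x) ((hT.Mm_pd i x).smul (by positivity)) 0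
  refine ⟨x, xS, alg hT hi hγ (fun d => hT.pj_dat (not_mx_empty i M) (hF d)) hΛ hn hC hE q1 q2 ha hb
    (hS x xS).2.1 (hS x xS).2.2 (T.bl i y + v 1) (hp.le.trans (measureReal_mono fun m ⟨k, k'⟩ => ?_))⟩
  have s := c0 m ▸ k 0
  refine ⟨ω _, (hS _ s).1.1, fun d => ?_⟩
  have e := (px _ k k' d).1
  rw [c2, c0] at e
  have := (hF d).mono Subset.rfl (subset_insert _ _)
  rw [e] at this ⊢
  exact loc hT hi (hG _ d) (hI _ s d) (hm _ s d) this

end Crest.Agent.N49.Rm.Fb
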