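import Crest.Agent.N49.Rm.Kd
import Crest.Agent.N49.Rm.Api
import Crest.Agent.N49.Rm.Op
import Crest.Agent.N49.Rm.Fb

/-! Row 49, block RMH/B (helper95): the mixed part of the integer forms on a rectangle. -/
set_option autoImplicit false
noncomputable section
namespace Crest.Agent.N49.Rm.TT
open Finset

variable {L C : Type} [Fintype L] [DecidableEq L] [Fintype C] [DecidableEq C] {T : TT L C}
  {A M : Finset L} {F I : Fm L C} {y : C → ℤ} {i : L} {p p' : C ⊕ L → ℝ}

/-- forms are continuous along their linear blocks -/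
theorem cont_lin (N : Finset L) (h : ∀ ℓ ∈ N, T.Lin ℓ F) : ∀ g : ℝ → C ⊕ L → ℝ,
    (∀ v, Continuous fun t => g t v) → (∀ v, Disjoint (T.tv v) N → ∀ t, g t v = g 0 v) →
    Continuous fun t => F (g t) := by
  induction N using Finset.induction_on with
  | empty =>
    intro g _ e
    rw [show (fun t => F (g t)) = fun _ => F (g 0) from
      funext fun t => congrArg F (funext fun v => e v (by simp) t)]
    exact continuous_const
  | insert x N n ih =>
    intro g c e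
    have k : ∀ a b, Continuous fun t => F (T.jr x (g t) a b) := fun a b =>
      ih (fun ℓ m => h ℓ (mem_insert_of_mem m)) _ (fun v => by
        by_cases m : x ∈ T.tv v
        · simp only [fun t => jr_in (g t) (g 0) a b m]; exact continuous_const
        · simp only [jr_out _ _ _ m]; exact c v) fun v d t => by
        by_cases m : x ∈ T.tv v
        · exact jr_in _ _ a b m
        · rw [jr_out _ _ _ m, jr_out _ _ _ m]; exact e v (disjoint_insert_right.2 ⟨m, d⟩) t
    rw [show (fun t => F (g t)) = _ from funext fun t => (congrArg F (jr_self x (g t)).symm).trans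
      ((h x (mem_insert_self _ _)).expand _ _ _)]
    exact (continuous_finset_sum _ fun _ _ => (k _ _).mul (c _)).add ((c _).mul (k _ _))

/-- an additive block map of an `M`-form is linear -/
theorem lin_of_add (a : ∀ p p', (∀ v, i ∉ T.tv v → p v = p' v) → F (T.cmb i 1 1 p p') = F p + F p')
    (c : ∀ p, Continuous fun t => F (T.cmb i t 0 p p)) : T.Lin i F := fun s t p p' e => by
  have k : ∀ s p, F (T.cmb i s 0 p p) = s * F p := fun s p => by
    have := map_real_smul (AddMonoidHom.mk' (fun t => F (T.cmb i t 0 p p)) fun s t => by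
      rw [← a _ _ fun v m => by rw [cmb_out m, cmb_out m]]
      exact congrArg F (funext fun v => by
        by_cases m : i ∈ T.tv v <;> simp only [cmb, m, if_true, if_false]
        ring)) (c p) s 1
    simp only [AddMonoidHom.mk'_apply, smul_eq_mul, mul_one] at this
    rw [this]
    congr 2
    funext v
    by_cases m : i ∈ T.tv v <;> simp [cmb, m]
  rw [← k, ← k, ← a _ _ fun v m => by rw [cmb_out m, cmb_out m, e v m]]
  exact congrArg F (funext fun v => by by_cases m : i ∈ T.tv v <;> simp [cmb, m])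

/-- kill the mixed words -/
def mz (T : TT L C) (i : L) (M : Finset L) (p : C ⊕ L → ℝ) : C ⊕ L → ℝ
  | .inl c => if i ∈ T.ty c ∧ ¬ Disjoint (T.ty c) M then 0 else p (.inl c)
  | .inr ℓ => p (.inr ℓ)
/-- the point of the `M`-fibre over `y` with the `M`-words of `p` -/
def mv (T : TT L C) (M : Finset L) (y : C → ℤ) (p : C ⊕ L → ℝ) : C ⊕ L → ℝ
  | .inl c => if Disjoint (T.ty c) M then y c else p (.inl c)
  | .inr ℓ => if ℓ ∈ M then 0 else 1
/-- the mixed part of `I` over `y` -/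
def Jf (T : TT L C) (i : L) (M : Finset L) (y : C → ℤ) (I : Fm L C) : Fm L C :=
  fun p => I (T.mv M y p) - I (T.mv M y (T.mz i M p))

theorem mv_fib (p : C ⊕ L → ℝ) : T.mv M y p ∈ T.Fib M y := ⟨fun _ k => if_pos k, fun _ => rfl⟩
theorem fib_ext (h : p ∈ T.Fib M y) (k : p' ∈ T.Fib M y)
    (e : ∀ c, ¬ Disjoint (T.ty c) M → p (.inl c) = p' (.inl c)) : p = p' := by
  funext v
  rcases v with c | ℓ
  · by_cases d : Disjoint (T.ty c) M
    exacts [(h.1 c d).trans (k.1 c d).symm, e c d]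
  · exact (h.2 ℓ).trans (k.2 ℓ).symm
theorem mv_self (h : p ∈ T.Fib M y) : T.mv M y p = p := fib_ext (mv_fib p) h fun _ d => if_neg d
theorem mv_congr (e : ∀ c, ¬ Disjoint (T.ty c) M → p (.inl c) = p' (.inl c)) :
    T.mv M y p = T.mv M y p' :=
  fib_ext (mv_fib p) (mv_fib p') fun c d => (if_neg d).trans ((e c d).trans (if_neg d).symm)
theorem mz_off (p : C ⊕ L → ℝ) (v : C ⊕ L) (h : i ∉ T.tv v) : T.mz i M p v = p v := by
  rcases v with c | ℓ
  exacts [if_neg fun k => h k.1, rfl]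
theorem mv_mz (e : ∀ v, i ∉ T.tv v → p v = p' v) :
    T.mv M y (T.mz i M p) = T.mv M y (T.mz i M p') := mv_congr fun c d => by
  by_cases k : i ∈ T.ty c
  · exact (if_pos ⟨k, d⟩).trans (if_pos ⟨k, d⟩).symm
  · rw [mz_off _ (.inl c) k, mz_off _ (.inl c) k, e (.inl c) k]
theorem mv_int (h : IntP p) : IntP (T.mv M y p) := by
  rintro (c | ℓ) <;> simp only [mv] <;> split_ifs
  exacts [⟨_, rfl⟩, h _, ⟨0, by simp⟩, ⟨1, by simp⟩]
theorem mz_int (h : IntP p) : IntP (T.mz i M p) := by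
  rintro (c | ℓ) <;> simp only [mz]
  · split_ifs; exacts [⟨0, by simp⟩, h _]
  · exact h _
theorem Dat.mv (h : T.Dat A M I) (y : C → ℤ) : T.Dat A M fun p => I (T.mv M y p) :=
  h.pb (by
    rintro (c | ℓ) s n <;> simp only [TT.mv]
    · split_ifs; exacts [ty_c _, ty_co s n]
    · exact ty_c _) fun ℓ m => ⟨ℓ, m, by
    rintro (c | x) <;> simp only [TT.mv]
    · split_ifs with d
      exacts [⟨fun k => absurd m (disjoint_left.1 d k), fun _ => ind_c _⟩, ⟨lin_co, ind_co⟩]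
    · exact ⟨fun k => by rw [if_pos (mem_singleton.1 k ▸ m)]; exact lin_0, fun _ => ind_c _⟩⟩
theorem Dat.mz (h : T.Dat A M I) (i : L) (N : Finset L) : T.Dat A M fun p => I (T.mz i N p) :=
  h.pb (by
    rintro (c | ℓ) s n <;> simp only [TT.mz]
    · split_ifs; exacts [ty_c _, ty_co s n]
    · exact ty_co s n) fun ℓ m => ⟨ℓ, m, by
    rintro (c | x) <;> simp only [TT.mz]
    · split_ifs with d
      exacts [⟨fun _ => lin_0, fun _ => ind_c _⟩, ⟨lin_co, ind_co⟩]
    · exact ⟨lin_co, ind_co⟩⟩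
theorem Dat.jf (h : T.Dat A M I) (i : L) (y : C → ℤ) : T.Dat A M (T.Jf i M y I) :=
  (h.mv y).sub ((h.mv y).mz i M)
theorem IntF.jf_int (h : T.IntF A M y I) (k : IntP p) : ∃ n : ℤ, T.Jf i M y I p = n := by
  obtain ⟨n, e⟩ := h.2 _ (mv_fib p) (mv_int k)
  obtain ⟨m, e'⟩ := h.2 _ (mv_fib _) (mv_int (mz_int (T := T) (i := i) (M := M) k))
  exact ⟨n - m, by simp [Jf, e, e']⟩
/-- the mixed part is an integer `(M+i)`-form as soon as it is additive -/
theorem IntF.jf (h : T.IntF A M y I) (l : T.Lin i (T.Jf i M y I)) (y' : C → ℤ) :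
    T.IntF A (insert i M) y' (T.Jf i M y I) :=
  ⟨⟨(h.1.jf i y).1, fun ℓ m => (mem_insert.1 m).elim (fun e => e ▸ l) ((h.1.jf i y).2 ℓ)⟩,
    fun _ _ k => h.jf_int k⟩

variable {a1 a2 : ℕ} {w : T.CC i (Fin 4) → ℤ} {K : Fin 4 → Fm L C}

/-- the alternating sum over the corners -/
def alt (T : TT L C) (i : L) (K : Fin 4 → Fm L C) : Fm (L ⊕ Fin 4) (T.CC i (Fin 4)) := fun p =>
  K 0 (T.pos i (fun _ => false) 1 (cv 0) p) - K 1 (T.pos i (fun _ => false) 1 (cv 1) p) -
    K 2 (T.pos i (fun _ => false) 1 (cv 2) p) + K 3 (T.pos i (fun _ => false) 1 (cv 3) p)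

theorem cv_fib (hi : i ∉ M) (l : Fin 4) {P} (h : P ∈ (T.rect i a1 a2).Fib (M.image .inl) w) :
    T.pos i (fun _ => false) 1 (cv l) P ∈ T.Fib M (T.cor i l w) :=
  T.fib_pos i _ _ 1 (cv l) hi (by simp) w P h

theorem alt_lin (h : T.Lin i F) (P) : T.alt i (fun _ => F) P = 0 := by
  simp [alt, h.pos, cv, Fin.sum_univ_four]; ring

theorem alt_int (hi : i ∉ M) (h : ∀ l, T.IntF A M (T.cor i l w) (K l)) :
    (T.rect i a1 a2).IntF (upA A (Fin 4)) (M.image .inl) w (T.alt i K) := by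
  have k : ∀ l, (T.rect i a1 a2).IntF (upA A (Fin 4)) (M.image .inl) w fun p =>
      K l (T.pos i (fun _ => false) 1 (cv l) p) := fun l =>
    ⟨(h l).1.pos i _ _ _ _ hi, fun p a b => (h l).2 _ (cv_fib hi l a) (T.intP_pos i _ _ _ b)⟩
  exact (((k 0).sub (k 1)).sub (k 2)).add (k 3)

theorem alt_sm (hT : T.Ok) (hi : i ∉ M) {B : ℝ} (l : ∀ l, ∀ ℓ ∈ M, T.Lin ℓ (K l))
    (h : ∀ l, T.Sm A M (T.cor i l w) B (K l)) :
    (T.rect i a1 a2).Sm (upA A (Fin 4)) (M.image .inl) w (4 * (3 ^ #M * B)) (T.alt i K) := by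
  have k : ∀ l, (T.rect i a1 a2).Sm (upA A (Fin 4)) (M.image .inl) w (3 ^ #M * B) fun p =>
      K l (T.pos i (fun _ => false) 1 (cv l) p) := fun x p a b =>
    (h x).cubeR hT (l x) (by norm_num) (cv_fib hi x a) (hT.cube_pos i _ _ _ _ hi (by norm_num)
      (by fin_cases x <;> simp [cv, Fin.sum_univ_four] <;> norm_num) b)
  exact ((((k 0).sub (k 1)).sub (k 2)).add (k 3)).mono (le_of_eq (by ring))

/-- the integer parts of an `i`-linear datum add up to zero on a rectangle -/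
theorem alt_zero (hT : T.Ok) (hi : i ∉ M) {q : ℕ} {B R : ℝ} (hF : T.Dat A (insert i M) F)
    (h : ∀ l, T.IntF A M (T.cor i l w) (K l))
    (s : ∀ l, T.Sm A M (T.cor i l w) B fun p => F p - K l p / q)
    (u : (T.rect i a1 a2).UQ (upA A (Fin 4)) (M.image .inl) w R) (hq : 1 ≤ q)
    (e : q * (4 * (3 ^ #M * B)) ≤ R) :
    ∀ P ∈ (T.rect i a1 a2).Fib (M.image .inl) w, T.alt i K P = 0 := by
  refine u.sm (F := fun _ => 0) (B' := 0) (alt_int hi h) ((alt_sm (a1 := a1) (a2 := a2) hT hi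
    (fun l ℓ m => (hF.2 ℓ (mem_insert_of_mem m)).sub (((h l).1.2 ℓ m).div q)) s).congr fun P _ => ?_)
    (Sm.zero le_rfl) hq (by simpa using e)
  have := alt_lin (hF.2 i (mem_insert_self _ _)) P
  simp only [alt] at this ⊢
  linear_combination -this

/-- family form -/
theorem alt_zero' (hT : T.Ok) (hi : i ∉ M) {q : ℕ} {B R : ℝ} {G : Fin 4 → Fm L C}
    (l : ∀ l, ∀ ℓ ∈ M, T.Lin ℓ (G l))
    (z : ∀ P ∈ (T.rect i a1 a2).Fib (M.image .inl) w, T.alt i G P = 0)
    (h : ∀ l, T.IntF A M (T.cor i l w) (K l))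
    (s : ∀ l, T.Sm A M (T.cor i l w) B fun p => G l p - K l p / q)
    (u : (T.rect i a1 a2).UQ (upA A (Fin 4)) (M.image .inl) w R) (hq : 1 ≤ q)
    (e : q * (4 * (3 ^ #M * B)) ≤ R) :
    ∀ P ∈ (T.rect i a1 a2).Fib (M.image .inl) w, T.alt i K P = 0 := by
  refine u.sm (F := fun _ => 0) (B' := 0) (alt_int hi h) ((alt_sm (a1 := a1) (a2 := a2) hT hi
    (fun x ℓ m => (l x ℓ m).sub (((h x).1.2 ℓ m).div q)) s).congr fun P m => ?_)
    (Sm.zero le_rfl) hq (by simpa using e)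
  have := z P m
  simp only [alt] at this ⊢
  linear_combination -this

theorem alt_ad (hi : i ∉ M) {H : Set (C → ℤ)} {G : (C → ℤ) → Fm L C} (h : T.Ad M i H G)
    (c : ∀ l, T.cor i l w ∈ H) : ∀ P ∈ (T.rect i a1 a2).Fib (M.image .inl) w,
      T.alt i (fun l => G (T.cor i l w)) P = 0 := fun P m => by
  have := h _ (c 0) _ (c 1) _ (c 2) _ (c 3) _ (cv_fib hi 0 m) _ (cv_fib hi 1 m) _ (cv_fib hi 2 m) _
    (cv_fib hi 3 m) (fun v k => by simp [pos, k]) fun v k => by
      simp [pos, k, cv, Fin.sum_univ_four]; ring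
  simp only [alt]
  linarith

theorem quad0 (hi : i ∉ M) (h : ∀ P ∈ (T.rect i a1 a2).Fib (M.image .inl) w, T.alt i K P = 0)
    {p₀ p₁ p₂ : C ⊕ L → ℝ} (e₁ : ∀ v, i ∉ T.tv v → p₀ v = p₁ v) (e₂ : ∀ v, i ∉ T.tv v → p₀ v = p₂ v) :
    K 0 (T.mv M (T.cor i 0 w) p₀) - K 1 (T.mv M (T.cor i 1 w) p₁) - K 2 (T.mv M (T.cor i 2 w) p₂) +
      K 3 (T.mv M (T.cor i 3 w) (p₁ + p₂ - p₀)) = 0 := by
  let Q : T.CC i (Fin 4) ⊕ (L ⊕ Fin 4) → ℝ := Sum.elim (Sum.elim (fun c => p₀ (.inl c)) fun cx =>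
    ![0, p₂ (.inl cx.1.1) - p₀ (.inl cx.1.1), 0, p₁ (.inl cx.1.1) - p₀ (.inl cx.1.1)] cx.2) 0
  have f := mv_fib (T := T.rect i a1 a2) (M := M.image .inl) (y := w) Q
  have k : ∀ l, T.pos i (fun _ => false) 1 (cv l) ((T.rect i a1 a2).mv (M.image .inl) w Q) =
      T.mv M (T.cor i l w) (![p₀, p₁, p₂, p₁ + p₂ - p₀] l) := fun l =>
    fib_ext (cv_fib hi l f) (mv_fib _) fun c d => by
      have d0 : ¬ Disjoint ((T.ty c).image (Sum.inl : L → L ⊕ Fin 4)) (M.image .inl) := by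
        simpa [disjoint_image Sum.inl_injective] using d
      by_cases m : i ∈ T.ty c
      · have d1 : ∀ x : Fin 4, ¬ Disjoint (insert (Sum.inr x) (((T.ty c).erase i).image Sum.inl))
            (M.image (Sum.inl : L → L ⊕ Fin 4)) := fun x => by
          obtain ⟨ℓ, a, b⟩ := not_disjoint_iff.1 d
          exact not_disjoint_iff.2 ⟨.inl ℓ, by simpa using ⟨fun e => hi (e ▸ b), a⟩, by simpa⟩
        fin_cases l <;> simp [pos, p0, px, mv, m, d, d0, d1, Q, cv, Fin.sum_univ_four] <;> ring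
      · have := e₁ (.inl c) m
        have := e₂ (.inl c) m
        fin_cases l <;> simp [pos, p0, mv, m, d, d0, Q] <;> linarith
  have := h _ f
  simp only [alt, k] at this
  exact this

/-- **Pexider**: the mixed parts at the four corners agree and are linear -/
theorem pex (hi : i ∉ M) (l : ∀ ℓ ∈ M, T.Lin ℓ (K 0))
    (h : ∀ P ∈ (T.rect i a1 a2).Fib (M.image .inl) w, T.alt i K P = 0) :
    (∀ x, T.Jf i M (T.cor i x w) (K x) = T.Jf i M (T.cor i 0 w) (K 0)) ∧
      T.Lin i (T.Jf i M (T.cor i 0 w) (K 0)) := by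
  have z : ∀ p v, i ∉ T.tv v → p v = T.mz i M p v := fun p v m => (mz_off p v m).symm
  have b : ∀ p, T.Jf i M (T.cor i 1 w) (K 1) p = T.Jf i M (T.cor i 0 w) (K 0) p ∧
      T.Jf i M (T.cor i 2 w) (K 2) p = T.Jf i M (T.cor i 0 w) (K 0) p ∧
      T.Jf i M (T.cor i 3 w) (K 3) p = T.Jf i M (T.cor i 0 w) (K 0) p := fun p => by
    have a0 := quad0 hi h (p₀ := T.mz i M p) (fun _ _ => rfl) fun _ _ => rfl
    have a1 := quad0 hi h (p₀ := p) (fun _ _ => rfl) (z p)
    have a2 := quad0 hi h (p₀ := p) (z p) fun _ _ => rfl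
    have a3 := quad0 hi h (p₀ := T.mz i M p) (fun v m => (z p v m).symm) fun _ _ => rfl
    simp only [add_sub_cancel_right, add_sub_cancel_left] at a0 a1 a2 a3
    simp only [Jf]
    exact ⟨by linarith, by linarith, by linarith⟩
  refine ⟨fun x => funext fun p => by
    fin_cases x
    exacts [rfl, (b p).1, (b p).2.1, (b p).2.2], lin_of_add (fun p p' e => ?_) fun p => ?_⟩
  · have a0 := quad0 hi h (p₀ := T.mz i M p) (fun _ _ => rfl) fun _ _ => rfl
    have a1 := quad0 hi h (p₀ := T.mz i M p) (fun v m => (z p v m).symm)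
      fun v m => (z p v m).symm.trans (e v m)
    rw [← (b _).2.2, ← (b p).1, ← (b p').2.1]
    rw [mv_congr (p := p + p' - T.mz i M p) (p' := T.cmb i 1 1 p p') fun c d => by
      by_cases m : i ∈ T.ty c
      · simp [cmb, mz, m, d]
      · simp [cmb, mz, m, e (.inl c) m]] at a1
    simp only [add_sub_cancel_right] at a0
    simp only [Jf, ← mv_mz e, mv_mz (p := T.cmb i 1 1 p p') (p' := p) fun _ m => cmb_out m]
    linarith
  · simp only [Jf, mv_mz (p := T.cmb i _ 0 p p) (p' := p) fun _ m => cmb_out m]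
    refine (cont_lin M l _ ?_ ?_).sub continuous_const
    · rintro (c | ℓ) <;> simp only [mv, cmb] <;> split_ifs <;> fun_prop
    · rintro (c | ℓ) d t
      exacts [(if_pos d).trans (if_pos d).symm, rfl]

end Crest.Agent.N49.Rm.TT
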