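import Crest.Agent.N49.Rm.Fro
import Crest.Agent.N49.Ag.Brk
/-! Row 49 (helper78): `FRB`, the core on one fibre. -/
set_option autoImplicit false
set_option linter.unusedSectionVars false
noncomputable section
namespace Crest.Agent.N49.Rm.Fre
open Finset TT Po MeasureTheory Matrix

variable {L C : Type} [Fintype L] [DecidableEq L] [Fintype C] [DecidableEq C] {T : TT L C}
  {A M : Finset L} {y z : C → ℤ} {i : L} {q : ℕ} {β : Type} [Fintype β] [DecidableEq β]
  {wd : β → C}

/-- families on the fibre that come from data -/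
def vd (T : TT L C) (A M : Finset L) (y : C → ℤ) (D : Type) :
    Submodule ℝ (D → T.Fib M y → ℝ) where
  carrier := {v | ∀ d, T.Dat A M fun p => v d ⟨mv T M y p, mv_fib⟩}
  zero_mem' _ := Dat.zero
  add_mem' h k d := (h d).add (k d)
  smul_mem' t _ h d := (h d).smul t

/-- restriction of data -/
def vk {D : Type} (y : C → ℤ) {F : D → Fm L C} (h : ∀ d, T.Dat A M (F d)) : vd T A M y D :=
  ⟨fun d p => F d p.1, fun d => mv_dat (h d)⟩

/-- restriction of a size -/
def szc {V : Type} [AddCommGroup V] [Module ℝ V] (S : To.Sz V) (W : Submodule ℝ V) : To.Sz W where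
  Bd v a := S.Bd v.1 a
  zero := S.zero
  add := S.add
  smul t h := S.smul t h
  mono := S.mono
  cl := S.cl

theorem pj_sb (o : T.Ok) (iM : i ∉ M) {F : Fm L C} (hF : T.Dat A M F) (x : C ⊕ L → ℝ) :
    T.Dat (A.erase i) M fun p => T.Pj (Mx i M) F (Bq.sb T i p x) := by
  let x0 : C ⊕ L → ℝ := fun v => if Disjoint (T.tv v) M then x v else 0
  have e : (fun p => T.Pj (Mx i M) F (Bq.sb T i p x)) =
      fun p => T.Pj (Mx i M) F (Bq.sb T i p x0) :=
    funext fun p => o.pj_fr (not_mx_empty i M) F _ _ fun v k => by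
      by_cases m : i ∈ T.tv v
      · rw [Bq.sb_in m, Bq.sb_in m]
        refine (if_pos ?_).symm
        rcases v with c | ℓ
        · by_contra z; exact k c rfl ⟨m, z⟩
        · obtain rfl : i = ℓ := by simpa using m
          simpa using iM
      · rw [Bq.sb_out m, Bq.sb_out m]
  rw [e]
  refine (o.pj_dat (not_mx_empty i M) hF).pb (T' := T) (ι := fun p => Bq.sb T i p x0)
    (fun v a b => ?_) fun ℓ m => ⟨ℓ, m, fun v => ?_⟩
  · by_cases k : i ∈ T.tv v
    · simp only [Bq.sb_in k]; exact ty_c _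
    · simp only [Bq.sb_out k]; exact ty_co (subset_erase.2 ⟨a, k⟩) b
  · by_cases k : i ∈ T.tv v
    · simp only [Bq.sb_in k]
      exact ⟨fun z => by simp only [x0, if_neg fun d => disjoint_left.1 d z m]; exact lin_0,
        fun _ => ind_c _⟩
    · simp only [Bq.sb_out k]; exact ⟨lin_co, ind_co⟩

theorem mv_eq {p : C ⊕ L → ℝ} (hp : p ∈ T.Fib M y) : mv T M y p = p := by
  funext v
  rcases v with c | ℓ
  · by_cases k : Disjoint (T.ty c) M
    · exact (if_pos k).trans (hp.1 c k).symm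
    · exact if_neg k
  · exact (hp.2 ℓ).symm

theorem mv_lin {E : Type} (φ : E → (β → ℝ) →ₗ[ℝ] ℝ) (x : β → ℝ) (e : E) :
    ((of fun e k => φ e (Pi.single k 1)) *ᵥ x) e = φ e x := by
  conv_rhs => rw [← univ_sum_single x, map_sum]
  refine sum_congr rfl fun k _ => ?_
  rw [show Pi.single k (x k) = x k • (Pi.single k 1 : β → ℝ) by
    rw [← Pi.single_smul, smul_eq_mul, mul_one], map_smul, smul_eq_mul, mul_comm]; rfl

set_option maxHeartbeats 1000000 in
/-- the core of `FRB` -/
theorem frc (o : T.Ok) {D E : Type} [Fintype E] [DecidableEq E] {γ : E → Fm L C}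
    {X : D → Fm L C} {Λ : D → E → Fm L C} (iM : i ∉ M) (hγ : ∀ e, T.Dat (A \ M) {i} (γ e))
    (hX : ∀ d, T.Dat A (insert i M) (X d)) (hΛ : ∀ d e, T.Dat (A.erase i) M (Λ d e)) {N : ℕ}
    (hN : 10 ≤ N) (hE : Fintype.card E < N) (q1 : 1 ≤ q) (q2 : q ≤ 2 ^ N) {H : Set (C → ℤ)}
    {Q : Matrix β β ℝ} {θ : β → ℝ} {J : D → Fm L C}
    (f : Fb T A M i H q N (100 * N ^ 2)
      (fun x d p => X d p + ∑ e, round (γ e (cf x)) * Λ d e p) wd Q θ y z J) :
    ∃ r ≤ Fintype.card E, ∃ (κ : Matrix (Fin r) E ℤ) (q0 : ℕ), (∀ a e, |κ a e| ≤ 2 ^ (39 * N)) ∧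
      1 ≤ q0 ∧ q0 ≤ 2 ^ (12 * N) ∧ T.VR (A \ M) {i} y 1 (52 * N) (lc κ γ) ∧
      ∃ s : D → Fin r → Fm L C, (∀ d a, T.Dat (A.erase i) M (s d a)) ∧
        ∀ d, T.VR (A.erase i) M y (q * q0) (36 * N) fun e p => Λ d e p - ∑ a, κ a e * s d a p := by
  obtain ⟨Y, hY⟩ : ∃ Y : ℝ, Y = 2 ^ N := ⟨_, rfl⟩
  have Y1 : 1024 ≤ Y := hY ▸ le_of_eq_of_le (by norm_num) (pow_le_pow_right₀ one_le_two hN)
  have Y0 : 0 < Y := by linarith
  have px : ∀ k, (2 : ℝ) ^ (k * N) = Y ^ k := fun k => by rw [hY, mul_comm, pow_mul]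
  have NY : (N : ℝ) ≤ Y := hY ▸ by exact_mod_cast Nat.lt_two_pow_self.le
  have qY : (q : ℝ) ≤ Y := hY ▸ by exact_mod_cast q2
  have cE : (Fintype.card E : ℝ) + 1 ≤ Y := le_trans (by exact_mod_cast hE) NY
  have cb : (Fintype.card β : ℝ) ≤ Y := hY ▸ by exact_mod_cast f.cd
  have eb : (2 : ℝ) ^ (100 * N ^ 2) = Y ^ (100 * N) := by rw [← px]; congr 1; ring
  have hF : ∀ d, T.Dat A (insert i M) fun p => X d p - J d p / q :=
    fun d => (hX d).sub ((f.int d).1.div q)
  have hi := fun d => (o.pj_dat (not_mx_empty i M) (hF d)).2 i (mem_insert_self _ _)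
  have hP := fun x d => pj_sb o iM ((hF d).mono Subset.rfl (subset_insert _ _)) x
  have hg := fun e => (hγ e).2 i (mem_singleton_self _)
  let φ : E → (β → ℝ) →ₗ[ℝ] ℝ := fun e => (Bq.lm (hg e) (cf y)).comp (ev L wd)
  let ξ : (β → ℤ) →+ vd T (A.erase i) M y D :=
    AddMonoidHom.mk' (fun u => vk y (hP (ev L wd (La.ci u)))) fun a b => by
      ext d p
      change Bq.lm (hi d) p.1 _ = Bq.lm (hi d) p.1 _ + Bq.lm (hi d) p.1 _
      rw [map_add, map_add, map_add]
  let t : (E → ℤ) →+ vd T (A.erase i) M y D :=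
    AddMonoidHom.mk' (fun w => vk y fun d => Dat.sum univ fun e _ => (hΛ d e).smul (w e))
      fun a b => by
        ext d p
        simp [vk, add_mul, sum_add_distrib]
  have yn : ∀ (n : β → ℤ) c, i ∉ T.ty c → (z + em wd n) c = y c := fun n c k => by
    rw [Pi.add_apply, em_off n fun m => k ((f.rg c).1 m).1, add_zero, f.off c k]
  have := gm_prob f.pd θ
  obtain ⟨r, K0, K1, r1, k0, k1, q0, q3, q4, I0, I1, E1, -, i1, hB⟩ := Ag.ags f.pd θ
    (of fun e k => φ e (Pi.single k 1)) (fun e => Bq.lm (hg e) (cf y) (cf z))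
    (szc (sz T (A.erase i) M y D) (vd T (A.erase i) M y D))
    ((zi T (A.erase i) M y D q).comap (vd T (A.erase i) M y D).subtype.toAddMonoidHom)
    (fun v hv c hc h => Subtype.ext (zi_sep (f.uq.monoA (erase_subset _ _)) q1 v.1 hv c hc h))
    (vk y (hP (cf z))) ξ t (δ := (1 / 2) ^ (5 * N)) (δ' := 1 / Y ^ 11) (ε := 2 ^ N)
    (T := (Y ^ 38) ^ 2) (X := Y ^ 39) (by positivity) (by positivity) (by positivity)
    (by
      have : (64 : ℝ) ^ Fintype.card E ≤ Y ^ 6 := by
        rw [← px, pow_mul]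
        exact (pow_le_pow_left₀ (by norm_num) (by norm_num) _).trans
          (pow_le_pow_right₀ (by norm_num) hE.le)
      rw [_root_.one_div_pow, px]
      calc _ = 1 / Y ^ 5 / Y ^ 6 := by field_simp
        _ ≤ _ := by gcongr)
    (f.ms.trans (measureReal_mono (fun n hn => by
      choose K k1 k2 using hn.2
      refine ⟨fun e => round (γ e (cf (z + em wd n))), fun e => ?_,
        vk y fun d => (k1 d).1.div q, fun d => ⟨K d, k1 d, fun _ => rfl⟩, fun d p c => ?_⟩
      · have : γ e (cf (z + em wd n)) = φ e (zc n) + Bq.lm (hg e) (cf y) (cf z) := by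
          change _ = Bq.lm (hg e) (cf y) (ev L wd (La.ci n)) + _
          rw [← map_add, add_comm (ev L wd _), ← cf_em, Bq.lm_apply, Bq.sb_of]
          rintro (c | ℓ) k
          exacts [by simp only [cf, Sum.elim_inl, yn n c k], rfl]
        rw [mv_lin, sub_sub, ← this, abs_sub_comm]
        exact (abs_sub_round _).trans (by norm_num)
      · have := o.pj_sm (not_mx_empty i M) (fun _ z => z.2)
          (fun _ _ z s => ⟨s z.1, fun e => z.2 (e.mono_left s)⟩) (k2 d) (sb_fib1 iM p.2 (yn n))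
          fun x a e m => by
            have k : i ∉ T.ty x := fun k => m ⟨k, e⟩
            rw [phi_sb o k]
            exact c x (subset_erase.2 ⟨a, k⟩) e
        have s : ∀ {K : Fm L C}, T.Ty (A.erase i) K →
            K (T.sol (Mx i M) (Bq.sb T i p.1 (cf (z + em wd n)))) = K p.1 :=
          fun h => er_sb h fun v k => (sol_out k).trans (Bq.sb_out k)
        simp only [Pj, s (k1 d).1.1, fun e => s (hΛ d e).1] at this
        convert this using 2
        change Bq.lm (hi d) p.1 (cf z) + Bq.lm (hi d) p.1 (ev L wd (La.ci n)) +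
          ∑ e, _ * Λ d e p.1 - K d p.1 / q = _
        rw [← map_add, ← cf_em, Bq.lm_apply, Pj]; ring) (measure_ne_top _ _)))
    (by
      rw [Real.sqrt_sq (by positivity)]
      calc _ ≤ 100 * (12 * (Y + Y + Y) ^ 3 / Y ^ 38) := by gcongr <;> linarith
        _ = 32400 * Y ^ 36 / Y ^ 38 * (1 / Y ^ 11) ^ 3 := by field_simp; norm_num
        _ ≤ 1 * _ := by
          gcongr; exact (div_le_one (by positivity)).2 (pw_le Y1 (by norm_num) (by omega))
        _ = _ := one_mul _)
    (by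
      rw [← hY, eb]
      calc 400 * Y < 401 * Y := by linarith
        _ = 401 * Y ^ 35 / Y * (1 / Y ^ 11) ^ 3 := by field_simp
        _ ≤ _ := by
          have : (0 : ℝ) < q := by positivity
          gcongr; exact pw_le Y1 (by norm_num) (by omega))
    (one_le_pow₀ (by linarith))
    (by
      calc _ ≤ Y ^ 2 * (Y ^ 38) ^ 2 := by gcongr; nlinarith
        _ = _ := by ring)
    fun m m0 => lt_of_lt_of_le (by
      rw [← hY, eb]
      have Y2 : 1 < Y := by linarith
      calc _ ≤ (Y * (Y * Y ^ 39) ^ N) ^ 2 * (Y ^ 39) ^ 2 := by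
            have a : ((Fintype.card E + 1) * Y ^ 39) ^ Fintype.card E ≤ (Y * Y ^ 39) ^ N :=
              (pow_le_pow_left₀ (by positivity) (by gcongr) _).trans
                (pow_le_pow_right₀ (one_le_mul_of_one_le_of_one_le Y2.le (one_le_pow₀ Y2.le)) hE.le)
            gcongr
        _ = Y ^ (80 * N + 82) / Y ^ 2 := by field_simp; ring
        _ < Y ^ (100 * N * 2) / Y ^ 2 := by gcongr; omega
        _ = _ := by rw [div_pow, ← pow_mul]) (f.du m m0)
  have w1 := fun k => (f.rg (wd k)).1 ⟨k, rfl⟩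
  have q5 : (1 : ℝ) ≤ q0 := by exact_mod_cast q3
  refine ⟨r, r1, K1, q0, fun a e => ?_, q3, ?_, fun a => ⟨fun p => ∑ k, (-K0 a k : ℤ) *
    p (.inl (wd k)), IntF.sum _ fun k _ => IntF.zsmul ⟨Dat.coord (v := .inl (wd k))
      (subset_sdiff.2 (w1 k).2) ⟨i, (w1 k).1⟩ (singleton_subset_iff.2 (w1 k).1),
      fun p _ h => h _⟩ _, fun p hp c => ?_⟩,
    fun d a p => (E1 (Pi.single a 1)).1 d ⟨mv T M y p, mv_fib⟩ / q0,
    fun d a => ((E1 _).2 d).div q0, fun d e => ?_⟩
  · have := (k1 a e).trans_eq (px 39).symm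
    exact_mod_cast this
  · have : (q0 : ℝ) ≤ 2 ^ (12 * N) := by
      rw [px]; refine q4.trans ?_
      rw [div_div_eq_mul_div, div_one, pow_succ' Y 11]; gcongr; linarith
    exact_mod_cast this
  · have g : ∀ e, γ e p = φ e fun k => p (.inl (wd k)) := fun e => (hγ e).1 _ _ fun v a _ => by
      by_cases k : i ∈ T.tv v
      · rw [Bq.sb_in k]
        rcases v with c | ℓ
        · obtain ⟨k', rfl⟩ := (f.rg c).2 ⟨k, subset_sdiff.1 a⟩
          exact (em_wd f.inj (fun k => p (.inl (wd k))) k').symm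
        · obtain rfl : i = ℓ := by simpa using k
          exact (hp.2 i).trans (if_pos (mem_singleton_self _))
      · rw [Bq.sb_out k]
        rcases v with c | ℓ
        · exact hp.1 c (disjoint_singleton_right.2 k)
        · exact (hp.2 ℓ).trans (if_neg fun m => k (by simpa [eq_comm] using m))
    have h := (dual_sq_le f.pd (fun k => p (.inl (wd k))) _).trans
      (mul_le_mul (k0 a) (f.bd p hp c) (qf_nonneg f.pd _) (by positivity))
    rw [add_dotProduct, ← dotProduct_mulVec, px, ← mul_pow, ← pow_add] at h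
    rw [px]
    refine le_of_eq_of_le (congrArg _ ?_) (abs_le_of_sq_le_sq' h (by positivity) |> abs_le.2)
    simp only [lc, g, dotProduct, mv_lin, zc, Nat.cast_one, div_one, Int.cast_neg, neg_mul,
      sum_neg_distrib]
    ring
  · obtain ⟨K, a, b⟩ := i1 (Pi.single e 1) d
    refine ⟨K, a, fun p hp c => ?_⟩
    have h := hB 0 (Pi.single e 1) d ⟨p, hp⟩ c
    have e1 : K1 *ᵥ Pi.single e 1 = ∑ a, K1 a e • (Pi.single a 1 : Fin r → ℤ) := by
      funext a; simp [Finset.sum_apply, Pi.single_apply]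
    have e2 : zc (0 : β → ℤ) = 0 := funext fun _ => Int.cast_zero
    have e3 : ∑ x, ((Pi.single e 1 : E → ℤ) x : ℝ) ^ 2 = 1 := by simp [Pi.single_apply]
    have e4 : (⟨mv T M y p, mv_fib⟩ : T.Fib M y) = ⟨p, hp⟩ := Subtype.ext (mv_eq hp)
    simp only [map_zero, zero_add, sub_zero, mulVec_zero, e1, e2, map_sum, map_zsmul, Pi.zero_apply,
      e3, qf, dotProduct_zero, Real.sqrt_one, mul_one] at h
    have q6 : (q0 : ℝ) ≠ 0 := by positivity
    have e5 : ((q0 : ℝ) • t (Pi.single e 1) - I1 (Pi.single e 1) -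
        ∑ a, K1 a e • E1 (Pi.single a 1)).1 d ⟨p, hp⟩ = q0 * (Λ d e p - ∑ a, K1 a e *
          ((E1 (Pi.single a 1)).1 d ⟨p, hp⟩ / q0) - K p / (q * q0 : ℕ)) := by
      have := b ⟨p, hp⟩
      simp only [LinearMap.toAddMonoidHom_coe, Submodule.subtype_apply] at this
      simp [t, vk, this, Pi.single_apply, Finset.sum_apply, mul_sub, mul_sum]
      refine congrArg₂ _ ?_ ?_ |>.trans (sub_right_comm _ _ _)
      · congr 1; field_simp
      · exact sum_congr rfl fun _ _ => by field_simp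
    rw [e5, abs_mul, Nat.abs_cast, ← hY] at h
    simp only [e4]
    refine ((le_mul_of_one_le_left (abs_nonneg _) q5).trans h).trans ?_
    rw [px]
    calc _ = 2400 * Y ^ 34 := by field_simp
      _ ≤ _ := pw_le Y1 (by norm_num) (by omega)

end Crest.Agent.N49.Rm.Fre
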