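import Crest.Agent.N49.Rm.St
import Crest.Agent.N49.Rm.Trf
import Crest.Agent.N49.Rm.Pr
import Crest.Agent.N49.Rm.Fb
import Crest.Agent.N49.Rm.Op
import Crest.Agent.N49.Bq.Alg
/-! Row 49 (helper78): kit for `FREE`: iterated deletion, choice of a fibre, private parts. -/
set_option autoImplicit false
set_option linter.unusedSectionVars false
noncomputable section
namespace Crest.Agent.N49.Rm.Fre
open Finset TT Po MeasureTheory

variable {L C : Type} [Fintype L] [DecidableEq L] [Fintype C] [DecidableEq C] {T : TT L C}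
  {A M : Finset L} {F I : Fm L C} {y y' : C → ℤ} {i ℓ : L} {q : ℕ} {B R : ℝ} {p p' : C ⊕ L → ℝ}

theorem gok {b g : ℕ} (h : Good b g L C T) : T.Ok := by cases g <;> exact h.1
theorem gsm {b g : ℕ} (h : Good b g L C T) : T.SM b := by
  cases g
  exacts [h.2, h.2.1]

/-- delete a set of letters -/
def dels (T : TT L C) (S : Finset L) : TT L C where
  ty c := if Disjoint (T.ty c) S then T.ty c else ∅
  Φ p c := if Disjoint (T.ty c) S then T.Φ p c else p (.inl c)

theorem dels_empty : dels T ∅ = T := by simp [dels]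

theorem dels_insert (S : Finset L) (ℓ : L) : (dels T S).del ℓ = dels T (insert ℓ S) := by
  simp only [dels, del]
  congr 1
  · funext c
    by_cases a : Disjoint (T.ty c) S <;> by_cases b : ℓ ∈ T.ty c <;> simp [a, b]
  · funext p c
    by_cases a : Disjoint (T.ty c) S <;> by_cases b : ℓ ∈ T.ty c <;> simp [a, b]

theorem dels_good (hg : MG) {n b : ℕ} (hC : Fintype.card C ≤ 2 ^ n) (hb : 2 * n + 10 ≤ b)
    (S : Finset L) : ∀ g, Good b (g + #S) L C T → Good b g L C (dels T S) ∧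
      ∀ H : Set (C → ℤ), (∀ y y', (∀ c, Disjoint (T.ty c) S → y c = y' c) → y ∈ H → y' ∈ H) →
        T.pr H ≤ (dels T S).pr H + #S * (8 * (1 / 2) ^ b) := by
  induction S using Finset.induction_on with
  | empty => exact fun g h => by simpa [dels_empty] using h
  | insert ℓ S hl ih =>
    intro g h
    rw [card_insert_of_notMem hl, ← add_assoc, add_right_comm] at h
    obtain ⟨k, e⟩ := ih (g + 1) h
    rw [← dels_insert, card_insert_of_notMem hl]
    refine ⟨k.2.2.2.1 ℓ, fun H hH => ?_⟩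
    have a := e H fun y y' x => hH y y' fun c d => x c (d.mono_right (subset_insert _ _))
    have m := hg L C (dels T S) n b ℓ H hC hb k.1 k.2.1 fun y y' x => hH y y' fun c d => x c (by
      rw [disjoint_insert_right] at d
      simpa [dels, d.2] using d.1)
    push_cast
    linarith [(abs_le.1 m).2]

/-- a dense set is dense on some fibre -/
theorem pick (h : T.Ok) (j : L) {E : Set (C → ℤ)} {δ : ℝ} (e : δ < T.pr E) :
    ∃ w, δ < (gm (T.Mm j w) (T.ce j w)).real {n | T.jn j w n ∈ E} := by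
  by_contra k
  push Not at k
  refine e.not_ge ?_
  have s1 : Summable (E.indicator T.wt) := h.summable.indicator E
  rw [pr, div_le_iff₀ (show 0 < ∑' y, T.wt y from h.Z_pos), tsum_fb (T := T) j s1,
    tsum_fb (T := T) j h.summable, ← tsum_mul_left]
  refine (summable_fb (T := T) j s1).tsum_le_tsum (fun r => ?_)
    ((summable_fb (T := T) j h.summable).mul_left δ)
  have p := th_pos (h.Mm_pd j (T.rp j r)) (T.ce j (T.rp j r))
  have a := k (T.rp j r)
  rw [gm_real (h.Mm_pd j _)] at a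
  have e1 : ∑' n, T.wt (T.jn j (T.rp j r) n) =
      T.wr j (T.rp j r) * th (T.Mm j (T.rp j r)) (T.ce j (T.rp j r)) := by
    simp only [h.wt_jn, tsum_mul_left]; rfl
  rw [e1, mul_comm δ]
  refine le_of_eq_of_le ?_ (mul_le_mul_of_nonneg_left a (mul_pos (wr_pos j _) p).le)
  rw [← tsum_mul_left]
  refine tsum_congr fun n => ?_
  by_cases x : T.jn j (T.rp j r) n ∈ E
  · rw [Set.indicator_of_mem x, Set.indicator_of_mem (by exact x), h.wt_jn]
    field_simp
  · rw [Set.indicator_of_notMem x, Set.indicator_of_notMem (by exact x), mul_zero]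

/-- the point of the `M`-fibre over `y` with the `M`-words of `p` -/
def mv (T : TT L C) (M : Finset L) (y : C → ℤ) (p : C ⊕ L → ℝ) : C ⊕ L → ℝ
  | .inl c => if Disjoint (T.ty c) M then y c else p (.inl c)
  | .inr ℓ => if ℓ ∈ M then 0 else 1

theorem mv_fib : mv T M y p ∈ T.Fib M y := ⟨fun _ k => if_pos k, fun _ => rfl⟩
theorem mv_int (hp : IntP p) : IntP (mv T M y p) := by
  rintro (c | ℓ)
  · by_cases k : Disjoint (T.ty c) M
    · exact ⟨y c, if_pos k⟩
    · exact (hp (.inl c)).imp fun n e => (if_neg k).trans e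
  · by_cases k : ℓ ∈ M
    exacts [⟨0, by simp [mv, k]⟩, ⟨1, by simp [mv, k]⟩]
theorem mv_cg (hI : T.Ty A I) (h : T.Agr A M y y')
    (e : ∀ c, T.ty c ⊆ A → ¬ Disjoint (T.ty c) M → p (.inl c) = p' (.inl c)) :
    I (mv T M y p) = I (mv T M y' p') := by
  refine hI _ _ ?_
  rintro (c | ℓ) a b
  · by_cases k : Disjoint (T.ty c) M
    · simp only [mv, k, if_true, h c a b k]
    · simp only [mv, k, if_false, e c a k]
  · rfl
theorem mv_self (hI : T.Ty A I) (h : T.Agr A M y y') (hp : p ∈ T.Fib M y') :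
    I (mv T M y p) = I p := by
  rw [mv_cg hI h (p' := p) fun _ _ _ => rfl]
  congr 1
  funext v
  rcases v with c | ℓ
  · by_cases k : Disjoint (T.ty c) M
    · exact (if_pos k).trans (hp.1 c k).symm
    · exact if_neg k
  · exact (hp.2 ℓ).symm
theorem agr_rf : T.Agr A M y y := fun _ _ _ _ => rfl
theorem mv_dat (h : T.Dat A M I) : T.Dat A M fun p => I (mv T M y p) := by
  refine ⟨fun p p' e => mv_cg h.1 agr_rf fun c a b => e (.inl c) a
    (nonempty_iff_ne_empty.2 fun x => b (by simp [show T.ty c = ∅ from x])), fun ℓ m => ?_⟩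
  refine (h.2 ℓ m).pb (T' := T) ?_
  rintro (c | k)
  · by_cases d : Disjoint (T.ty c) M
    · simp only [mv, d, if_true]
      exact ⟨fun x => absurd m (disjoint_left.1 d x), fun _ => ind_c _⟩
    · simp only [mv, d, if_false]
      exact ⟨lin_co, ind_co⟩
  · refine ⟨fun x => ?_, fun _ => ind_c _⟩
    obtain rfl : ℓ = k := by simpa using x
    simp only [mv, m, if_true]
    exact lin_0

/-- the part that is free of the letter `i` -/
def Kf (T : TT L C) (M : Finset L) (i : L) (I : Fm L C) (y : C → ℤ) : Fm L C :=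
  fun p => I (mv T M y (Bq.sb T i p 0))
/-- the private part -/
def Jf (T : TT L C) (M : Finset L) (i : L) (I : Fm L C) (y : C → ℤ) : Fm L C :=
  fun p => I (mv T M y p) - Kf T M i I y p

theorem kf_dat (h : T.Dat A M I) : T.Dat (A.erase i) M (Kf T M i I y) := by
  refine (mv_dat h).pb (T' := T) (ι := fun p => Bq.sb T i p 0) (fun v a b => ?_)
    fun ℓ m => ⟨ℓ, m, fun v => ?_⟩
  · by_cases k : i ∈ T.tv v
    · simp only [Bq.sb_in k]; exact ty_c _
    · simp only [Bq.sb_out k]; exact ty_co (subset_erase.2 ⟨a, k⟩) b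
  · by_cases k : i ∈ T.tv v
    · simp only [Bq.sb_in k]; exact ⟨fun _ => lin_0, fun _ => ind_c _⟩
    · simp only [Bq.sb_out k]; exact ⟨lin_co, ind_co⟩

theorem sb_int {z : C ⊕ L → ℝ} (hp : IntP p) (hz : IntP z) : IntP (Bq.sb T i p z) := fun v => by
  unfold Bq.sb
  split_ifs
  exacts [hz v, hp v]

theorem kf_int (h : T.IntF A M y I) : T.IntF (A.erase i) M y' (Kf T M i I y) :=
  ⟨kf_dat h.1, fun _ _ k => h.2 _ mv_fib (mv_int (sb_int k fun _ => ⟨0, by simp⟩))⟩

theorem jf_int (h : T.IntF A M y I) (l : T.Lin i (Jf T M i I y)) :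
    T.IntF A (insert i M) y' (Jf T M i I y) := by
  have d : T.Dat A M (Jf T M i I y) :=
    (mv_dat h.1).sub ((kf_dat h.1).mono (erase_subset _ _) Subset.rfl)
  refine ⟨⟨d.1, fun ℓ m => (mem_insert.1 m).elim (fun e => e ▸ l) (d.2 ℓ)⟩, fun p _ k => ?_⟩
  obtain ⟨a, ea⟩ := h.2 _ mv_fib (mv_int (y := y) k)
  obtain ⟨b, eb⟩ := h.2 _ mv_fib (mv_int (y := y)
    (sb_int (T := T) (i := i) k (z := 0) fun _ => ⟨0, by simp⟩))
  exact ⟨a - b, by simp [Jf, Kf, ea, eb]⟩

/-- an additive private part is linear -/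
theorem jf_lin (h : T.Dat A M I) (g : ∀ p z z', Jf T M i I y (Bq.sb T i p (z + z')) =
    Jf T M i I y (Bq.sb T i p z) + Jf T M i I y (Bq.sb T i p z')) : T.Lin i (Jf T M i I y) := by
  classical
  refine Bq.lin_of fun p => ⟨g p, fun t z => ?_⟩
  let f : (C ⊕ L → ℝ) →+ ℝ := AddMonoidHom.mk' (fun z => Jf T M i I y (Bq.sb T i p z)) (g p)
  have ss : ∀ z, Bq.sb T i (Bq.sb T i p z) 0 = Bq.sb T i p 0 := fun z => funext fun v => by
    by_cases k : i ∈ T.tv v <;> simp [Bq.sb, k]
  have h1 : ∀ v (s : ℝ), f (Pi.single v s) = s * f (Pi.single v 1) := by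
    intro v s
    simp only [f, AddMonoidHom.mk'_apply, Jf, Kf, ss]
    by_cases d : ∃ ℓ ∈ M, ℓ ∈ T.tv v ∧ i ∈ T.tv v
    · obtain ⟨ℓ, m, a, b⟩ := d
      have := (mv_dat (y := y) h).2 ℓ m s (1 - s) (Bq.sb T i p (Pi.single v 1)) (Bq.sb T i p 0)
        fun u k => by
          have : u ≠ v := fun e => k (e ▸ a)
          simp [Bq.sb, Pi.single_eq_of_ne this]
      rw [show T.cmb ℓ s (1 - s) (Bq.sb T i p (Pi.single v 1)) (Bq.sb T i p 0) =
        Bq.sb T i p (Pi.single v s) from funext fun u => by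
          by_cases e : u = v
          · subst e; simp [cmb, Bq.sb, a, b]
          · by_cases k : ℓ ∈ T.tv u <;> by_cases k' : i ∈ T.tv u <;>
              simp [cmb, Bq.sb, k, k', Pi.single_eq_of_ne e, ← add_mul]] at this
      simp only at this
      rw [this]; ring
    · have : ∀ s : ℝ, I (mv T M y (Bq.sb T i p (Pi.single v s))) = I (mv T M y (Bq.sb T i p 0)) :=
        fun s => mv_cg h.1 agr_rf fun c _ b => by
          by_cases e : Sum.inl c = v
          · subst e
            obtain ⟨ℓ, x, m⟩ := not_disjoint_iff.1 b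
            have : i ∉ T.tv (.inl c) := fun k => d ⟨ℓ, m, x, k⟩
            rw [Bq.sb_out this, Bq.sb_out this]
          · simp only [Bq.sb, Pi.single_eq_of_ne e, Pi.zero_apply]
      simp [this]
  have h2 : ∀ z, f z = ∑ v, z v * f (Pi.single v 1) := fun z => by
    conv_lhs => rw [← univ_sum_single z, map_sum]
    exact sum_congr rfl fun v _ => h1 v _
  change f (t • z) = t * f z
  rw [h2, h2 z, mul_sum]
  exact sum_congr rfl fun v _ => mul_assoc _ _ _

theorem abs_cv (l : Fin 4) : |((1 : ℤ) : ℝ)| + ∑ x, |(cv l x : ℝ)| ≤ 3 := by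
  fin_cases l <;> simp [cv, Fin.sum_univ_four] <;> norm_num

/-- the alternating sum of the integer parts vanishes -/
theorem pex0 (o : T.Ok) (iM : i ∉ M) (hF : T.Dat A (insert i M) F) {a1 a2 : ℕ}
    {w : T.CC i (Fin 4) → ℤ} {I : Fin 4 → Fm L C} (hI : ∀ l, T.IntF A M (T.cor i l w) (I l))
    (hS : ∀ l, T.Sm A M (T.cor i l w) B fun p => F p - I l p / q) (q1 : 1 ≤ q)
    (u : (T.rect i a1 a2).UQ (upA A (Fin 4)) (M.image .inl) w R) (hR : q * (4 * (3 ^ #M * B)) ≤ R) :
    ∀ P ∈ (T.rect i a1 a2).Fib (M.image .inl) w,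
      I 0 (T.pos i (fun _ => false) 1 (cv 0) P) - I 1 (T.pos i (fun _ => false) 1 (cv 1) P) -
      I 2 (T.pos i (fun _ => false) 1 (cv 2) P) + I 3 (T.pos i (fun _ => false) 1 (cv 3) P) = 0 := by
  have q0 : (0 : ℝ) < q := by positivity
  have fb : ∀ l, ∀ P ∈ (T.rect i a1 a2).Fib (M.image .inl) w,
      T.pos i (fun _ => false) 1 (cv l) P ∈ T.Fib M (T.cor i l w) := fun l =>
    T.fib_pos i _ _ 1 (cv l) iM (by simp) w
  have it : ∀ l, (T.rect i a1 a2).IntF (upA A (Fin 4)) (M.image .inl) w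
      fun P => I l (T.pos i (fun _ => false) 1 (cv l) P) := fun l =>
    ⟨(hI l).1.pos i _ _ 1 (cv l) iM, fun P a b => (hI l).2 _ (fb l P a) (T.intP_pos i _ 1 _ b)⟩
  refine u _ ((((it 0).sub (it 1)).sub (it 2)).add (it 3)) fun P a b => ?_
  have s : ∀ l, |F (T.pos i (fun _ => false) 1 (cv l) P) -
      I l (T.pos i (fun _ => false) 1 (cv l) P) / q| ≤ 3 ^ #M * B := fun l =>
    (hS l).cubeR o (fun ℓ m => (hF.2 ℓ (mem_insert_of_mem m)).sub (((hI l).1.2 ℓ m).div q))
      (by norm_num) (fb l P a) (o.cube_pos i _ _ 1 (cv l) iM (by norm_num) (abs_cv l) b)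
  have z : F (T.pos i (fun _ => false) 1 (cv 0) P) - F (T.pos i (fun _ => false) 1 (cv 1) P) -
      F (T.pos i (fun _ => false) 1 (cv 2) P) + F (T.pos i (fun _ => false) 1 (cv 3) P) = 0 := by
    simp only [(hF.2 i (mem_insert_self _ _)).pos]
    simp [cv, Fin.sum_univ_four]
    ring
  refine le_trans ?_ hR
  rw [← div_le_iff₀' q0, ← abs_of_pos q0, ← abs_div, abs_le]
  have s0 := abs_le.1 (s 0)
  have s1 := abs_le.1 (s 1)
  have s2 := abs_le.1 (s 2)
  have s3 := abs_le.1 (s 3)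
  simp only [add_div, sub_div]
  constructor <;> linarith

/-- the point of the rectangle shape with prescribed mixed words at the corners -/
def rp (T : TT L C) (M : Finset L) (i : L) (w : T.CC i (Fin 4) → ℤ) (p a b c : C ⊕ L → ℝ) :
    T.CC i (Fin 4) ⊕ (L ⊕ Fin 4) → ℝ
  | .inl (.inl k) => if Disjoint (T.ty k) M then w (.inl k) else Bq.sb T i p a (.inl k)
  | .inl (.inr k) => if Disjoint (T.ty k.1.1) M then w (.inr k) else
      ![0, c - a, 0, b - a] k.2 (.inl k.1.1)
  | .inr (.inl ℓ) => if ℓ ∈ M then 0 else 1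
  | .inr (.inr _) => 1

theorem rp_fib (iM : i ∉ M) {a1 a2 : ℕ} (w : T.CC i (Fin 4) → ℤ) (p a b c : C ⊕ L → ℝ) :
    rp T M i w p a b c ∈ (T.rect i a1 a2).Fib (M.image .inl) w := by
  constructor
  · rintro (k | ⟨k, x⟩) d
    · exact if_pos ((Bq.dj0 k).1 d)
    · exact if_pos ((Bq.djx iM k x).1 d)
  · rintro (ℓ | x) <;> simp [rp]

theorem rp_pos (iM : i ∉ M) (w : T.CC i (Fin 4) → ℤ) (p a b c : C ⊕ L → ℝ) (l : Fin 4) :
    T.pos i (fun _ => false) 1 (cv l) (rp T M i w p a b c) =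
      mv T M (T.cor i l w) (Bq.sb T i p (![a, b, c, b + c - a] l)) := by
  have f := T.fib_pos i (fun _ => false) _ 1 (cv l) iM (by simp) w _
    (rp_fib (a1 := 0) (a2 := 0) iM w p a b c)
  funext v
  rcases v with k | ℓ
  · by_cases d : Disjoint (T.ty k) M
    · exact (f.1 k d).trans (if_pos d).symm
    · by_cases e : i ∈ T.ty k
      · fin_cases l <;> simp [pos, mv, p0, px, rp, Bq.sb, cv, d, e, Fin.sum_univ_four]
        ring
      · simp [pos, mv, p0, rp, Bq.sb, d, e]
  · exact f.2 ℓ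

/-- Pexider: the private parts of a respected rectangle agree and are linear -/
theorem pex (o : T.Ok) (iM : i ∉ M) (hF : T.Dat A (insert i M) F) {a1 a2 : ℕ}
    {w : T.CC i (Fin 4) → ℤ} {I : Fin 4 → Fm L C} {y : Fin 4 → C → ℤ}
    (hy : ∀ l, T.Agr A M (y l) (T.cor i l w)) (hI : ∀ l, T.IntF A M (y l) (I l))
    (hS : ∀ l, T.Sm A M (y l) B fun p => F p - I l p / q) (q1 : 1 ≤ q)
    (u : (T.rect i a1 a2).UQ (upA A (Fin 4)) (M.image .inl) w R) (hR : q * (4 * (3 ^ #M * B)) ≤ R) :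
    Jf T M i (I 0) (y 0) = Jf T M i (I 1) (y 1) ∧ T.Lin i (Jf T M i (I 0) (y 0)) := by
  have z := fun p a b c => pex0 o iM hF (fun l => (hy l).intF (hI l))
    (fun l => (hy l).sm o (hF.1.map₂ (hI l).1.1 fun s t => s - t / q) (hS l)) q1 u hR _
    (rp_fib iM w p a b c)
  have e : ∀ l p, I l (mv T M (T.cor i l w) p) = I l (mv T M (y l) p) := fun l p =>
    mv_cg (hI l).1.1 (hy l).symm fun _ _ _ => rfl
  simp only [rp_pos iM, e, Matrix.cons_val_zero, Matrix.cons_val_one, Matrix.cons_val] at z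
  have ss : ∀ p z, Bq.sb T i (Bq.sb T i p z) 0 = Bq.sb T i p 0 := fun p z => funext fun v => by
    by_cases k : i ∈ T.tv v <;> simp [Bq.sb, k]
  refine ⟨funext fun p => ?_, jf_lin (hI 0).1 fun p s t => ?_⟩
  · have h1 := z p p p 0
    have h2 := z p 0 0 0
    simp only [add_zero, sub_self, Bq.sb_self] at h1 h2
    simp only [Jf, Kf]
    linarith
  · have h1 := z p (s + t) s t
    have h2 := z p s s 0
    have h3 := z p t 0 t
    have h4 := z p 0 0 0
    simp only [add_zero, zero_add, sub_self] at h1 h2 h3 h4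
    simp only [Jf, Kf, ss]
    linarith

end Crest.Agent.N49.Rm.Fre
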