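import Crest.Agent.N49.Rm.Fre0
import Crest.Agent.N49.Rm.Sol
import Crest.Agent.N49.Ag.Slc
/-! Row 49 (helper78): `FREE`, the approximate geometry of numbers on the pure block. -/
set_option autoImplicit false
set_option linter.unusedSectionVars false
noncomputable section
namespace Crest.Agent.N49.Rm.Fre
open Finset TT Po MeasureTheory

variable {L C : Type} [Fintype L] [DecidableEq L] [Fintype C] [DecidableEq C] {T : TT L C}
  {A M : Finset L} {y y' : C → ℤ} {i : L} {q : ℕ} {p : C ⊕ L → ℝ}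
  {β : Type} [Fintype β] [DecidableEq β] {wd : β → C}

/-- extension by zero -/
def em {R : Type} [AddCommMonoid R] (wd : β → C) (n : β → R) : C → R :=
  fun c => ∑ k, if wd k = c then n k else 0

theorem em_wd {R : Type} [AddCommMonoid R] (h : Function.Injective wd) (n : β → R) (k : β) :
    em wd n (wd k) = n k := by simp [em, h.eq_iff]
theorem em_off {R : Type} [AddCommMonoid R] (n : β → R) {c : C} (h : c ∉ Set.range wd) :
    em wd n c = 0 := sum_eq_zero fun k _ => if_neg fun e => h ⟨k, e⟩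

/-- the same, on points -/
def ev (L : Type) (wd : β → C) : (β → ℝ) →ₗ[ℝ] (C ⊕ L → ℝ) where
  toFun x := Sum.elim (em wd x) 0
  map_add' x x' := by
    funext v
    rcases v with c | ℓ
    · simp only [em, Sum.elim_inl, Pi.add_apply, ← sum_add_distrib]
      exact sum_congr rfl fun k _ => by split_ifs <;> simp
    · simp
  map_smul' t x := by
    funext v
    rcases v with c | ℓ <;> simp [em, mul_sum]

theorem cf_em (b : C → ℤ) (n : β → ℤ) :
    (cf (b + em wd n) : C ⊕ L → ℝ) = cf b + ev L wd (La.ci n) := by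
  funext v
  rcases v with c | ℓ <;> simp [ev, em, cf]

theorem sb_fib (iM : i ∉ M) (h : ∀ c, Disjoint (T.ty c) M → i ∉ T.ty c → p (.inl c) = y' c)
    (e : ∀ ℓ ≠ i, p (.inr ℓ) = if ℓ ∈ M then 0 else 1) : Bq.sb T i p (cf y') ∈ T.Fib M y' := by
  refine ⟨fun c d => ?_, fun ℓ => ?_⟩
  · by_cases k : i ∈ T.ty c
    exacts [Bq.sb_in k, (Bq.sb_out k).trans (h c d k)]
  · by_cases k : ℓ = i
    · subst k; simp [Bq.sb, iM]
    · exact (Bq.sb_out (by simpa using Ne.symm k)).trans (e ℓ k)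

theorem sb_fib1 (iM : i ∉ M) (hp : p ∈ T.Fib M y) (h : ∀ c, i ∉ T.ty c → y' c = y c) :
    Bq.sb T i p (cf y') ∈ T.Fib M y' :=
  sb_fib iM (fun c d k => (hp.1 c d).trans (by rw [h c k])) fun ℓ _ => hp.2 ℓ

theorem sb_fib2 (iM : i ∉ M) (hp : p ∈ T.Fib (insert i M) y) (h : ∀ c, i ∉ T.ty c → y' c = y c) :
    Bq.sb T i p (cf y') ∈ T.Fib M y' :=
  sb_fib iM (fun c d k => (hp.1 c (disjoint_insert_right.2 ⟨k, d⟩)).trans (by rw [h c k]))
    fun ℓ k => (hp.2 ℓ).trans (by simp [k])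

theorem er_sb {K : Fm L C} (h : T.Ty (A.erase i) K) {p' : C ⊕ L → ℝ}
    (e : ∀ v, i ∉ T.tv v → p v = p' v) : K p = K p' := (h.ind (notMem_erase i A)) _ _ e

theorem sol_out {v : C ⊕ L} (k : i ∉ T.tv v) : T.sol (Mx i M) p v = p v :=
  sol_off p fun _ e m => k (e ▸ m.1)

theorem phi_o (o : T.Ok) {c : C} (k : i ∉ T.ty c) {p' : C ⊕ L → ℝ}
    (e : ∀ v, i ∉ T.tv v → p v = p' v) : T.Φ p c = T.Φ p' c := o.ind k _ _ e

theorem phi_sb (o : T.Ok) {c : C} (k : i ∉ T.ty c) (z : C ⊕ L → ℝ) :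
    T.Φ (Bq.sb T i p z) c = T.Φ p c := phi_o o k fun _ m => Bq.sb_out m

/-- sizes of families of functions on the fibre -/
def sz (T : TT L C) (A M : Finset L) (y : C → ℤ) (D : Type) : To.Sz (D → T.Fib M y → ℝ) where
  Bd v a := ∀ d (p : T.Fib M y), T.Cube A M p.1 → |v d p| ≤ a
  zero := by simp
  add h k d p c := (abs_add_le _ _).trans (add_le_add (h d p c) (k d p c))
  smul t h d p c := (abs_mul _ _).trans_le (mul_le_mul_of_nonneg_left (h d p c) (abs_nonneg t))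
  mono h k d p c := (h d p c).trans k
  cl h d p c := le_of_forall_pos_le_add fun η e => h η e d p c

/-- the families of integer forms over `q` -/
def zi (T : TT L C) (A M : Finset L) (y : C → ℤ) (D : Type) (q : ℕ) :
    AddSubgroup (D → T.Fib M y → ℝ) where
  carrier := {v | ∀ d, ∃ K, T.IntF A M y K ∧ ∀ p, v d p = K p.1 / q}
  zero_mem' _ := ⟨_, IntF.zero, by simp⟩
  add_mem' h k d := let ⟨_, a, b⟩ := h d; let ⟨_, a', b'⟩ := k d
    ⟨_, a.add a', fun p => by simp [b, b', add_div]⟩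
  neg_mem' h d := let ⟨_, a, b⟩ := h d; ⟨_, a.neg, fun p => by simp [b, neg_div]⟩

theorem zi_sep {D : Type} {R : ℝ} (u : T.UQ A M y R) (q1 : 1 ≤ q) :
    ∀ v ∈ zi T A M y D q, ∀ c < R / q, (sz T A M y D).Bd v c → v = 0 := fun v hv c hc h => by
  have q0 : (0 : ℝ) < q := by positivity
  funext d p
  obtain ⟨K, a, b⟩ := hv d
  rw [b, u K a (fun x hx k => ?_) _ p.2, zero_div]; · rfl
  have := h d ⟨x, hx⟩ k
  rw [b, abs_div, abs_of_pos q0] at this
  exact ((div_lt_div_iff_of_pos_right q0).1 (this.trans_lt hc)).le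

/-- the mixed words do not matter -/
theorem mixed (o : T.Ok) (iM : i ∉ M) {F K : Fm L C} (hF : T.Lin i F) (hK : T.Ty (A.erase i) K)
    {ε : ℝ} (h : ∀ c, i ∉ T.ty c → y' c = y c) (s : T.Sm A M y' ε fun p => F p - K p / q)
    (hp : p ∈ T.Fib (insert i M) y) (hc : T.Cube A (insert i M) p) :
    |F p - T.Pj (Mx i M) F p| ≤ 2 * ε := by
  set P := T.sol (Mx i M) (Bq.sb T i p (cf y')) with hP
  have f0 : P ∈ T.Fib M y' := sol_fib (fun _ z => z.2) (sb_fib2 iM hp h)
  have o0 : ∀ v, i ∉ T.tv v → p v = P v := fun v k => by rw [hP, sol_out k, Bq.sb_out k]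
  have ln : ∀ {G : Fm L C}, T.Lin i G → G (Bq.sb T i p (P + (p - T.sol (Mx i M) p))) =
      G P + (G p - G (T.sol (Mx i M) p)) := fun {G} g => by
    rw [← Bq.lm_apply g, map_add, map_sub, Bq.lm_apply, Bq.lm_apply, Bq.lm_apply, Bq.sb_self,
      Bq.sb_of o0, Bq.sb_of fun v k => (sol_out k).symm]
  have hc' : ∀ c, T.ty c ⊆ A → ¬ Disjoint (T.ty c) M → |T.Φ p c| ≤ 1 := fun c a d =>
    hc c a fun e => d (e.mono_right (subset_insert _ _))
  have a0 := s P f0 fun c a d => by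
    by_cases k : i ∈ T.ty c
    · rw [o.sol_phi (not_mx_empty i M) _ ⟨k, d⟩]; simp
    · rw [← phi_o o k o0]; exact hc' c a d
  have a1 := s (Bq.sb T i p (P + (p - T.sol (Mx i M) p))) ⟨fun c d => by
      rw [← f0.1 c d]
      by_cases k : i ∈ T.ty c
      · rw [Bq.sb_in (v := .inl c) k]; simp [sol_inl (u := Mx i M) p fun m => m.2 d]
      · rw [Bq.sb_out (v := .inl c) k, o0 (.inl c) k], fun ℓ => by
      rw [← f0.2 ℓ]
      by_cases k : i ∈ T.tv (.inr ℓ)
      · rw [Bq.sb_in k]; simp [sol_inr]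
      · rw [Bq.sb_out k, o0 _ k]⟩ fun c a d => by
    by_cases k : i ∈ T.ty c
    · rw [ln (G := fun p => T.Φ p c) (o.lin k), o.sol_phi (not_mx_empty i M) _ ⟨k, d⟩, o.sol_phi (not_mx_empty i M) _ ⟨k, d⟩]
      simpa using hc' c a d
    · rw [phi_sb o k]; exact hc' c a d
  simp only at a0 a1
  rw [ln hF, er_sb hK (p' := P) fun v k => (Bq.sb_out k).trans (o0 v k)] at a1
  rw [Pj, abs_le] at *
  constructor <;> linarith [a0.1, a0.2, a1.1, a1.2]

/-- from many fibres to the direction `i` -/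
theorem core (o : T.Ok) {D : Type} {F : D → Fm L C} (iM : i ∉ M)
    (hF : ∀ d, T.Dat A (insert i M) (F d)) (inj : Function.Injective wd)
    (hw : ∀ c, c ∈ Set.range wd ↔ i ∈ T.ty c ∧ T.ty c ⊆ A ∧ Disjoint (T.ty c) M)
    {N : Seminorm ℝ (β → ℝ)} {μ : Measure (β → ℤ)} [IsProbabilityMeasure μ] (hq : To.QI N μ)
    {b0 : ℝ} (hf : Fi N b0) {b : C → ℤ} (hb : ∀ c, i ∉ T.ty c → b c = y c) {δ ε R κ : ℝ}
    (δ0 : 0 < δ) (ε0 : 0 ≤ ε) (q1 : 1 ≤ q)
    (hS : δ ≤ μ.real {n | ∀ d, ∃ K, T.IntF (A.erase i) M y K ∧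
      T.Sm A M (b + em wd n) ε fun p => F d p - K p / q})
    (hβ : 100 * b0 ≤ δ ^ 3) (u : T.UQ (A.erase i) M y R) (hR : 400 * ε < R / q * δ ^ 3)
    (hN : ∀ p ∈ T.Fib (insert i M) y, T.Cube A (insert i M) p →
      N (fun c => p (.inl (wd c))) ≤ κ) :
    ∃ q0 : ℕ, 1 ≤ q0 ∧ (q0 : ℝ) ≤ 3 / δ ∧
      ∀ d, T.Rel A (insert i M) y (q * q0) (600 * ε / δ ^ 3 * κ + 2 * ε) (F d) := by
  have hG := fun d => o.pj_dat (not_mx_empty i M) (hF d)
  have hi := fun d => (hG d).2 i (mem_insert_self _ _)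
  let ξ : (β → ℝ) →ₗ[ℝ] (D → T.Fib M y → ℝ) :=
    LinearMap.pi fun d => LinearMap.pi fun p => (Bq.lm (hi d) p.1).comp (ev L wd)
  have yn : ∀ (n : β → ℤ) c, i ∉ T.ty c → (b + em wd n) c = y c := fun n c k => by
    rw [Pi.add_apply, em_off n fun m => k ((hw c).1 m).1, add_zero, hb c k]
  obtain ⟨n0, h0⟩ := nonempty_of_measureReal_ne_zero (δ0.trans_le hS).ne'
  obtain ⟨q0, q2, q3, I, hI, hB, -⟩ := agn (sz T (A.erase i) M y D) (zi T (A.erase i) M y D q)
    (zi_sep u q1) hq hf (fun d p => Bq.lm (hi d) p.1 (cf b)) (ξ.toAddMonoidHom.comp La.ci) δ0 ε0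
    (hS.trans (measureReal_mono (fun n hn => by
      choose K k1 k2 using hn
      refine ⟨fun d p => K d p.1 / q, fun d => ⟨K d, k1 d, fun _ => rfl⟩, fun d p c => ?_⟩
      have := o.pj_sm (not_mx_empty i M) (fun _ z => z.2)
        (fun _ _ z s => ⟨s z.1, fun e => z.2 (e.mono_left s)⟩) (k2 d) (sb_fib1 iM p.2 (yn n))
        fun x a e m => by
          have k : i ∉ T.ty x := fun k => m ⟨k, e⟩
          rw [phi_sb o k]
          exact c x (subset_erase.2 ⟨a, k⟩) e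
      rw [Pj, er_sb (k1 d).1.1 (p' := p.1) fun v k => (sol_out k).trans (Bq.sb_out k)] at this
      convert this using 2
      change Bq.lm (hi d) p.1 (cf b) + Bq.lm (hi d) p.1 (ev L wd (La.ci n)) - _ = _
      rw [← map_add, ← cf_em]; rfl) (measure_ne_top _ _))) hβ hR
  have e0 : 0 ≤ 600 * ε / δ ^ 3 := by positivity
  have hX := Ag.rx_bd (sz T (A.erase i) M y D)
    (((q0 : ℝ) • ξ).toAddMonoidHom.comp La.ci - I) N e0 hB
  choose K k1 k2 using fun k d => hI (Pi.single k 1) d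
  have w1 := fun k => (hw (wd k)).1 ⟨k, rfl⟩
  refine ⟨q0, q2, q3, fun d => ⟨fun p => ∑ k, K k d p * p (.inl (wd k)), ⟨Dat.sum _ fun k _ =>
    ⟨((k1 k d).1.1.mono (erase_subset _ _)).map₂ (Ty.coord (v := .inl (wd k)) (w1 k).2.1
      ⟨i, (w1 k).1⟩) (· * ·), fun ℓ m => ?_⟩, fun p hp ip => ?_⟩, fun p hp c => ?_⟩⟩
  · rcases mem_insert.1 m with rfl | m
    · exact (Lin.coord (v := .inl (wd k)) (w1 k).1).mul (k1 k d).1.1 (notMem_erase _ _)
    · exact ((k1 k d).1.2 ℓ m).mul_ind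
        (ind_co (v := .inl (wd k)) fun x => disjoint_left.1 (w1 k).2.2 x m)
  · choose z hz using fun k => (k1 k d).2 _ (sb_fib2 iM hp fun _ _ => rfl) (sb_int ip (intP_cf y))
    choose t ht using ip
    refine ⟨∑ k, z k * t (.inl (wd k)), ?_⟩
    push_cast
    exact sum_congr rfl fun k _ => by
      rw [← hz, ← ht, er_sb (k1 k d).1.1 (p' := p) fun v m => Bq.sb_out m]
  · obtain ⟨K0, a0, a1⟩ := h0 d
    have m := mixed o iM ((hF d).2 i (mem_insert_self _ _)) a0.1.1 (yn n0) a1 hp c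
    let r : T.Fib M y := ⟨_, sb_fib2 (y' := y) iM hp fun _ _ => rfl⟩
    have x := hX (fun k => p (.inl (wd k))) d r fun x a e => by
      rw [phi_sb o (subset_erase.1 a).2]
      exact c x (subset_erase.1 a).1 fun z => e (z.mono_right (subset_insert _ _))
    have g : ξ (fun k => p (.inl (wd k))) d r = T.Pj (Mx i M) (F d) p := by
      change T.Pj (Mx i M) (F d) (Bq.sb T i (Bq.sb T i p (cf y)) (ev L wd _)) = _
      refine (hF d).1 _ _ (o.sol_congr (not_mx_empty i M) A fun v a _ m => ?_)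
      by_cases k : i ∈ T.tv v
      · rw [Bq.sb_in k]
        rcases v with c | ℓ
        · obtain ⟨k', rfl⟩ := (hw c).2 ⟨k, a, by_contra fun z => m c rfl ⟨k, z⟩⟩
          exact em_wd inj _ k'
        · obtain rfl : i = ℓ := by simpa using k
          exact ((hp.2 i).trans (if_pos (mem_insert_self _ _))).symm
      · rw [Bq.sb_out k, Bq.sb_out k]
    have e : Ag.rx (((q0 : ℝ) • ξ).toAddMonoidHom.comp La.ci - I) (fun k => p (.inl (wd k))) d r =
        q0 * (T.Pj (Mx i M) (F d) p - (∑ k, K k d p * p (.inl (wd k))) / (q * q0 : ℕ)) := by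
      have q4 : (q0 : ℝ) ≠ 0 := by positivity
      have s : (fun k => p (.inl (wd k))) = ∑ k, p (.inl (wd k)) • La.ci (Pi.single k 1) := by
        funext k; simp [Finset.sum_apply, Pi.single_apply]
      rw [← g, mul_sub]
      conv_rhs => rw [s, map_sum]
      simp only [Ag.rx, LinearMap.coe_mk, AddHom.coe_mk, Finset.sum_apply, Pi.smul_apply,
        AddMonoidHom.sub_apply, Pi.sub_apply, k2, smul_eq_mul, mul_sub, sum_sub_distrib, map_smul,
        mul_sum, sum_div]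
      refine congrArg₂ _ (sum_congr rfl fun k _ => ?_) (sum_congr rfl fun k _ => ?_)
      · simp; ring
      · rw [er_sb (k1 k d).1.1 (p := r.1) (p' := p) fun v m => Bq.sb_out m]
        push_cast; field_simp
    rw [e, abs_mul, Nat.abs_cast] at x
    have q5 : (1 : ℝ) ≤ q0 := by exact_mod_cast q2
    have x2 := (le_mul_of_one_le_left (abs_nonneg _) q5).trans
      (x.trans (mul_le_mul_of_nonneg_left (hN p hp c) e0))
    rw [abs_le] at *
    constructor <;> linarith [m.1, m.2, x2.1, x2.2]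

end Crest.Agent.N49.Rm.Fre
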