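import Crest.Agent.N49.Rm.Free
import Crest.Agent.N49.Rm.Kd
/-! Row 49 (helper78): reduction of `FREE`-type statements to one fibre, for additive families. -/
set_option autoImplicit false
set_option linter.unusedSectionVars false
noncomputable section
namespace Crest.Agent.N49.Rm.Fre
open Finset TT Po MeasureTheory

variable {L C : Type} [Fintype L] [DecidableEq L] [Fintype C] [DecidableEq C] {T : TT L C}
  {A M : Finset L} {y y' : C → ℤ} {i : L} {q a1 a2 : ℕ} {p : C ⊕ L → ℝ} {B R : ℝ}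

theorem pexa (o : T.Ok) (iM : i ∉ M) {H : Set (C → ℤ)} {G : (C → ℤ) → Fm L C}
    (hG : ∀ y, T.Dat A M (G y)) (ad : T.Ad M i H G) {w : T.CC i (Fin 4) → ℤ}
    (hw : ∀ l, T.cor i l w ∈ H) {I : Fin 4 → Fm L C} {y : Fin 4 → C → ℤ}
    (hy : ∀ l, T.Agr A M (y l) (T.cor i l w)) (hI : ∀ l, T.IntF A M (y l) (I l))
    (hS : ∀ l, T.Sm A M (y l) B fun p => G (T.cor i l w) p - I l p / q) (q1 : 1 ≤ q)
    (u : (T.rect i a1 a2).UQ (upA A (Fin 4)) (M.image .inl) w R) (hR : q * (4 * (3 ^ #M * B)) ≤ R) :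
    Jf T M i (I 0) (y 0) = Jf T M i (I 1) (y 1) ∧ T.Lin i (Jf T M i (I 0) (y 0)) := by
  have q0 : (q : ℝ) ≠ 0 := by positivity
  have fb : ∀ l, ∀ P ∈ (T.rect i a1 a2).Fib (M.image .inl) w,
      T.pos i (fun _ => false) 1 (cv l) P ∈ T.Fib M (T.cor i l w) := fun l =>
    T.fib_pos i _ _ 1 (cv l) iM (by simp) w
  have it : ∀ l, (T.rect i a1 a2).IntF (upA A (Fin 4)) (M.image .inl) w
      fun P => I l (T.pos i (fun _ => false) 1 (cv l) P) := fun l =>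
    ⟨(hI l).1.pos i _ _ 1 (cv l) iM, fun P a b =>
      ((hy l).intF (hI l)).2 _ (fb l P a) (T.intP_pos i _ 1 _ b)⟩
  have sm : ∀ l, (T.rect i a1 a2).Sm (upA A (Fin 4)) (M.image .inl) w (3 ^ #M * B) fun P =>
      G (T.cor i l w) (T.pos i (fun _ => false) 1 (cv l) P) -
        I l (T.pos i (fun _ => false) 1 (cv l) P) / q := fun l P a b =>
    ((hy l).sm o ((hG _).1.map₂ (hI l).1.1 fun s t => s - t / q) (hS l)).cubeR o
      (fun ℓ m => ((hG _).2 ℓ m).sub (((hI l).1.2 ℓ m).div q)) (by norm_num) (fb l P a)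
      (o.cube_pos i _ _ 1 (cv l) iM (by norm_num) (abs_cv l) b)
  have z0 := u.sm (F := fun _ => 0) (B' := 0) (B := 4 * (3 ^ #M * B))
    ((((it 0).sub (it 1)).sub (it 2)).add (it 3))
    ((((((sm 0).sub (sm 1)).sub (sm 2)).add (sm 3)).mono (le_of_eq (by ring))).congr fun P m => by
      have := ad _ (hw 0) _ (hw 1) _ (hw 2) _ (hw 3) _ (fb 0 P m) _ (fb 1 P m) _ (fb 2 P m) _
        (fb 3 P m) (fun v k => by simp [pos, k]) fun v k => by
          simp [pos, k, cv, Fin.sum_univ_four]; ring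
      linear_combination -this) (Sm.zero le_rfl) q1 (by simpa using hR)
  have z := fun p a b c => z0 _ (rp_fib iM w p a b c)
  have e : ∀ l p, I l (mv T M (T.cor i l w) p) = I l (mv T M (y l) p) := fun l p =>
    mv_cg (hI l).1.1 (hy l).symm fun _ _ _ => rfl
  simp only [rp_pos iM, e, Matrix.cons_val_zero, Matrix.cons_val_one, Matrix.cons_val] at z
  have ss : ∀ p z, Bq.sb T i (Bq.sb T i p z) 0 = Bq.sb T i p 0 := fun p z => funext fun v => by
    by_cases k : i ∈ T.tv v <;> simp [Bq.sb, k]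
  refine ⟨funext fun p => ?_, jf_lin (hI 0).1 fun p s t => ?_⟩
  · have h1 := z p p p 0
    have h2 := z p 0 0 0
    simp only [add_zero, sub_self, Bq.sb_self] at h1 h2
    simp only [Jf, Kf]
    linarith
  · have h1 := z p (s + t) s t
    have h2 := z p s s 0
    have h3 := z p t 0 t
    have h4 := z p 0 0 0
    simp only [add_zero, zero_add, sub_self] at h1 h2 h3 h4
    simp only [Jf, Kf, ss]
    linarith

theorem qf_le' (o : T.Ok) (u : (pu T A M i a1 a2).Ok) (iA : i ∈ A) (iM : i ∉ M)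
    (w : T.CC i (Fin 4) → ℤ) (hp : p ∈ T.Fib {i} (T.cor i 0 w)) (hc : T.Cube (A \ M) {i} p) :
    qf ((pu T A M i a1 a2).Mm (.inr 3) w) (fun k => p (.inl (wd k))) ≤
      Fintype.card ((pu T A M i a1 a2).Bl (.inr 3)) * (2 ^ a2) ^ 2 := by
  have := u.sum_sq (.inr 3) w (fun k => p (.inl (wd k))) 0
  rw [zero_smul, sub_zero] at this
  rw [← this, ← nsmul_eq_mul, ← card_univ]
  refine sum_le_card_nsmul _ _ _ fun k _ => ?_
  obtain ⟨h, e, a, d⟩ := pu_ex iA iM k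
  rw [e, ← sq_abs]
  refine pow_le_pow_left₀ (abs_nonneg _) ?_ 2
  simp only [dels, (dl_r iA iM ⟨wd k, h⟩ 3).2 ⟨a, d⟩, if_true, cl_Φ_r]
  rw [o.phi_cg (p' := p), abs_mul, abs_of_pos (by positivity)]
  · exact mul_le_of_le_one_right (by positivity)
      (hc _ (subset_sdiff.2 ⟨a, d⟩) (by simpa using h))
  rintro (c | ℓ) s
  · by_cases m : i ∈ T.ty c
    · have z := (pu_r (a1 := a1) (a2 := a2) iA iM ⟨c, m⟩ 3).2 ⟨rfl, s.trans a, d.mono_left s⟩
      simp only [px, dif_pos m]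
      exact jr_inl (T := pu T A M i a1 a2) _ _ _ ⟨_, z⟩
    · rw [hp.1 c (by simpa using m)]
      simp only [px, dif_neg m]
      refine (jr_out (T := pu T A M i a1 a2) (v := .inl (.inl c)) _ _ _ (pu_l c)).trans ?_
      simp [cor, posZ, m]
  · rw [hp.2]
    by_cases m : ℓ = i <;> simp [px, m, jr]

/-- one good fibre: the pure block `wd` over `y`, its Gaussian `(Q, θ)`, the private part `J` -/
structure Fb (T : TT L C) (A M : Finset L) (i : L) (H : Set (C → ℤ)) {D : Type} (q N b : ℕ)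
    (G : (C → ℤ) → D → Fm L C) {β : Type} [Fintype β] [DecidableEq β] (wd : β → C)
    (Q : Matrix β β ℝ) (θ : β → ℝ) (y z : C → ℤ) (J : D → Fm L C) : Prop where
  inj : Function.Injective wd
  rg : ∀ c, c ∈ Set.range wd ↔ i ∈ T.ty c ∧ T.ty c ⊆ A ∧ Disjoint (T.ty c) M
  cd : Fintype.card β ≤ 2 ^ N
  pd : Q.PosDef
  du : ∀ m : β → ℤ, m ≠ 0 → (2 ^ b / 2 ^ N) ^ 2 ≤ qf Q⁻¹ (zc m)
  bd : ∀ p ∈ T.Fib {i} y, T.Cube (A \ M) {i} p → qf Q (fun k => p (.inl (wd k))) ≤ (2 ^ (13 * N)) ^ 2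
  off : ∀ c, i ∉ T.ty c → z c = y c
  uq : T.UQ A M y (2 ^ b)
  int : ∀ d, T.IntF A (insert i M) y (J d)
  ms : (1 / 2) ^ (5 * N) ≤ (gm Q θ).real {n | (∃ x ∈ H, T.Agr A M x (z + em wd n)) ∧ ∀ d, ∃ K,
    T.IntF (A.erase i) M y K ∧
      T.Sm A M (z + em wd n) (2 ^ N) fun p => G (z + em wd n) d p - J d p / q - K p / q}

set_option maxHeartbeats 1000000 in
/-- many rectangles give one good fibre -/
theorem onea (hg : MG) (o : T.Ok) {D : Type} {G : (C → ℤ) → D → Fm L C} (iA : i ∈ A) (iM : i ∉ M)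
    (hG : ∀ y d, T.Dat A M (G y d)) (hc : ∀ y y', T.Agr A M y y' → G y = G y')
    {N b : ℕ} (hN : 10 ≤ N) (hb : 100 * N ≤ b) (hL : Fintype.card L ≤ N)
    (hC : Fintype.card (T.CC i (Fin 4)) ≤ 2 ^ N) (q1 : 1 ≤ q) (q2 : q ≤ 2 ^ N) (ha : a2 ≤ 12 * N)
    {H : Set (C → ℤ)} (ad : ∀ d, T.Ad M i H fun y => G y d)
    (hH : ∀ y ∈ H, T.UQ A M y (2 ^ b) ∧ ∀ d, T.Rel A M y q (2 ^ N) (G y d))
    (gd : Good b (0 + #(dl A M)) _ _ (T.rect i a1 a2))
    (hr : (1 / 2) ^ (4 * N + 3) ≤ (T.rect i a1 a2).pr {w | (∀ l, T.cor i l w ∈ H) ∧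
      (T.rect i a1 a2).UQ (upA A (Fin 4)) (M.image .inl) w (2 ^ b)}) :
    ∃ x ∈ H, ∃ (β : Type) (_ : Fintype β) (_ : DecidableEq β) (wd : β → C) (Q : Matrix β β ℝ)
      (θ : β → ℝ) (y z : C → ℤ) (J : D → Fm L C), T.Agr A M x y ∧
        Fb T A M i H q N b G wd Q θ y z J := by
  classical
  obtain ⟨X, hX⟩ : ∃ X : ℝ, X = 2 ^ N := ⟨_, rfl⟩
  have X1 : 1024 ≤ X := hX ▸ le_of_eq_of_le (by norm_num) (pow_le_pow_right₀ one_le_two hN)
  have X0 : 0 < X := by linarith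
  have px : ∀ k, (2 : ℝ) ^ (k * N) = X ^ k := fun k => by rw [hX, mul_comm, pow_mul]
  have px' : ∀ k, (1 / 2 : ℝ) ^ (k * N) = 1 / X ^ k := fun k => by rw [one_div_pow, px]
  have NX : (N : ℝ) ≤ X := hX ▸ by exact_mod_cast Nat.lt_two_pow_self.le
  have qX : (q : ℝ) ≤ X := hX ▸ by exact_mod_cast q2
  have b1 : X ^ 100 ≤ 2 ^ b := px 100 ▸ pow_le_pow_right₀ one_le_two hb
  have b2 : (1 / 2 : ℝ) ^ b ≤ 1 / X ^ 100 :=
    px' 100 ▸ pow_le_pow_of_le_one (by norm_num) (by norm_num) hb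
  let Ic : (C → ℤ) → D → Fm L C := fun z d =>
    if h : T.Rel A M z q (2 ^ N) (G z d) then h.choose else 0
  have hI : ∀ z, (∃ y ∈ H, vi T A M y = z) → ∀ d, T.IntF A M z (Ic z d) ∧
      T.Sm A M z (2 ^ N) fun p => G z d p - Ic z d p / q := by
    rintro _ ⟨y, hy, rfl⟩ d
    have := vi_agr.symm.rel o (hG y d).1 ((hH y hy).2 d)
    rw [← hc _ _ vi_agr] at this
    simp only [Ic, dif_pos this]
    exact this.choose_spec
  let Ev : (C → ℤ) → (C → ℤ) → Prop := fun z z' => (∃ y ∈ H, vi T A M y = z) ∧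
    (∃ y ∈ H, vi T A M y = z') ∧ ∀ d, Jf T M i (Ic z d) z = Jf T M i (Ic z' d) z' ∧
      T.Lin i (Jf T M i (Ic z d) z)
  obtain ⟨gu, hd⟩ := dels_good hg hC (by omega) _ 0 gd
  have u := gok gu
  have h1 := hd {w | Ev (vi T A M (T.cor i 0 w)) (vi T A M (T.cor i 1 w))} fun w w' e k => by
    simpa only [Set.mem_ofPred_eq, vi_cor iA iM e] using k
  have h2 := le_trans (hr.trans ((gok gd).pr_mono
    (H' := {w | Ev (vi T A M (T.cor i 0 w)) (vi T A M (T.cor i 1 w))})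
    fun w k => ⟨⟨_, k.1 0, rfl⟩, ⟨_, k.1 1, rfl⟩, fun d =>
    pexa o iM (hG · d) (ad d) k.1 (I := fun l => Ic (vi T A M (T.cor i l w)) d) (fun _ => vi_agr)
      (fun l => (hI _ ⟨_, k.1 l, rfl⟩ d).1)
      (fun l => by have := (hI _ ⟨_, k.1 l, rfl⟩ d).2; rwa [hc _ _ vi_agr] at this) q1 k.2 (by
        have : (3 : ℝ) ^ #M ≤ X ^ 2 := by
          rw [← px, pow_mul]
          exact (pow_le_pow_left₀ (by norm_num) (by norm_num) _).trans
            (pow_le_pow_right₀ (by norm_num) ((card_le_univ M).trans hL))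
        rw [← hX]
        calc _ ≤ X * (4 * (X ^ 2 * X)) := by gcongr
          _ = 4 * X ^ 4 := by ring
          _ ≤ X ^ 100 := pw_le X1 (by norm_num) (by norm_num)
          _ ≤ _ := b1)⟩)) h1
  have h3 := u.pr_inter {w | Ev (vi T A M (T.cor i 0 w)) (vi T A M (T.cor i 1 w))}
    {w | (pu T A M i a1 a2).UQ univ {.inr 3} w (2 ^ b)}
  have h4 := (gsm gu (.inr 3)).1.trans b2
  have cd : (#(dl A M) : ℝ) ≤ X := le_trans (by
    exact_mod_cast card_image_le.trans ((card_le_univ _).trans hL)) NX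
  obtain ⟨w, hw⟩ := pick u (.inr 3) (δ := 1 / X ^ 5) (lt_of_lt_of_le (by
    rw [pow_add, px'] at h2
    have a : (#(dl A M) : ℝ) * (8 * (1 / 2) ^ b) ≤ 1 / X ^ 5 := by
      calc _ ≤ X * (8 * (1 / X ^ 100)) := by gcongr
        _ = 8 * X ^ 6 / X ^ 100 / X ^ 5 := by field_simp
        _ ≤ _ := by gcongr; exact (div_le_one (by positivity)).2 (pw_le X1 (by norm_num) (by omega))
    have b : 1 / X ^ 100 ≤ 1 / X ^ 5 :=
      one_div_le_one_div_of_le (by positivity) (pow_le_pow_right₀ (by linarith) (by omega))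
    have c : 3 * (1 / X ^ 5) < 1 / X ^ 4 * (1 / 2) ^ 3 := by
      field_simp; linarith
    have e : (pu T A M i a1 a2).pr {w | (pu T A M i a1 a2).UQ univ {.inr 3} w (2 ^ _)}ᶜ ≤
      1 / X ^ 100 := h4
    linarith) h3)
  have pd := u.Mm_pd (.inr 3) w
  have d0 : 0 < 1 / X ^ 5 := by positivity
  obtain ⟨n0, ⟨⟨y, hy, e0⟩, -, j0⟩, u0⟩ := nonempty_of_measureReal_ne_zero (d0.trans hw).ne'
  rw [cor0 iA iM] at e0 j0
  have cb' := (Fintype.card_subtype_le fun c => .inr 3 ∈ (pu T A M i a1 a2).ty c).trans hC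
  have cb : (Fintype.card ((pu T A M i a1 a2).Bl (.inr 3)) : ℝ) ≤ X ^ 2 :=
    le_trans (hX ▸ by exact_mod_cast cb') (le_self_pow₀ (by linarith) (by omega))
  have ay : T.Agr A M y (T.cor i 0 w) := agr_tr vi_agr.symm (e0 ▸ vi_agr)
  have := gm_prob pd ((pu T A M i a1 a2).ce (.inr 3) w)
  refine ⟨y, hy, _, _, _, wd, _, _, _, T.posZ i 1 ![1, 0, 0, 0] w, _, ay, wd_inj iA iM,
    wd_rg iA iM, cb', pd, fun m m0 => ?_, fun p hp hc => (qf_le' o u iA iM w hp hc).trans ?_,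
    fun c k => by simp [cor, posZ, k], ay.uq o (hH y hy).1,
    fun d => jf_int (hI _ ⟨y, hy, e0⟩ d).1 (j0 d).2,
    (px' 5).trans_le (hw.le.trans (measureReal_mono (fun n hn => ?_) (measure_ne_top _ _)))⟩
  · have := u.dual_min (by positivity) u0 m0
    rw [Mm_jn] at this
    rw [← hX, div_pow, div_le_iff₀' (by positivity)]
    exact this.le.trans (mul_le_mul_of_nonneg_right cb (qf_nonneg pd.inv (zc m)))
  · have : (2 : ℝ) ^ a2 ≤ X ^ 12 := px 12 ▸ pow_le_pow_right₀ one_le_two ha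
    rw [px]
    calc _ ≤ X ^ 2 * (X ^ 12) ^ 2 := by gcongr
      _ = _ := by ring
  · have k0 : Ev (vi T A M (T.cor i 0 ((pu T A M i a1 a2).jn (.inr 3) w n)))
      (vi T A M (T.cor i 1 ((pu T A M i a1 a2).jn (.inr 3) w n))) := hn.1
    obtain ⟨-, k1, k2⟩ := k0
    have ag := agr_tr vi_agr (cor1 (a1 := a1) (a2 := a2) iA iM w n)
    refine ⟨let ⟨x, hx, e⟩ := k1; ⟨x, hx, agr_tr vi_agr.symm (e ▸ ag)⟩, fun d => ?_⟩
    obtain ⟨i1, i2⟩ := hI _ k1 d
    rw [hc _ _ ag] at i2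
    refine ⟨_, kf_int i1, (ag.sm o ((hG _ d).1.map₂ i1.1.1 fun s t => s - t / q) i2).congr
      fun p hp => ?_⟩
    have := (k2 d).1
    rw [cor0 iA iM] at this
    rw [this, Jf, mv_self i1.1.1 ag hp]; ring

/-- a property that holds over every good fibre holds on most of `H` -/
theorem outer (hm : MONO) (hg : MG) (hx : BOX) (hu : ∀ l, UQS l) (l0 : ℕ) : ∃ K : ℕ,
    ∀ (L C : Type) [Fintype L] [DecidableEq L] [Fintype C] [DecidableEq C] (T : TT L C) (D : Type)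
    (n N b : ℕ) (H : Set (C → ℤ)) (A M : Finset L) (i : L) (q : ℕ) (G : (C → ℤ) → D → Fm L C)
    (Pz : Set (C → ℤ)), Fintype.card L ≤ l0 → Sz n T H → N = n + l0 + 10 → 100 * N ≤ b →
    Rm.G ((N + b) ^ K + 1) T → M.Nonempty → i ∈ A → i ∉ M → 1 ≤ q → q ≤ 2 ^ n →
    (∀ y d, T.Dat A M (G y d)) → (∀ y y', T.Agr A M y y' → G y = G y') →
    (∀ d, T.Ad M i H fun y => G y d) → (∀ y ∈ H, ∀ d, T.Rel A M y q (2 ^ n) (G y d)) →
    (∀ x ∈ H, ∀ (β : Type) [Fintype β] [DecidableEq β] (wd : β → C) (Q : Matrix β β ℝ)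
      (θ : β → ℝ) (y z : C → ℤ) (J : D → Fm L C), T.Agr A M x y →
        Fb T A M i H q N b G wd Q θ y z J → x ∈ Pz) → (1 / 2) ^ (n + 1) ≤ T.pr (H ∩ Pz) := by
  obtain ⟨K1, u1⟩ := hu l0
  obtain ⟨K2, u2⟩ := hu (l0 + 4)
  refine ⟨K1 + K2 + 1, fun L C _ _ _ _ T D n N b H A M i q G Pz hL hS hN hb hG hM iA iM q1 q2 hD hc
    ad hR co => ?_⟩
  obtain ⟨n2, hC, hH⟩ := hS
  obtain ⟨P, hP⟩ : ∃ P, P = (N + b) ^ (K1 + K2 + 1) := ⟨_, rfl⟩
  rw [← hP] at hG
  have P1 : ∀ k ≤ K1 + K2 + 1, (N + b) ^ k ≤ P := fun k e =>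
    hP ▸ Nat.pow_le_pow_right (by omega) e
  have P2 := P1 1 (by omega)
  rw [pow_one] at P2
  have o := gok hG
  have g1 := hm _ P _ (P + 1) _ _ T (by omega) le_rfl hG
  have g2 : Good P P _ _ (T.rect i (8 * N + 40) (8 * N + 40)) :=
    g1.2.2.1 i 4 _ _ (by omega) fun x => by fin_cases x <;> simp <;> omega
  have two : ∀ {s t : ℕ}, s ≤ t → (1 / 2 : ℝ) ^ t ≤ (1 / 2) ^ s := fun e =>
    pow_le_pow_of_le_one (by norm_num) (by norm_num) e
  have two' : ∀ {s t : ℕ}, s ≤ t → 2 ^ s ≤ 2 ^ t := fun e => Nat.pow_le_pow_right two_pos e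
  have hC' := hC.trans (two' (show n ≤ N by omega))
  have hC2 : Fintype.card (T.CC i (Fin 4)) ≤ 2 ^ N := by
    have : Fintype.card (T.Bl i) ≤ _ := Fintype.card_subtype_le fun c => i ∈ T.ty c
    have e := two' (show n + 3 ≤ N by omega)
    rw [pow_add] at e
    simp only [Fintype.card_sum, Fintype.card_prod, Fintype.card_fin]
    omega
  have key : T.pr (H \ Pz) < (1 / 2) ^ (n + 1) := by
    by_contra k
    have a1 := u1 L C T N b M hL (by omega) hC'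
      (hm _ _ _ _ _ _ T (P1 K1 (by omega)) ((P1 K1 (by omega)).trans (by omega)) g1) hM
    have a2 := u2 _ _ _ N b (M.image .inl) (by simpa using hL) (by omega) hC2
      (hm _ _ _ _ _ _ _ (P1 K2 (by omega)) (P1 K2 (by omega)) g2) (hM.image _)
    have a3 := o.pr_inter (H \ Pz) {y | T.UQ univ M y (2 ^ b)}
    have a4 := hx L C T N P i (8 * N + 40) (8 * N + 40)
      ((H \ Pz) ∩ {y | T.UQ univ M y (2 ^ b)}) ⟨by omega, hC', by
        have b1 := two (show n + 2 ≤ b by omega)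
        have b2 := two (show n + 2 ≤ N by omega)
        have b3 : T.pr {y | T.UQ univ M y (2 ^ b)}ᶜ ≤ _ := a1
        rw [pow_succ _ (n + 1)] at b1 b2
        linarith [not_lt.1 k]⟩
      (hL.trans ((show l0 ≤ N by omega).trans Nat.lt_two_pow_self.le)) le_rfl le_rfl (by omega)
      (hm _ _ _ _ _ _ T le_rfl (by omega) g1)
    obtain ⟨x, hx, β, _, _, wd, Q, θ, y, z, J, ag, e⟩ := onea hg o iA iM hD hc (N := N) (by omega)
      hb (by omega) hC2 q1 (q2.trans (two' (by omega))) (a1 := 8 * N + 40) (a2 := 8 * N + 40)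
      (by omega) (H := (H \ Pz) ∩ {y | T.UQ univ M y (2 ^ b)})
      (fun d y1 h1 y2 h2 y3 h3 y4 h4 => ad d y1 h1.1.1 y2 h2.1.1 y3 h3.1.1 y4 h4.1.1)
      (fun y hy => ⟨hy.2.monoA (subset_univ _), fun d => (hR y hy.1.1 d).mono
        (pow_le_pow_right₀ one_le_two (by omega))⟩)
      (hm _ _ _ _ _ _ _ (by omega) (by
        have := (card_image_le (f := (.inl : L → L ⊕ Fin 4))).trans (card_le_univ (A \ M)ᶜ)
        unfold dl; omega) g2) (by
        have b1 := (gok g2).pr_diff _ _ |>.trans' (sub_le_sub a4 a2)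
        have b2 := two (show 4 * N + 3 ≤ b by omega)
        refine le_trans ?_ (b1.trans ((gok g2).pr_mono fun w k =>
          ⟨k.1, (not_not.1 k.2).monoA (subset_univ _)⟩))
        rw [pow_succ _ (4 * N + 2)] at b2 ⊢
        linarith)
    have := gm_prob e.pd θ
    exact hx.1.2 (co x hx.1.1 β wd Q θ y z J ag { e with
      ms := e.ms.trans (measureReal_mono (fun n ⟨⟨x, a, b⟩, c⟩ => ⟨⟨x, a.1.1, b⟩, c⟩)
        (measure_ne_top _ _)) })
  have b1 := o.pr_diff H (H \ Pz)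
  rw [Set.sdiff_sdiff_right_self] at b1
  rw [pow_succ] at key ⊢
  exact le_trans (by linarith) b1

end Crest.Agent.N49.Rm.Fre
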