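import Crest.Agent.N49.Rm.Gk
/-! Row 49, block RMH (helper57): glue, steps ONE, S1, S2, S3. -/
set_option autoImplicit false
set_option linter.unusedSectionVars false
noncomputable section
namespace Crest.Agent.N49.Rm
open Finset TT Matrix Crest.Agent.N49.Iv.Il

section
variable {L C : Type} [Fintype L] [DecidableEq L] [Fintype C] [DecidableEq C] {T : TT L C}
  {H H' : Set (C → ℤ)} {A M Z J : Finset L} {i j : L} {n n' q q' k0 s k d l0 c : ℕ} {D E : Type}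
  {X : Hk L C}

theorem u_sd (h : Disjoint Z M) : (Z ∪ M) \ M = Z := by
  rw [union_sdiff_right, h.sdiff_eq_left]
theorem u_er (h : i ∉ M) : (Z ∪ M).erase i = Z.erase i ∪ M := by
  rw [erase_union_distrib, erase_eq_of_notMem h]
theorem u_in (h : i ∈ Z) : Z.erase i ∪ insert i M = Z ∪ M := by
  rw [union_insert, ← insert_union, insert_erase h]
theorem u_sg (h : i ∈ Z) : Z.erase i ∪ {i} = Z := by
  rw [union_comm, ← insert_eq, insert_erase h]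

theorem Prd.succ {F : D → Fm L C} (h : Prd c n T X A M j H F) (z : 2 ≤ n) :
    Prd (c + 1) n T X A M j H F := fun a1 a2 h1 h2 g => by
  have e : n ^ c ≤ n ^ (c + 1) := pow_mono' z (by omega)
  obtain ⟨q, q1, q2, r⟩ := h a1 a2 (e.trans h1) h2 (g.mono (pow_mono' (by omega) (by omega)))
  exact ⟨q, q1, p2 q2 e, (half_anti e).trans (r.trans (TT.pr_sub _ fun w hw =>
    ⟨hw.1, fun x => TT.Rel.mono (hw.2 x) (two_pow_mono e)⟩))⟩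

theorem prd_fr (hB : BOX) {F : D → Fm L C} (l : Fintype.card L ≤ l0) (z : Sz n T H) (m : M ⊆ A)
    (j1 : j ∈ A) (j2 : j ∉ M) (f : ∀ x, T.Dat A M (F x)) (h : FrS T A M j H n F) :
    Prd (8 * l0 + 49) n T X A M j H F := fun a1 a2 h1 h2 g => by
  obtain ⟨q, q1, q2, r⟩ := h
  have e := lin_le_pow z.1 8 (8 * l0 + 40)
  rw [show 8 + (8 * l0 + 40) + 1 = 8 * l0 + 49 by ring] at e
  have e' : n + a2 ≤ (n + a2) ^ (8 * l0 + 49) := le_pow_self' (by have := z.1; omega) (by omega)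
  refine ⟨q, q1, p2 q2 (by omega), (half_anti (by omega)).trans
    ((hB L C T (n + l0) _ j a1 a2 H (z.mono' (by omega)) (p2 (l.trans Nat.lt_two_pow_self.le)
      (by omega)) (by omega) h2 (by omega : a2 ≤ (n + a2) ^ (8 * l0 + 49))
      (Rm.mono _ _ _ _ _ _ T le_rfl (by omega) g.good)).trans (TT.pr_sub _ fun w hw =>
    ⟨hw 0, fun x => TT.Rel.mono (frr L C T D A M j H q _ F a1 a2 w g.ok m j1 j2 f r hw x) ?_⟩))⟩
  refine le_trans ?_ (two_pow_mono (by omega : 2 * l0 + n ≤ _))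
  rw [pow_add, pow_mul]
  exact mul_le_mul_of_nonneg_right ((pow_le_pow_left₀ (by norm_num) (by norm_num) _).trans
    (pow_le_pow_right₀ (by norm_num) l)) (by positivity)

/-- input of RMH -/
def RP (T : TT L C) (Z M : Finset L) (H : Set (C → ℤ)) (n : ℕ) (F : D → Fm L C) : Prop :=
  Disjoint Z M ∧ M.Nonempty ∧ (∀ e, T.Dat (Z ∪ M) M (F e)) ∧ ∀ j ∈ Z, FrS T (Z ∪ M) M j H n F
/-- the facts that are kept all along the step -/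
def B0 (d : ℕ) (T : TT L C) (Z M : Finset L) (i : L) (H : Set (C → ℤ)) (n : ℕ) (F : D → Fm L C) :
    Prop := Z.card = d + 1 ∧ i ∈ Z ∧ RP T Z M H n F
def R1 [Fintype E] (T : TT L C) (A M : Finset L) (i : L) (J : Finset L) (H : Set (C → ℤ)) (n : ℕ)
    (F : D → Fm L C) (γ : E → Fm L C) (Y : D → Fm L C) (Λ : D → E → Fm L C) : Prop :=
  Fintype.card E ≤ n ∧ ∃ q, 1 ≤ q ∧ q ≤ 2 ^ n ∧ T.Rep A M i H q (2 ^ n) F γ Y Λ ∧
    ∀ j ∈ J, T.Frei (A \ M) {i} j H q (2 ^ n) γ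
def C2 [Fintype E] [DecidableEq E] (T : TT L C) (A M : Finset L) (i j : L) (H : Set (C → ℤ)) (n : ℕ)
    (γ : E → Fm L C) (Λ : D → E → Fm L C) : Prop :=
  ∃ (q : ℕ) (B : Matrix (Fin 4 × E) E ℤ) (W : Matrix E E ℤ), 1 ≤ q ∧ q ≤ 2 ^ n ∧ Kr n B W ∧
    T.Cst (A.erase i) M j H q n (fun (de : D × E) => lc Wᵀ (Λ de.1) de.2) ∧
    T.Cst (A \ M) {i} j H q n (lc B γ)
def C3 [Fintype E] [DecidableEq E] (T : TT L C) (A M : Finset L) (i j : L) (H : Set (C → ℤ)) (n : ℕ)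
    (γ : E → Fm L C) (Λ : D → E → Fm L C) : Prop :=
  ∃ (q : ℕ) (U : Matrix (Fin 4 × E) E ℤ) (V : Matrix E E ℤ), 1 ≤ q ∧ q ≤ 2 ^ n ∧ Kr n U V ∧
    VH T (A \ M) {i} H q n (lc U γ) ∧
    T.Frei (A.erase i) M j H q (2 ^ n) fun (de : D × E) => lc Vᵀ (Λ de.1) de.2

theorem RP.up {F : D → Fm L C} (h : RP T Z M H n F) (e : H' ⊆ H) (a : n ≤ n') : RP T Z M H' n' F :=
  ⟨h.1, h.2.1, h.2.2.1, fun j hj => (h.2.2.2 j hj).mono e a⟩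
theorem B0.up {F : D → Fm L C} (h : B0 d T Z M i H n F) (e : H' ⊆ H) (a : n ≤ n') :
    B0 d T Z M i H' n' F := ⟨h.1, h.2.1, h.2.2.up e a⟩
theorem B0.iM {F : D → Fm L C} (h : B0 d T Z M i H n F) : i ∉ M := disjoint_left.1 h.2.2.1 h.2.1
theorem B0.iA {F : D → Fm L C} (h : B0 d T Z M i H n F) : i ∈ Z ∪ M := mem_union_left _ h.2.1
theorem B0.jM {F : D → Fm L C} (h : B0 d T Z M i H n F) (k : j ∈ Z.erase i) : j ∉ M :=
  disjoint_left.1 h.2.2.1 (mem_of_mem_erase k)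
theorem B0.jA (k : j ∈ Z.erase i) : j ∈ Z ∪ M := mem_union_left _ (mem_of_mem_erase k)
theorem B0.cd {F : D → Fm L C} (h : B0 d T Z M i H n F) : (Z.erase i).card = d := by
  rw [card_erase_of_mem h.2.1, h.1]; rfl
theorem B0.dj {F : D → Fm L C} (h : B0 d T Z M i H n F) : Disjoint (Z.erase i) M :=
  h.2.2.1.mono_left (erase_subset _ _)

variable {C' : Type} [Fintype C'] [DecidableEq C'] {T' : TT L C'}
  {ι : (C' ⊕ L → ℝ) → (C ⊕ L → ℝ)} {H1 : Set (C' → ℤ)} {F Y : D → Fm L C} {γ : E → Fm L C}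
  {Λ : D → E → Fm L C}

theorem Mv.rp (m : Mv k0 s n T H T' ι H1 n' k) (hT : T.Ok) (h : RP T Z M H n F) :
    RP T' Z M H1 n' fun x p => F x (ι p) :=
  ⟨h.1, h.2.1, fun e => m.ref.dat (h.2.2.1 e), fun j hj =>
    m.frS hT (mem_union_left _ hj) (disjoint_left.1 h.1 hj) h.2.2.1 (h.2.2.2 j hj)⟩

theorem Mv.b0 (m : Mv k0 s n T H T' ι H1 n' k) (hT : T.Ok) (h : B0 d T Z M i H n F) :
    B0 d T' Z M i H1 n' fun x p => F x (ι p) := ⟨h.1, h.2.1, m.rp hT h.2.2⟩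

theorem Mv.r1 [Fintype E] (m : Mv k0 s n T H T' ι H1 n' k) (hT : T.Ok) (b : B0 d T Z M i H n F)
    (h : R1 T (Z ∪ M) M i (Z.erase i) H n F γ Y Λ) :
    R1 T' (Z ∪ M) M i (Z.erase i) H1 n' (fun x p => F x (ι p)) (fun e p => γ e (ι p))
      (fun x p => Y x (ι p)) fun x e p => Λ x e (ι p) :=
  let ⟨h0, q, h1, h2, h3, h4⟩ := h
  ⟨h0.trans m.n_le, q, h1, p2 h2 m.n_le, m.rep hT b.2.2.2.2.1 h3, fun j hj =>
    m.frei hT (mem_sdiff.2 ⟨B0.jA hj, b.jM hj⟩) (by simpa using ne_of_mem_erase hj) h3.1 (h4 j hj)⟩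

theorem Mv.c2 [Fintype E] [DecidableEq E] (m : Mv k0 s n T H T' ι H1 n' k) (hT : T.Ok)
    (r : R1 T A M i J H n F γ Y Λ) (h : C2 T A M i j H n γ Λ) :
    C2 T' A M i j H1 n' (fun e p => γ e (ι p)) fun x e p => Λ x e (ι p) :=
  let ⟨_, _, _, _, r, _⟩ := r
  let ⟨q, B, W, h1, h2, h3, h4, h5⟩ := h
  have u := m.cst hT (fun de : D × E => TT.Dat.lc (r.2.2.1 de.1) Wᵀ de.2) h4
  have v := m.cst hT (fun x => TT.Dat.lc r.1 B x) h5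
  ⟨q, B, W, h1, p2 h2 m.n_le, h3.up m.n_le, u, v⟩

theorem Mv.c3 [Fintype E] [DecidableEq E] (m : Mv k0 s n T H T' ι H1 n' k) (hT : T.Ok)
    (r : R1 T A M i J H n F γ Y Λ) (j1 : j ∈ A.erase i) (j2 : j ∉ M) (h : C3 T A M i j H n γ Λ) :
    C3 T' A M i j H1 n' (fun e p => γ e (ι p)) fun x e p => Λ x e (ι p) :=
  let ⟨_, _, _, _, r, _⟩ := r
  let ⟨q, B, W, h1, h2, h3, h4, h5⟩ := h
  have u := m.vh hT (fun x => TT.Dat.lc r.1 B x) h4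
  have v := m.frei hT j1 j2 (fun de : D × E => TT.Dat.lc (r.2.2.1 de.1) Wᵀ de.2) h5
  ⟨q, B, W, h1, p2 h2 m.n_le, h3.up m.n_le, u, v⟩
end

theorem Ar.iter' {l0 : ℕ} {Ξ : Type → Type} (Z : ∀ (L : Type) [DecidableEq L], Ξ L → Finset L)
    (S : Pf fun L => Ξ L × Finset L)
    (h : Ar l0 (Ξ := fun L => (Ξ L × Finset L) × L)
      (fun L _ _ D _ x C _ _ T H n F => x.2 ∈ Z L x.1.1 ∧ x.1.2 ⊆ Z L x.1.1 ∧ S L D x.1 C T H n F)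
      fun L _ _ D _ x C _ _ T H n F => S L D (x.1.1, insert x.2 x.1.2) C T H n F) :
    Ar l0 (fun L _ _ D _ x C _ _ T H n F => S L D (x, ∅) C T H n F)
      fun L _ _ D _ x C _ _ T H n F => S L D (x, Z L x) C T H n F :=
  (Ar.iter (Ξ := fun L => Ξ L × Finset L) (fun _ x => x.2)
    (fun L _ _ D _ x C _ _ T H n F => x.1.2 = Z L x.1.1 ∧ S L D (x.1.1, x.2) C T H n F)
    (h.ctx fun _ _ _ _ _ _ _ _ _ _ _ x _ ⟨a, b, e, p⟩ => ⟨((x.1.1.1, x.1.2), x.2),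
      ⟨e ▸ a, e ▸ b, p⟩, fun _ _ _ _ _ _ _ q => ⟨e, q⟩⟩)).ctx
    fun L _ _ _ _ _ _ _ _ _ _ x _ p => ⟨(x, Z L x), ⟨rfl, p⟩, fun _ _ _ _ _ _ _ q => q.2⟩

abbrev X1 (L : Type) := Finset L × Finset L × L
/-- state of S1 -/
def gs1 (d : ℕ) : Pf fun L => X1 L × Finset L := fun _ _ _ _ _ x _ _ _ T H n F =>
  B0 d T x.1.1 x.1.2.1 x.1.2.2 H n F ∧ P1 T (x.1.1 ∪ x.1.2.1) x.1.2.1 x.1.2.2 x.2 H n F
/-- state of S2 and S3 -/
def gs2 (d : ℕ) : Pf fun L => (X1 L × Finset L) × Finset L := fun L _ _ D _ x C _ _ T H n F =>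
  B0 d T x.1.1.1 x.1.1.2.1 x.1.1.2.2 H n F ∧ ∃ (E : Type) (_ : Fintype E) (_ : DecidableEq E)
    (γ : E → Fm L C) (Y : D → Fm L C) (Λ : D → E → Fm L C),
    R1 T (x.1.1.1 ∪ x.1.1.2.1) x.1.1.2.1 x.1.1.2.2 (x.1.1.1.erase x.1.1.2.2) H n F γ Y Λ ∧
    (∀ j ∈ x.1.2, C2 T (x.1.1.1 ∪ x.1.1.2.1) x.1.1.2.1 x.1.1.2.2 j H n γ Λ) ∧
    ∀ j ∈ x.2, C3 T (x.1.1.1 ∪ x.1.1.2.1) x.1.1.2.1 x.1.1.2.2 j H n γ Λ

variable {l0 d : ℕ}
theorem st_a (hB : BOX) (h : ONEX l0) : Ar l0 (Ξ := X1)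
    (fun _ _ _ _ _ x _ _ _ T H n F => B0 d T x.1 x.2.1 x.2.2 H n F)
    fun L _ _ D _ x C _ _ T H n F => gs1 d L D (x, ∅) C T H n F := by
  obtain ⟨k0, h⟩ := Eng.prd (l0 := l0) (R := fun L _ _ D _ x C _ _ T H n F =>
    ∃ (E : Type) (_ : Fintype E) (q' : ℕ) (γ : E → Fm L C) (Y : D → Fm L C) (Λ : D → E → Fm L C),
      Fintype.card E ≤ n ∧ 1 ≤ q' ∧ q' ≤ 2 ^ n ∧ T.Rep x.1 x.2.1 x.2.2 H q' (2 ^ n) F γ Y Λ) h
    (8 * l0 + 49) (by omega)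
  refine ⟨k0, fun K' => (h K').imp fun K h L C _ _ _ _ T X D _ n H ⟨Z, M, i⟩ F l z g c b => ?_⟩
  exact (h L C T X D n H _ M i F l z g c b.2.2.2.1 subset_union_right b.iA b.iM b.2.2.2.2.1
    (prd_fr hB l z subset_union_right b.iA b.iM b.2.2.2.2.1 (b.2.2.2.2.2 i b.2.1))).imp le_rfl le_rfl
    fun C' _ _ T' ι H' n' k m _ ⟨E, _, q, γ, Y, Λ, r1, r2, r3, r4⟩ =>
      ⟨m.b0 g.ok b, E, _, q, γ, Y, Λ, r1, r2, r3, r4, by simp⟩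

theorem st_b (h : S1 l0) : Ar l0 (Ξ := X1)
    (fun L _ _ D _ x C _ _ T H n F => gs1 d L D (x, ∅) C T H n F)
    fun L _ _ D _ x C _ _ T H n F => gs2 d L D ((x, ∅), ∅) C T H n F := by
  refine (Ar.iter' (fun _ _ x => x.1.erase x.2.2) (gs1 d) ?_).trans (Ar.imp ?_)
  · obtain ⟨k0, h⟩ := h
    refine ⟨k0, fun K' => (h K').imp fun K h L C _ _ _ _ T X D _ n H ⟨⟨⟨Z, M, i⟩, J⟩, j⟩ F l z g c
      ⟨hj, hJ, b, p⟩ => ?_⟩
    obtain ⟨q, q1, q2, f⟩ := b.2.2.2.2.2 j (mem_of_mem_erase hj)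
    exact (h L C T X D n H _ M J i j q F l z g c b.2.2.2.1 subset_union_right b.iA b.iM (B0.jA hj)
      (b.jM hj) (ne_of_mem_erase hj) (by rw [u_sd b.2.2.1]; exact hJ) b.2.2.2.2.1 q1 q2 f p).imp le_rfl le_rfl
      fun C' _ _ T' ι H' n' k m _ r => ⟨m.b0 g.ok b, r⟩
  · rintro L C _ _ _ _ T D _ n H ⟨Z, M, i⟩ F - ⟨b, E, _, q, γ, Y, Λ, r1, r2, r3, r4, r5⟩
    exact ⟨b, E, _, Classical.decEq _, γ, Y, Λ, ⟨r1, q, r2, r3, r4, r5⟩, by simp, by simp⟩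

theorem st_c (h : S2 l0) : Ar l0 (Ξ := X1)
    (fun L _ _ D _ x C _ _ T H n F => gs2 d L D ((x, ∅), ∅) C T H n F)
    fun L _ _ D _ x C _ _ T H n F => gs2 d L D ((x, x.1.erase x.2.2), ∅) C T H n F := by
  refine Ar.iter' (fun _ _ x => x.1.erase x.2.2)
    (fun L _ _ D _ x C _ _ T H n F => gs2 d L D (x, ∅) C T H n F) ?_
  obtain ⟨k0, h⟩ := h
  refine ⟨k0, fun K' => (h K').imp fun K h L C _ _ _ _ T X D _ n H ⟨⟨⟨Z, M, i⟩, J⟩, j⟩ F l z g c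
    ⟨hj, hJ, b, E, _, _, γ, Y, Λ, r, r2, _⟩ => ?_⟩
  obtain ⟨q1, a1, a2, f⟩ := b.2.2.2.2.2 j (mem_of_mem_erase hj)
  obtain ⟨e, q, b1, b2, b3, b4⟩ := id r
  exact (h L C T X D E n H _ M i j q q1 F Y γ Λ l z g c e b.2.2.2.1 subset_union_right b.iA b.iM
    (B0.jA hj) (b.jM hj) (ne_of_mem_erase hj) b.2.2.2.2.1 b1 b2 a1 a2 f b3 (b4 j hj)).imp le_rfl
    le_rfl fun C' _ _ T' ι H' n' k m _ u => ⟨m.b0 g.ok b, E, _, _, _, _, _, m.r1 g.ok b r,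
      (forall_mem_insert _ _ _).2 ⟨u, fun j hj => m.c2 g.ok r (r2 j hj)⟩, by simp⟩

theorem st_d (h : S3 l0) : Ar l0 (Ξ := X1)
    (fun L _ _ D _ x C _ _ T H n F => gs2 d L D ((x, x.1.erase x.2.2), ∅) C T H n F)
    fun L _ _ D _ x C _ _ T H n F => gs2 d L D ((x, x.1.erase x.2.2), x.1.erase x.2.2) C T H n F := by
  refine Ar.iter' (fun _ _ x => x.1.erase x.2.2)
    (fun L _ _ D _ x C _ _ T H n F => gs2 d L D ((x.1, x.1.1.erase x.1.2.2), x.2) C T H n F) ?_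
  obtain ⟨k0, h⟩ := h
  refine ⟨k0, fun K' => (h K').imp fun K h L C _ _ _ _ T X D _ n H ⟨⟨⟨Z, M, i⟩, J⟩, j⟩ F l z g c
    ⟨hj, hJ, b, E, _, _, γ, Y, Λ, r, r2, r3⟩ => ?_⟩
  obtain ⟨q1, a1, a2, f⟩ := b.2.2.2.2.2 j (mem_of_mem_erase hj)
  obtain ⟨e, q, b1, b2, b3, b4⟩ := id r
  obtain ⟨q2, B, W, c1, c2, c3, c4, c5⟩ := r2 j hj
  exact (h L C T X D E n H _ M i j q q1 q2 F Y γ Λ B W l z g c e b.2.2.2.1 subset_union_right b.iA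
    b.iM (B0.jA hj) (b.jM hj) (ne_of_mem_erase hj) b.2.2.2.2.1 b1 b2 a1 a2 c1 c2 f b3 (b4 j hj) c3
    c4 c5).imp le_rfl le_rfl fun C' _ _ T' ι H' n' k m _ u => ⟨m.b0 g.ok b, E, _, _, _, _, _,
      m.r1 g.ok b r, fun j hj => m.c2 g.ok r (r2 j hj), (forall_mem_insert _ _ _).2 ⟨u, fun j hj =>
        m.c3 g.ok r (mem_erase.2 ⟨ne_of_mem_erase (hJ hj), B0.jA (hJ hj)⟩) (b.jM (hJ hj)) (r3 j hj)⟩⟩
end Crest.Agent.N49.Rm
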