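import Crest.Agent.N49.Rm.G1
/-! Row 49, block RMH (helper57): glue, steps S4, RMH twice, MIX, S5. -/
set_option autoImplicit false
set_option linter.unusedSectionVars false
noncomputable section
namespace Crest.Agent.N49.Rm
open Finset TT Matrix Crest.Agent.N49.Iv.Il

theorem prod_p2 {L : Type} {J : Finset L} {q : L → ℕ} {n : ℕ} (h : ∀ j ∈ J, q j ≤ 2 ^ n) :
    ∏ j ∈ J, q j ≤ 2 ^ (J.card * n) :=
  (prod_le_pow_card _ _ _ h).trans (by rw [← pow_mul, mul_comm])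

theorem pow_two_le {n c K : ℕ} (h : 2 ≤ n) : (n ^ c) ^ K ≤ n ^ (c * (K + 1)) ∧
    n ^ c ≤ n ^ (c * (K + 1)) :=
  ⟨by rw [← pow_mul]; exact pow_mono' h (by nlinarith), pow_mono' h (by nlinarith)⟩

section
variable {L C : Type} [Fintype L] [DecidableEq L] [Fintype C] [DecidableEq C] {T : TT L C}
  {H H' : Set (C → ℤ)} {A M Z J : Finset L} {i j : L} {n n' q q' k0 s k d : ℕ} {D E R : Type}
  {F Y F0 : D → Fm L C} {γ : E → Fm L C} {Λ : D → E → Fm L C} [Fintype E]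

theorem R1.up (h : R1 T A M i J H n F γ Y Λ) (a : n ≤ n') : R1 T A M i J H n' F γ Y Λ :=
  let ⟨h0, q, h1, h2, h3, h4⟩ := h
  ⟨h0.trans a, q, h1, p2 h2 a, h3.up subset_rfl dvd_rfl h1 a, fun j hj =>
    (h4 j hj).mono subset_rfl dvd_rfl h1 (two_pow_mono a)⟩

theorem C2.up [DecidableEq E] (h : C2 T A M i j H n γ Λ) (a : n ≤ n') : C2 T A M i j H n' γ Λ :=
  let ⟨q, B, W, h1, h2, h3, h4, h5⟩ := h
  ⟨q, B, W, h1, p2 h2 a, h3.up a, h4.up subset_rfl dvd_rfl h1 a, h5.up subset_rfl dvd_rfl h1 a⟩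

/-- state after S4 -/
structure K4 (a b : Prop) (d : ℕ) (T : TT L C) (Z M : Finset L) (i : L) (H : Set (C → ℤ)) (n : ℕ)
    [Fintype D] [DecidableEq E] [Fintype R] (F : D → Fm L C) (γ : E → Fm L C) (Y : D → Fm L C)
    (Λ : D → E → Fm L C) (U : Matrix R E ℤ) (V : Matrix E E ℤ) : Prop where
  b0 : B0 d T Z M i H n F
  r1 : R1 T (Z ∪ M) M i (Z.erase i) H n F γ Y Λ
  c2 : ∀ j ∈ Z.erase i, C2 T (Z ∪ M) M i j H n γ Λ
  cd : Fintype.card (D × E) ≤ n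
  cr : Fintype.card R ≤ n
  kr : Kr n U V
  vh : ∃ q, 1 ≤ q ∧ q ≤ 2 ^ n ∧ VH T ((Z ∪ M) \ M) {i} H q n (lc U γ)
  rp : RP T (Z.erase i) M H n fun de : D × E => lc Vᵀ (Λ de.1) de.2
  ma : a → Mb T (Z.erase i) M H n fun de : D × E => lc Vᵀ (Λ de.1) de.2
  mb : b → Mb T (Z.erase i) {i} H n γ

/-- state after S5 -/
def K6 (T : TT L C) (Z M : Finset L) (i : L) (H : Set (C → ℤ)) (n : ℕ) (F F0 Y : D → Fm L C) :
    Prop := Tb T Z M H n F0 ∧ (∀ x, T.Dat (Z ∪ M) (insert i M) (Y x)) ∧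
  ∃ q, 1 ≤ q ∧ q ≤ 2 ^ n ∧ VH T (Z ∪ M) M H q n fun x p => F x p - F0 x p - Y x p

theorem R1.rp (b : B0 d T Z M i H n F) (h : R1 T (Z ∪ M) M i (Z.erase i) H n F γ Y Λ) :
    RP T (Z.erase i) {i} H n γ := by
  obtain ⟨-, q, h1, h2, h3, h4⟩ := h
  have h5 := h3.1
  rw [u_sd b.2.2.1] at h4 h5
  rw [RP, u_sg b.2.1]
  exact ⟨by simp, singleton_nonempty _, h5, fun j hj => ⟨q, h1, h2, h4 j hj⟩⟩

variable {C' : Type} [Fintype C'] [DecidableEq C'] {T' : TT L C'}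
  {ι : (C' ⊕ L → ℝ) → (C ⊕ L → ℝ)} {H1 : Set (C' → ℤ)}

theorem Mv.k4 (hP : TBP) (m : Mv k0 s n T H T' ι H1 n' k) (hT : T.Ok) {a b : Prop} [Fintype D]
    [DecidableEq E] [Fintype R] {U : Matrix R E ℤ} {V : Matrix E E ℤ}
    (h : K4 a b d T Z M i H n F γ Y Λ U V) :
    K4 a b d T' Z M i H1 n' (fun x p => F x (ι p)) (fun e p => γ e (ι p)) (fun x p => Y x (ι p))
      (fun x e p => Λ x e (ι p)) U V := by
  obtain ⟨q, q1, q2, v⟩ := h.vh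
  obtain ⟨-, _, -, -, r, -⟩ := h.r1
  have v' := m.vh hT (fun x => TT.Dat.lc r.1 U x) v
  have r' := m.rp hT h.rp
  have g := h.r1.rp h.b0
  exact ⟨m.b0 hT h.b0, m.r1 hT h.b0 h.r1, fun j hj => m.c2 hT h.r1 (h.c2 j hj), h.cd.trans m.n_le,
    h.cr.trans m.n_le, h.kr.up m.n_le, ⟨q, q1, p2 q2 m.n_le, v'⟩, r',
    fun x => (m.mb hP hT h.rp.1 h.rp.2.2.1 (h.ma x) :), fun x => m.mb hP hT g.1 g.2.2.1 (h.mb x)⟩

theorem Mv.k6 (hP : TBP) (m : Mv k0 s n T H T' ι H1 n' k) (hT : T.Ok) (b : B0 d T Z M i H n F)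
    (h : K6 T Z M i H n F F0 Y) :
    K6 T' Z M i H1 n' (fun x p => F x (ι p)) (fun x p => F0 x (ι p)) fun x p => Y x (ι p) :=
  let ⟨h1, h2, q, q1, q2, v⟩ := h
  ⟨m.tb hP hT h1, fun x => m.ref.dat (h2 x), q, q1, p2 q2 m.n_le, m.vh hT (fun x =>
    ((b.2.2.2.2.1 x).sub (h1.dat b.2.2.1 x)).sub ((h2 x).mono subset_rfl (subset_insert _ _))) v⟩
end

def gs4 (a b : Prop) (d : ℕ) : Pf X1 := fun L _ _ D _ x C _ _ T H n F =>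
  ∃ (E : Type) (_ : Fintype E) (_ : DecidableEq E) (R : Type) (_ : Fintype R) (γ : E → Fm L C)
    (Y : D → Fm L C) (Λ : D → E → Fm L C) (U : Matrix R E ℤ) (V : Matrix E E ℤ),
    K4 a b d T x.1 x.2.1 x.2.2 H n F γ Y Λ U V
def gs6 (d : ℕ) : Pf fun L => X1 L × Finset L := fun L _ _ D _ x C _ _ T H n F =>
  B0 d T x.1.1 x.1.2.1 x.1.2.2 H n F ∧ ∃ F0 Y : D → Fm L C, K6 T x.1.1 x.1.2.1 x.1.2.2 H n F F0 Y ∧
    ∀ j ∈ x.2, FrS T (x.1.1 ∪ x.1.2.1) (insert x.1.2.2 x.1.2.1) j H n Y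
/-- RMH as an arrow -/
def RMA (l0 d : ℕ) : Prop := Ar l0 (Ξ := fun L => Finset L × Finset L)
  (fun _ _ _ _ _ x _ _ _ T H n F => x.1.card = d ∧ RP T x.1 x.2 H n F)
  fun _ _ _ _ _ x _ _ _ T H n F => Mb T x.1 x.2 H n F

variable {l0 d : ℕ}
theorem st_e (h : S4 l0) : Ar l0 (Ξ := X1) (fun L _ _ D _ x C _ _ T H n F =>
    gs2 d L D ((x, x.1.erase x.2.2), x.1.erase x.2.2) C T H n F) (gs4 False False d) := by
  obtain ⟨K, h⟩ := h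
  refine Ar.det ((4 * l0 + 2) * (K + 1)) (by nlinarith) ?_
  rintro L C _ _ _ _ T D _ n H ⟨Z, M, i⟩ F l z o c ⟨b, E, _, _, γ, Y, Λ, r, r2, r3⟩
  dsimp only at b r r2 r3
  choose! q U V h1 h2 h3 h4 h5 using r3
  have cJ : (Z.erase i).card ≤ l0 := (card_le_univ _).trans l
  have e1 : 4 * l0 * n + 1 ≤ n ^ (4 * l0 + 2) := lin_le_pow z.1 (4 * l0) 1
  have e2 : n ^ 2 ≤ n ^ (4 * l0 + 2) := pow_mono' z.1 (by omega)
  have e : n ≤ n ^ (4 * l0 + 2) := le_pow_self' z.1 (by omega)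
  obtain ⟨e3, e4⟩ := pow_two_le (c := 4 * l0 + 2) (K := K) z.1
  have p : 1 ≤ ∏ j ∈ Z.erase i, q j := Nat.succ_le_of_lt (prod_pos h1)
  have p' : ∏ j ∈ Z.erase i, q j ≤ 2 ^ n ^ (4 * l0 + 2) := p2 (prod_p2 h2) (by nlinarith)
  obtain ⟨q', V', a1, a2, a3, a4⟩ := h L C T D E _ H _ M _ _ Λ U V l (z.1.trans e) (r.1.trans e) p p'
    fun j hj => ⟨(h3 j hj).up e, (h5 j hj).mono subset_rfl (dvd_prod_of_mem _ hj) p (two_pow_mono e)⟩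
  obtain ⟨cE, _, -, -, r', -⟩ := id r
  have r4 := r'.2.2.1
  rw [u_er b.iM] at a4 r4
  refine ⟨E, _, _, _, _, γ, Y, Λ, _, V', b.up subset_rfl (e.trans e4), r.up (e.trans e4),
    fun j hj => (r2 j hj).up (e.trans e4), le_trans ?_ (e2.trans e4), le_trans ?_ e4, a3.up e3,
    ⟨_, p, p2 p' e4, fun y hy x => (h4 x.1 x.1.2).up subset_rfl (dvd_prod_of_mem _ x.1.2) p
      (e.trans e4) y hy x.2⟩, ⟨b.dj, b.2.2.2.1, fun de => TT.Dat.lc (r4 de.1) _ _, fun j hj =>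
      ⟨q', a1, p2 a2 e3, (a4 j hj).mono subset_rfl dvd_rfl a1 (two_pow_mono e3)⟩⟩,
    False.elim, False.elim⟩
  · rw [Fintype.card_prod, sq]; exact Nat.mul_le_mul c cE
  · simp only [Fintype.card_prod, Fintype.card_coe, Fintype.card_fin]
    nlinarith [Nat.mul_le_mul cJ cE]

theorem st_f (hP : TBP) (h : RMA l0 d) : Ar l0 (gs4 False False d) (gs4 True False d) :=
  Ar.use h fun _ _ _ _ _ _ _ D _ _ _ x _ o ⟨E, _, _, R, _, _, _, Λ, U, V, k⟩ =>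
    ⟨D × E, _, (x.1.erase x.2.2, x.2.1), fun de => lc Vᵀ (Λ de.1) de.2, k.cd, ⟨k.b0.cd, k.rp⟩,
      fun _ _ _ _ _ _ _ _ _ _ m u => ⟨E, _, _, R, _, _, _, _, U, V,
        { m.k4 hP o k with ma := fun _ => u }⟩⟩

theorem st_g (hP : TBP) (h : RMA l0 d) : Ar l0 (gs4 True False d) (gs4 True True d) :=
  Ar.use h fun _ _ _ _ _ _ _ _ _ _ _ x _ o ⟨E, _, _, R, _, γ, _, _, U, V, k⟩ =>
    ⟨E, _, (x.1.erase x.2.2, {x.2.2}), γ, k.r1.1, ⟨k.b0.cd, k.r1.rp k.b0⟩,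
      fun _ _ _ _ _ _ _ _ _ _ m u => ⟨E, _, _, R, _, _, _, _, U, V,
        { m.k4 hP o k with mb := fun _ => u }⟩⟩

/-- centre the letters of `J`, keeping a stable state on the larger set -/
theorem Ar.mix (h : MIX l0) {Ξ : Type → Type} (J : ∀ (L : Type) [DecidableEq L], Ξ L → Finset L)
    (P : Pf Ξ) (st : ∀ (L C : Type) [Fintype L] [DecidableEq L] [Fintype C] [DecidableEq C]
      (T : TT L C) (D : Type) [Fintype D] (n : ℕ) (H : Set (C → ℤ)) (x : Ξ L) (F : D → Fm L C)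
      (C' : Type) [Fintype C'] [DecidableEq C'] (T' : TT L C') ι H' n' k0 s k, T.Ok →
      Mv k0 s n T H T' ι H' n' k → P L D x C T H n F → P L D x C' T' H' n' fun d p => F d (ι p)) :
    Ar l0 P fun L _ _ D _ x C _ _ T H n F => ∃ H0, H ⊆ H0 ∧ P L D x C T H0 n F ∧ T.Ctr (J L x) ∧
      ∀ y ∈ H, ∀ S ⊆ J L x, T.Yz S y ∈ H0 := by
  obtain ⟨k0, h⟩ := h
  exact ⟨k0, fun K' => (h K').imp fun K h L C _ _ _ _ T X D _ n H x F l z g _ p =>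
    (h L C T X n H (J L x) l z g).imp le_rfl le_rfl fun C' _ _ T' ι H' n' k m _ u =>
      ⟨_, m.ov, st L C T D n H x F C' T' ι _ n' _ _ k g.ok m.sat p, u.1, u.2⟩⟩

theorem st_h (hP : TBP) (hM : MIX l0) (h : S5 l0) : Ar l0 (gs4 True True d)
    fun L _ _ D _ x C _ _ T H n F => gs6 d L D (x, ∅) C T H n F := by
  refine (Ar.mix hM (fun _ _ x => x.1.erase x.2.2) _ fun _ _ _ _ _ _ _ _ _ _ _ _ _ _ _ _ _ _ _ _ _ _ _
    o m ⟨E, _, _, R, _, _, _, _, U, V, k⟩ => ⟨E, _, _, R, _, _, _, _, U, V, m.k4 hP o k⟩).trans ?_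
  obtain ⟨K, h⟩ := h
  refine Ar.sub ((l0 + 5) * (K + 1)) ?_
  rintro L C _ _ _ _ T D _ n H ⟨Z, M, i⟩ F l z g c
    ⟨H0, s, ⟨E, _, _, R, _, γ, Y, Λ, U, V, k⟩, ct, yz⟩
  dsimp only at k ct yz
  have b := k.b0
  obtain ⟨cE, q1, a1, b1, r, -⟩ := k.r1
  have c2 := k.c2
  choose! q B W h1 h2 h3 h4 h5 using c2
  obtain ⟨q2, a2, b2, v2⟩ := k.vh
  obtain ⟨Ξ, q3, a3, b3, t3, v3⟩ := k.ma trivial
  obtain ⟨Γ, q4, a4, b4, t4, v4⟩ := k.mb trivial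
  rw [u_er b.iM] at h4
  rw [u_sd b.2.2.1] at h5 v2
  rw [u_sg b.2.1] at v4
  have cJ : (Z.erase i).card ≤ l0 := (card_le_univ _).trans l
  have e1 : (l0 + 4) * n + 0 ≤ n ^ (l0 + 5) := lin_le_pow z.1 (l0 + 4) 0
  have e : n ≤ n ^ (l0 + 5) := le_pow_self' z.1 (by omega)
  obtain ⟨e3, e4⟩ := pow_two_le (c := l0 + 5) (K := K) z.1
  have p : 1 ≤ ∏ j ∈ Z.erase i, q j := Nat.succ_le_of_lt (prod_pos h1)
  obtain ⟨Q, Q1, Q2, d0, d1, d2, d3, d4⟩ : ∃ Q, 1 ≤ Q ∧ Q ≤ 2 ^ n ^ (l0 + 5) ∧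
      (∏ j ∈ Z.erase i, q j) ∣ Q ∧ q1 ∣ Q ∧ q2 ∣ Q ∧ q3 ∣ Q ∧ q4 ∣ Q :=
    ⟨(∏ j ∈ Z.erase i, q j) * (q1 * q2 * (q3 * q4)), Nat.succ_le_of_lt (by positivity),
      p2m (prod_p2 h2) (p2m (p2m b1 b2 le_rfl) (p2m b3 b4 le_rfl) le_rfl) (by nlinarith),
      dvd_mul_right _ _, ((dvd_mul_right _ _).mul_right _).mul_left _,
      ((dvd_mul_left _ _).mul_right _).mul_left _, ((dvd_mul_right _ _).mul_left _).mul_left _,
      ((dvd_mul_left _ _).mul_left _).mul_left _⟩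
  obtain ⟨H2, s2, q', F0, Y', m1, m2, m3, m4, m5, m6⟩ := h L C T D E R _ H0 H Z M i Q F Y γ Γ Λ Ξ
    B W U V l (z.mono' e) (Rm.mono _ _ _ _ _ _ T e3 e3 g) (cE.trans e) (k.cr.trans e) b.2.2.1 b.2.1
    Q1 Q2 ct yz (r.up subset_rfl d1 Q1 e) (fun j hj => ⟨(h3 j hj).up e,
      (h4 j hj).up subset_rfl ((dvd_prod_of_mem _ hj).trans d0) Q1 e,
      (h5 j hj).up subset_rfl ((dvd_prod_of_mem _ hj).trans d0) Q1 e⟩) (k.kr.up e)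
    (v2.up subset_rfl d2 Q1 e) (t3.up subset_rfl e) (v3.up subset_rfl d3 Q1 e) (t4.up subset_rfl e)
    (v4.up subset_rfl d4 Q1 e)
  exact ⟨H2, s2, _, e.trans e4, le_rfl, (half_anti e3).trans m1, b.up (s2.trans s) (e.trans e4),
    F0, Y', ⟨m4.up subset_rfl e3, m5, q', m2, p2 m3 e3, VH.up m6 subset_rfl dvd_rfl m2 e3⟩, by simp⟩
end Crest.Agent.N49.Rm
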