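import Crest.Agent.N49.Rm.Sp
import Crest.Agent.N49.Rm.Ar

/-! Row 49 (helper72): MIX, centring letters one at a time -/

set_option autoImplicit false
set_option linter.unusedSectionVars false
noncomputable section
namespace Crest.Agent.N49.Rm
open Finset TT

namespace Mx
variable {L C : Type} [Fintype L] [DecidableEq L] [Fintype C] [DecidableEq C] {T : TT L C}
  {j : L} {a : ℕ} {z : C → ℤ} {J S : Finset L}

theorem ctr_rc (h : T.Ok) (k : T.Ctr J) (hj : j ∉ J) : (T.rc j a z).Ctr (insert j J) := by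
  intro i hi p c hc
  rcases mem_insert.1 hi with rfl | hi
  · rcases c with c | c
    · rw [rc_Φ_l, ((h.dat c ⟨i, hc⟩).2 i hc).eq_zero, mul_zero]
      rintro (d | l) m
      · simp [up, Ys, show i ∈ T.ty d from m]
      · simp [up, show l = i from (mem_singleton.1 m).symm]
    · simp at hc
  have ne : i ≠ j := fun e => hj (e ▸ hi)
  rcases c with c | c
  · have : T.up j ((T.rc j a z).Ys {i} p) = T.Ys {i} (T.up j p) := by
      funext v
      rcases v with d | l
      · rfl
      · by_cases e : l = j <;> simp [up, Ys, e, ne.symm]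
    rw [rc_Φ_l, this, k i hi _ c hc, mul_zero]
  · have hc' : i ∈ T.ty c.1 := mem_of_mem_erase hc
    have : T.dn j z ((T.rc j a z).Ys {i} p) = T.Ys {i} (T.dn j z p) := by
      funext v
      rcases v with d | l
      · by_cases e : j ∈ T.ty d
        · by_cases e' : T.ty d = {j} <;> simp [dn, Ys, e, e', ne, ne.symm]
        · simp [dn, Ys, e]
      · by_cases e : l = j <;> simp [dn, Ys, e, ne.symm]
    rw [rc_Φ_r, if_neg fun e => ne (by simpa [e] using hc'), this, k i hi _ _ hc']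

theorem yz_out (hj : j ∉ S) {y : T.CR j → ℤ} {x : C → ℤ} (e : T.rci j 1 z (cf y) = cf x) :
    T.rci j 1 z (cf ((T.rc j a z).Yz S y)) = cf (T.Yz S x) := by
  funext v
  rcases v with c | l
  · have := congrFun e (.inl c)
    have d : Disjoint ((T.ty c).erase j) S ↔ Disjoint (T.ty c) S := by
      rw [disjoint_erase_comm, erase_eq_of_notMem hj]
    by_cases k : Disjoint (T.ty c) S
    · by_cases m : j ∈ T.ty c
      · by_cases m' : T.ty c = {j}
        · simpa [rci, dn, cf, Yz, m', hj] using this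
        · simpa [rci, dn, cf, Yz, m, m', k, d] using this
      · simpa [rci, dn, cf, Yz, m, k] using this
    · have m' : T.ty c ≠ {j} := fun m => k (by simpa [m] using hj)
      by_cases m : j ∈ T.ty c <;> simp [rci, dn, cf, Yz, m, m', k, d]
  · rfl

theorem yz_in (hj : j ∈ S) {y : T.CR j → ℤ} {x : C → ℤ} (e : T.dn j z (cf y) = cf x) :
    T.rci j 1 z (cf ((T.rc j a z).Yz S y)) = cf (T.Yz (S.erase j) x) := by
  funext v
  rcases v with c | l
  · have := congrFun e (.inl c)
    by_cases m : j ∈ T.ty c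
    · have k : ¬ Disjoint (T.ty c) S := not_disjoint_iff.2 ⟨j, m, hj⟩
      by_cases m' : T.ty c = {j}
      · simpa [rci, dn, cf, Yz, m', hj] using this
      · by_cases d : Disjoint (T.ty c) (S.erase j)
        · simpa [rci, dn, cf, Yz, m, m', k, d, disjoint_erase_comm] using this
        · simp [rci, dn, cf, Yz, m, m', k, d, disjoint_erase_comm]
    · have d : Disjoint (T.ty c) (S.erase j) ↔ Disjoint (T.ty c) S := by
        rw [← disjoint_erase_comm, erase_eq_of_notMem m]
      by_cases k : Disjoint (T.ty c) S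
      · simpa [rci, dn, cf, Yz, m, k, d] using this
      · simp [rci, cf, Yz, m, k, d]
  · rfl

end Mx

theorem mix (hP : PAIRX) (l0 : ℕ) : MIX l0 := by
  have key : ∀ m K' : ℕ, ∃ K : ℕ, ∀ (L C : Type) [Fintype L] [DecidableEq L] [Fintype C]
      [DecidableEq C] (T : TT L C) (hk : Hk L C) (n : ℕ) (H : Set (C → ℤ)) (J : Finset L),
      Fintype.card L ≤ l0 → #J = m → Sz n T H → GG (n ^ K) T hk →
      NX m (n ^ K) K' n T H hk fun _ _ _ T' ι H' _ => T'.Ctr J ∧
        ∀ y ∈ H', ∀ S ⊆ J, ∃ x ∈ H, ι (cf (T'.Yz S y)) = cf x := by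
    intro m
    induction m with
    | zero =>
      refine fun K' => ⟨K' + 1, fun L C _ _ _ _ T X n H J l m z g => ?_⟩
      obtain rfl := card_eq_zero.1 m
      refine NX.here le_rfl (le_pow_self' z.1 (by omega)) (g.mono (pow_mono' z.1 (by omega)))
        subset_rfl z ⟨by simp [TT.Ctr], fun y hy S s => ⟨y, hy, ?_⟩⟩
      obtain rfl := subset_empty.1 s
      exact congrArg cf (funext fun c => by simp [Yz])
    | succ m ih =>
      intro K'
      obtain ⟨E, hE⟩ : ∃ E, E = 8 + (8 * l0 + 61) + 1 := ⟨_, rfl⟩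
      obtain ⟨K, ih⟩ := ih (E * (K' + 1) + 1)
      refine ⟨K * (E * (K' + 1) + 1), fun L C _ _ _ _ T X n H J l hm z g => ?_⟩
      obtain ⟨j, J, hj, rfl, hJ⟩ := card_eq_succ.1 hm
      have e : n ^ K ≤ n ^ (K * (E * (K' + 1) + 1)) := pow_mono' z.1 (Nat.le_mul_of_pos_right _ (by omega))
      refine (ih L C T X n H J l hJ z (g.mono e)).bind e fun C1 _ _ T1 ι H1 n1 k mv g1 p => ?_
      have n2 := mv.sz.1
      have e1 : 8 * n1 + (8 * l0 + 61) ≤ n1 ^ E := hE ▸ lin_le_pow n2 _ _
      obtain ⟨b, hb⟩ : ∃ b, n1 ^ (E * (K' + 1) + 1) = b + 1 := ⟨_, (Nat.succ_pred_eq_of_pos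
        (by positivity)).symm⟩
      have e2 : (n1 ^ E) ^ (K' + 1) ≤ b := by
        have : 0 < n1 ^ (E * (K' + 1)) := by positivity
        rw [← pow_mul]; rw [pow_succ] at hb; nlinarith
      have e3 : n1 ^ E ≤ b := (le_pow_self' (by omega) (by omega)).trans e2
      have e4 : b + 1 ≤ n ^ (K * (E * (K' + 1) + 1)) := by
        rw [← hb, pow_mul n]; exact Nat.pow_le_pow_left mv.le' _
      rw [hb] at g1
      obtain ⟨z1, z2, z3⟩ := hP L C1 T1 (n1 + l0) (b + 1) j (8 * (n1 + l0) + 40) 1 H1 _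
        (mv.sz.mono' (by omega)) (by omega) le_rfl Nat.one_le_two_pow le_rfl (by omega) (by omega)
        (mono _ _ _ _ _ _ _ le_rfl (by omega) g1.good)
        (g1.2.2 j (8 * (n1 + l0) + 40) 1 (by omega) le_rfl le_rfl)
      have e5 : (2 * (n1 + l0) + 3) ^ K' ≤ b :=
        ((Nat.pow_le_pow_left (by omega) _).trans (pow_mono' (by omega) (by omega))).trans e2
      refine ⟨_, _, _, _, _, _, 2 * (n1 + l0) + 3, 0 + 1, by omega, by omega, le_rfl,
        Ref.rc .refl j _ 1 z1 le_rfl Nat.one_le_two_pow (by omega),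
        GX.mono (by omega) _ _ _ _ _ e5 (not_not.1 z2), ⟨by omega, ?_, z3⟩, fun y hy => And.left hy,
        Mx.ctr_rc g1.ok p.1 hj, fun y hy S s => ?_⟩
      · have : Fintype.card (T1.Bl j) ≤ Fintype.card C1 := Fintype.card_subtype_le _
        have := mv.sz.2.1
        have : 2 ^ (n1 + 1) ≤ 2 ^ (2 * (n1 + l0) + 3) := Nat.pow_le_pow_right two_pos (by omega)
        rw [Fintype.card_sum]; omega
      by_cases m : j ∈ S
      · obtain ⟨x, h1, h2⟩ := hy.2
        obtain ⟨x', h3, h4⟩ := p.2 x h1 _ (subset_insert_iff.1 s)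
        exact ⟨x', h3, (congrArg ι (Mx.yz_in m h2)).trans h4⟩
      · obtain ⟨x, h1, h2⟩ := hy.1
        obtain ⟨x', h3, h4⟩ := p.2 x h1 _ ((subset_insert_iff_of_notMem m).1 s)
        exact ⟨x', h3, (congrArg ι (Mx.yz_out m h2)).trans h4⟩
  refine ⟨l0, fun K' => ?_⟩
  choose K hK using fun m => key m K'
  refine ⟨∑ m ∈ range (l0 + 1), K m, fun L C _ _ _ _ T X n H J l z g => ?_⟩
  have m : #J ≤ l0 := (card_le_univ J).trans l
  have e : n ^ K #J ≤ n ^ ∑ m ∈ range (l0 + 1), K m :=
    pow_mono' z.1 (single_le_sum (fun _ _ => Nat.zero_le _) (mem_range.2 (by omega)))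
  exact (hK _ L C T X n H J l rfl z (g.mono e)).imp m e fun _ _ _ _ _ _ _ _ _ _ r => r

end Crest.Agent.N49.Rm
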