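import Crest.Agent.N49.Rm.Cn0
import Crest.Agent.N49.Rm.Ctr
import Crest.Agent.N49.Rm.Box
import Crest.Agent.N49.Rm.Mod
import Crest.Agent.N49.On.Mg
import Crest.Agent.N49.Rm.Law
/-! Row 49, block RMH (helper18): realising a direction shape by recentrings. -/
set_option autoImplicit false
set_option linter.unusedSectionVars false
noncomputable section
namespace Crest.Agent.N49.Rm
open Finset TT

namespace Rl
theorem mixA {J Y W : Type} (e : J × Y ≃ W × J) {ν ν0 : J → ℝ} (h0 : ∀ x, 0 < ν x)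
    (h1 : ∀ x, 0 < ν0 x) (sν : Summable ν) [Nonempty J] {ω : W → ℝ} (w0 : ∀ w, 0 ≤ ω w)
    (sω : Summable ω) {ω' : J → Y → ℝ}
    (hw : ∀ ζ y, ν0 ζ * ω' ζ y = ω (e (ζ, y)).1 * ν (e (ζ, y)).2) (K : Set W) {r : ℝ}
    (k : ∀ ζ, ∑' y, {y | (e (ζ, y)).1 ∈ K}.indicator (ω' ζ) y ≤ r * ∑' y, ω' ζ y) :
    ∑' w, K.indicator ω w ≤ r * ∑' w, ω w := by
  have N0 : 0 < ∑' x, ν x := sν.tsum_pos (fun x => (h0 x).le) (Classical.arbitrary J) (h0 _)
  have key : ∀ K : Set W, HasSum (fun ζ => ν0 ζ * ∑' y, {y | (e (ζ, y)).1 ∈ K}.indicator (ω' ζ) y)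
      ((∑' w, K.indicator ω w) * ∑' x, ν x) := by
    intro K
    have s1 := sω.indicator K
    have s2 := s1.mul_of_nonneg sν (fun w => Set.indicator_nonneg (fun _ _ => w0 _) w)
      fun x => (h0 x).le
    have s3 := e.hasSum_iff.2 (s1.hasSum.mul sν.hasSum s2)
    refine (congrArg (HasSum · _) (funext fun ζ => ?_)).mpr
      (s3.prod_fiberwise fun ζ => (s3.summable.prod_factor ζ).hasSum)
    rw [← tsum_mul_left]
    refine tsum_congr fun y => ?_
    by_cases m : (e (ζ, y)).1 ∈ K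
    · rw [Set.indicator_of_mem (s := {y | (e (ζ, y)).1 ∈ K}) m, hw]
      simp only [Function.comp, Set.indicator_of_mem m]
    · rw [Set.indicator_of_notMem (s := {y | (e (ζ, y)).1 ∈ K}) m]
      simp only [Function.comp, Set.indicator_of_notMem m, mul_zero, zero_mul]
  have := hasSum_le (fun ζ => ?_) (key K) ((key Set.univ).mul_left r)
  · rw [Set.indicator_univ, ← mul_assoc] at this
    exact le_of_mul_le_mul_right this N0
  · rw [mul_left_comm]
    refine mul_le_mul_of_nonneg_left ?_ (h1 _).le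
    simpa using k ζ

variable {L C : Type} [Fintype L] [DecidableEq L] [Fintype C] [DecidableEq C] (T : TT L C) (j : L)
  (s : ℕ) (z : C → ℤ) {r : ℕ}

/-- the block of `j` after recentring -/
def eB : T.Bl j ≃ (T.rc j s z).Bl j where
  toFun c := ⟨.inl c.1, c.2⟩
  invFun
    | ⟨.inl c, h⟩ => ⟨c, h⟩
    | ⟨.inr _, h⟩ => absurd h (by simp)
  left_inv _ := rfl
  right_inv
    | ⟨.inl _, _⟩ => rfl
    | ⟨.inr _, h⟩ => absurd h (by simp)

def fZ (W : (T.rc j s z).CC j (Fin r) → ℤ) : T.CC j (Fin (r + 1)) → ℤ :=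
  Bx.mk T j (fun c => T.rcw j z (fun u => W (.inl u)) (.inl c))
    (Fin.cases (fun c => W (.inl (.inl c.1))) fun x c => W (.inr (eB T j s z c, x)))

def fP (p : (T.rc j s z).CC j (Fin r) ⊕ (L ⊕ Fin r) → ℝ) :
    T.CC j (Fin (r + 1)) ⊕ (L ⊕ Fin (r + 1)) → ℝ
  | .inl (.inl c) => T.dn j z ((T.rc j s z).p0 j p) (.inl c)
  | .inl (.inr cx) => Fin.cases (motive := fun _ => ℝ) (p (.inl (.inl (.inl cx.1.1))))
      (fun x => p (.inl (.inr (eB T j s z cx.1, x)))) cx.2
  | .inr (.inl ℓ) => T.dn j z ((T.rc j s z).p0 j p) (.inr ℓ)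
  | .inr (.inr _) => 1

theorem p0_fP (p) : T.p0 j (fP (r := r) T j s z p) = T.dn j z ((T.rc j s z).p0 j p) := by
  funext v; rcases v with c | ℓ <;> rfl

theorem px0_fP (p) : T.px j (fun _ => false) 0 (fP (r := r) T j s z p) =
    T.up j ((T.rc j s z).p0 j p) := by
  funext v
  rcases v with c | ℓ
  · by_cases k : j ∈ T.ty c <;> simp [px, fP, up, dn, p0, k]
  · by_cases k : ℓ = j <;> simp [px, fP, up, dn, p0, k]

theorem pxs_fP (p) (x : Fin r) : T.px j (fun _ => false) x.succ (fP T j s z p) =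
    T.up j ((T.rc j s z).px j (fun _ => false) x p) := by
  funext v
  rcases v with c | ℓ
  · by_cases k : j ∈ T.ty c <;> simp [px, fP, up, dn, p0, k, eB]
  · by_cases k : ℓ = j <;> simp [px, fP, up, dn, p0, k]

def rs1 (w : T.CC j (Fin (r + 1)) → ℤ) : T.CC j (Fin 1) → ℤ :=
  Sum.elim (fun c => w (.inl c)) fun cx => w (.inr (cx.1, 0))

theorem rs1_fZ (W : (T.rc j s z).CC j (Fin r) → ℤ) :
    rs1 T j (fZ T j s z W) = T.rcw j z fun u => W (.inl u) := by
  funext v; rcases v with c | cx <;> rfl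

def sw : (Ct.J T j → ℤ) × ((T.rc j s 0).CC j (Fin r) → ℤ) ≃
    (T.CC j (Fin (r + 1)) → ℤ) × (Ct.J T j → ℤ) where
  toFun x := (fZ T j s (Ct.ze T j x.1) x.2, fun c => x.2 (.inl (.inr c.1)))
  invFun x := (((Ct.sw T j).symm (rs1 T j x.1, x.2)).1,
    Sum.elim ((Ct.sw T j).symm (rs1 T j x.1, x.2)).2
      fun cx => x.1 (.inr ((eB T j s 0).symm cx.1, cx.2.succ)))
  left_inv x := by
    have e : (Ct.sw T j).symm (rs1 T j (fZ T j s (Ct.ze T j x.1) x.2),
        fun c => x.2 (.inl (.inr c.1))) = (x.1, fun u => x.2 (.inl u)) := by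
      rw [Equiv.symm_apply_eq, rs1_fZ]; rfl
    refine Prod.ext (congrArg Prod.fst e :) (funext ?_)
    rintro (u | ⟨c, y⟩)
    · exact congrFun (congrArg Prod.snd e) u
    · exact congrArg (fun c => x.2 (.inr (c, y))) ((eB T j s 0).apply_symm_apply c)
  right_inv x := by
    have e := (Ct.sw T j).apply_symm_apply (rs1 T j x.1, x.2)
    refine Prod.ext (funext ?_) (congrArg Prod.snd e :)
    rintro (c | ⟨c, y⟩)
    · exact congrFun (congrArg Prod.fst e) (.inl c)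
    · induction y using Fin.cases with
      | zero => exact congrFun (congrArg Prod.fst e) (.inr (c, 0))
      | succ y => rfl

variable {T}
theorem gk_rc (a : ℕ) (y : T.CR j → ℤ) (n : (T.rc j s z).Bl j → ℤ) :
    Bx.gk (T.rc j s z) j false a y n =
      Bx.gk T j false (s + a) (fun c => T.rcw j z y (.inl c)) fun c => n (eB T j s z c) := by
  unfold Bx.gk
  congr 2
  refine ((eB T j s z).sum_comp _).symm.trans (sum_congr rfl fun c _ => ?_)
  have : T.up j ((T.rc j s z).px j (fun _ : Unit => false) () (cf (Bx.mk _ j y fun _ => n))) =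
      T.px j (fun _ : Unit => false) () (cf (Bx.mk T j (fun c => T.rcw j z y (.inl c))
        fun _ c => n (eB T j s z c))) := by
    funext v
    rcases v with c | ℓ
    · by_cases k : j ∈ T.ty c <;> simp [px, up, k, eB, Bx.mk, rcw]
    · by_cases k : ℓ = j <;> simp [px, up, k]
  rw [← this, pow_add, mul_comm (2 ^ s : ℝ), mul_assoc]
  congr 2
  exact (T.rc_Φ_l j s z _ c.1).trans (by rw [if_pos c.2])

theorem wt_fZ (h : T.Ok) (a : Fin (r + 1) → ℕ) (m : ∀ x, a 0 ≤ a x)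
    (W : (T.rc j (a 0) z).CC j (Fin r) → ℤ) :
    Real.exp (-Real.pi * ∑ c : Ct.J T j, T.Φ (cf z) c.1.1 ^ 2) *
      ((T.rc j (a 0) z).ds j fun x => a x.succ - a 0).wt W = (T.ds j a).wt (fZ T j (a 0) z W) *
        Real.exp (-Real.pi * ∑ c : Ct.J T j, (W (.inl (.inr c.1)) : ℝ) ^ 2) := by
  have e0 : W = Bx.mk _ j (fun u => W (.inl u)) fun x c => W (.inr (c, x)) := by
    funext v; rcases v with c | c <;> rfl
  have e1 : (T.rcw j z fun u => W (.inl u)) = Bx.mk T j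
      (fun c => T.rcw j z (fun u => W (.inl u)) (.inl c)) fun _ c => W (.inl (.inl c.1)) := by
    funext v; rcases v with c | c <;> rfl
  have e2 := Ct.wt_sw h (a 0) z fun u => W (.inl u)
  rw [e1, Bx.wt_mk, Fin.prod_univ_one] at e2
  conv_lhs => rw [e0, Bx.wt_mk, ← mul_assoc, e2]
  rw [fZ, Bx.wt_mk, Fin.prod_univ_succ]
  simp only [gk_rc, Fin.cases_zero, Fin.cases_succ, Nat.add_sub_cancel' (m _)]
  ring

/-- one recentring -/
theorem step (hC : CLM) {n b : ℕ} {a : Fin (r + 1) → ℕ} {E : Set (T.CC j (Fin (r + 1)) → ℤ)}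
    {Bad : Set (C → ℤ)} (r8 : r ≤ 7) (m : ∀ x, a 0 ≤ a x) (cC : Fintype.card C ≤ 2 ^ n)
    (cL : Fintype.card L ≤ 2 ^ n) (ab : ∀ x, a x ≤ b) (nb : 4 * n + 40 ≤ b) (hG : Good b 9 L C T)
    (b1 : T.pr Bad ≤ (1 / 2) ^ b) (hH : (1 / 2 : ℝ) ^ n ≤ (T.ds j a).pr E) :
    ∃ z ∉ Bad, (1 / 2 : ℝ) ^ (n + 1) ≤
      ((T.rc j (a 0) z).ds j fun x => a x.succ - a 0).pr {W | fZ T j (a 0) z W ∈ E} := by
  obtain ⟨B, hB⟩ : ∃ B : Set (C → ℤ), ∀ z, z ∈ B ↔ ∀ z', (∀ c, T.ty c = {j} → z c = z' c) →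
    z' ∈ Bad := ⟨{z | _}, fun _ => Iff.rfl⟩
  have hc : (T.ds j a).Ok := hG.1.cl j _ _
  have ok : ∀ z, ((T.rc j (a 0) z).ds j fun x => a x.succ - a 0).Ok := fun z =>
    (hG.1.rc j _ z).cl j _ _
  have b0 : T.pr B ≤ T.pr Bad := hG.1.pr_mono fun z m => (hB z).1 m z fun _ _ => rfl
  have b2 := (abs_le.1 ((hC L C T n b (n + 3) j (r + 1) (fun _ => false) a B cC cL
    (by omega) ab (by omega) hG).1 0 fun x k => (k rfl).elim)).2
  by_contra c
  push Not at c
  have b3 := hc.pr_diff E {w | T.posZ j 1 0 w ∈ B}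
  have b4 : (T.ds j a).pr (E \ {w | T.posZ j 1 0 w ∈ B}) ≤ (1 / 2) ^ (n + 1) := by
    refine (div_le_iff₀ hc.Z_pos).2 (mixA (sw T j (a 0))
      (ν := fun x => Real.exp (-Real.pi * ∑ c, (x c : ℝ) ^ 2)) (fun _ => Real.exp_pos _)
      (fun _ => Real.exp_pos _) ?_ (fun _ => (wt_pos _).le) hc.summable
      (fun ζ W => wt_fZ j (Ct.ze T j ζ) hG.1 a m W) _ fun ζ => ?_)
    · convert Po.summable_gs (Matrix.PosDef.one (n := Ct.J T j) (R := ℝ)) 0 using 2 with x
      simp [Po.gs, Po.qf, Po.zc, dotProduct, sq]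
    change ∑' y, {y | fZ T j (a 0) (Ct.ze T j ζ) y ∈ _}.indicator _ y ≤ _
    generalize Ct.ze T j ζ = z
    by_cases k : z ∈ B
    · refine ((tsum_congr fun y => Set.indicator_of_notMem (fun m => m.2 ?_) _).trans
        tsum_zero).trans_le (mul_nonneg (by positivity) (tsum_nonneg fun _ => (wt_pos _).le))
      exact (hB _).2 fun z' e => (hB z).1 k z' fun c t => by
        rw [← e c t]; simp [posZ, fZ, Bx.mk, rcw, t]
    · simp only [hB, not_forall] at k
      obtain ⟨z', e, k⟩ := k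
      have e' : T.rcw j z = T.rcw j z' := by
        funext y v
        rcases v with c | c
        · by_cases t : T.ty c = {j} <;> simp [rcw, t, e c]
        · rfl
      have e1 : fZ (r := r) T j (a 0) z = fZ T j (a 0) z' := by
        funext W; unfold fZ; rw [e']; rfl
      have e2 : ((T.rc j (a 0) z).ds j fun x => a x.succ - a 0).wt =
          ((T.rc j (a 0) z').ds j fun x => a x.succ - a 0).wt := by
        funext W
        have h1 := wt_fZ j z hG.1 a m W
        have h2 := wt_fZ j z' hG.1 a m W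
        have h3 : ∑ c : Ct.J T j, T.Φ (cf z) c.1.1 ^ 2 = ∑ c : Ct.J T j, T.Φ (cf z') c.1.1 ^ 2 :=
          sum_congr rfl fun c _ => by
            refine congrArg (· ^ 2) ((hG.1.dat c.1.1 ⟨j, c.1.2⟩).1 _ _ fun v t n => ?_)
            rw [c.2] at t
            rcases v with c' | l
            · exact congrArg (Int.cast : ℤ → ℝ) (e c' (n.subset_singleton_iff.1 t))
            · rfl
        rw [e1, h3] at h1
        exact mul_left_cancel₀ (Real.exp_pos _).ne' (h1.trans h2.symm)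
      rw [e1, e2]
      exact (div_le_iff₀ (ok z').Z_pos).1 (((ok z').pr_mono (fun y m => m.1 :
        {y | fZ T j (a 0) z' y ∈ E \ {w | T.posZ j 1 0 w ∈ B}} ⊆
          {y | fZ T j (a 0) z' y ∈ E})).trans (c z' k).le)
  have b5 : (1 / 2 : ℝ) ^ b ≤ (1 / 2) ^ (n + 3) :=
    pow_le_pow_of_le_one (by norm_num) (by norm_num) (by omega)
  have b6 : (0 : ℝ) < (1 / 2) ^ n := by positivity
  rw [pow_add] at b2 b4 b5
  linarith

end Rl
end Crest.Agent.N49.Rm
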