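import Crest.Agent.N49.Rm.Gp
import Crest.Agent.N49.Rm.Ys
import Crest.Agent.N49.Rm.S2
/-! Row 49, block RMH (helper97): kit for step S5 (inclusion-exclusion at the centres). -/
set_option autoImplicit false
set_option linter.unusedSectionVars false
noncomputable section
namespace Crest.Agent.N49.Rm.S5k
open Finset Matrix Crest.Agent.N49.Iv.Il TT

variable {L C : Type} [Fintype L] [DecidableEq L] [Fintype C] [DecidableEq C] {T : TT L C}
  {A M J S P Z : Finset L} {j : L} {H H' : Set (C → ℤ)} {q n n' : ℕ} {B : ℝ} {y : C → ℤ}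

def sn (P U : Finset L) : ℤ := (-1) ^ (#P + #U)
/-- inclusion-exclusion part -/
def ie (g : Finset L → ℝ) (P : Finset L) : ℝ := ∑ U ∈ P.powerset, sn P U * g U

theorem ie_insert (g : Finset L → ℝ) (h : j ∉ P) :
    ie g (insert j P) = ie (fun U => g (insert j U) - g U) P := by
  simp only [ie, mul_sub, sum_sub_distrib]
  rw [sum_powerset_insert h, sub_eq_neg_add, ← sum_neg_distrib]
  congr 1
  · refine sum_congr rfl fun U _ => ?_
    rw [sn, sn, card_insert_of_notMem h, show #P + 1 + #U = #P + #U + 1 by ring, pow_succ]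
    simp
  · refine sum_congr rfl fun U hU => ?_
    rw [sn, sn, card_insert_of_notMem h, card_insert_of_notMem fun hj => h (mem_powerset.1 hU hj),
      show #P + 1 + (#U + 1) = #P + #U + 2 by ring, pow_add]
    norm_num

theorem sum_ie (S : Finset L) (g : Finset L → ℝ) : ∑ P ∈ S.powerset, ie g P = g S := by
  induction S using Finset.induction_on generalizing g with
  | empty => simp [ie, sn]
  | insert j S h ih =>
    rw [sum_powerset_insert h, ih, sum_congr rfl fun T hT =>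
      ie_insert g fun hj => h (mem_powerset.1 hT hj), ih]
    ring

theorem ys_empty (p : C ⊕ L → ℝ) : T.Ys ∅ p = p := by
  funext v; rcases v with c | ℓ <;> simp [Ys]
theorem yz_empty (y : C → ℤ) : T.Yz ∅ y = y := by funext c; simp [Yz]

theorem ty_ys {g : Fm L C} (h : T.Ty (A.erase j) g) (p) :
    g (T.Ys S p) = g (T.Ys (insert j S) p) := h _ _ fun v s _ => by
  have k : j ∉ T.tv v := fun m => by simpa using s m
  rcases v with c | ℓ
  · have : j ∉ T.ty c := k
    simp [Ys, disjoint_insert_right, this]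
  · have : ℓ ≠ j := fun e => k (by simp [tv, e])
    simp [Ys, this]

/-- the context: centred letters, mixed points -/
structure Cx (T : TT L C) (J M : Finset L) (H H' : Set (C → ℤ)) : Prop where
  ok : T.Ok
  ctr : T.Ctr J
  mix : ∀ y ∈ H', ∀ S ⊆ J, T.Yz S y ∈ H
  dis : Disjoint J M

/-- a form that is constant along the `j`-lines of `H` -/
def Co (T : TT L C) (A M : Finset L) (j : L) (H : Set (C → ℤ)) (q : ℕ) (B : ℝ) (Φ : Fm L C) :
    Prop := ∃ g, T.Dat (A.erase j) M g ∧ ∀ y ∈ H, T.Rel A M y q B fun p => Φ p - g p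

theorem Cx.ys (x : Cx T J M H H') {Φ : Fm L C} (l : ∀ ℓ ∈ M, T.Lin ℓ Φ)
    (h : ∀ y ∈ H, T.Rel A M y q B Φ) (hS : S ⊆ J) (hy : y ∈ H') :
    T.Rel A M y q B fun p => Φ (T.Ys S p) :=
  (Rel.ys x.ok x.ctr hS (x.dis.mono_left hS) l (h _ (x.mix y hy S hS))).monoA sdiff_subset

theorem Cx.cy (x : Cx T J M H H') {Φ : Fm L C} (l : ∀ ℓ ∈ M, T.Lin ℓ Φ) (h : Co T A M j H q B Φ)
    (hj : j ∈ J) (hS : S ⊆ J) (hy : y ∈ H') :
    T.Rel A M y q (B + B) fun p => Φ (T.Ys S p) - Φ (T.Ys (insert j S) p) := by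
  obtain ⟨g, d, h⟩ := h
  have l' : ∀ ℓ ∈ M, T.Lin ℓ fun p => Φ p - g p := fun ℓ m => (l ℓ m).sub (d.2 ℓ m)
  refine ((x.ys l' h hS hy).sub (x.ys l' h (insert_subset hj hS) hy)).congr fun p _ => ?_
  rw [ty_ys d.1]; ring

theorem Cx.walk (x : Cx T J M H H') {Φ : Fm L C} (l : ∀ ℓ ∈ M, T.Lin ℓ Φ) (hP : P ⊆ J)
    (h : ∀ j ∈ P, Co T A M j H q B Φ) (hy : y ∈ H') :
    T.Rel A M y q (#P * (B + B)) fun p => Φ p - Φ (T.Ys P p) := by
  induction P using Finset.induction_on with
  | empty => exact (Rel.zero (by simp)).congr fun p _ => by simp [ys_empty]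
  | insert j P k ih =>
    have h1 := ih ((subset_insert _ _).trans hP) fun j' m => h j' (mem_insert_of_mem m)
    have h2 := x.cy l (h j (mem_insert_self _ _)) (hP (mem_insert_self _ _))
      ((subset_insert _ _).trans hP) hy
    refine ((h1.add h2).mono (le_of_eq ?_)).congr fun p _ => by ring
    rw [card_insert_of_notMem k]; push_cast; ring

theorem abs_sn (P U : Finset L) : |(sn P U : ℝ)| = 1 := by simp [sn]

theorem Cx.ie (x : Cx T J M H H') {Φ : Fm L C} (l : ∀ ℓ ∈ M, T.Lin ℓ Φ) (hP : P ⊆ J) (hj : j ∈ P)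
    (h : Co T A M j H q B Φ) (hy : y ∈ H') :
    T.Rel A M y q (2 ^ #P * B) fun p => ie (fun U => Φ (T.Ys (J \ U) p)) P := by
  obtain ⟨P, k, rfl⟩ : ∃ P', j ∉ P' ∧ P = insert j P' :=
    ⟨P.erase j, notMem_erase _ _, (insert_erase hj).symm⟩
  have := Rel.sum (T := T) (A := A) (M := M) (y := y) (q := q) P.powerset (b := fun _ => B + B)
    (f := fun U p => sn P U * (Φ (T.Ys (J \ insert j U) p) - Φ (T.Ys (J \ U) p))) fun U hU => by
    have e : J \ U = insert j (J \ insert j U) := by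
      have : j ∉ U := fun m => k (mem_powerset.1 hU m)
      ext z; by_cases e : z = j <;> simp [e, this, hP hj]
    have := (x.cy l h (hP hj) (sdiff_subset (t := insert j U)) hy).zsmul (sn P U)
    rw [abs_sn, one_mul, ← e] at this
    exact this
  refine (this.mono (le_of_eq ?_)).congr fun p _ => by rw [ie_insert _ k]; rfl
  rw [sum_const, card_powerset, card_insert_of_notMem k]; simp; ring

/-! ### bracket forms -/
variable {D D' : Type} {G : D → Fm L C}

theorem tb_mono (h : Tb T Z M H n G) (e : H' ⊆ H) (a : n ≤ n') : Tb T Z M H' n' G := by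
  obtain ⟨N, _, _, W, Γ, h1, h2, h3, h4, h5⟩ := h
  exact ⟨N, _, ‹_›, W, Γ, h1.trans a, h2, fun y hy => h3 y (e hy), h4, h5⟩

theorem tb_lc {E : Type} [Fintype E] {G : E → Fm L C} (h : Tb T Z M H n G) (K : Matrix D E ℤ) :
    Tb T Z M H n fun d p => ∑ z, (K d z : ℝ) * G z p := by
  obtain ⟨N, _, _, W, Γ, h1, h2, h3, h4, h5⟩ := h
  exact ⟨N, _, ‹_›, W, fun d p => ∑ z, (K d z : ℝ) * Γ z p, h1, h2, h3,
    fun d => Dat.sum _ fun z _ => (h4 z).smul _, fun d p => by simp only [h5]⟩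

theorem tb_zero : Tb T Z M H 0 fun (_ : D) _ => 0 :=
  ⟨Empty, inferInstance, inferInstance, ⟨Empty.elim, Empty.elim, Empty.elim, fun n => n.elim⟩,
    fun _ _ => 0, by simp, fun n => n.elim, fun _ _ n => n.elim, fun _ => Dat.zero, fun _ _ => rfl⟩

theorem tb_sum (ha : TBA) {ι : Type} (s : Finset ι) (r : ι → ℝ) {G : ι → D → Fm L C}
    (h : ∀ x ∈ s, Tb T Z M H n (G x)) : Tb T Z M H (#s * n) fun d p => ∑ x ∈ s, r x * G x d p := by
  classical
  induction s using Finset.induction_on with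
  | empty => simpa using tb_zero
  | insert a s k ih =>
    have := ha L C T D Z M H _ _ _ _ (r a) 1 (h a (mem_insert_self _ _))
      (ih fun x m => h x (mem_insert_of_mem m))
    simpa [sum_insert k, card_insert_of_notMem k, add_mul, add_comm] using this

theorem tb_raise (hr : TBR) (h : Tb T S M H n G) (e : S ⊆ Z) (d : Disjoint Z M) :
    ∃ G' : D → Fm L C, Tb T Z M H n G' ∧ ∀ y d, ∀ p ∈ T.Fib M y, G' d p = G d p := by
  have : ∀ R : Finset L, R ⊆ Z \ S → ∃ G' : D → Fm L C, Tb T (R ∪ S) M H n G' ∧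
      ∀ y d, ∀ p ∈ T.Fib M y, G' d p = G d p := fun R => by
    induction R using Finset.induction_on with
    | empty => exact fun _ => ⟨G, by simpa using h, fun _ _ _ _ => rfl⟩
    | insert a R k ih =>
      intro s
      obtain ⟨G', h1, h2⟩ := ih ((subset_insert _ _).trans s)
      have m := mem_sdiff.1 (s (mem_insert_self _ _))
      have m' : a ∉ M := disjoint_left.1 d m.1
      refine ⟨_, insert_union a R S ▸ hr L C T D _ M a H n G' (by simp [k, m.2]) m' h1,
        fun y d p hp => ?_⟩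
      simp only [hp.2, if_neg m', one_mul, h2 y d p hp]
  simpa [union_eq_left.2 e] using this _ Subset.rfl

/-- one typed term: a bracket at the centres of `P` times a coefficient at the centres off `U` -/
theorem tb_term (h1 : TBY) (h2 : TBM) (h3 : TBR) {E : Type} [Fintype E] {i : L} {U : Finset L}
    {Ξ : D × E → Fm L C} {β : E → Fm L C} {c : E → ℝ} {H'' : Set (C → ℤ)} (d : Disjoint Z M)
    (hi : i ∈ Z) (hU : U ⊆ P) (hP : P ⊆ Z.erase i) (hE : Fintype.card E ≤ n)
    (mix : ∀ y ∈ H'', ∀ S ⊆ Z.erase i, T.Yz S y ∈ H) (ne : H''.Nonempty)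
    (hΞ : Tb T (Z.erase i) M H n Ξ) (hβ : Tb T (Z.erase i) {i} H n β)
    (hc : ∀ y ∈ H'', ∀ e, |β e (T.Ys P (cf y)) - c e - round (β e (T.Ys P (cf y)) - c e)| ≤ 1 / 10) :
    ∃ G : D → Fm L C, Tb T Z M H'' (3 * n) G ∧ ∀ y d, ∀ p ∈ T.Fib M y, G d p =
      ∑ e, round (β e (T.Ys P (cf y)) - c e) * Ξ (d, e) (T.Ys (Z.erase i \ U) p) := by
  have dz : Disjoint (Z.erase i) M := d.mono_left (erase_subset _ _)
  have a1 := h1 L C T _ _ M (Z.erase i \ U) H H'' n Ξ (dz.mono_left sdiff_subset) dz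
    (fun y hy => mix y hy _ sdiff_subset) ne hΞ
  have di : Disjoint (Z.erase i) {i} := by simp
  have a2 := h1 L C T _ _ {i} P H H'' n β (di.mono_left hP) di (fun y hy => mix y hy _ hP) ne hβ
  have s : insert i (Z.erase i \ (Z.erase i \ U) ∪ Z.erase i \ P) ⊆ Z :=
    insert_subset hi (union_subset (sdiff_subset.trans (erase_subset _ _))
      (sdiff_subset.trans (erase_subset _ _)))
  obtain ⟨G, g1, g2⟩ := h2 L C T D E _ _ M i H'' n n _ _ c (by
      rw [disjoint_left]; intro z m m'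
      simp only [mem_sdiff, not_and, not_not] at m m'
      exact m'.2 (hU (m.2 m.1))) (by simp) (by simp) (d.mono_left s) a1 a2 hc
  obtain ⟨G', g3, g4⟩ := tb_raise h3 g1 s d
  exact ⟨G', tb_mono g3 Set.Subset.rfl (by omega), fun y d p hp => by rw [g4 y d p hp, g2 y d p hp]⟩
end Crest.Agent.N49.Rm.S5k
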