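import Crest.Agent.N49.Rm.S5a
/-! Row 49, block RMH (helper97): step S5, the relations for one set of letters. -/
set_option autoImplicit false
set_option linter.unusedSectionVars false
noncomputable section
namespace Crest.Agent.N49.Rm.S5k
open Finset Matrix Crest.Agent.N49.Iv.Il TT

variable {L C : Type} [Fintype L] [DecidableEq L] [Fintype C] [DecidableEq C] {T : TT L C}
  {A M J S P Z : Finset L} {i j : L} {H H' : Set (C → ℤ)} {q n g : ℕ} {y : C → ℤ}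
  {E a R : Type} [Fintype E] [DecidableEq E] [Fintype a] [Fintype R]

theorem bil (K : Matrix a E ℤ) (F : a → Fm L C) (v : E → ℤ) (p : C ⊕ L → ℝ) :
    ∑ e, (v e : ℝ) * lc Kᵀ F e p = ∑ x, ((∑ e, K x e * v e : ℤ) : ℝ) * F x p := by
  simp only [lc, transpose_apply, mul_sum, Int.cast_sum, Int.cast_mul, sum_mul]
  rw [sum_comm]
  exact sum_congr rfl fun _ _ => sum_congr rfl fun _ _ => by ring

theorem fib_ty {F : Fm L C} (h : T.Ty Z F) (d : Disjoint Z M) {p} (hp : p ∈ T.Fib M y) :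
    F p = F (cf y) := h _ _ fun v s _ => by
  rcases v with c | ℓ
  · exact hp.1 c (d.mono_left s)
  · have : ℓ ∉ M := disjoint_left.1 d (s (by simp [tv]))
    simp [hp.2, this, cf]

theorem dat_mul {β t : Fm L C} (h : T.Dat Z {i} β) (k : T.Dat (Z.erase i ∪ M) M t)
    (d : Disjoint Z M) (hi : i ∈ Z) : T.Dat (Z ∪ M) (insert i M) fun p => β p * t p :=
  (h.mul k (by simpa using disjoint_left.1 d hi) d.symm).mono
    (union_subset subset_union_left (union_subset_union (erase_subset _ _) Subset.rfl))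
    (by simp)

theorem lt2 {k n : ℕ} (h : k ≤ n) : k ≤ 2 ^ n := h.trans Nat.lt_two_pow_self.le

/-- coefficient side: constant classes -/
theorem co_coef {Λ Ξ τ : E → Fm L C} {B : Matrix a E ℤ} {W V N : Matrix E E ℤ} {Q : Matrix E a ℤ}
    {m : ℕ} (hE : Fintype.card E ≤ n) (m1 : 1 ≤ m) (m2 : m ≤ 2 ^ n)
    (e : (m : ℤ) • (1 : Matrix E E ℤ) = W + Q * B) (hV : Bm n V) (hN : Bm g N) (e0 : B * V * N = 0)
    (dτ : ∀ z, T.Dat (A.erase j) M (τ z))
    (h1 : ∀ y ∈ H, T.VR A M y q n fun z p => lc Wᵀ Λ z p - τ z p)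
    (h2 : ∀ y ∈ H, T.VR A M y q n fun z p => lc Vᵀ Λ z p - Ξ z p) (z : E) :
    Co T A M j H (q * m) (2 ^ (4 * n + g + 1)) (lc Nᵀ Ξ z) := by
  refine ⟨fun p => lc (V * N)ᵀ τ z p / m, (Dat.lc dτ _ z).div _, fun y hy => ?_⟩
  have r1 := (h1 y hy).lc (bm_t (hV.mul hN (lt2 hE))) (lt2 hE)
  have r2 := ((h2 y hy).lc (bm_t hN) (lt2 hE)).nmul m2
  have := ((r1.mono (m := 4 * n + g) (by omega)).sub (r2.mono (by omega))).congr
    (G := fun z p => m * (lc Nᵀ Ξ z p - lc (V * N)ᵀ τ z p / m)) fun z p _ => by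
    have e1 : W * (V * N) = (m : ℤ) • (V * N) := by
      have := congrArg (· * (V * N)) e
      simp only [Matrix.add_mul, Matrix.smul_mul, Matrix.one_mul, Matrix.mul_assoc Q] at this
      rw [this, ← Matrix.mul_assoc B, e0]; simp
    have e2 : lc (V * N)ᵀ (lc Wᵀ Λ) z p = m * lc Nᵀ (lc Vᵀ Λ) z p := by
      rw [← lc_mul, ← lc_mul, ← transpose_mul, ← transpose_mul, e1, transpose_smul, lc_smul]
      simp
    have : (m : ℝ) ≠ 0 := by positivity
    rw [lc_sub', lc_sub']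
    erw [e2]
    field_simp
    ring
  exact this.of_nmul m1 z

/-- the part of type `P` -/
def pt (T : TT L C) (J P : Finset L) (Ξ : E → Fm L C) : E → Fm L C :=
  fun z p => ie (fun U => Ξ z (T.Ys (J \ U) p)) P

theorem pt_dat {Ξ : E → Fm L C} (h : ∀ z, T.Dat A M (Ξ z)) (d : Disjoint J M) (z : E) :
    T.Dat A M (pt T J P Ξ z) :=
  Dat.sum _ fun _ _ => (((h z).ys (d.mono_left sdiff_subset)).mono sdiff_subset Subset.rfl).smul _

theorem pt_lc (K : Matrix a E ℤ) (Ξ : E → Fm L C) (x : a) (p) :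
    ie (fun U => lc K Ξ x (T.Ys (J \ U) p)) P = lc K (pt T J P Ξ) x p := by
  simp only [ie, lc, pt, mul_sum]
  rw [sum_comm]
  exact sum_congr rfl fun _ _ => sum_congr rfl fun _ _ => by ring

theorem coef (x : Cx T J M H H') {Ξ : E → Fm L C} (dΞ : ∀ z, T.Dat A M (Ξ z)) (hP : P ⊆ J)
    (hE : Fintype.card E ≤ n) (hL : #P ≤ n) {N Cc : L → Matrix E E ℤ} {Gm : Matrix E E ℤ}
    {mm l : ℕ} (m1 : 1 ≤ mm) (hC : ∀ j ∈ P, Bm g (Cc j))
    (e : (mm : ℤ) • (1 : Matrix E E ℤ) = Gm + ∑ j ∈ P, N j * Cc j)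
    (h : ∀ j ∈ P, ∀ z, Co T A M j H q (2 ^ l) (lc (N j)ᵀ Ξ z)) (hy : y ∈ H') :
    T.VR A M y (q * mm) (3 * n + g + l) fun z p =>
      pt T J P Ξ z p - lc Gmᵀ (pt T J P Ξ) z p / mm := by
  have r : ∀ j ∈ P, T.VR A M y q (n + (g + (n + l))) (lc (Cc j)ᵀ (lc (N j)ᵀ (pt T J P Ξ))) :=
    fun j hj => VR.lc (F := lc (N j)ᵀ (pt T J P Ξ)) (fun z =>
      ((x.ie (Dat.lc dΞ _ z).2 hP hj (h j hj z) hy).mono (by
        rw [← pow_add]; exact two_pow_mono (by omega))).congr fun p _ => (pt_lc _ _ _ _).symm)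
      (bm_t (hC j hj)) (lt2 hE)
  refine VR.of_nmul (fun z => ((Rel.sum P fun j hj => r j hj z).mono ?_).congr fun p _ => ?_) m1
  · rw [sum_const, nsmul_eq_mul, show 3 * n + g + l = n + (n + (g + (n + l))) by ring,
      pow_add 2 n (n + (g + (n + l)))]
    exact mul_le_mul_of_nonneg_right (by exact_mod_cast lt2 hL) (by positivity)
  · have e1 := congrArg (fun K : Matrix E E ℤ => lc Kᵀ (pt T J P Ξ) z p) e
    simp only [transpose_smul, transpose_one, lc_smul, lc_one, transpose_add, lc_add] at e1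
    have e2 : lc (∑ j ∈ P, N j * Cc j)ᵀ (pt T J P Ξ) z p =
        ∑ j ∈ P, lc (Cc j)ᵀ (lc (N j)ᵀ (pt T J P Ξ)) z p := by
      simp only [← lc_mul, ← transpose_mul]
      simp only [lc, transpose_apply, Matrix.sum_apply, Int.cast_sum, sum_mul]
      exact sum_comm
    have : (mm : ℝ) ≠ 0 := by positivity
    beta_reduce
    rw [← e2, mul_sub, mul_div_cancel₀ _ this]
    push_cast at e1
    linarith

/-- bracket side -/
theorem brk (x : Cx T J M H H') {γ Γ : E → Fm L C} (dΓ : ∀ z, T.Dat A M (Γ z)) (hP : P ⊆ J)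
    (hE : Fintype.card E ≤ n) (ha : Fintype.card a ≤ n) (hR : Fintype.card R ≤ n) (hL : #P ≤ n)
    {B : L → Matrix a E ℤ} {U : Matrix R E ℤ} {a1 : L → Matrix E a ℤ} {b1 : L → Matrix E R ℤ}
    {Gm : Matrix E E ℤ} (hG : Bm g Gm)
    (h : ∀ j ∈ P, Bm g (a1 j) ∧ Bm g (b1 j) ∧ Gm = a1 j * B j + b1 j * U ∧
      T.Cst A M j H q n (lc (B j) γ))
    (hU : ∀ y ∈ H, T.VR A M y q n (lc U γ)) (hΓ : ∀ y ∈ H, T.VR A M y q n fun e p => γ e p - Γ e p)
    (hy : y ∈ H') :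
    T.VR A M y q (3 * n + g + 4) fun z p => lc Gm γ z p - lc Gm Γ z (T.Ys P p) := fun z => by
  have c : ∀ j ∈ P, Co T A M j H q (2 ^ (2 * n + g + 2)) (lc Gm Γ z) := fun j hj => by
    obtain ⟨h1, h2, h3, u, h4, h5⟩ := h j hj
    refine ⟨lc (a1 j) u z, Dat.lc h4 _ z, fun y hy => ?_⟩
    have := (((h5 y hy).lc h1 (lt2 ha)).add ((hU y hy).lc h2 (lt2 hR))).sub
      (((hΓ y hy).lc hG (lt2 hE)).mono (by omega))
    refine ((this.mono (by omega)) z).congr fun p _ => ?_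
    have e1 : lc Gm γ z p = lc (a1 j) (lc (B j) γ) z p + lc (b1 j) (lc U γ) z p := by
      rw [← lc_mul, ← lc_mul, ← lc_add, ← h3]
    rw [lc_sub', lc_sub']
    erw [e1]
    ring
  have w := x.walk (Dat.lc dΓ Gm z).2 hP c hy
  have hy' : y ∈ H := by simpa [yz_empty] using x.mix y hy ∅ (empty_subset _)
  have r := ((hΓ y hy').lc hG (lt2 hE)).mono (m := 3 * n + g + 3) (by omega) z
  refine ((r.add (w.mono (B' := 2 ^ (3 * n + g + 3)) ?_)).mono (le_of_eq (by ring))).congr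
    fun p _ => by rw [lc_sub']; ring
  calc (#P : ℝ) * (2 ^ (2 * n + g + 2) + 2 ^ (2 * n + g + 2)) ≤
      2 ^ n * (2 ^ (2 * n + g + 2) + 2 ^ (2 * n + g + 2)) :=
        mul_le_mul_of_nonneg_right (by exact_mod_cast lt2 hL) (by positivity)
    _ = _ := by ring

theorem near {γ : E → ℝ} {K : Matrix a E ℤ} (hK : Bm g K) (hE : Fintype.card E ≤ n)
    (h : ∀ e, |γ e - round (γ e)| ≤ 1 / 8) (x : a) :
    |((∑ e, K x e * round (γ e) : ℤ) : ℝ) - ∑ e, (K x e : ℝ) * γ e| ≤ 2 ^ (n + g) := by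
  push_cast
  rw [← sum_sub_distrib]
  refine (abs_sum_le_sum_abs _ _).trans ((sum_le_card_nsmul _ _ ((2 : ℝ) ^ g) fun e _ => ?_).trans ?_)
  · rw [← mul_sub, abs_mul, abs_sub_comm]
    have : |(K x e : ℝ)| ≤ 2 ^ g := by exact_mod_cast hK x e
    nlinarith [h e, abs_nonneg (K x e : ℝ), abs_nonneg (γ e - round (γ e))]
  · rw [nsmul_eq_mul, pow_add]
    exact mul_le_mul_of_nonneg_right (by exact_mod_cast lt2 hE) (by positivity)
end Crest.Agent.N49.Rm.S5k
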